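import Mathlib

/-!
# Row 189 (S0289), LEMMA A : local-to-global homomorphisms out of alternating groups

`altOn A` : the even permutations of `Ω` supported in the finset `A`.

* `closure_threeCycles_altOn` : it is generated by the 3-cycles supported in `A`;
* `altOn_hom_ext` : homomorphisms out of `altOn A` are determined by the values on 3-cycles;
* `exists_altOn_hom`, `exists_alt_hom` : a function `φ` on 3-cycles which extends to a homomorphism
  on `altOn A` for every `A` of cardinality at most `5` extends to `alternatingGroup Ω`.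
-/

set_option autoImplicit false

open Equiv Equiv.Perm Finset

namespace Crest.Agent.R189.AltPres

variable {Ω : Type*} [DecidableEq Ω] [Fintype Ω] {H : Type*} [Group H]

/-- Even permutations supported in `A`. -/
def altOn (A : Finset Ω) : Subgroup (Perm Ω) where
  carrier := {g | g ∈ alternatingGroup Ω ∧ g.support ⊆ A}
  one_mem' := ⟨one_mem _, by simp⟩
  mul_mem' := by
    rintro a b ⟨ha, ha'⟩ ⟨hb, hb'⟩
    exact ⟨mul_mem ha hb, (support_mul_le a b).trans (union_subset ha' hb')⟩
  inv_mem' := by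
    rintro a ⟨ha, ha'⟩
    exact ⟨inv_mem ha, by rw [support_inv]; exact ha'⟩

theorem mem_altOn {A : Finset Ω} {g : Perm Ω} :
    g ∈ altOn A ↔ g ∈ alternatingGroup Ω ∧ g.support ⊆ A := Iff.rfl

theorem altOn_mono {A B : Finset Ω} (h : A ⊆ B) : altOn A ≤ altOn B :=
  fun _ hg => ⟨hg.1, hg.2.trans h⟩

theorem threeCycle_mem {A : Finset Ω} {z : Perm Ω} (hz : z.IsThreeCycle) (h : z.support ⊆ A) :
    z ∈ altOn A := ⟨hz.mem_alternatingGroup, h⟩

theorem altOn_univ : altOn (univ : Finset Ω) = alternatingGroup Ω := by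
  ext g
  simp [mem_altOn]

/-- `altOn A` is generated by the 3-cycles supported in `A`. -/
theorem closure_threeCycles_altOn (A : Finset Ω) :
    Subgroup.closure {z : Perm Ω | z.IsThreeCycle ∧ z.support ⊆ A} = altOn A := by
  refine le_antisymm ((Subgroup.closure_le _).2 fun z hz => threeCycle_mem hz.1 hz.2) ?_
  intro g hg
  have h2 : ∀ x, g x ≠ x → x ∈ A := fun x hx => hg.2 (mem_support.2 hx)
  have h1 : ∀ x, g x ∈ A ↔ x ∈ A := by
    intro x
    by_cases hx : g x = x
    · rw [hx]
    · refine ⟨fun _ => h2 _ hx, fun _ => h2 _ fun h => hx (g.injective h)⟩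
  set g' : Perm {x // x ∈ A} := g.subtypePerm h1 with hg'
  have e1 : ofSubtype g' = g := ofSubtype_subtypePerm h1 h2
  have e2 : g' ∈ alternatingGroup {x // x ∈ A} := by
    rw [mem_alternatingGroup, ← sign_ofSubtype, e1]
    exact mem_alternatingGroup.1 hg.1
  rw [← closure_three_cycles_eq_alternating] at e2
  have e3 : ofSubtype g' ∈ (Subgroup.closure
      {σ : Perm {x // x ∈ A} | σ.IsThreeCycle}).map (ofSubtype (p := fun x => x ∈ A)) :=
    Subgroup.mem_map_of_mem _ e2
  rw [MonoidHom.map_closure, e1] at e3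
  refine Subgroup.closure_mono ?_ e3
  rintro _ ⟨σ, hσ, rfl⟩
  refine ⟨?_, ?_⟩
  · rw [IsThreeCycle, cycleType_ofSubtype]; exact hσ
  · intro x hx
    rw [mem_support] at hx
    by_contra hA
    exact hx (ofSubtype_apply_of_not_mem σ hA)

/-- A homomorphism out of `altOn A` is determined by its values on 3-cycles. -/
theorem altOn_hom_ext {A : Finset Ω} {f g : altOn A →* H}
    (h : ∀ (z : Perm Ω) (hz : z.IsThreeCycle) (hA : z.support ⊆ A),
      f ⟨z, threeCycle_mem hz hA⟩ = g ⟨z, threeCycle_mem hz hA⟩) : f = g := by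
  have key : ∀ x (hx : x ∈ altOn A), f ⟨x, hx⟩ = g ⟨x, hx⟩ := by
    intro x hx
    have hx' : x ∈ Subgroup.closure {z : Perm Ω | z.IsThreeCycle ∧ z.support ⊆ A} := by
      rw [closure_threeCycles_altOn]; exact hx
    have H : ∀ y (hy : y ∈ Subgroup.closure {z : Perm Ω | z.IsThreeCycle ∧ z.support ⊆ A}),
        f ⟨y, by rw [← closure_threeCycles_altOn]; exact hy⟩ =
          g ⟨y, by rw [← closure_threeCycles_altOn]; exact hy⟩ := by
      intro y hy
      induction hy using Subgroup.closure_induction with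
      | mem z hz => exact h z hz.1 hz.2
      | one => exact (map_one f).trans (map_one g).symm
      | mul a b ha hb iha ihb =>
        have ha' : a ∈ altOn A := by rw [← closure_threeCycles_altOn]; exact ha
        have hb' : b ∈ altOn A := by rw [← closure_threeCycles_altOn]; exact hb
        exact (map_mul f ⟨a, ha'⟩ ⟨b, hb'⟩).trans
          ((congrArg₂ (· * ·) iha ihb).trans (map_mul g ⟨a, ha'⟩ ⟨b, hb'⟩).symm)
      | inv a ha iha =>
        have ha' : a ∈ altOn A := by rw [← closure_threeCycles_altOn]; exact ha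
        exact (map_inv f ⟨a, ha'⟩).trans ((congrArg (·⁻¹) iha).trans (map_inv g ⟨a, ha'⟩).symm)
    exact H x hx'
  ext ⟨x, hx⟩
  exact key x hx

/-- `ψ` agrees with `φ` on the 3-cycles supported in `A`. -/
def Agrees (φ : Perm Ω → H) {A : Finset Ω} (ψ : altOn A →* H) : Prop :=
  ∀ (z : Perm Ω) (hz : z.IsThreeCycle) (hA : z.support ⊆ A), ψ ⟨z, threeCycle_mem hz hA⟩ = φ z

/-- restriction -/
def res {A B : Finset Ω} (h : A ⊆ B) (ψ : altOn B →* H) : altOn A →* H :=
  ψ.comp (Subgroup.inclusion (altOn_mono h))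

theorem res_apply {A B : Finset Ω} (h : A ⊆ B) (ψ : altOn B →* H) (x : Perm Ω) (hx : x ∈ altOn A) :
    res h ψ ⟨x, hx⟩ = ψ ⟨x, altOn_mono h hx⟩ := rfl

theorem Agrees.res {φ : Perm Ω → H} {A B : Finset Ω} (h : A ⊆ B) {ψ : altOn B →* H}
    (hψ : Agrees φ ψ) : Agrees φ (AltPres.res h ψ) := fun z hz hA => hψ z hz (hA.trans h)

/-- Two agreeing homomorphisms coincide on the common part. -/
theorem Agrees.eq {φ : Perm Ω → H} {A B : Finset Ω} {ψ : altOn A →* H} {θ : altOn B →* H}
    (hψ : Agrees φ ψ) (hθ : Agrees φ θ) {x : Perm Ω} (hA : x ∈ altOn A) (hB : x ∈ altOn B) :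
    ψ ⟨x, hA⟩ = θ ⟨x, hB⟩ := by
  have hC : x ∈ altOn (A ∩ B) := ⟨hA.1, subset_inter hA.2 hB.2⟩
  have h1 : AltPres.res (inter_subset_left : A ∩ B ⊆ A) ψ =
      AltPres.res (inter_subset_right : A ∩ B ⊆ B) θ :=
    altOn_hom_ext fun z hz h => (hψ.res inter_subset_left z hz h).trans
      (hθ.res inter_subset_right z hz h).symm
  exact congrArg (fun f : altOn (A ∩ B) →* H => f ⟨x, hC⟩) h1

/-- `φ` with the value `1` at `1`. -/
def phi1 (φ : Perm Ω → H) (t : Perm Ω) : H := if t = 1 then 1 else φ t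

theorem Agrees.phi1 {φ : Perm Ω → H} {A : Finset Ω} {ψ : altOn A →* H} (hψ : Agrees φ ψ)
    {t : Perm Ω} (ht : t = 1 ∨ t.IsThreeCycle) (hA : t ∈ altOn A) :
    ψ ⟨t, hA⟩ = AltPres.phi1 φ t := by
  unfold AltPres.phi1
  by_cases h : t = 1
  · subst h
    rw [if_pos rfl]
    exact map_one ψ
  · rw [if_neg h]
    exact hψ t (ht.resolve_left h) hA.2

theorem mem_alt_of {t : Perm Ω} (ht : t = 1 ∨ t.IsThreeCycle) : t ∈ alternatingGroup Ω := by
  rcases ht with rfl | h
  · exact one_mem _
  · exact h.mem_alternatingGroup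

/-- **Local computation.** -/
theorem local_comp {φ : Perm Ω → H} {A : Finset Ω}
    (hloc : ∀ B : Finset Ω, B.card ≤ 5 → ∃ θ : altOn B →* H, Agrees φ θ)
    {ψ : altOn A →* H} (hψ : Agrees φ ψ) {t t' z : Perm Ω}
    (ht : t = 1 ∨ t.IsThreeCycle) (ht' : t' = 1 ∨ t'.IsThreeCycle) (hz : z = 1 ∨ z.IsThreeCycle)
    (hc : (t.support ∪ t'.support ∪ z.support).card ≤ 5)
    (hk : t'⁻¹ * z * t ∈ altOn A) :
    phi1 φ t' * ψ ⟨t'⁻¹ * z * t, hk⟩ = phi1 φ z * phi1 φ t := by
  obtain ⟨θ, hθ⟩ := hloc _ hc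
  set B := t.support ∪ t'.support ∪ z.support with hB
  have mt : t ∈ altOn B := ⟨mem_alt_of ht, by rw [hB]; intro x hx; simp [hx]⟩
  have mt' : t' ∈ altOn B := ⟨mem_alt_of ht', by rw [hB]; intro x hx; simp [hx]⟩
  have mz : z ∈ altOn B := ⟨mem_alt_of hz, by rw [hB]; intro x hx; simp [hx]⟩
  have mk : t'⁻¹ * z * t ∈ altOn B := mul_mem (mul_mem (inv_mem mt') mz) mt
  rw [hψ.eq hθ hk mk, ← hθ.phi1 ht' mt', ← hθ.phi1 hz mz, ← hθ.phi1 ht mt, ← map_mul, ← map_mul]
  congr 1
  apply Subtype.ext
  change t' * (t'⁻¹ * z * t) = z * t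
  group

/-- the 3-cycle `p → q → r → p` -/
def cyc (p q r : Ω) : Perm Ω := swap p r * swap p q

theorem cyc_isThreeCycle {p q r : Ω} (hpq : p ≠ q) (hpr : p ≠ r) (hqr : q ≠ r) :
    (cyc p q r).IsThreeCycle :=
  isThreeCycle_swap_mul_swap_same hpr hpq hqr.symm

theorem cyc_apply {p q r : Ω} (hpq : p ≠ q) (hqr : q ≠ r) : cyc p q r p = q := by
  unfold cyc
  rw [Perm.mul_apply, swap_apply_left, swap_apply_of_ne_of_ne hpq.symm hqr]

theorem support_cyc {p q r : Ω} : (cyc p q r).support ⊆ {p, q, r} := by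
  refine (support_mul_le _ _).trans (union_subset ?_ ?_)
  · by_cases h : p = r
    · subst h; simp
    · rw [support_swap h]
      intro x hx
      simp only [mem_insert, mem_singleton] at hx ⊢
      tauto
  · by_cases h : p = q
    · subst h; simp
    · rw [support_swap h]
      intro x hx
      simp only [mem_insert, mem_singleton] at hx ⊢
      tauto

/-- admissible representatives -/
structure Adm (p : Ω) (A' : Finset Ω) (g t : Perm Ω) : Prop where
  cls : t = 1 ∨ (t.IsThreeCycle ∧ t p ≠ p)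
  supp : t.support ⊆ A'
  eq : t p = g p

theorem Adm.cls' {p : Ω} {A' : Finset Ω} {g t : Perm Ω} (h : Adm p A' g t) :
    t = 1 ∨ t.IsThreeCycle := h.cls.imp id And.left

theorem Adm.mem {p : Ω} {A : Finset Ω} {g t : Perm Ω} (h : Adm p (insert p A) g t)
    (hg : g ∈ altOn (insert p A)) : t⁻¹ * g ∈ altOn A := by
  have h1 : t⁻¹ * g ∈ altOn (insert p A) := mul_mem (inv_mem ⟨mem_alt_of h.cls', h.supp⟩) hg
  refine ⟨h1.1, fun x hx => ?_⟩
  have h2 := h1.2 hx
  rcases mem_insert.1 h2 with rfl | h3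
  · rw [mem_support, Perm.mul_apply, ← h.eq] at hx
    simp at hx
  · exact h3

theorem Adm.exists {p : Ω} {A : Finset Ω} (hA : 2 ≤ A.card) (hp : p ∉ A) {g : Perm Ω}
    (hg : g ∈ altOn (insert p A)) : ∃ t, Adm p (insert p A) g t := by
  by_cases hgp : g p = p
  · exact ⟨1, Or.inl rfl, by simp, by simp [hgp]⟩
  · have hq : g p ∈ insert p A := by
      refine hg.2 (mem_support.2 fun h => hgp (g.injective h))
    have hqA : g p ∈ A := (mem_insert.1 hq).resolve_left hgp
    obtain ⟨r, hr, hrq⟩ := Finset.exists_mem_ne (s := A) (by omega) (g p)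
    have hpr : p ≠ r := fun h => hp (h ▸ hr)
    refine ⟨cyc p (g p) r, Or.inr ⟨cyc_isThreeCycle (Ne.symm hgp) hpr hrq.symm, ?_⟩, ?_,
      cyc_apply (Ne.symm hgp) hrq.symm⟩
    · rw [cyc_apply (Ne.symm hgp) hrq.symm]; exact hgp
    · refine support_cyc.trans fun x hx => ?_
      simp only [mem_insert, mem_singleton] at hx ⊢
      rcases hx with h | h | h
      · exact Or.inl h
      · exact Or.inr (h ▸ hqA)
      · exact Or.inr (h ▸ hr)

/-- value with respect to a representative -/
theorem Adm.unique {φ : Perm Ω → H} {A : Finset Ω} {p : Ω}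
    (hloc : ∀ B : Finset Ω, B.card ≤ 5 → ∃ θ : altOn B →* H, Agrees φ θ)
    {ψ : altOn A →* H} (hψ : Agrees φ ψ) {g t t' : Perm Ω} (hg : g ∈ altOn (insert p A))
    (ht : Adm p (insert p A) g t) (ht' : Adm p (insert p A) g t') :
    phi1 φ t * ψ ⟨t⁻¹ * g, ht.mem hg⟩ = phi1 φ t' * ψ ⟨t'⁻¹ * g, ht'.mem hg⟩ := by
  have hc : (t.support ∪ t'.support ∪ (1 : Perm Ω).support).card ≤ 5 := by
    rw [support_one, union_empty]
    rcases ht.cls with h1 | ⟨h1, h1'⟩
    · have h2 : g p = p := by rw [← ht.eq, h1]; rfl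
      rcases ht'.cls with h3 | ⟨_, h3'⟩
      · rw [h1, h3]; simp
      · exact absurd (ht'.eq.trans h2) h3'
    · rcases ht'.cls with h3 | ⟨h3, h3'⟩
      · have h2 : g p = p := by rw [← ht'.eq, h3]; rfl
        exact absurd (ht.eq.trans h2) h1'
      · have h4 := card_union_add_card_inter t.support t'.support
        rw [h1.card_support, h3.card_support] at h4
        have h5 : ({p, g p} : Finset Ω) ⊆ t.support ∩ t'.support := by
          intro x hx
          simp only [mem_insert, mem_singleton] at hx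
          rw [mem_inter]
          rcases hx with rfl | rfl
          · exact ⟨mem_support.2 h1', mem_support.2 h3'⟩
          · refine ⟨?_, ?_⟩
            · rw [← ht.eq, mem_support]; exact fun h => h1' (t.injective h)
            · rw [← ht'.eq, mem_support]; exact fun h => h3' (t'.injective h)
        have h6 := card_le_card h5
        have h7 : p ≠ g p := by rw [← ht.eq]; exact Ne.symm h1'
        rw [card_pair h7] at h6
        omega
  have hk : t'⁻¹ * 1 * t ∈ altOn A := by
    have h1 : t'⁻¹ * 1 * t = (t'⁻¹ * g) * (t⁻¹ * g)⁻¹ := by group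
    rw [h1]
    exact mul_mem (ht'.mem hg) (inv_mem (ht.mem hg))
  have h1 := local_comp hloc hψ ht.cls' ht'.cls' (Or.inl rfl) hc hk
  have h2 : phi1 φ (1 : Perm Ω) = 1 := if_pos rfl
  rw [h2, one_mul] at h1
  rw [← h1, mul_assoc, ← map_mul]
  congr 2
  apply Subtype.ext
  change t'⁻¹ * 1 * t * (t⁻¹ * g) = t'⁻¹ * g
  group

/-- Choice of good representatives. -/
theorem Adm.exists_pair {p : Ω} {A : Finset Ω} {g z : Perm Ω}
    (hg : g ∈ altOn (insert p A)) (hz : z.IsThreeCycle) (hzA : z.support ⊆ insert p A) :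
    ∃ t t', Adm p (insert p A) g t ∧ Adm p (insert p A) (z * g) t' ∧
      (t.support ∪ t'.support ∪ z.support).card ≤ 5 := by
  have hc3 := hz.card_support
  by_cases h1 : g p = p
  · by_cases h2 : z p = p
    · refine ⟨1, 1, ⟨Or.inl rfl, by simp, by simp [h1]⟩, ⟨Or.inl rfl, by simp, ?_⟩, ?_⟩
      · rw [Perm.mul_apply, h1, h2]; rfl
      · simp [hc3]
    · refine ⟨1, z, ⟨Or.inl rfl, by simp, by simp [h1]⟩, ⟨Or.inr ⟨hz, h2⟩, hzA, ?_⟩, ?_⟩
      · rw [Perm.mul_apply, h1]
      · simp [hc3]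
  · have hq : g p ∈ insert p A := hg.2 (mem_support.2 fun h => h1 (g.injective h))
    by_cases h2 : z (g p) = p
    · have h3 : z⁻¹ p = g p := by rw [Perm.inv_eq_iff_eq]; exact h2.symm
      refine ⟨z⁻¹, 1, ⟨Or.inr ⟨hz.inv, ?_⟩, by rw [support_inv]; exact hzA, h3⟩,
        ⟨Or.inl rfl, by simp, ?_⟩, ?_⟩
      · rw [h3]; exact h1
      · rw [Perm.mul_apply, h2]; rfl
      · rw [support_inv]; simp [hc3]
    · by_cases h4 : z (g p) = g p
      · -- `g p` is fixed by `z`
        obtain ⟨r, hr, hrp⟩ := Finset.exists_mem_ne (s := z.support) (by omega) p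
        have hrq : g p ≠ r := fun h => by
          rw [← h, mem_support] at hr; exact hr h4
        have hst : (cyc p (g p) r).support ⊆ insert p A := by
          refine support_cyc.trans fun x hx => ?_
          simp only [mem_insert, mem_singleton] at hx
          rcases hx with h | h | h
          · exact h ▸ mem_insert_self _ _
          · exact h ▸ hq
          · exact h ▸ hzA hr
        have hap := cyc_apply (Ne.symm h1) hrq
        refine ⟨cyc p (g p) r, cyc p (g p) r,
          ⟨Or.inr ⟨cyc_isThreeCycle (Ne.symm h1) hrp.symm hrq, by rw [hap]; exact h1⟩, hst, hap⟩,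
          ⟨Or.inr ⟨cyc_isThreeCycle (Ne.symm h1) hrp.symm hrq, by rw [hap]; exact h1⟩, hst, ?_⟩, ?_⟩
        · rw [hap, Perm.mul_apply, h4]
        · rw [union_self]
          have h5 : (cyc p (g p) r).support ∪ z.support ⊆ {p, g p} ∪ z.support := by
            refine union_subset (support_cyc.trans fun x hx => ?_) subset_union_right
            simp only [mem_insert, mem_singleton, mem_union] at hx ⊢
            rcases hx with h | h | h
            · exact Or.inl (Or.inl h)
            · exact Or.inl (Or.inr h)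
            · exact Or.inr (h ▸ hr)
          refine (card_le_card h5).trans ((card_union_le _ _).trans ?_)
          have h6 : ({p, g p} : Finset Ω).card ≤ 2 := card_le_two
          omega
      · -- `g p` and `z (g p)` are both in the support
        have hq1 : g p ∈ z.support := mem_support.2 h4
        have hq2 : z (g p) ∈ z.support := mem_support.2 fun h => h4 (z.injective h)
        have e1 : g p ≠ z (g p) := Ne.symm h4
        have ha1 := cyc_apply (r := z (g p)) (Ne.symm h1) e1
        have ha2 := cyc_apply (r := g p) (Ne.symm h2) h4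
        have hst1 : (cyc p (g p) (z (g p))).support ⊆ insert p z.support := by
          refine support_cyc.trans fun x hx => ?_
          simp only [mem_insert, mem_singleton] at hx ⊢
          rcases hx with h | h | h
          · exact Or.inl h
          · exact Or.inr (h ▸ hq1)
          · exact Or.inr (h ▸ hq2)
        have hst2 : (cyc p (z (g p)) (g p)).support ⊆ insert p z.support := by
          refine support_cyc.trans fun x hx => ?_
          simp only [mem_insert, mem_singleton] at hx ⊢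
          rcases hx with h | h | h
          · exact Or.inl h
          · exact Or.inr (h ▸ hq2)
          · exact Or.inr (h ▸ hq1)
        have hins : insert p z.support ⊆ insert p A :=
          insert_subset (mem_insert_self _ _) hzA
        refine ⟨cyc p (g p) (z (g p)), cyc p (z (g p)) (g p),
          ⟨Or.inr ⟨cyc_isThreeCycle (Ne.symm h1) (Ne.symm h2) e1, by rw [ha1]; exact h1⟩,
            hst1.trans hins, ha1⟩,
          ⟨Or.inr ⟨cyc_isThreeCycle (Ne.symm h2) (Ne.symm h1) h4, by rw [ha2]; exact h2⟩,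
            hst2.trans hins, ?_⟩, ?_⟩
        · rw [ha2, Perm.mul_apply]
        · have h5 : (cyc p (g p) (z (g p))).support ∪ (cyc p (z (g p)) (g p)).support ∪ z.support ⊆
              insert p z.support :=
            union_subset (union_subset hst1 hst2) (subset_insert _ _)
          have h6 := card_insert_le p z.support
          exact (card_le_card h5).trans (by omega)

/-- The extension step. -/
theorem extend {φ : Perm Ω → H} {A : Finset Ω} {p : Ω} (hp : p ∉ A) (hA : 2 ≤ A.card)
    (hloc : ∀ B : Finset Ω, B.card ≤ 5 → ∃ θ : altOn B →* H, Agrees φ θ)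
    {ψ : altOn A →* H} (hψ : Agrees φ ψ) : ∃ ψ' : altOn (insert p A) →* H, Agrees φ ψ' := by
  classical
  choose! T hT using fun g (hg : g ∈ altOn (insert p A)) => Adm.exists hA hp hg
  -- the value
  obtain ⟨val, hval⟩ : ∃ val : altOn (insert p A) → H,
      ∀ (g : altOn (insert p A)) (t : Perm Ω) (ht : Adm p (insert p A) g.1 t),
        val g = phi1 φ t * ψ ⟨t⁻¹ * g.1, ht.mem g.2⟩ :=
    ⟨fun g => phi1 φ (T g.1) * ψ ⟨(T g.1)⁻¹ * g.1, (hT g.1 g.2).mem g.2⟩,
      fun g t ht => Adm.unique hloc hψ g.2 (hT g.1 g.2) ht⟩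
  have hφ1 : phi1 φ (1 : Perm Ω) = 1 := if_pos rfl
  have hone : val 1 = 1 := by
    rw [hval 1 1 ⟨Or.inl rfl, by simp, rfl⟩, hφ1, one_mul]
    have : (⟨(1 : Perm Ω)⁻¹ * (1 : altOn (insert p A)).1, by simp⟩ : altOn A) = 1 := by
      apply Subtype.ext; simp
    exact (congrArg ψ this).trans (map_one ψ)
  -- multiplication by a 3-cycle on the left
  have hcyc : ∀ (z : Perm Ω) (hz : z.IsThreeCycle) (hzA : z.support ⊆ insert p A)
      (g : altOn (insert p A)), val (⟨z, threeCycle_mem hz hzA⟩ * g) = φ z * val g := by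
    intro z hz hzA g
    obtain ⟨t, t', ht, ht', hc⟩ := Adm.exists_pair g.2 hz hzA
    have hm : z * g.1 ∈ altOn (insert p A) := mul_mem (threeCycle_mem hz hzA) g.2
    have h1 : val (⟨z, threeCycle_mem hz hzA⟩ * g) =
        phi1 φ t' * ψ ⟨t'⁻¹ * (z * g.1), ht'.mem hm⟩ :=
      hval (⟨z, threeCycle_mem hz hzA⟩ * g) t' ht'
    have hk : t'⁻¹ * z * t ∈ altOn A := by
      have h2 : t'⁻¹ * z * t = (t'⁻¹ * (z * g.1)) * (t⁻¹ * g.1)⁻¹ := by group
      rw [h2]
      exact mul_mem (ht'.mem hm) (inv_mem (ht.mem g.2))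
    have h3 := local_comp hloc hψ ht.cls' ht'.cls' (Or.inr hz) hc hk
    have hz1 : phi1 φ z = φ z := if_neg (fun h => by
      have := hz.card_support
      rw [h, support_one] at this
      simp at this)
    have h4 : ψ ⟨t'⁻¹ * (z * g.1), ht'.mem hm⟩ =
        ψ ⟨t'⁻¹ * z * t, hk⟩ * ψ ⟨t⁻¹ * g.1, ht.mem g.2⟩ := by
      rw [← map_mul]
      congr 1
      apply Subtype.ext
      change t'⁻¹ * (z * g.1) = t'⁻¹ * z * t * (t⁻¹ * g.1)
      group
    calc val (⟨z, threeCycle_mem hz hzA⟩ * g)
        = phi1 φ t' * (ψ ⟨t'⁻¹ * z * t, hk⟩ * ψ ⟨t⁻¹ * g.1, ht.mem g.2⟩) := by rw [h1, h4]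
      _ = (phi1 φ t' * ψ ⟨t'⁻¹ * z * t, hk⟩) * ψ ⟨t⁻¹ * g.1, ht.mem g.2⟩ :=
          (mul_assoc _ _ _).symm
      _ = φ z * (phi1 φ t * ψ ⟨t⁻¹ * g.1, ht.mem g.2⟩) := by rw [h3, hz1, mul_assoc]
      _ = φ z * val g := by rw [hval g t ht]
  -- multiplicativity
  have hmul : ∀ x (hx : x ∈ altOn (insert p A)) (g : altOn (insert p A)),
      val (⟨x, hx⟩ * g) = val ⟨x, hx⟩ * val g := by
    have H : ∀ x (hx : x ∈ Subgroup.closure {z : Perm Ω | z.IsThreeCycle ∧ z.support ⊆ insert p A})
        (hx' : x ∈ altOn (insert p A)) (g : altOn (insert p A)),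
        val (⟨x, hx'⟩ * g) = val ⟨x, hx'⟩ * val g := by
      intro x hx
      induction hx using Subgroup.closure_induction with
      | mem z hz =>
        intro hx' g
        have h1 := hcyc z hz.1 hz.2 1
        rw [mul_one, hone, mul_one] at h1
        exact (hcyc z hz.1 hz.2 g).trans (by rw [← h1])
      | one =>
        intro hx' g
        have h1 : (⟨1, hx'⟩ : altOn (insert p A)) = 1 := rfl
        rw [h1, one_mul, hone, one_mul]
      | mul a b ha hb iha ihb =>
        intro hx' g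
        have ha' : a ∈ altOn (insert p A) := by rw [← closure_threeCycles_altOn]; exact ha
        have hb' : b ∈ altOn (insert p A) := by rw [← closure_threeCycles_altOn]; exact hb
        have h1 : (⟨a * b, hx'⟩ : altOn (insert p A)) = ⟨a, ha'⟩ * ⟨b, hb'⟩ := rfl
        rw [h1, mul_assoc, iha ha', ihb hb', iha ha', mul_assoc]
      | inv a ha iha =>
        intro hx' g
        have ha' : a ∈ altOn (insert p A) := by rw [← closure_threeCycles_altOn]; exact ha
        have h1 : (⟨a⁻¹, hx'⟩ : altOn (insert p A)) = ⟨a, ha'⟩⁻¹ := rfl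
        rw [h1]
        have h2 := iha ha' (⟨a, ha'⟩⁻¹ * g)
        rw [mul_inv_cancel_left] at h2
        have h3 := iha ha' (⟨a, ha'⟩⁻¹)
        rw [mul_inv_cancel, hone] at h3
        have h4 : val (⟨a, ha'⟩⁻¹) = (val ⟨a, ha'⟩)⁻¹ := by
          rw [eq_inv_iff_mul_eq_one]
          have := congrArg (fun y => (val ⟨a, ha'⟩)⁻¹ * y * val ⟨a, ha'⟩) h3
          simp only [mul_one, inv_mul_cancel, inv_mul_cancel_left] at this
          exact this.symm
        rw [h4, h2, inv_mul_cancel_left]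
    intro x hx g
    exact H x (by rw [closure_threeCycles_altOn]; exact hx) hx g
  refine ⟨{ toFun := val, map_one' := hone, map_mul' := fun x y => hmul x.1 x.2 y }, ?_⟩
  intro z hz hzA
  have h1 := hcyc z hz hzA 1
  rw [mul_one, hone, mul_one] at h1
  exact h1

/-- **LEMMA A**, for the even permutations supported in a finset. -/
theorem exists_altOn_hom {φ : Perm Ω → H}
    (hloc : ∀ B : Finset Ω, B.card ≤ 5 → ∃ θ : altOn B →* H, Agrees φ θ) (A : Finset Ω) :
    ∃ θ : altOn A →* H, Agrees φ θ := by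
  induction A using Finset.induction_on with
  | empty => exact hloc ∅ (by simp)
  | insert p A hp ih =>
    by_cases h : (insert p A).card ≤ 5
    · exact hloc _ h
    · obtain ⟨ψ, hψ⟩ := ih
      rw [card_insert_of_notMem hp] at h
      exact extend hp (by omega) hloc hψ

/-- **LEMMA A.** A function on 3-cycles which extends to a homomorphism on the even permutations
supported in any set of cardinality at most `5` extends to the alternating group. -/
theorem exists_alt_hom {φ : Perm Ω → H}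
    (hloc : ∀ B : Finset Ω, B.card ≤ 5 → ∃ θ : altOn B →* H, Agrees φ θ) :
    ∃ θ : alternatingGroup Ω →* H, ∀ (z : Perm Ω) (hz : z.IsThreeCycle),
      θ ⟨z, hz.mem_alternatingGroup⟩ = φ z := by
  obtain ⟨ψ, hψ⟩ := exists_altOn_hom hloc univ
  refine ⟨ψ.comp (Subgroup.inclusion (le_of_eq altOn_univ.symm)), fun z hz => ?_⟩
  exact hψ z hz (subset_univ _)

/-- Version with sets of cardinality exactly `5`. -/
theorem exists_alt_hom' (h5 : 5 ≤ Fintype.card Ω) {φ : Perm Ω → H}
    (hloc : ∀ B : Finset Ω, B.card = 5 → ∃ θ : altOn B →* H, Agrees φ θ) :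
    ∃ θ : alternatingGroup Ω →* H, ∀ (z : Perm Ω) (hz : z.IsThreeCycle),
      θ ⟨z, hz.mem_alternatingGroup⟩ = φ z := by
  refine exists_alt_hom fun B hB => ?_
  obtain ⟨B', hBB', hB'⟩ := exists_superset_card_eq hB (by rwa [← card_univ] at h5)
  obtain ⟨θ, hθ⟩ := hloc B' hB'
  exact ⟨res hBB' θ, hθ.res hBB'⟩

/-- Homomorphisms out of the alternating group are determined by the 3-cycles. -/
theorem alt_hom_ext {f g : alternatingGroup Ω →* H}
    (h : ∀ (z : Perm Ω) (hz : z.IsThreeCycle),
      f ⟨z, hz.mem_alternatingGroup⟩ = g ⟨z, hz.mem_alternatingGroup⟩) : f = g := by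
  have h1 : f.comp (Subgroup.inclusion (le_of_eq altOn_univ)) =
      g.comp (Subgroup.inclusion (le_of_eq altOn_univ)) :=
    altOn_hom_ext fun z hz _ => h z hz
  ext ⟨x, hx⟩
  have hx' : x ∈ altOn (univ : Finset Ω) := by rw [altOn_univ]; exact hx
  exact congrArg (fun k : altOn (univ : Finset Ω) →* H => k ⟨x, hx'⟩) h1

/-- Family version: compatible homomorphisms on the even permutations supported in the sets of
cardinality at most `5` glue to a homomorphism on the alternating group. -/
theorem exists_alt_hom_of_family (θ : ∀ B : Finset Ω, B.card ≤ 5 → (altOn B →* H))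
    (compat : ∀ (B B' : Finset Ω) (hB : B.card ≤ 5) (hB' : B'.card ≤ 5) (h : B ⊆ B')
      (x : Perm Ω) (hx : x ∈ altOn B), θ B hB ⟨x, hx⟩ = θ B' hB' ⟨x, altOn_mono h hx⟩) :
    ∃ ψ : alternatingGroup Ω →* H, ∀ (B : Finset Ω) (hB : B.card ≤ 5) (x : Perm Ω)
      (hx : x ∈ altOn B), ψ ⟨x, hx.1⟩ = θ B hB ⟨x, hx⟩ := by
  classical
  -- the value on a three-cycle is the value on its support
  let φ : Perm Ω → H := fun z =>
    if h : z ∈ alternatingGroup Ω ∧ z.support.card ≤ 5 then
      θ z.support h.2 ⟨z, h.1, subset_rfl⟩ else 1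
  have hag : ∀ (B : Finset Ω) (hB : B.card ≤ 5), Agrees φ (θ B hB) := by
    intro B hB z hz hA
    have h : z ∈ alternatingGroup Ω ∧ z.support.card ≤ 5 :=
      ⟨hz.mem_alternatingGroup, by rw [hz.card_support]; norm_num⟩
    change θ B hB ⟨z, _⟩ = if h : z ∈ alternatingGroup Ω ∧ z.support.card ≤ 5 then
      θ z.support h.2 ⟨z, h.1, subset_rfl⟩ else 1
    rw [dif_pos h]
    exact (compat z.support B h.2 hB hA z ⟨h.1, subset_rfl⟩).symm
  obtain ⟨ψ, hψ⟩ := exists_alt_hom fun B hB => ⟨θ B hB, hag B hB⟩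
  refine ⟨ψ, fun B hB x hx => ?_⟩
  have h1 : ψ.comp (Subgroup.inclusion (le_of_eq altOn_univ)) =
      ψ.comp (Subgroup.inclusion (le_of_eq altOn_univ)) := rfl
  have h2 : (ψ.comp (Subgroup.inclusion (show altOn B ≤ alternatingGroup Ω from fun _ h => h.1))) =
      θ B hB := altOn_hom_ext fun z hz hA => (hψ z hz).trans (hag B hB z hz hA).symm
  exact congrArg (fun k : altOn B →* H => k ⟨x, hx⟩) h2

/-- Uniqueness, family version. -/
theorem alt_hom_ext_of_family {f g : alternatingGroup Ω →* H}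
    (h : ∀ (B : Finset Ω), B.card ≤ 3 → ∀ (x : Perm Ω) (hx : x ∈ altOn B),
      f ⟨x, hx.1⟩ = g ⟨x, hx.1⟩) : f = g :=
  alt_hom_ext fun z hz => h z.support (by rw [hz.card_support]) z ⟨hz.mem_alternatingGroup, subset_rfl⟩

end Crest.Agent.R189.AltPres
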