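import Mathlib
import Crest.Agent.R189.Amen

/-!
# Row 189: LEMMA AM' (amenability from two actions), Reiter form.

`G` acts on `Ω` by `ρ0`, `ρ1`; `K D` is an amenable group of permutations supported in `D`.
The group acts on the pairs `(D, A)`, `A ⊆ Perm Ω`, by
`g (D, A) = (ρ0 g D, ρ1 g A (ρ0 g)⁻¹)`.
-/

set_option linter.unusedSectionVars false

namespace Crest.Agent.R189

open Equiv (Perm)

section amp
variable {G Ω : Type*} [Group G]

/-- pairs (set, set of permutations) -/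
def Pr (Ω : Type*) : Type _ := Set Ω × Set (Perm Ω)

/-- the twisted action on pairs -/
@[reducible] def prAct (ρ0 ρ1 : G →* Perm Ω) : MulAction G (Pr Ω) where
  smul g p := ((ρ0 g) '' p.1, (fun a => ρ1 g * a * (ρ0 g)⁻¹) '' p.2)
  one_smul := by
    rintro ⟨D, A⟩
    show ((ρ0 1) '' D, (fun a => ρ1 1 * a * (ρ0 1)⁻¹) '' A) = (D, A)
    simp
  mul_smul := by
    rintro g h ⟨D, A⟩
    show ((ρ0 (g * h)) '' D, (fun a => ρ1 (g * h) * a * (ρ0 (g * h))⁻¹) '' A)
      = ((ρ0 g) '' ((ρ0 h) '' D),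
          (fun a => ρ1 g * a * (ρ0 g)⁻¹) '' ((fun a => ρ1 h * a * (ρ0 h)⁻¹) '' A))
    rw [Set.image_image, Set.image_image]
    congr 1
    · rw [map_mul]; rfl
    · congr 1
      funext a
      simp only [map_mul, mul_inv_rev]
      group

/-- an estimate for the generators propagates to the group -/
lemma rt_gen {Y : Type*} [MulAction G Y] (S : Set G) (g : G) (hg : g ∈ Subgroup.closure S) :
    ∃ (F : Finset G) (n : ℕ), (∀ s ∈ F, s ∈ S) ∧ ∀ (p : Y →₀ ℝ) (ε : ℝ), 0 < ε →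
      (∀ s ∈ F, l1 (p.mapDomain (fun y => s • y) - p) < ε) →
      l1 (p.mapDomain (fun y => g • y) - p) < n * ε := by
  classical
  have hact : ∀ (a b : G) (p : Y →₀ ℝ),
      p.mapDomain (fun y => (a * b) • y)
        = (p.mapDomain (fun y => b • y)).mapDomain (fun y => a • y) := by
    intro a b p
    rw [← Finsupp.mapDomain_comp]
    congr 1
    funext y
    exact mul_smul a b y
  have hone : ∀ (p : Y →₀ ℝ), p.mapDomain (fun y => (1 : G) • y) = p := by
    intro p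
    have : (fun y : Y => (1 : G) • y) = id := by funext y; exact one_smul _ _
    rw [this, Finsupp.mapDomain_id]
  induction hg using Subgroup.closure_induction with
  | mem x hx =>
    refine ⟨{x}, 1, by simpa using hx, ?_⟩
    intro p ε hε h
    have := h x (by simp)
    simpa using this
  | one =>
    refine ⟨∅, 1, by simp, ?_⟩
    intro p ε hε _
    rw [hone, sub_self, l1_zero]
    simpa using hε
  | mul x y _ _ hx hy =>
    obtain ⟨F, n, hF, h⟩ := hx
    obtain ⟨F', n', hF', h'⟩ := hy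
    refine ⟨F ∪ F', n + n', ?_, ?_⟩
    · intro s hs
      rcases Finset.mem_union.1 hs with hs | hs
      · exact hF s hs
      · exact hF' s hs
    · intro p ε hε hh
      have h1 := h p ε hε (fun s hs => hh s (Finset.mem_union_left _ hs))
      have h2 := h' p ε hε (fun s hs => hh s (Finset.mem_union_right _ hs))
      rw [hact]
      have e : (p.mapDomain (fun z => y • z)).mapDomain (fun z => x • z)
            - p.mapDomain (fun z => x • z)
          = (p.mapDomain (fun z => y • z) - p).mapDomain (fun z => x • z) := by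
        rw [mapDomain_sub]
      have h3 := l1_sub_le ((p.mapDomain (fun z => y • z)).mapDomain (fun z => x • z))
        (p.mapDomain (fun z => x • z)) p
      rw [e] at h3
      have h4 := l1_mapDomain_le (fun z : Y => x • z) (p.mapDomain (fun z => y • z) - p)
      push_cast
      linarith
  | inv x _ hx =>
    obtain ⟨F, n, hF, h⟩ := hx
    refine ⟨F, n, hF, ?_⟩
    intro p ε hε hh
    have h1 := h p ε hε hh
    have e : (p - p.mapDomain (fun z => x • z)).mapDomain (fun z => x⁻¹ • z)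
        = p.mapDomain (fun z => x⁻¹ • z) - p := by
      rw [mapDomain_sub, ← hact, inv_mul_cancel, hone]
    have h2 := l1_mapDomain_le (fun z : Y => x⁻¹ • z) (p - p.mapDomain (fun z => x • z))
    rw [e, l1_sub_comm p] at h2
    linarith

open Classical in
/-- LEMMA AM', general form. -/
theorem amen_twist (ρ0 ρ1 : G →* Perm Ω) (S : Set G) (hS : Subgroup.closure S = ⊤)
    (DD : Set (Set Ω)) (K : Set Ω → Subgroup (Perm Ω))
    (hsupp : ∀ D ∈ DD, ∀ k ∈ K D, ∀ ω, ω ∉ D → k ω = ω)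
    (hK : ∀ D ∈ DD, Amen (K D))
    (hinv : ∀ g : G, ∀ D ∈ DD, (ρ0 g) '' D ∈ DD)
    (hconj : ∀ g : G, ∀ D ∈ DD, ∀ k ∈ K D, ρ0 g * k * (ρ0 g)⁻¹ ∈ K ((ρ0 g) '' D))
    (hres : ∀ D ∈ DD, ∀ g : G, (ρ0 g) '' D = D → ∃ k ∈ K D, ∀ ω ∈ D, k ω = ρ0 g ω)
    (hP : ∀ (F : Finset G), (∀ g ∈ F, g ∈ S) → ∀ ε : ℝ, 0 < ε → ∃ P : Set Ω →₀ ℝ, IsProb P ∧
      (∀ D ∈ P.support, D ∈ DD) ∧
      ∀ g ∈ F, l1 (P.mapDomain (fun D => (ρ0 g) '' D) - P) < ε ∧
        (∑ D ∈ P.support with ρ1 g * (ρ0 g)⁻¹ ∉ K ((ρ0 g) '' D), P D) < ε)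
    (H : Subgroup G) (hH : Amen (H ⊓ MonoidHom.eqLocus ρ0 ρ1 : Subgroup G)) : Amen H := by
  letI : MulAction G (Pr Ω) := prAct ρ0 ρ1
  let β : Set Ω → Pr Ω := fun D => (D, (K D : Set (Perm Ω)))
  have hsm : ∀ (g : G) (D : Set Ω), g • β D
      = ((ρ0 g) '' D, (fun a => ρ1 g * a * (ρ0 g)⁻¹) '' (K D : Set (Perm Ω))) :=
    fun _ _ => rfl
  -- conjugation is onto
  have hconj' : ∀ (g : G), ∀ D ∈ DD, ∀ k ∈ K ((ρ0 g) '' D), (ρ0 g)⁻¹ * k * ρ0 g ∈ K D := by
    intro g D hD k hk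
    have h1 := hconj g⁻¹ _ (hinv g D hD) k hk
    rw [map_inv, inv_inv] at h1
    have e : ((ρ0 g)⁻¹ : Perm Ω) '' ((ρ0 g) '' D) = D := by
      rw [Set.image_image]
      simp
    rwa [e] at h1
  -- the base points are respected by the good pairs
  have hgood : ∀ (g : G), ∀ D ∈ DD, ρ1 g * (ρ0 g)⁻¹ ∈ K ((ρ0 g) '' D) →
      g • β D = β ((ρ0 g) '' D) := by
    intro g D hD hk
    rw [hsm]
    show (_, _) = (_, _)
    congr 1
    ext k
    constructor
    · rintro ⟨a, ha, rfl⟩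
      have e : ρ1 g * a * (ρ0 g)⁻¹ = (ρ1 g * (ρ0 g)⁻¹) * (ρ0 g * a * (ρ0 g)⁻¹) := by group
      show ρ1 g * a * (ρ0 g)⁻¹ ∈ K ((ρ0 g) '' D)
      rw [e]
      exact mul_mem hk (hconj g D hD a ha)
    · intro hk'
      refine ⟨(ρ0 g)⁻¹ * ((ρ1 g * (ρ0 g)⁻¹)⁻¹ * k) * ρ0 g, ?_, ?_⟩
      · exact hconj' g D hD _ (mul_mem (inv_mem hk) hk')
      · show ρ1 g * ((ρ0 g)⁻¹ * ((ρ1 g * (ρ0 g)⁻¹)⁻¹ * k) * ρ0 g) * (ρ0 g)⁻¹ = k
        group
  -- Reiter on the pairs, for the generators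
  have hR : ∀ (F : Finset G), (∀ g ∈ F, g ∈ S) → ∀ ε : ℝ, 0 < ε → ∃ p : Pr Ω →₀ ℝ, IsProb p ∧
      (∀ s ∈ p.support, s ∈ β '' DD) ∧
      ∀ g ∈ F, l1 (p.mapDomain (fun s => g • s) - p) < ε := by
    intro F hF ε hε
    obtain ⟨P, hPp, hPD, hPF⟩ := hP F hF (ε / 3) (by linarith)
    refine ⟨P.mapDomain β, hPp.map β, ?_, ?_⟩
    · intro s hs
      have := Finsupp.mapDomain_support hs
      rw [Finset.mem_image] at this
      obtain ⟨D, hD, rfl⟩ := this
      exact ⟨D, hPD D hD, rfl⟩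
    · intro g hg
      obtain ⟨h1, h2⟩ := hPF g hg
      have e1 : (P.mapDomain β).mapDomain (fun s => g • s) - P.mapDomain β
          = (P.mapDomain (fun D => g • β D) - P.mapDomain (fun D => β ((ρ0 g) '' D)))
            + (P.mapDomain (fun D => (ρ0 g) '' D) - P).mapDomain β := by
        rw [mapDomain_sub, ← Finsupp.mapDomain_comp, ← Finsupp.mapDomain_comp]
        have : (β ∘ fun D => (ρ0 g) '' D) = (fun D => β ((ρ0 g) '' D)) := rfl
        rw [this]
        have : ((fun s => g • s) ∘ β) = (fun D => g • β D) := rfl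
        rw [this]
        abel
      rw [e1]
      have h3 : l1 (P.mapDomain (fun D => g • β D) - P.mapDomain (fun D => β ((ρ0 g) '' D)))
          ≤ 2 * ∑ D ∈ P.support with ρ1 g * (ρ0 g)⁻¹ ∉ K ((ρ0 g) '' D), P D := by
        have e2 : P.mapDomain (fun D => g • β D) - P.mapDomain (fun D => β ((ρ0 g) '' D))
            = ∑ D ∈ P.support, (Finsupp.single (g • β D) (P D)
                - Finsupp.single (β ((ρ0 g) '' D)) (P D)) := by
          simp only [Finsupp.mapDomain, Finsupp.sum, Finset.sum_sub_distrib]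
        rw [e2]
        refine (l1_sum_le _ _).trans ?_
        rw [Finset.mul_sum, Finset.sum_filter]
        refine Finset.sum_le_sum (fun D hD => ?_)
        by_cases hb : ρ1 g * (ρ0 g)⁻¹ ∈ K ((ρ0 g) '' D)
        · rw [hgood g D (hPD D hD) hb, sub_self, l1_zero, if_neg (by simpa using hb)]
        · rw [if_pos hb]
          have h4 := l1_add_le (Finsupp.single (g • β D) (P D))
            (-Finsupp.single (β ((ρ0 g) '' D)) (P D))
          rw [l1_neg, l1_single, l1_single, abs_of_nonneg (hPp.nonneg D),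
            ← sub_eq_add_neg] at h4
          linarith
      have h5 := l1_add_le (P.mapDomain (fun D => g • β D)
        - P.mapDomain (fun D => β ((ρ0 g) '' D))) ((P.mapDomain (fun D => (ρ0 g) '' D) - P).mapDomain β)
      have h6 := l1_mapDomain_le β (P.mapDomain (fun D => (ρ0 g) '' D) - P)
      linarith
  -- Reiter on the pairs, for the group
  have hR' : ∀ (F : Finset G) (ε : ℝ), 0 < ε → ∃ p : Pr Ω →₀ ℝ, IsProb p ∧
      (∀ s ∈ p.support, s ∈ β '' DD) ∧
      ∀ g ∈ F, l1 (p.mapDomain (fun s => g • s) - p) < ε := by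
    intro F ε hε
    have hgen : ∀ g : G, ∃ (F : Finset G) (n : ℕ), (∀ s ∈ F, s ∈ S) ∧
        ∀ (p : Pr Ω →₀ ℝ) (ε : ℝ), 0 < ε →
        (∀ s ∈ F, l1 (p.mapDomain (fun y => s • y) - p) < ε) →
        l1 (p.mapDomain (fun y => g • y) - p) < n * ε := by
      intro g
      exact rt_gen S g (by rw [hS]; trivial)
    choose Fg ng hFg hg using hgen
    let n := ∑ g ∈ F, ng g
    obtain ⟨p, hp, hps, hpF⟩ := hR (F.biUnion Fg) (by
      intro s hs
      rw [Finset.mem_biUnion] at hs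
      obtain ⟨g, _, hs⟩ := hs
      exact hFg g s hs) (ε / (n + 1)) (by positivity)
    refine ⟨p, hp, hps, fun g hgF => ?_⟩
    have h1 := hg g p (ε / (n + 1)) (by positivity)
      (fun s hs => hpF s (Finset.mem_biUnion.2 ⟨g, hgF, hs⟩))
    refine h1.trans_le ?_
    have h2 : (ng g : ℝ) ≤ n := by
      exact_mod_cast Finset.single_le_sum (f := ng) (fun _ _ => Nat.zero_le _) hgF
    have h3 : (ng g : ℝ) * (ε / (n + 1)) ≤ (n + 1) * (ε / (n + 1)) := by
      apply mul_le_mul_of_nonneg_right _ (by positivity)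
      linarith
    rwa [mul_div_cancel₀ _ (by positivity)] at h3
  -- apply the stabiliser theorem to `H`
  refine amen_of_stab (G := H) (S := Pr Ω) (β '' DD) ?_ ?_
  · intro F ε hε
    obtain ⟨p, hp, hps, hpF⟩ := hR' (F.image (fun h : H => (h : G))) ε hε
    refine ⟨p, hp, hps, fun g hg => ?_⟩
    exact hpF (g : G) (Finset.mem_image_of_mem _ hg)
  · rintro _ ⟨D, hD, rfl⟩
    -- facts on the stabiliser
    have hst : ∀ g : MulAction.stabilizer H (β D), (ρ0 (g : H)) '' D = D ∧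
        ρ1 (g : H) * (ρ0 (g : H))⁻¹ ∈ K D := by
      rintro ⟨g, hg⟩
      rw [MulAction.mem_stabilizer_iff] at hg
      have hg' : ((ρ0 (g : G)) '' D, (fun a => ρ1 (g : G) * a * (ρ0 (g : G))⁻¹) '' (K D : Set (Perm Ω)))
          = (D, (K D : Set (Perm Ω))) := hg
      obtain ⟨h1, h2⟩ := Prod.mk.inj hg'
      refine ⟨h1, ?_⟩
      have : ρ1 (g : G) * 1 * (ρ0 (g : G))⁻¹ ∈ (K D : Set (Perm Ω)) := by
        rw [← h2]
        exact ⟨1, one_mem _, rfl⟩
      simpa using this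
    have huniq : ∀ k ∈ K D, ∀ k' ∈ K D, (∀ ω ∈ D, k ω = k' ω) → k = k' := by
      intro k hk k' hk' h
      ext ω
      by_cases hω : ω ∈ D
      · exact h ω hω
      · rw [hsupp D hD k hk ω hω, hsupp D hD k' hk' ω hω]
    have hf0 : ∀ g : MulAction.stabilizer H (β D), ∃ k ∈ K D, ∀ ω ∈ D, k ω = ρ0 (g : H) ω :=
      fun g => hres D hD _ (hst g).1
    choose f0 hf0K hf0 using hf0
    have hmem0 : ∀ (g : MulAction.stabilizer H (β D)), ∀ ω ∈ D, ρ0 (g : H) ω ∈ D := by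
      intro g ω hω
      exact (hst g).1.subset ⟨ω, hω, rfl⟩
    have hf1K : ∀ g : MulAction.stabilizer H (β D),
        (ρ1 (g : H) * (ρ0 (g : H))⁻¹) * f0 g ∈ K D := fun g => mul_mem (hst g).2 (hf0K g)
    have hf1 : ∀ g : MulAction.stabilizer H (β D), ∀ ω ∈ D,
        ((ρ1 (g : H) * (ρ0 (g : H))⁻¹) * f0 g) ω = ρ1 (g : H) ω := by
      intro g ω hω
      rw [Equiv.Perm.mul_apply, hf0 g ω hω]
      simp
    have hmem1 : ∀ (g : MulAction.stabilizer H (β D)), ∀ ω ∈ D, ρ1 (g : H) ω ∈ D := by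
      intro g ω hω
      by_contra hc
      have h1 := hf1 g ω hω
      have h2 := hsupp D hD _ (hf1K g) (ρ1 (g : H) ω) hc
      have h3 : ρ1 (g : H) ω = ω := by
        apply ((ρ1 (g : H) * (ρ0 (g : H))⁻¹) * f0 g).injective
        rw [h2, h1]
      rw [h3] at hc
      exact hc hω
    have hmulG : ∀ g g' : MulAction.stabilizer H (β D),
        (((g * g' : MulAction.stabilizer H (β D)) : H) : G) = (g : H) * (g' : H) := by
      intro g g'; rfl
    let φ : MulAction.stabilizer H (β D) →* K D × K D :=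
      MonoidHom.mk' (fun g => (⟨f0 g, hf0K g⟩, ⟨_, hf1K g⟩)) (by
        intro g g'
        apply Prod.ext
        · apply Subtype.ext
          show f0 (g * g') = f0 g * f0 g'
          apply huniq _ (hf0K _) _ (mul_mem (hf0K _) (hf0K _))
          intro ω hω
          rw [hf0 _ ω hω, Equiv.Perm.mul_apply, hf0 g' ω hω, hf0 g _ (hmem0 g' ω hω), hmulG,
            map_mul]
          rfl
        · apply Subtype.ext
          show (ρ1 ((g * g' : MulAction.stabilizer H (β D)) : H)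
              * (ρ0 ((g * g' : MulAction.stabilizer H (β D)) : H))⁻¹) * f0 (g * g')
            = ((ρ1 (g : H) * (ρ0 (g : H))⁻¹) * f0 g) * ((ρ1 (g' : H) * (ρ0 (g' : H))⁻¹) * f0 g')
          apply huniq _ (hf1K _) _ (mul_mem (hf1K _) (hf1K _))
          intro ω hω
          rw [hf1 _ ω hω, Equiv.Perm.mul_apply, hf1 g' ω hω, hf1 g _ (hmem1 g' ω hω), hmulG,
            map_mul]
          rfl)
    refine amen_of_ker φ ((hK D hD).prod (hK D hD)) ?_
    -- the kernel embeds in `H ⊓ eqLocus`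
    have hker : ∀ x : φ.ker, ρ0 (((x : MulAction.stabilizer H (β D)) : H) : G)
        = ρ1 (((x : MulAction.stabilizer H (β D)) : H) : G) := by
      rintro ⟨g, hg⟩
      rw [MonoidHom.mem_ker] at hg
      have hg0 : f0 g = 1 := congrArg Subtype.val (congrArg Prod.fst hg)
      have hg1 : (ρ1 (g : H) * (ρ0 (g : H))⁻¹) * f0 g = 1 :=
        congrArg Subtype.val (congrArg Prod.snd hg)
      rw [hg0, mul_one] at hg1
      exact (mul_inv_eq_one.1 hg1).symm
    let ψ : φ.ker →* (H ⊓ MonoidHom.eqLocus ρ0 ρ1 : Subgroup G) :=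
      MonoidHom.mk' (fun x => ⟨(((x : MulAction.stabilizer H (β D)) : H) : G),
        ⟨(((x : MulAction.stabilizer H (β D)) : H)).2, hker x⟩⟩) (by intro x y; rfl)
    refine hH.of_inj ψ ?_
    intro x y hxy
    have h0 : ((ψ x : (H ⊓ MonoidHom.eqLocus ρ0 ρ1 : Subgroup G)) : G)
        = ((ψ y : (H ⊓ MonoidHom.eqLocus ρ0 ρ1 : Subgroup G)) : G) := by rw [hxy]
    have h1 : (((x : MulAction.stabilizer H (β D)) : H) : G)
        = (((y : MulAction.stabilizer H (β D)) : H) : G) := h0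
    exact Subtype.ext (Subtype.ext (Subtype.ext h1))

/-- LEMMA AM', sure version: the condition on `ρ1 g (ρ0 g)⁻¹` holds on the whole support. -/
theorem amen_twist' (ρ0 ρ1 : G →* Perm Ω) (S : Set G) (hS : Subgroup.closure S = ⊤)
    (DD : Set (Set Ω)) (K : Set Ω → Subgroup (Perm Ω))
    (hsupp : ∀ D ∈ DD, ∀ k ∈ K D, ∀ ω, ω ∉ D → k ω = ω)
    (hK : ∀ D ∈ DD, Amen (K D))
    (hinv : ∀ g : G, ∀ D ∈ DD, (ρ0 g) '' D ∈ DD)
    (hconj : ∀ g : G, ∀ D ∈ DD, ∀ k ∈ K D, ρ0 g * k * (ρ0 g)⁻¹ ∈ K ((ρ0 g) '' D))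
    (hres : ∀ D ∈ DD, ∀ g : G, (ρ0 g) '' D = D → ∃ k ∈ K D, ∀ ω ∈ D, k ω = ρ0 g ω)
    (hP : ∀ (F : Finset G), (∀ g ∈ F, g ∈ S) → ∀ ε : ℝ, 0 < ε → ∃ P : Set Ω →₀ ℝ, IsProb P ∧
      (∀ D ∈ P.support, D ∈ DD) ∧
      ∀ g ∈ F, l1 (P.mapDomain (fun D => (ρ0 g) '' D) - P) < ε ∧
        ∀ D ∈ P.support, ρ1 g * (ρ0 g)⁻¹ ∈ K ((ρ0 g) '' D))
    (H : Subgroup G) (hH : Amen (H ⊓ MonoidHom.eqLocus ρ0 ρ1 : Subgroup G)) : Amen H := by
  classical
  refine amen_twist ρ0 ρ1 S hS DD K hsupp hK hinv hconj hres ?_ H hH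
  intro F hF ε hε
  obtain ⟨P, h1, h2, h3⟩ := hP F hF ε hε
  refine ⟨P, h1, h2, fun g hg => ⟨(h3 g hg).1, ?_⟩⟩
  rw [Finset.sum_filter, Finset.sum_eq_zero]
  · exact hε
  · intro D hD
    rw [if_neg]
    exact not_not.2 ((h3 g hg).2 D hD)

/-- LEMMA AM' for finite subsets: `ρ0 g` and `ρ1 g` differ on a finite set (subgroup form). -/
theorem amen_twist_fin' (ρ0 ρ1 : G →* Perm Ω)
    (hfin : ∀ g : G, {ω | ρ0 g ω ≠ ρ1 g ω}.Finite)
    (hP : ∀ (F : Finset G) (B : Set Ω), B.Finite → ∀ ε : ℝ, 0 < ε →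
      ∃ P : Set Ω →₀ ℝ, IsProb P ∧ (∀ D ∈ P.support, D.Finite ∧ B ⊆ D) ∧
      ∀ g ∈ F, l1 (P.mapDomain (fun D => (ρ0 g) '' D) - P) < ε)
    (H : Subgroup G) (hH : Amen (H ⊓ MonoidHom.eqLocus ρ0 ρ1 : Subgroup G)) : Amen H := by
  classical
  let K : Set Ω → Subgroup (Perm Ω) := fun D =>
    { carrier := {k | ∀ ω, ω ∉ D → k ω = ω}
      one_mem' := by intro ω _; rfl
      mul_mem' := by
        intro a b ha hb ω hω
        rw [Equiv.Perm.mul_apply, hb ω hω, ha ω hω]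
      inv_mem' := by
        intro a ha ω hω
        have := ha ω hω
        rw [Equiv.Perm.inv_eq_iff_eq, this] }
  have hKm : ∀ D k, k ∈ K D ↔ ∀ ω, ω ∉ D → k ω = ω := fun _ _ => Iff.rfl
  · refine amen_twist' ρ0 ρ1 Set.univ (by simp) {D | D.Finite} K ?_ ?_ ?_ ?_ ?_ ?_ H hH
    · intro D _ k hk
      exact hk
    · intro D hD
      have hD : D.Finite := hD
      haveI := hD.to_subtype
      haveI : Finite (K D) := by
        have hm : ∀ k ∈ K D, ∀ ω ∈ D, k ω ∈ D := by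
          intro k hk ω hω
          by_contra hc
          have h1 := hk _ hc
          have h2 : k ω = ω := k.injective h1
          rw [h2] at hc
          exact hc hω
        refine Finite.of_injective
          (fun k : K D => (fun ω : D => (⟨(k : Perm Ω) ω, hm k k.2 ω ω.2⟩ : D))) ?_
        intro k k' h
        apply Subtype.ext
        ext ω
        by_cases hω : ω ∈ D
        · have := congrFun h ⟨ω, hω⟩
          exact congrArg Subtype.val this
        · rw [k.2 ω hω, k'.2 ω hω]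
      exact amen_finite
    · intro g D hD
      exact Set.Finite.image _ hD
    · intro g D _ k hk ω hω
      have h1 : (ρ0 g)⁻¹ ω ∉ D := by
        intro hc
        exact hω ⟨_, hc, by simp⟩
      rw [Equiv.Perm.mul_apply, Equiv.Perm.mul_apply, hk _ h1]
      simp
    · intro D hD g hg
      have hmem : ∀ ω, ω ∈ D ↔ ρ0 g ω ∈ D := by
        intro ω
        constructor
        · intro h
          rw [← hg]
          exact ⟨ω, h, rfl⟩
        · intro h
          rw [← hg] at h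
          obtain ⟨ω', h', e⟩ := h
          rwa [← (ρ0 g).injective e]
      refine ⟨((ρ0 g).subtypePerm (p := fun ω => ω ∈ D) (fun ω => (hmem ω).symm)).ofSubtype, ?_, ?_⟩
      · intro ω hω
        exact Equiv.Perm.ofSubtype_apply_of_not_mem _ hω
      · intro ω hω
        rw [Equiv.Perm.ofSubtype_apply_of_mem _ hω]
        rfl
    · intro F _ ε hε
      obtain ⟨P, h1, h2, h3⟩ := hP F
        (⋃ g ∈ F, {ω | ρ0 g ω ≠ ρ1 g ω}) (Set.Finite.biUnion (Finset.finite_toSet F)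
          (fun g _ => hfin g)) ε hε
      refine ⟨P, h1, fun D hD => (h2 D hD).1, fun g hg => ⟨h3 g hg, ?_⟩⟩
      intro D hD ω hω
      rw [Equiv.Perm.mul_apply]
      by_contra hc
      apply hω
      have h4 : (ρ0 g)⁻¹ ω ∈ {ω | ρ0 g ω ≠ ρ1 g ω} := by
        show ρ0 g ((ρ0 g)⁻¹ ω) ≠ ρ1 g ((ρ0 g)⁻¹ ω)
        intro h5
        apply hc
        rw [← h5]
        simp
      exact ⟨(ρ0 g)⁻¹ ω, (h2 D hD).2 (Set.mem_biUnion hg h4), by simp⟩

/-- LEMMA AM' for finite subsets. -/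
theorem amen_twist_fin (ρ0 ρ1 : G →* Perm Ω)
    (hfin : ∀ g : G, {ω | ρ0 g ω ≠ ρ1 g ω}.Finite)
    (hP : ∀ (F : Finset G) (B : Set Ω), B.Finite → ∀ ε : ℝ, 0 < ε →
      ∃ P : Set Ω →₀ ℝ, IsProb P ∧ (∀ D ∈ P.support, D.Finite ∧ B ⊆ D) ∧
      ∀ g ∈ F, l1 (P.mapDomain (fun D => (ρ0 g) '' D) - P) < ε)
    (hH : Amen (MonoidHom.eqLocus ρ0 ρ1)) : Amen G := by
  have key : Amen (⊤ : Subgroup G) := by
    refine amen_twist_fin' ρ0 ρ1 hfin hP ⊤ ?_
    exact hH.of_inj (Subgroup.inclusion inf_le_right) (Subgroup.inclusion_injective _)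
  exact key.equiv Subgroup.topEquiv

end amp

end Crest.Agent.R189
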