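import Mathlib
import Crest.Prelude.Def_Amenable
import Crest.Agent.R189.Amen

/-!
# Row 189: `Amen G` (Reiter form) implies `Crest.GroupTheory.Amenable G`.
-/

open scoped Pointwise ENNReal

namespace Crest.Agent.R189

section fin
variable {G : Type*} [Group G]

open Classical in
/-- measure of a set for a finitely supported function -/
noncomputable def pm {S : Type*} (p : S →₀ ℝ) (s : Set S) : ℝ := ∑ x ∈ p.support with x ∈ s, p x

open Classical in
lemma pm_eq {S : Type*} {p : S →₀ ℝ} {F : Finset S} (h : p.support ⊆ F) (s : Set S) :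
    pm p s = ∑ x ∈ F with x ∈ s, p x := by
  unfold pm
  refine Finset.sum_subset (Finset.filter_subset_filter _ h) ?_
  intro x hx hx'
  rw [Finset.mem_filter] at hx hx'
  by_contra hc
  exact hx' ⟨Finsupp.mem_support_iff.2 hc, hx.2⟩

lemma pm_sub_le {S : Type*} (p q : S →₀ ℝ) (s : Set S) : pm p s - pm q s ≤ l1 (p - q) := by
  classical
  have hp : p.support ⊆ p.support ∪ q.support := Finset.subset_union_left
  have hq : q.support ⊆ p.support ∪ q.support := Finset.subset_union_right
  have hd : (p - q).support ⊆ p.support ∪ q.support := by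
    intro x hx
    rw [Finsupp.mem_support_iff, Finsupp.sub_apply] at hx
    rw [Finset.mem_union, Finsupp.mem_support_iff, Finsupp.mem_support_iff]
    by_contra hc
    push Not at hc
    rw [hc.1, hc.2, sub_zero] at hx
    exact hx rfl
  rw [pm_eq hp, pm_eq hq, ← Finset.sum_sub_distrib, l1_eq hd]
  calc ∑ x ∈ (p.support ∪ q.support) with x ∈ s, (p x - q x)
      ≤ ∑ x ∈ (p.support ∪ q.support) with x ∈ s, |(p - q) x| :=
        Finset.sum_le_sum (fun x _ => by rw [Finsupp.sub_apply]; exact le_abs_self _)
    _ ≤ ∑ x ∈ p.support ∪ q.support, |(p - q) x| :=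
        Finset.sum_le_sum_of_subset_of_nonneg (Finset.filter_subset _ _)
          (fun _ _ _ => abs_nonneg _)

lemma pm_map_inj {S T : Type*} (p : S →₀ ℝ) {f : S → T} (hf : Function.Injective f) (s : Set T) :
    pm (p.mapDomain f) s = pm p (f ⁻¹' s) := by
  classical
  unfold pm
  rw [Finsupp.mapDomain_support_of_injective hf]
  rw [Finset.sum_filter, Finset.sum_image (fun x _ y _ h => hf h), Finset.sum_filter]
  refine Finset.sum_congr rfl (fun x _ => ?_)
  rw [Finsupp.mapDomain_apply hf]
  rfl

/-- the Reiter form of amenability gives the frozen definition -/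
theorem Amen.amenable (h : Amen G) : Crest.GroupTheory.Amenable G := by
  classical
  -- almost invariant probabilities
  have h' : ∀ i : Finset G × ℕ, ∃ p : G →₀ ℝ, IsProb p ∧
      ∀ g ∈ i.1, l1 (p.mapDomain (fun x => g * x) - p) < 1 / ((i.2 : ℝ) + 1) := by
    intro i
    exact h i.1 _ (by positivity)
  choose p hp hpF using h'
  have hnn : ∀ i (s : Set G), 0 ≤ pm (p i) s := fun i s =>
    Finset.sum_nonneg (fun x _ => (hp i).nonneg x)
  let m : Finset G × ℕ → Set G → ℝ≥0∞ := fun i s => ENNReal.ofReal (pm (p i) s)
  let U : Ultrafilter (Finset G × ℕ) := Ultrafilter.of Filter.atTop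
  have hU : (U : Filter (Finset G × ℕ)) ≤ Filter.atTop := Ultrafilter.of_le _
  obtain ⟨μ, _, hμ⟩ := (isCompact_univ (X := Set G → ℝ≥0∞)).ultrafilter_le_nhds (U.map m) (by simp)
  have ht : Filter.Tendsto m U (nhds μ) := hμ
  have hts : ∀ s : Set G, Filter.Tendsto (fun i => m i s) U (nhds (μ s)) := by
    intro s
    exact (tendsto_pi_nhds.1 ht) s
  refine ⟨μ, ?_, ?_, ?_⟩
  · have h1 : ∀ i, m i Set.univ = 1 := by
      intro i
      show ENNReal.ofReal (pm (p i) Set.univ) = 1
      have : pm (p i) Set.univ = 1 := by
        rw [← (hp i).mass]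
        unfold pm mass
        rw [Finsupp.sum]
        congr 1
        ext x
        simp
      rw [this, ENNReal.ofReal_one]
    have h2 := hts Set.univ
    simp only [h1] at h2
    exact (tendsto_nhds_unique h2 tendsto_const_nhds)
  · intro s t hst
    have h1 : ∀ i, m i (s ∪ t) = m i s + m i t := by
      intro i
      show ENNReal.ofReal _ = ENNReal.ofReal _ + ENNReal.ofReal _
      rw [← ENNReal.ofReal_add (hnn i s) (hnn i t)]
      congr 1
      unfold pm
      rw [← Finset.sum_union]
      · congr 1
        ext x
        simp only [Finset.mem_filter, Finset.mem_union, Set.mem_union]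
        tauto
      · rw [Finset.disjoint_left]
        intro x hx hx'
        rw [Finset.mem_filter] at hx hx'
        exact Set.disjoint_left.1 hst hx.2 hx'.2
    have h2 := hts (s ∪ t)
    simp only [h1] at h2
    exact tendsto_nhds_unique h2 ((hts s).add (hts t))
  · have key : ∀ (g : G) (s : Set G), μ s ≤ μ (g • s) := by
      intro g s
      -- `m i s ≤ m i (g • s) + 1/(n+1)` eventually
      have hev : ∀ᶠ i in (U : Filter (Finset G × ℕ)), m i s ≤ m i (g • s)
          + ENNReal.ofReal (1 / ((i.2 : ℝ) + 1)) := by
        have : ∀ᶠ i in (Filter.atTop : Filter (Finset G × ℕ)), g ∈ i.1 := by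
          filter_upwards [Filter.eventually_ge_atTop (({g}, 0) : Finset G × ℕ)] with i hi
          exact hi.1 (Finset.mem_singleton_self g)
        filter_upwards [hU this] with i hi
        have h1 := hpF i g hi
        have h2 : pm (p i) s = pm ((p i).mapDomain (fun x => g * x)) (g • s) := by
          rw [pm_map_inj _ (mul_right_injective g)]
          congr 1
          ext x
          simp [Set.mem_smul_set_iff_inv_smul_mem]
        have h3 := pm_sub_le ((p i).mapDomain (fun x => g * x)) (p i) (g • s)
        rw [← h2] at h3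
        show ENNReal.ofReal _ ≤ ENNReal.ofReal _ + ENNReal.ofReal _
        rw [← ENNReal.ofReal_add (hnn i _) (by positivity)]
        apply ENNReal.ofReal_le_ofReal
        linarith
      have ht0 : Filter.Tendsto (fun i : Finset G × ℕ => ENNReal.ofReal (1 / ((i.2 : ℝ) + 1)))
          (U : Filter (Finset G × ℕ)) (nhds 0) := by
        have h1 : Filter.Tendsto (fun i : Finset G × ℕ => 1 / ((i.2 : ℝ) + 1))
            (Filter.atTop : Filter (Finset G × ℕ)) (nhds 0) := by
          have h2 := tendsto_one_div_add_atTop_nhds_zero_nat (𝕜 := ℝ)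
          refine h2.comp ?_
          rw [← Filter.prod_atTop_atTop_eq]
          exact Filter.tendsto_snd
        have h3 := (ENNReal.tendsto_ofReal h1).mono_left hU
        simpa using h3
      have h4 := (hts (g • s)).add ht0
      rw [add_zero] at h4
      exact le_of_tendsto_of_tendsto (hts s) h4 hev
    intro g s
    apply le_antisymm
    · have := key g⁻¹ (g • s)
      rwa [inv_smul_smul] at this
    · exact key g s

end fin

end Crest.Agent.R189
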