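import Crest.Agent.R189.HierGeo

/-!
# Row 189: growth of the boxes (helper777)

The width/height ratio of the boxes tends to infinity along even levels, and the height/width
ratio tends to infinity along odd levels.
-/

set_option autoImplicit false

namespace Crest.Agent.R189

open Filter Finset

variable {a₀ : ℕ}

theorem tendsto_sum_inv_add (a c : ℕ) (h : 0 < a) :
    Tendsto (fun m : ℕ => ∑ i ∈ range m, (1:ℝ) / (a + c + 2 * i)) atTop atTop := by
  have h1 := Real.tendsto_sum_range_one_div_nat_succ_atTop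
  have h2 : (0:ℝ) < 1 / ((a:ℝ) + c + 2) := by positivity
  have h3 := h1.const_mul_atTop h2
  refine tendsto_atTop_mono (fun m => ?_) h3
  rw [mul_sum]
  refine sum_le_sum fun i _ => ?_
  have ha : (1:ℝ) ≤ a := by exact_mod_cast h
  rw [one_div_mul_one_div]
  refine one_div_le_one_div_of_le (by positivity) ?_
  have hi : (0:ℝ) ≤ i := by positivity
  have hc : (0:ℝ) ≤ c := by positivity
  nlinarith [mul_nonneg hi hc, mul_nonneg hi (zero_le_one.trans ha)]

/-- multiplicative recursion with divergent increments -/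
theorem ratio_ge (r : ℕ → ℝ) (a c : ℕ) (h : 0 < a) (h0 : 1 ≤ r 0)
    (hr : ∀ m, r (m + 1) = r m * (1 + 1 / (a + c + 2 * m))) (m : ℕ) :
    1 + ∑ i ∈ range m, (1:ℝ) / (a + c + 2 * i) ≤ r m := by
  have ha : (1:ℝ) ≤ a := by exact_mod_cast h
  induction m with
  | zero => simpa using h0
  | succ m ih =>
    rw [sum_range_succ, hr]
    have h1 : (0:ℝ) < 1 / (a + c + 2 * m) := by positivity
    have h2 : (0:ℝ) ≤ ∑ i ∈ range m, (1:ℝ) / (a + c + 2 * i) :=
      sum_nonneg fun i _ => by positivity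
    nlinarith

theorem ww_div_hh_rec (h : 0 < a₀) (m : ℕ) :
    ((ww a₀ (2 * (m + 1)) : ℝ) / hh a₀ (2 * (m + 1))) =
      ((ww a₀ (2 * m) : ℝ) / hh a₀ (2 * m)) * (1 + 1 / (a₀ + (0:ℕ) + 2 * m)) := by
  have e1 : Even (2 * m) := even_two_mul m
  have e2 : ¬ Even (2 * m + 1) := by
    rw [Nat.even_add_one]; exact not_not.2 e1
  have hh0 : (0:ℝ) < hh a₀ (2 * m) := by exact_mod_cast hh_pos h _
  have ha : (0:ℝ) < a₀ := by exact_mod_cast h
  rw [show 2 * (m + 1) = 2 * m + 1 + 1 by ring, ww_succ_odd e2, hh_succ_odd e2, ww_succ_even e1,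
    hh_succ_even e1]
  unfold nn
  push_cast
  field_simp
  ring

theorem hh_div_ww_rec (h : 0 < a₀) (m : ℕ) :
    ((hh a₀ (2 * (m + 1) + 1) : ℝ) / ww a₀ (2 * (m + 1) + 1)) =
      ((hh a₀ (2 * m + 1) : ℝ) / ww a₀ (2 * m + 1)) * (1 + 1 / (a₀ + (1:ℕ) + 2 * m)) := by
  have e1 : Even (2 * (m + 1)) := even_two_mul _
  have e2 : ¬ Even (2 * m + 1) := by
    rw [Nat.even_add_one]; exact not_not.2 (even_two_mul m)
  have hw0 : (0:ℝ) < ww a₀ (2 * m + 1) := by exact_mod_cast ww_pos h _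
  have ha : (0:ℝ) < a₀ := by exact_mod_cast h
  rw [ww_succ_even e1, hh_succ_even e1, show 2 * (m + 1) = 2 * m + 1 + 1 by ring, ww_succ_odd e2,
    hh_succ_odd e2]
  unfold nn
  push_cast
  field_simp
  ring

/-- **Growth, even levels**: the boxes are much wider than high. -/
theorem growth_even (h : 0 < a₀) (B : ℕ) : ∃ m₀ : ℕ, ∀ m ≥ m₀,
    B * hh a₀ (2 * m) ≤ ww a₀ (2 * m) := by
  have h1 := tendsto_sum_inv_add a₀ 0 h
  obtain ⟨m₀, hm₀⟩ := (h1.eventually_ge_atTop (B:ℝ)).exists_forall_of_atTop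
  refine ⟨m₀, fun m hm => ?_⟩
  have h2 := ratio_ge (fun m => (ww a₀ (2 * m) : ℝ) / hh a₀ (2 * m)) a₀ 0 h (by simp)
    (ww_div_hh_rec h) m
  have h3 := hm₀ m hm
  have hh0 : (0:ℝ) < hh a₀ (2 * m) := by exact_mod_cast hh_pos h _
  have h4 : (B:ℝ) ≤ (ww a₀ (2 * m) : ℝ) / hh a₀ (2 * m) := by
    refine le_trans ?_ h2
    linarith
  rw [le_div_iff₀ hh0] at h4
  exact_mod_cast h4

/-- **Growth, odd levels**: the boxes are much higher than wide. -/
theorem growth_odd (h : 0 < a₀) (B : ℕ) : ∃ m₀ : ℕ, ∀ m ≥ m₀,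
    B * ww a₀ (2 * m + 1) ≤ hh a₀ (2 * m + 1) := by
  have h1 := tendsto_sum_inv_add a₀ 1 h
  obtain ⟨m₀, hm₀⟩ := (h1.eventually_ge_atTop (B:ℝ)).exists_forall_of_atTop
  refine ⟨m₀, fun m hm => ?_⟩
  have h2 := ratio_ge (fun m => (hh a₀ (2 * m + 1) : ℝ) / ww a₀ (2 * m + 1)) a₀ 1 h ?_
    (hh_div_ww_rec h) m
  · have h3 := hm₀ m hm
    have hw0 : (0:ℝ) < ww a₀ (2 * m + 1) := by exact_mod_cast ww_pos h _
    have h4 : (B:ℝ) ≤ (hh a₀ (2 * m + 1) : ℝ) / ww a₀ (2 * m + 1) := by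
      refine le_trans ?_ h2
      linarith
    rw [le_div_iff₀ hw0] at h4
    exact_mod_cast h4
  · have e : (hh a₀ (2 * 0 + 1) : ℝ) / ww a₀ (2 * 0 + 1) = 3 * a₀ := by
      rw [Nat.mul_zero, ww_succ_even (by simp), hh_succ_even (by simp)]
      simp [nn]
    rw [e]
    have ha : (1:ℝ) ≤ a₀ := by exact_mod_cast h
    linarith

theorem aa_growth (B : ℕ) : ∀ k ≥ B, B ≤ aa a₀ k := by
  intro k hk
  unfold aa
  omega

theorem ww_ge (h : 0 < a₀) (m : ℕ) : 3 ^ m ≤ ww a₀ (2 * m) := by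
  induction m with
  | zero => simp
  | succ m ih =>
    have e2 : ¬ Even (2 * m + 1) := by
      rw [Nat.even_add_one]; exact not_not.2 (even_two_mul m)
    rw [show 2 * (m + 1) = 2 * m + 1 + 1 by ring, ww_succ_odd e2, ww_succ_even (even_two_mul m),
      pow_succ, mul_comm]
    refine Nat.mul_le_mul ?_ ih
    unfold nn
    omega

theorem hh_ge (h : 0 < a₀) (m : ℕ) : 3 ^ m ≤ hh a₀ (2 * m) := by
  induction m with
  | zero => simp
  | succ m ih =>
    have e2 : ¬ Even (2 * m + 1) := by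
      rw [Nat.even_add_one]; exact not_not.2 (even_two_mul m)
    rw [show 2 * (m + 1) = 2 * m + 1 + 1 by ring, hh_succ_odd e2, hh_succ_even (even_two_mul m),
      pow_succ, mul_comm]
    refine Nat.mul_le_mul ?_ ih
    unfold nn
    omega

end Crest.Agent.R189
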