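import Crest.Agent.R189.SysCoarse
import Crest.Agent.R189.Growth

/-!
# Row 189 (S0289), helper697: growth of `PW` (fields `H_le`, `H_grow` of the two strip systems)

Rows: `w j = PW 4 j`, `b j = 4+2j`, `H j = PW 3 j * (3+2j) - 1`.
Columns: `w j = PW 3 (j+1)`, `b j = 5+2j`, `H j = PW 4 j * (4+2j) - 1`.
-/

set_option autoImplicit false

namespace Crest.Agent.R189

open Filter Finset

theorem PW_mono {a a' : ℕ} (h : a ≤ a') (j : ℕ) : PW a j ≤ PW a' j := by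
  induction j with
  | zero => simp
  | succ j ih =>
    rw [PW_succ', PW_succ']
    exact Nat.mul_le_mul ih (by omega)

theorem PW_ratio_rec {a : ℕ} (ha : 1 ≤ a) (m : ℕ) :
    ((PW a (m + 1) : ℝ) * (a + 2 * ((m + 1 : ℕ) : ℝ)) / PW (a + 1) (m + 1)) =
      ((PW a m : ℝ) * (a + 2 * (m : ℝ)) / PW (a + 1) m) * (1 + 1 / (a + (1 : ℕ) + 2 * m)) := by
  have h1 : (0 : ℝ) < PW (a + 1) m := by exact_mod_cast PW_pos (by omega) m
  have ha' : (0 : ℝ) < a := by exact_mod_cast ha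
  rw [PW_succ', PW_succ']
  push_cast
  field_simp
  ring

/-- the growth lemma -/
theorem PW_grow {a : ℕ} (ha : 1 ≤ a) (M : ℕ) :
    ∃ j, M * PW (a + 1) j ≤ PW a j * (a + 2 * j) - 1 := by
  have h1 := tendsto_sum_inv_add a 1 ha
  obtain ⟨m, hm⟩ := (h1.eventually_ge_atTop ((M : ℝ) + 1)).exists
  refine ⟨m, ?_⟩
  have h2 := ratio_ge (fun m => (PW a m : ℝ) * (a + 2 * (m : ℝ)) / PW (a + 1) m) a 1 ha
    (by simp; exact_mod_cast ha) (PW_ratio_rec ha) m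
  have h3 : (0 : ℝ) < PW (a + 1) m := by exact_mod_cast PW_pos (by omega) m
  have h4 : ((M : ℝ) + 1) ≤ (PW a m : ℝ) * (a + 2 * (m : ℝ)) / PW (a + 1) m := by
    refine le_trans ?_ h2
    linarith
  rw [le_div_iff₀ h3] at h4
  have h5 : (M + 1) * PW (a + 1) m ≤ PW a m * (a + 2 * m) := by exact_mod_cast h4
  have h6 := PW_pos (a := a + 1) (by omega) m
  have h7 : (M + 1) * PW (a + 1) m = M * PW (a + 1) m + PW (a + 1) m := by ring
  omega

/-- `H_grow` of the rows -/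
theorem PW_grow_row (M : ℕ) : ∃ j, M * PW 4 j ≤ PW 3 j * (3 + 2 * j) - 1 :=
  PW_grow (a := 3) (by omega) M

/-- `H_grow` of the columns -/
theorem PW_grow_col (M : ℕ) : ∃ j, M * PW 3 (j + 1) ≤ PW 4 j * (4 + 2 * j) - 1 := by
  obtain ⟨j, hj⟩ := PW_grow (a := 4) (by omega) (M * 9)
  refine ⟨j, le_trans (le_of_eq ?_) hj⟩
  rw [PW_succ]; ring

/-- `H_le` of the rows -/
theorem PW_H_le_row (j : ℕ) : PW 3 j * (3 + 2 * j) - 1 ≤ (4 + 2 * j) * PW 4 j := by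
  have h := PW_mono (show 3 ≤ 4 by omega) j
  have : PW 3 j * (3 + 2 * j) ≤ (4 + 2 * j) * PW 4 j := by
    rw [mul_comm]; exact Nat.mul_le_mul (by omega) h
  omega

/-- `H_le` of the columns -/
theorem PW_H_le_col (j : ℕ) : PW 4 j * (4 + 2 * j) - 1 ≤ (5 + 2 * j) * PW 3 (j + 1) := by
  have h := PW_mono (show 4 ≤ 5 by omega) j
  have h2 : PW 5 j ≤ PW 3 (j + 1) := by rw [PW_succ]; show PW 5 j ≤ 3 * 3 * PW 5 j; omega
  have : PW 4 j * (4 + 2 * j) ≤ (5 + 2 * j) * PW 3 (j + 1) := by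
    rw [mul_comm]; exact Nat.mul_le_mul (by omega) (h.trans h2)
  omega

end Crest.Agent.R189
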