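import Mathlib
import Crest.Agent.R189.Amen

/-!
# Row 189, step A/B (amenability): abstract strip systems -- DEFINITIONS (helper84)

Coordinates: `u` along the infinite line, `r` = distance from it, `τ : Θ` = copy (= type of the
infinite crossing line at `u = 0`), `c : C` colour, `l : Λ` = label of the infinite line.
-/

set_option autoImplicit false

namespace Crest.Agent.R189.Strip

open Equiv

/-- positions with colours `(u, r, τ, c)` -/
abbrev Om (Θ C : Type) := ℤ × ℤ × Θ × C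

/-- Abstract strip system. -/
structure StripSys (Θ A Λ : Type) where
  /-- periods -/
  w : ℕ → ℕ
  /-- zone lengths -/
  b : ℕ → ℕ
  /-- strip heights -/
  H : ℕ → ℕ
  w_zero : 0 < w 0
  w_succ : ∀ j, w (j + 1) = 3 * b j * w j
  three_le_b : ∀ j, 3 ≤ b j
  /-- type of the line of level `j`, index `0 < e < 3 b_j` -/
  tauOf : ℕ → ℕ → Θ
  /-- type of the lines inside the zones 0, 1, 2 -/
  zt : ℕ → Θ
  tau_zone : ∀ j e, 0 < e → e < 3 * b j → e ≠ 1 → e ≠ b j → e ≠ 2 * b j → e + 1 ≠ 3 * b j →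
    tauOf j e = zt (e / b j)
  /-- type of the crossing line at `u` (in the copy `τ`) -/
  col : ℤ → Θ → Θ
  col_zero : ∀ τ, col 0 τ = τ
  col_level : ∀ (j : ℕ) (q : ℤ) (τ : Θ), q % (3 * (b j : ℤ)) ≠ 0 →
    col (w j * q) τ = tauOf j (q % (3 * (b j : ℤ))).toNat
  /-- letters -/
  lett : Λ → ℤ → ℤ → Θ → A
  lett_off : ∀ l l' u r τ, r ≠ 0 → lett l u r τ = lett l' u r τ
  lett_strip : ∀ (l : Λ) (j : ℕ) (r : ℤ), |r| ≤ H j → ∀ (u u' : ℤ) (τ τ' : Θ),
    u ≡ u' [ZMOD w j] → ((w j : ℤ) ∣ u → col u τ = col u' τ') → lett l u r τ = lett l u' r τ'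
  H_le : ∀ j, H j ≤ b j * w j
  H_grow : ∀ M : ℕ, ∃ j, M * w j ≤ H j

section gens
variable {Θ A Λ C : Type}

/-- translation, the vector depends on the colour -/
def transl (v : C → ℤ × ℤ) : Perm (Om Θ C) where
  toFun p := (p.1 + (v p.2.2.2).1, p.2.1 + (v p.2.2.2).2, p.2.2.1, p.2.2.2)
  invFun p := (p.1 - (v p.2.2.2).1, p.2.1 - (v p.2.2.2).2, p.2.2.1, p.2.2.2)
  left_inv p := by simp
  right_inv p := by simp

/-- recolouring, the colour permutation depends on the letter -/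
def recol (ℓ : ℤ → ℤ → Θ → A) (α : A → Perm C) : Perm (Om Θ C) where
  toFun p := (p.1, p.2.1, p.2.2.1, α (ℓ p.1 p.2.1 p.2.2.1) p.2.2.2)
  invFun p := (p.1, p.2.1, p.2.2.1, (α (ℓ p.1 p.2.1 p.2.2.1))⁻¹ p.2.2.2)
  left_inv p := by simp
  right_inv p := by simp

@[simp] lemma transl_apply (v : C → ℤ × ℤ) (u r : ℤ) (τ : Θ) (c : C) :
    transl v (u, r, τ, c) = (u + (v c).1, r + (v c).2, τ, c) := rfl

@[simp] lemma transl_symm_apply (v : C → ℤ × ℤ) (u r : ℤ) (τ : Θ) (c : C) :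
    (transl v).symm (u, r, τ, c) = (u - (v c).1, r - (v c).2, τ, c) := rfl

@[simp] lemma recol_apply (ℓ : ℤ → ℤ → Θ → A) (α : A → Perm C) (u r : ℤ) (τ : Θ) (c : C) :
    recol ℓ α (u, r, τ, c) = (u, r, τ, α (ℓ u r τ) c) := rfl

@[simp] lemma recol_symm_apply (ℓ : ℤ → ℤ → Θ → A) (α : A → Perm C) (u r : ℤ) (τ : Θ) (c : C) :
    (recol ℓ α).symm (u, r, τ, c) = (u, r, τ, (α (ℓ u r τ))⁻¹ c) := rfl

/-- generators: unit translations or recolourings -/
def IsGen {G : Type} [Group G] (S : StripSys Θ A Λ) (ρ : Λ → G →* Perm (Om Θ C)) (g : G) : Prop :=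
  (∃ v : C → ℤ × ℤ, (∀ c, |(v c).1| ≤ 1 ∧ |(v c).2| ≤ 1) ∧ ∀ l, ρ l g = transl v) ∨
  (∃ α : A → Perm C, ∀ l, ρ l g = recol (S.lett l) α)

/-- the elements which do not see the label of the infinite line -/
def blind {G : Type} [Group G] (ρ : Λ → G →* Perm (Om Θ C)) : Subgroup G where
  carrier := {g | ∀ l l', ρ l g = ρ l' g}
  one_mem' := by intro l l'; simp
  mul_mem' := by
    intro a b ha hb l l'
    rw [map_mul, map_mul, ha l l', hb l l']
  inv_mem' := by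
    intro a ha l l'
    rw [map_inv, map_inv, ha l l']

end gens

namespace StripSys

variable {Θ A Λ C : Type} (S : StripSys Θ A Λ)

/-- type of the line at the left end of the level `j` block of `u` -/
def colL (j : ℕ) (u : ℤ) (τ : Θ) : Θ := S.col (S.w j * (u / S.w j)) τ

/-- type of the line at the right end of the level `j` block of `u` -/
def colR (j : ℕ) (u : ℤ) (τ : Θ) : Θ := S.col (S.w j * (u / S.w j + 1)) τ

/-- level `j` similarity of points of the line -/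
def Sim (j : ℕ) (u : ℤ) (τ : Θ) (u' : ℤ) (τ' : Θ) : Prop :=
  u ≡ u' [ZMOD S.w j] ∧ S.colL j u τ = S.colL j u' τ' ∧ S.colR j u τ = S.colR j u' τ'

/-- `k` has displacement `≤ M` and on `|r| ≤ R` it is determined by level `j` data -/
def LocOn (k : Perm (Om Θ C)) (M R j : ℕ) : Prop :=
  ∀ (u : ℤ) (τ : Θ) (u' : ℤ) (τ' : Θ), S.Sim j u τ u' τ' → ∀ (r : ℤ), |r| ≤ R → ∀ c : C,
    ∃ (du dr : ℤ) (c' : C), |du| ≤ M ∧ |dr| ≤ M ∧
      k (u, r, τ, c) = (u + du, r + dr, τ, c') ∧ k (u', r, τ', c) = (u' + du, r + dr, τ', c')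

/-- locally determined permutations with bounded displacement -/
def IsLoc (k : Perm (Om Θ C)) : Prop := ∃ M : ℕ, ∀ R : ℕ, ∃ j : ℕ, S.LocOn k M R j

/-- domains: bounded in `r`, determined by level `j` data for some `j` -/
def IsDom (D : Set (Om Θ C)) : Prop :=
  (∃ R : ℕ, ∀ p ∈ D, |p.2.1| ≤ R) ∧
  ∃ j : ℕ, ∀ (u : ℤ) (τ : Θ) (u' : ℤ) (τ' : Θ), S.Sim j u τ u' τ' → ∀ (r : ℤ) (c : C),
    ((u, r, τ, c) ∈ D ↔ (u', r, τ', c) ∈ D)

/-- zone of `u` at level `j` -/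
def zone (j : ℕ) (u : ℤ) : Fin 3 :=
  if (u / S.w j) % (3 * (S.b j : ℤ)) < S.b j then 0
  else if (u / S.w j) % (3 * (S.b j : ℤ)) < 2 * S.b j then 1 else 2

/-- index type of the pieces at level `j`: periodic pieces `(u mod w, zone, r, c)` and local pieces
`(class of the centre, type of the centre, u - centre, r, c)` -/
abbrev Pc (Θ C : Type) (w : ℕ) := (ZMod w × Fin 3 × ℤ × C) ⊕ (Fin 3 × Θ × ℤ × ℤ × C)

/-- `D(ω)` : union of the pieces in `ω` -/
def Dset (j : ℕ) (ω : Finset (Pc Θ C (S.w j))) : Set (Om Θ C) :=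
  {p | Sum.inl ((p.1 : ZMod (S.w j)), S.zone j p.1, p.2.1, p.2.2.2) ∈ ω ∨
    ∃ (q : ℤ) (cls : Fin 3), q % (3 * (S.b j : ℤ)) = (cls : ℤ) * S.b j ∧
      Sum.inr (cls, S.col (S.w j * q) p.2.2.1, p.1 - S.w j * q, p.2.1, p.2.2.2) ∈ ω}

/-- index of a regular line of zone `z` -/
def eOf (j : ℕ) (z : Fin 3) : ℕ := if z = 0 then 2 else (z : ℕ) * S.b j + 1

/-- letter on the periodic pieces -/
def perLet (l : Λ) (j : ℕ) (i : ZMod (S.w j)) (z : Fin 3) (r : ℤ) : A :=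
  S.lett l (S.w j * (S.eOf j z : ℤ) + (i.val : ℤ)) r (S.zt 0)

/-- letter on the local pieces -/
def locLet (l : Λ) (j : ℕ) (cls : Fin 3) (t : Θ) (dx r : ℤ) : A :=
  S.lett l (S.w j * ((cls : ℤ) * S.b j) + dx) r t

/-- action of a translation on the pieces -/
def phiT (w : ℕ) (v : C → ℤ × ℤ) : Perm (Pc Θ C w) :=
  Equiv.sumCongr
    { toFun := fun x => (x.1 + (((v x.2.2.2).1 : ℤ) : ZMod w), x.2.1, x.2.2.1 + (v x.2.2.2).2, x.2.2.2)
      invFun := fun x => (x.1 - (((v x.2.2.2).1 : ℤ) : ZMod w), x.2.1, x.2.2.1 - (v x.2.2.2).2, x.2.2.2)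
      left_inv := fun x => by simp
      right_inv := fun x => by simp }
    { toFun := fun x => (x.1, x.2.1, x.2.2.1 + (v x.2.2.2.2).1, x.2.2.2.1 + (v x.2.2.2.2).2, x.2.2.2.2)
      invFun := fun x => (x.1, x.2.1, x.2.2.1 - (v x.2.2.2.2).1, x.2.2.2.1 - (v x.2.2.2.2).2, x.2.2.2.2)
      left_inv := fun x => by simp
      right_inv := fun x => by simp }

/-- action of a recolouring on the pieces -/
def phiC (l : Λ) (j : ℕ) (α : A → Perm C) : Perm (Pc Θ C (S.w j)) :=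
  Equiv.sumCongr
    { toFun := fun x => (x.1, x.2.1, x.2.2.1, α (S.perLet l j x.1 x.2.1 x.2.2.1) x.2.2.2)
      invFun := fun x => (x.1, x.2.1, x.2.2.1, (α (S.perLet l j x.1 x.2.1 x.2.2.1))⁻¹ x.2.2.2)
      left_inv := fun x => by simp
      right_inv := fun x => by simp }
    { toFun := fun x => (x.1, x.2.1, x.2.2.1, x.2.2.2.1,
        α (S.locLet l j x.1 x.2.1 x.2.2.1 x.2.2.2.1) x.2.2.2.2)
      invFun := fun x => (x.1, x.2.1, x.2.2.1, x.2.2.2.1,
        (α (S.locLet l j x.1 x.2.1 x.2.2.1 x.2.2.2.1))⁻¹ x.2.2.2.2)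
      left_inv := fun x => by simp
      right_inv := fun x => by simp }

/-- good sets of pieces: bounded, and containing the full box of radius `N` around all centres -/
structure Good (j N : ℕ) (ω : Finset (Pc Θ C (S.w j))) : Prop where
  one_le : 1 ≤ N
  w_le : S.w j ≤ N
  N_le : N ≤ S.H j
  per : ∀ (i : ZMod (S.w j)) (z : Fin 3) (r : ℤ) (c : C), Sum.inl (i, z, r, c) ∈ ω → |r| ≤ N
  loc : ∀ (cls : Fin 3) (t : Θ) (dx r : ℤ) (c : C), Sum.inr (cls, t, dx, r, c) ∈ ω →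
    |dx| < S.b j * S.w j ∧ |r| ≤ S.H j
  core : ∀ (cls : Fin 3) (t : Θ) (dx r : ℤ) (c : C), |dx| ≤ N → |r| ≤ N →
    Sum.inr (cls, t, dx, r, c) ∈ ω

end StripSys

end Crest.Agent.R189.Strip
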