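import Crest.Agent.R189.StarFacts

/-!
Row 189, module M1 (task 1383), part 4: numeric facts about `sv, tauOf, pos, state, umem`; the stars
produced by (X1), (X2) are allowed; every allowed star with `domP` occurs (parameter `4 ≤ a`).
-/

set_option autoImplicit false
set_option linter.unusedVariables false
set_option linter.unreachableTactic false
set_option linter.unusedTactic false
set_option linter.unnecessarySeqFocus false

namespace Crest.Agent.R189

/-! ### sv, tauOf -/

theorem tauOf_fst {a i : ℕ} (ha : 2 ≤ a) (h1 : 1 ≤ i) (h2 : i < 3 * a) :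
    (tauOf a i).fst = sv a (i - 1) := by
  unfold tauOf sv
  split_ifs <;> first | rfl | (exfalso; omega)

theorem tauOf_snd {a i : ℕ} (ha : 2 ≤ a) (h1 : 1 ≤ i) (h2 : i < 3 * a) :
    (tauOf a i).snd = sv a i := by
  unfold tauOf sv
  split_ifs <;> first | rfl | (exfalso; omega)

theorem tauOf_eq_f0 {a i : ℕ} (ha : 2 ≤ a) : tauOf a i = .f0 ↔ i = 1 := by
  unfold tauOf
  split_ifs <;> simp <;> omega

theorem tauOf_eq_t01 {a i : ℕ} (ha : 2 ≤ a) : tauOf a i = .t01 ↔ i = a := by
  unfold tauOf
  split_ifs <;> simp <;> omega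

theorem tauOf_eq_t11 {a i : ℕ} (ha : 2 ≤ a) : tauOf a i = .t11 ↔ a < i ∧ i < 2 * a := by
  unfold tauOf
  split_ifs <;> simp <;> omega

theorem tauOf_eq_t12 {a i : ℕ} (ha : 2 ≤ a) : tauOf a i = .t12 ↔ i = 2 * a := by
  unfold tauOf
  split_ifs <;> simp <;> omega

theorem tauOf_eq_t00 {a i : ℕ} (ha : 2 ≤ a) : tauOf a i = .t00 ↔ i ≠ 1 ∧ i < a := by
  unfold tauOf
  split_ifs <;> simp <;> omega

theorem tauOf_eq_t22 {a i : ℕ} (ha : 2 ≤ a) : tauOf a i = .t22 ↔ 2 * a < i ∧ i < 3 * a - 1 := by
  unfold tauOf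
  split_ifs <;> simp <;> omega

theorem tauOf_eq_t2l {a i : ℕ} (ha : 2 ≤ a) : tauOf a i = .t2l ↔ 3 * a - 1 ≤ i := by
  unfold tauOf
  split_ifs <;> simp <;> omega

theorem tauOf_active {a i : ℕ} (ha : 2 ≤ a) : (tauOf a i).active = true ↔ a ≤ i ∧ i ≤ 2 * a := by
  unfold tauOf
  split_ifs <;> simp [Tau.active, Tau.cls] <;> omega

theorem tauOf_reset {a i : ℕ} (ha : 2 ≤ a) :
    (tauOf a i).reset = true ↔ i = a ∨ i = 2 * a := by
  unfold tauOf
  split_ifs <;> simp [Tau.reset] <;> omega

/-- for `1 ≤ j' < 3(a+1)`: the type at the next level is reset iff `a+1 ∣ j'` -/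
theorem tauOf_reset_mod {a j' : ℕ} (ha : 1 ≤ a) (h1 : 1 ≤ j') (h2 : j' < 3 * (a + 1)) :
    (tauOf (a + 1) j').reset = true ↔ j' % (a + 1) = 0 := by
  rw [tauOf_reset (by omega)]
  constructor
  · rintro (h | h)
    · rw [h]; exact Nat.mod_self _
    · rw [h]; exact Nat.mul_mod_left 2 (a + 1)
  · intro h
    obtain ⟨k, hk⟩ := Nat.dvd_of_mod_eq_zero h
    have hk0 : 0 < k := by
      rcases Nat.eq_zero_or_pos k with h0 | h0
      · subst h0; omega
      · exact h0
    have hk3 : k < 3 := by
      by_contra h3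
      have : (a + 1) * 3 ≤ (a + 1) * k := Nat.mul_le_mul_left _ (by omega)
      omega
    interval_cases k
    · left; omega
    · right; omega

/-! ### pos -/

theorem pos_val {a j : ℕ} (k : ℕ) (h1 : k * (a + 1) ≤ j) (h2 : j < k * (a + 1) + (a + 1)) :
    pos a j = a + (j - k * (a + 1)) := by
  unfold pos
  obtain ⟨r, rfl⟩ := Nat.exists_eq_add_of_le h1
  have hr : r < a + 1 := by omega
  rw [Nat.add_sub_cancel_left, Nat.mul_comm, Nat.mul_add_mod, Nat.mod_eq_of_lt hr]

theorem le_pos (a j : ℕ) : a ≤ pos a j := by unfold pos; omega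
theorem pos_le (a j : ℕ) : pos a j ≤ 2 * a := by
  unfold pos; have := Nat.mod_lt j (show 0 < a + 1 by omega); omega

/-- a complete case split: `j' < 3(a+1)` is in one of the three phases -/
theorem pos_cases {a j : ℕ} (h : j < 3 * (a + 1)) :
    (j < a + 1 ∧ pos a j = a + j) ∨
    (a + 1 ≤ j ∧ j < 2 * (a + 1) ∧ pos a j = a + (j - (a + 1))) ∨
    (2 * (a + 1) ≤ j ∧ pos a j = a + (j - 2 * (a + 1))) := by
  rcases lt_or_ge j (a + 1) with h1 | h1
  · left
    refine ⟨h1, ?_⟩
    have := pos_val (a := a) (j := j) 0 (by omega) (by omega)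
    simpa using this
  · rcases lt_or_ge j (2 * (a + 1)) with h2 | h2
    · right; left
      refine ⟨h1, h2, ?_⟩
      have := pos_val (a := a) (j := j) 1 (by omega) (by omega)
      simpa using this
    · right; right
      exact ⟨h2, pos_val (a := a) (j := j) 2 (by omega) (by omega)⟩

theorem pos_pred_reset {a j' : ℕ} (h1 : 1 ≤ j') (h2 : j' < 3 * (a + 1)) (h : j' % (a + 1) = 0) :
    pos a (j' - 1) = 2 * a ∧ pos a j' = a := by
  have e1 : pos a j' = a := by unfold pos; omega
  refine ⟨?_, e1⟩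
  have c1 := pos_cases (a := a) (j := j') h2
  have c2 := pos_cases (a := a) (j := j' - 1) (by omega)
  omega

theorem pos_pred_move {a j' : ℕ} (h1 : 1 ≤ j') (h2 : j' < 3 * (a + 1)) (h : j' % (a + 1) ≠ 0) :
    pos a j' = pos a (j' - 1) + 1 ∧ pos a (j' - 1) < 2 * a := by
  have e1 : pos a j' ≠ a := by unfold pos; omega
  have c1 := pos_cases (a := a) (j := j') h2
  have c2 := pos_cases (a := a) (j := j' - 1) (by omega)
  omega

/-! ### state -/

theorem state_of_active {a i j : ℕ} (h1 : a ≤ i) (h2 : i ≤ 2 * a) :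
    state a i j = some (sv (a + 1) j, sgn (pos a j) i) := by
  unfold state; rw [if_pos ⟨h1, h2⟩]

theorem state_of_blank {a i j : ℕ} (h : i < a ∨ 2 * a < i) : state a i j = none := by
  unfold state; rw [if_neg (by omega)]

theorem sgn_p {m i : ℕ} (h : i < m) : sgn m i = .p := by unfold sgn; rw [if_pos h]
theorem sgn_z {m i : ℕ} (h : i = m) : sgn m i = .z := by
  unfold sgn; rw [if_neg (by omega), if_pos h]
theorem sgn_m {m i : ℕ} (h : m < i) : sgn m i = .m := by
  unfold sgn; rw [if_neg (by omega), if_neg (by omega)]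

theorem valid_state {a i j : ℕ} (ha : 2 ≤ a) (hi1 : 1 ≤ i) (hi2 : i < 3 * a)
    (hj : j < 3 * (a + 1)) : validSt (tauOf a i) (state a i j) = true := by
  by_cases hact : a ≤ i ∧ i ≤ 2 * a
  · rw [state_of_active hact.1 hact.2]
    have c1 := pos_cases (a := a) (j := j) hj
    unfold tauOf sv sgn
    split_ifs <;> first | rfl | (exfalso; omega)
  · rw [state_of_blank (by omega)]
    unfold tauOf
    split_ifs <;> first | rfl | (exfalso; omega)

theorem cls_idx {a i : ℕ} (ha : 2 ≤ a) (h1 : a ≤ i) (h2 : i ≤ 2 * a) :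
    ∃ k : Cls, tauOf a i = k.tau ∧ sgn (2 * a) i = rb k ∧ sgn a i = rf k ∧
      (if i < 2 * a then Mem.A else Mem.B) = uf k ∧ (k = .alpha ↔ i = a) ∧ (k = .beta ↔ i = 2 * a) := by
  rcases Nat.eq_or_lt_of_le h1 with h | h
  · refine ⟨.alpha, (tauOf_eq_t01 ha).2 h.symm, sgn_p (by omega), sgn_z h.symm, ?_, ?_, ?_⟩
    · rw [if_pos (by omega)]; rfl
    · simp [h.symm]
    · simp; omega
  · rcases Nat.eq_or_lt_of_le h2 with h' | h'
    · refine ⟨.beta, (tauOf_eq_t12 ha).2 h', sgn_z h', sgn_m h, ?_, ?_, ?_⟩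
      · rw [if_neg (by omega)]; rfl
      · simp; omega
      · simp [h']
    · refine ⟨.mu, (tauOf_eq_t11 ha).2 ⟨h, h'⟩, sgn_p h', sgn_m h, ?_, ?_, ?_⟩
      · rw [if_pos h']; rfl
      · simp; omega
      · simp; omega

/-! ### membership in `coreList` -/

theorem mem_quiet : ∀ (t : Tau) (u : Mem) (ts : Tau), validU t u = true → ts.active = false →
    (⟨t, u, u, ts, none, none⟩ : Core) ∈ coreList := by
  decide +kernel

theorem mem_R : ∀ (t : Tau) (u : Mem) (k : Cls), validU t u = true →
    (⟨t, u, u, k.tau, some (.l, rb k), some (.f, rf k)⟩ : Core) ∈ coreList := by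
  decide +kernel

theorem mem_reset : ∀ (t : Tau) (k : Cls), t.reset = true →
    (⟨t, .A, uf k, k.tau, some (t.fst, rb k), some (t.snd, rf k)⟩ : Core) ∈ coreList := by
  decide +kernel

theorem mem_move : ∀ (t : Tau) (k : Cls), ∀ m ∈ moves, t.reset = false →
    VAL k t.fst m.1 = true → VAL k t.snd m.2.1 = true →
    ¬(t = .f0 ∧ k = .beta ∧ m.2.2.1 = .x) → ¬(t = .t2l ∧ k = .alpha ∧ m.2.2.2 = .x) →
    (⟨t, m.2.2.1, m.2.2.2, k.tau, some (t.fst, m.1), some (t.snd, m.2.1)⟩ : Core) ∈ coreList := by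
  decide +kernel

/-- the move transition of the wire `i` when the marker moves from `m0` to `m0 + 1` -/
def mvOf (i m0 : ℕ) : Rel × Rel × Mem × Mem :=
  if i < m0 then (.p, .p, .A, .A) else if i = m0 then (.z, .p, .A, .x) else
    if i = m0 + 1 then (.m, .z, .x, .B) else (.m, .m, .B, .B)

theorem mvOf_mem (i m0 : ℕ) : mvOf i m0 ∈ moves := by
  unfold mvOf; split_ifs <;> simp [moves]

theorem mvOf_1 (i m0 : ℕ) : (mvOf i m0).1 = sgn m0 i := by
  unfold mvOf sgn; split_ifs <;> first | rfl | (exfalso; omega)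

theorem mvOf_2 (i m0 : ℕ) : (mvOf i m0).2.1 = sgn (m0 + 1) i := by
  unfold mvOf sgn; split_ifs <;> first | rfl | (exfalso; omega)

theorem umem_move_f {a i j' : ℕ} (h : j' % (a + 1) ≠ 0) :
    umem a i j' = (mvOf i (pos a (j' - 1))).2.2.2 := by
  unfold umem mvOf; rw [if_neg h]; split_ifs <;> first | rfl | (exfalso; omega)

theorem umem_move_b {a i j' : ℕ} (h : j' % (a + 1) ≠ 0) (hi : 1 ≤ i) :
    umem a (i - 1) j' = (mvOf i (pos a (j' - 1))).2.2.1 := by
  unfold umem mvOf; rw [if_neg h]; split_ifs <;> first | rfl | (exfalso; omega)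

theorem umem_reset {a i j' : ℕ} (h : j' % (a + 1) = 0) :
    umem a i j' = if i < 2 * a then .A else .B := by
  unfold umem; rw [if_pos h]

/-- the core of the star at the wire `i`, next-level index `j' ≠ 0`, active wire -/
theorem core_active {a i j' : ℕ} (ha : 2 ≤ a) (h1 : a ≤ i) (h2 : i ≤ 2 * a) (hj1 : 1 ≤ j')
    (hj2 : j' < 3 * (a + 1)) :
    (⟨tauOf (a + 1) j', umem a (i - 1) j', umem a i j', tauOf a i, state a i (j' - 1),
      state a i j'⟩ : Core) ∈ coreList := by
  obtain ⟨k, hk, hrb, hrf, huf, hka, hkb⟩ := cls_idx ha h1 h2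
  have hf := tauOf_fst (a := a + 1) (i := j') (by omega) hj1 hj2
  have hs := tauOf_snd (a := a + 1) (i := j') (by omega) hj1 hj2
  have v1 := valid_state (a := a) (i := i) (j := j' - 1) ha (by omega) (by omega) (by omega)
  have v2 := valid_state (a := a) (i := i) (j := j') ha (by omega) (by omega) (by omega)
  rw [state_of_active h1 h2, hk, ← hf] at v1
  rw [state_of_active h1 h2, hk, ← hs] at v2
  rw [state_of_active h1 h2, state_of_active h1 h2, ← hf, ← hs, hk]
  simp only [validSt, Cls.cls_tau] at v1 v2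
  by_cases hr : j' % (a + 1) = 0
  · obtain ⟨p1, p2⟩ := pos_pred_reset hj1 hj2 hr
    rw [p1, p2, hrb, hrf, umem_reset hr, umem_reset hr, if_pos (by omega), huf]
    exact mem_reset _ k ((tauOf_reset_mod (by omega) hj1 hj2).2 hr)
  · obtain ⟨p1, p2⟩ := pos_pred_move hj1 hj2 hr
    have hrs : (tauOf (a + 1) j').reset = false := by
      rw [Bool.eq_false_iff]
      intro h
      exact hr ((tauOf_reset_mod (by omega) hj1 hj2).1 h)
    rw [p1] at v2 ⊢
    rw [← mvOf_2] at v2 ⊢
    rw [← mvOf_1] at v1 ⊢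
    rw [umem_move_b hr (show 1 ≤ i by omega), umem_move_f hr]
    refine mem_move _ k _ (mvOf_mem _ _) hrs v1 v2 ?_ ?_
    · rintro ⟨e1, e2, e3⟩
      have e1' := (tauOf_eq_f0 (by omega)).1 e1
      have e2' := hkb.1 e2
      have c2 := pos_cases (a := a) (j := j' - 1) (by omega)
      unfold mvOf at e3
      split_ifs at e3 <;> simp at e3 <;> omega
    · rintro ⟨e1, e2, e3⟩
      have e1' := (tauOf_eq_t2l (by omega)).1 e1
      have e2' := hka.1 e2
      have c2 := pos_cases (a := a) (j := j' - 1) (by omega)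
      unfold mvOf at e3
      split_ifs at e3 <;> simp at e3 <;> omega

theorem validU_umem {a i j' : ℕ} (ha : 1 ≤ a) (hj1 : 1 ≤ j') (hj2 : j' < 3 * (a + 1)) :
    validU (tauOf (a + 1) j') (umem a i j') = true := by
  by_cases hr : j' % (a + 1) = 0
  · rw [umem_reset hr]
    split_ifs <;> simp [validU]
  · have hrs : (tauOf (a + 1) j').reset = false := by
      rw [Bool.eq_false_iff]
      intro h
      exact hr ((tauOf_reset_mod (by omega) hj1 hj2).1 h)
    simp [validU, hrs]

theorem umem_blank {a i j' : ℕ} (ha : 2 ≤ a) (hi : 1 ≤ i) (h : i < a ∨ 2 * a < i) (hj1 : 1 ≤ j')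
    (hj2 : j' < 3 * (a + 1)) : umem a (i - 1) j' = umem a i j' := by
  by_cases hr : j' % (a + 1) = 0
  · rw [umem_reset hr, umem_reset hr]
    split_ifs <;> first | rfl | (exfalso; omega)
  · obtain ⟨p1, p2⟩ := pos_pred_move hj1 hj2 hr
    have := le_pos a (j' - 1)
    unfold umem
    rw [if_neg hr, if_neg hr]
    split_ifs <;> first | rfl | (exfalso; omega)

/-! ### the stars of (X1), (X2) -/

/-- star at the wire `i` when the next-level index is `j' ≠ 0`, `st` the state of the `P` line -/
def xstar (a i j' : ℕ) (st : Option (S × Rel)) : RStar :=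
  ⟨true, ⟨tauOf (a + 1) j', st, umem a (i - 1) j'⟩, ⟨tauOf (a + 1) j', st, umem a i j'⟩,
    ⟨tauOf a i, state a i (j' - 1), .B⟩, ⟨tauOf a i, state a i j', .A⟩⟩

/-- star at the wire `i` when the next-level index is `0`, `lam` the (constant) label of `P` -/
def qstar (a i : ℕ) (lam : Label) : RStar :=
  ⟨true, lam, lam, ⟨tauOf a i, state a i (3 * (a + 1) - 1), .B⟩, ⟨tauOf a i, state a i 0, .A⟩⟩

theorem not_badX {a i j' j'' : ℕ} (ha : 2 ≤ a) (hj1 : 1 ≤ j') (hj2 : j' < 3 * (a + 1))
    (hj'' : j'' < 3 * (a + 2)) (u u1 u2 : Mem) :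
    ¬ BadX ⟨tauOf (a + 1) j', state (a + 1) j' j'', u⟩ ⟨tauOf a i, state a i (j' - 1), u1⟩
      ⟨tauOf a i, state a i j', u2⟩ := by
  rintro (⟨e1, e2, e3, e4⟩ | ⟨e1, e2, e3, e4⟩)
  · simp only at e1 e2 e3 e4
    rw [tauOf_eq_t11 (by omega)] at e1
    rw [tauOf_eq_t01 (by omega)] at e3
    rw [state_of_active (by omega) (by omega)] at e2 e4
    simp only [Option.some.injEq, Prod.mk.injEq] at e2 e4
    obtain ⟨e2a, e2b⟩ := e2
    obtain ⟨e4a, e4b⟩ := e4
    have c1 := pos_cases (a := a) (j := j' - 1) (by omega)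
    have c2 := pos_cases (a := a + 1) (j := j'') (by omega)
    unfold sgn at e2b e4b
    unfold sv at e2a
    split_ifs at e2b e4b e2a <;> simp at e2b e4b e2a <;> omega
  · simp only at e1 e2 e3 e4
    rw [tauOf_eq_t11 (by omega)] at e1
    rw [tauOf_eq_t12 (by omega)] at e3
    rw [state_of_active (by omega) (by omega)] at e2 e4
    simp only [Option.some.injEq, Prod.mk.injEq] at e2 e4
    obtain ⟨e2a, e2b⟩ := e2
    obtain ⟨e4a, e4b⟩ := e4
    have c1 := pos_cases (a := a) (j := j') (by omega)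
    have c2 := pos_cases (a := a + 1) (j := j'') (by omega)
    unfold sgn at e2b e4b
    unfold sv at e2a
    split_ifs at e2b e4b e2a <;> simp at e2b e4b e2a <;> omega

/-- the stars of (X1), (X2), `j' ≠ 0`, are allowed -/
theorem xstar_OK {a i j' j'' : ℕ} (ha : 2 ≤ a) (hi1 : 1 ≤ i) (hi2 : i < 3 * a) (hj1 : 1 ≤ j')
    (hj2 : j' < 3 * (a + 1)) (hj'' : j'' < 3 * (a + 2)) :
    (xstar a i j' (state (a + 1) j' j'')).OK := by
  have hv := valid_state (a := a + 1) (i := j') (j := j'') (by omega) hj1 hj2 (by omega)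
  simp only [RStar.OK, xstar, if_true]
  refine ⟨rfl, rfl, ⟨hv, not_badX ha hj1 hj2 hj'' _ _ _⟩, rfl, rfl, rfl, ?_⟩
  simp only
  by_cases hact : a ≤ i ∧ i ≤ 2 * a
  · exact core_active ha hact.1 hact.2 hj1 hj2
  · rw [umem_blank ha hi1 (by omega) hj1 hj2, state_of_blank (by omega), state_of_blank (by omega)]
    refine mem_quiet _ _ _ (validU_umem (by omega) hj1 hj2) ?_
    rw [Bool.eq_false_iff]
    intro h
    exact hact ((tauOf_active ha).1 h)

/-- the stars of (X1), (X2), `j' = 0`, are allowed -/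
theorem qstar_OK {a i : ℕ} {lam : Label} (ha : 2 ≤ a) (hlam : lam.Valid = true) :
    (qstar a i lam).OK := by
  simp only [Label.Valid, Bool.and_eq_true] at hlam
  obtain ⟨hv, hu⟩ := hlam
  simp only [RStar.OK, qstar, if_true]
  have e1 : sv (a + 1) (3 * (a + 1) - 1) = .l := by
    unfold sv; rw [if_neg (by omega), if_pos rfl]
  have e2 : sv (a + 1) 0 = .f := by unfold sv; rw [if_pos rfl]
  have e3 : pos a 0 = a := by unfold pos; simp
  have e4 : pos a (3 * (a + 1) - 1) = 2 * a := by
    have := pos_cases (a := a) (j := 3 * (a + 1) - 1) (by omega)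
    omega
  refine ⟨rfl, rfl, ⟨hv, ?_⟩, rfl, rfl, rfl, ?_⟩
  · rintro (⟨-, -, -, h⟩ | ⟨-, -, -, h⟩)
    · simp only at h
      by_cases hact : a ≤ i ∧ i ≤ 2 * a
      · rw [state_of_active hact.1 hact.2, e1] at h; simp at h
      · rw [state_of_blank (by omega)] at h; simp at h
    · simp only at h
      by_cases hact : a ≤ i ∧ i ≤ 2 * a
      · rw [state_of_active hact.1 hact.2, e2] at h; simp at h
      · rw [state_of_blank (by omega)] at h; simp at h
  · simp only
    by_cases hact : a ≤ i ∧ i ≤ 2 * a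
    · obtain ⟨k, hk, hrb, hrf, -, -, -⟩ := cls_idx ha hact.1 hact.2
      rw [state_of_active hact.1 hact.2, state_of_active hact.1 hact.2, e1, e2, e3, e4, hrb, hrf,
        hk]
      exact mem_R _ _ _ hu
    · rw [state_of_blank (by omega), state_of_blank (by omega)]
      refine mem_quiet _ _ _ hu ?_
      rw [Bool.eq_false_iff]
      intro h
      exact hact ((tauOf_active ha).1 h)

/-! ### every state of a class is realised -/

theorem real_alpha {a : ℕ} (ha : 2 ≤ a) {s : S} {r : Rel} (h : VAL .alpha s r = true) :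
    ∃ j, j < 3 * (a + 1) ∧ state a a j = some (s, r) := by
  rcases s <;> rcases r <;> simp [VAL] at h
  · refine ⟨0, by omega, ?_⟩
    have c := pos_cases (a := a) (j := 0) (by omega)
    rw [state_of_active le_rfl (by omega)]; unfold sv sgn; split_ifs <;> first | rfl | (exfalso; omega)
  · refine ⟨1, by omega, ?_⟩
    have c := pos_cases (a := a) (j := 1) (by omega)
    rw [state_of_active le_rfl (by omega)]; unfold sv sgn; split_ifs <;> first | rfl | (exfalso; omega)
  · refine ⟨a + 1, by omega, ?_⟩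
    have c := pos_cases (a := a) (j := a + 1) (by omega)
    rw [state_of_active le_rfl (by omega)]; unfold sv sgn; split_ifs <;> first | rfl | (exfalso; omega)
  · refine ⟨a + 2, by omega, ?_⟩
    have c := pos_cases (a := a) (j := a + 2) (by omega)
    rw [state_of_active le_rfl (by omega)]; unfold sv sgn; split_ifs <;> first | rfl | (exfalso; omega)
  · refine ⟨2 * (a + 1), by omega, ?_⟩
    have c := pos_cases (a := a) (j := 2 * (a + 1)) (by omega)
    rw [state_of_active le_rfl (by omega)]; unfold sv sgn; split_ifs <;> first | rfl | (exfalso; omega)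
  · refine ⟨2 * (a + 1) + 1, by omega, ?_⟩
    have c := pos_cases (a := a) (j := 2 * (a + 1) + 1) (by omega)
    rw [state_of_active le_rfl (by omega)]; unfold sv sgn; split_ifs <;> first | rfl | (exfalso; omega)
  · refine ⟨3 * (a + 1) - 1, by omega, ?_⟩
    have c := pos_cases (a := a) (j := 3 * (a + 1) - 1) (by omega)
    rw [state_of_active le_rfl (by omega)]; unfold sv sgn; split_ifs <;> first | rfl | (exfalso; omega)

theorem real_beta {a : ℕ} (ha : 2 ≤ a) {s : S} {r : Rel} (h : VAL .beta s r = true) :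
    ∃ j, j < 3 * (a + 1) ∧ state a (2 * a) j = some (s, r) := by
  rcases s <;> rcases r <;> simp [VAL] at h
  · refine ⟨0, by omega, ?_⟩
    have c := pos_cases (a := a) (j := 0) (by omega)
    rw [state_of_active (by omega) le_rfl]; unfold sv sgn; split_ifs <;> first | rfl | (exfalso; omega)
  · refine ⟨1, by omega, ?_⟩
    have c := pos_cases (a := a) (j := 1) (by omega)
    rw [state_of_active (by omega) le_rfl]; unfold sv sgn; split_ifs <;> first | rfl | (exfalso; omega)
  · refine ⟨a, by omega, ?_⟩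
    have c := pos_cases (a := a) (j := a) (by omega)
    rw [state_of_active (by omega) le_rfl]; unfold sv sgn; split_ifs <;> first | rfl | (exfalso; omega)
  · refine ⟨a + 1, by omega, ?_⟩
    have c := pos_cases (a := a) (j := a + 1) (by omega)
    rw [state_of_active (by omega) le_rfl]; unfold sv sgn; split_ifs <;> first | rfl | (exfalso; omega)
  · refine ⟨2 * a + 1, by omega, ?_⟩
    have c := pos_cases (a := a) (j := 2 * a + 1) (by omega)
    rw [state_of_active (by omega) le_rfl]; unfold sv sgn; split_ifs <;> first | rfl | (exfalso; omega)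
  · refine ⟨2 * (a + 1), by omega, ?_⟩
    have c := pos_cases (a := a) (j := 2 * (a + 1)) (by omega)
    rw [state_of_active (by omega) le_rfl]; unfold sv sgn; split_ifs <;> first | rfl | (exfalso; omega)
  · refine ⟨3 * (a + 1) - 1, by omega, ?_⟩
    have c := pos_cases (a := a) (j := 3 * (a + 1) - 1) (by omega)
    rw [state_of_active (by omega) le_rfl]; unfold sv sgn; split_ifs <;> first | rfl | (exfalso; omega)

theorem real_mu {a i : ℕ} (ha : 2 ≤ a) (h1 : a < i) (h2 : i < 2 * a) {s : S} {r : Rel}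
    (h : VAL .mu s r = true) (hx : ¬(i = a + 1 ∧ s = .s0 ∧ r = .m))
    (hy : ¬(i = 2 * a - 1 ∧ s = .s2 ∧ r = .p)) :
    ∃ j, j < 3 * (a + 1) ∧ state a i j = some (s, r) := by
  rcases s <;> rcases r <;> simp [VAL] at h hx hy
  · refine ⟨0, by omega, ?_⟩
    have c := pos_cases (a := a) (j := 0) (by omega)
    rw [state_of_active h1.le h2.le]; unfold sv sgn; split_ifs <;> first | rfl | (exfalso; omega)
  · refine ⟨1, by omega, ?_⟩
    have c := pos_cases (a := a) (j := 1) (by omega)
    rw [state_of_active h1.le h2.le]; unfold sv sgn; split_ifs <;> first | rfl | (exfalso; omega)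
  · refine ⟨i - a, by omega, ?_⟩
    have c := pos_cases (a := a) (j := i - a) (by omega)
    rw [state_of_active h1.le h2.le]; unfold sv sgn; split_ifs <;> first | rfl | (exfalso; omega)
  · refine ⟨a, by omega, ?_⟩
    have c := pos_cases (a := a) (j := a) (by omega)
    rw [state_of_active h1.le h2.le]; unfold sv sgn; split_ifs <;> first | rfl | (exfalso; omega)
  · refine ⟨a + 1, by omega, ?_⟩
    have c := pos_cases (a := a) (j := a + 1) (by omega)
    rw [state_of_active h1.le h2.le]; unfold sv sgn; split_ifs <;> first | rfl | (exfalso; omega)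
  · refine ⟨i + 1, by omega, ?_⟩
    have c := pos_cases (a := a) (j := i + 1) (by omega)
    rw [state_of_active h1.le h2.le]; unfold sv sgn; split_ifs <;> first | rfl | (exfalso; omega)
  · refine ⟨2 * a + 1, by omega, ?_⟩
    have c := pos_cases (a := a) (j := 2 * a + 1) (by omega)
    rw [state_of_active h1.le h2.le]; unfold sv sgn; split_ifs <;> first | rfl | (exfalso; omega)
  · refine ⟨2 * a + 2, by omega, ?_⟩
    have c := pos_cases (a := a) (j := 2 * a + 2) (by omega)
    rw [state_of_active h1.le h2.le]; unfold sv sgn; split_ifs <;> first | rfl | (exfalso; omega)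
  · refine ⟨i + a + 2, by omega, ?_⟩
    have c := pos_cases (a := a) (j := i + a + 2) (by omega)
    rw [state_of_active h1.le h2.le]; unfold sv sgn; split_ifs <;> first | rfl | (exfalso; omega)
  · refine ⟨3 * a + 1, by omega, ?_⟩
    have c := pos_cases (a := a) (j := 3 * a + 1) (by omega)
    rw [state_of_active h1.le h2.le]; unfold sv sgn; split_ifs <;> first | rfl | (exfalso; omega)
  · refine ⟨3 * (a + 1) - 1, by omega, ?_⟩
    have c := pos_cases (a := a) (j := 3 * (a + 1) - 1) (by omega)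
    rw [state_of_active h1.le h2.le]; unfold sv sgn; split_ifs <;> first | rfl | (exfalso; omega)

set_option linter.unusedVariables false in
/-- generates the equation lemmas of the definitions of this file (needed by the joint check) -/
theorem starOcc_touch : True := by
  have := @mvOf.eq_1
  have := @mvOf.eq_def
  have := @xstar.eq_1
  have := @xstar.eq_def
  have := @qstar.eq_1
  have := @qstar.eq_def
  trivial

end Crest.Agent.R189
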