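import Crest.Agent.R189.XWin
import Crest.Agent.R189.StarOcc

/-!
Row 189 (S0289), helper869.  All stars of the explicit configurations are allowed.
-/

set_option autoImplicit false

namespace Crest.Agent.R189

/-! ### validity of labels -/

theorem V_valid {a : ℕ} (ha : 3 ≤ a) (s : Star) (x y : ℤ) : (V a s x y).Valid = true := by
  suffices h : ∀ (m a : ℕ) (x y : ℤ), 3 ≤ a → x.natAbs ≤ m → (V a s x y).Valid = true from
    h _ a x y ha le_rfl
  intro m
  induction m with
  | zero =>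
    intro a x y ha hm
    have h1 : x = 0 := by omega
    subst h1
    rw [V_zero]
    split_ifs
    · exact s.Pf_valid
    · exact s.Pb_valid
  | succ m ih =>
    intro a x y ha hm
    by_cases hd : dg (3 * (a + 1)) x = 0
    · obtain ⟨x, rfl⟩ := (dg_eq_zero (by omega)).1 hd
      rw [V_mul (by omega)]
      apply ih (a + 2) x _ (by omega)
      rw [Int.natAbs_mul] at hm
      have e1 : (((3 * (a + 1) : ℕ) : ℤ)).natAbs = 3 * (a + 1) := rfl
      rw [e1] at hm
      nlinarith [Nat.zero_le (a * x.natAbs)]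
    · rw [V_of_ne _ _ hd]
      simp only [Label.Valid, Bool.and_eq_true]
      exact ⟨valid_state (by omega) (by omega) (dg_lt (by omega) _) (dg_lt (by omega) _),
        validU_umem (by omega) (by omega) (dg_lt (by omega) _)⟩

/-! ### digits of predecessors -/

private theorem dg_sub_one {n : ℕ} (hn : 0 < n) {x : ℤ} (h : dg n x ≠ 0) : dg n (x - 1) = dg n x - 1 := by
  have h1 := div_mul_add_dg hn x
  have h2 : x - 1 = ((dg n x - 1 : ℕ) : ℤ) + n * (x / n) := by
    push_cast [Nat.cast_sub (show 1 ≤ dg n x by omega)]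
    linarith
  have h3 := dg_lt hn x
  rw [h2, dg_add_mul, dg_natCast (by omega)]

private theorem sub_one_div {n : ℕ} (hn : 0 < n) {x : ℤ} (h : dg n x ≠ 0) :
    (x - 1) / (n : ℤ) = x / (n : ℤ) := by
  have h1 := div_mul_add_dg hn x
  have h2 : x - 1 = ((dg n x - 1 : ℕ) : ℤ) + n * (x / n) := by
    push_cast [Nat.cast_sub (show 1 ≤ dg n x by omega)]
    linarith
  have h3 := dg_lt hn x
  rw [h2, Int.add_mul_ediv_left _ _ (by exact_mod_cast hn.ne'),
    Int.ediv_eq_zero_of_lt (by positivity) (by exact_mod_cast (by omega : dg n x - 1 < n))]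
  ring

/-- explicit star at a row of the lowest order, column of the next order -/
theorem rstar_I {a : ℕ} (s : Star) {x y : ℤ} (hy : dg (3 * a) y ≠ 0)
    (hx : dg (3 * (a + 1)) x ≠ 0) (ha : 1 ≤ a) :
    rstar a s x y =
      ⟨true, ⟨tauOf (a + 1) (dg (3 * (a + 1)) x),
          state (a + 1) (dg (3 * (a + 1)) x) (dg (3 * (a + 2)) (y / ((3 * a : ℕ) : ℤ))),
          umem a (dg (3 * a) y - 1) (dg (3 * (a + 1)) x)⟩,
        ⟨tauOf (a + 1) (dg (3 * (a + 1)) x),
          state (a + 1) (dg (3 * (a + 1)) x) (dg (3 * (a + 2)) (y / ((3 * a : ℕ) : ℤ))),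
          umem a (dg (3 * a) y) (dg (3 * (a + 1)) x)⟩,
        ⟨tauOf a (dg (3 * a) y), state a (dg (3 * a) y) (dg (3 * (a + 1)) x - 1), .B⟩,
        ⟨tauOf a (dg (3 * a) y), state a (dg (3 * a) y) (dg (3 * (a + 1)) x), .A⟩⟩ := by
  unfold rstar
  rw [dom_of_ne _ _ hy, V_of_ne _ _ hx, V_of_ne _ _ hx, Hb, Hf, if_neg hy, if_neg hy,
    dg_sub_one (by omega) hy, sub_one_div (by omega) hy, dg_sub_one (by omega) hx]

/-- explicit star at a row of the lowest order, column of higher order -/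
theorem rstar_Q {a : ℕ} (s : Star) {y : ℤ} (x : ℤ) (hy : dg (3 * a) y ≠ 0) (ha : 1 ≤ a) :
    rstar a s (((3 * (a + 1) : ℕ) : ℤ) * x) y =
      ⟨true, V (a + 2) s x (y / ((3 * a : ℕ) : ℤ)), V (a + 2) s x (y / ((3 * a : ℕ) : ℤ)),
        ⟨tauOf a (dg (3 * a) y), state a (dg (3 * a) y) (3 * (a + 1) - 1), .B⟩,
        ⟨tauOf a (dg (3 * a) y), state a (dg (3 * a) y) 0, .A⟩⟩ := by
  unfold rstar
  rw [dom_of_ne _ _ hy, V_mul ha, V_mul ha, Hb, Hf, if_neg hy, if_neg hy,
    sub_one_div (by omega) hy, dg_mul (by omega), dg_mul_sub_one (by omega)]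

theorem rstar_ok_base {a : ℕ} (ha : 3 ≤ a) (s : Star) {x y : ℤ} (hy : dg (3 * a) y ≠ 0) :
    (rstar a s x y).OK := by
  by_cases hx : dg (3 * (a + 1)) x = 0
  · obtain ⟨x, rfl⟩ := (dg_eq_zero (by omega)).1 hx
    rw [rstar_Q s x hy (by omega)]
    exact qstar_OK (by omega) (V_valid (by omega) _ _ _)
  · rw [rstar_I s hy hx (by omega)]
    exact xstar_OK (by omega) (by omega) (dg_lt (by omega) _) (by omega) (dg_lt (by omega) _)
      (dg_lt (by omega) _)

theorem rstar_ok {a : ℕ} (ha : 3 ≤ a) (s : Star) (x y : ℤ) : (rstar a s x y).OK := by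
  suffices h : ∀ (m a : ℕ) (x y : ℤ), 3 ≤ a → x.natAbs + y.natAbs ≤ m → (rstar a s x y).OK from
    h _ a x y ha le_rfl
  intro m
  induction m with
  | zero =>
    intro a x y ha hm
    have h1 : x = 0 := by omega
    have h2 : y = 0 := by omega
    subst h1; subst h2
    rw [rstar_zero]; exact s.2
  | succ m ih =>
    intro a x y ha hm
    by_cases h0 : x = 0 ∧ y = 0
    · obtain ⟨rfl, rfl⟩ := h0
      rw [rstar_zero]; exact s.2
    by_cases hd : dg (3 * a) y = 0
    · obtain ⟨y, rfl⟩ := (dg_eq_zero (by omega)).1 hd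
      by_cases hd' : dg (3 * (a + 1)) x = 0
      · obtain ⟨x, rfl⟩ := (dg_eq_zero (by omega)).1 hd'
        rw [rstar_flip2 (by omega)]
        apply ih (a + 2) x y (by omega)
        rw [Int.natAbs_mul, Int.natAbs_mul] at hm
        have e1 : (((3 * (a + 1) : ℕ) : ℤ)).natAbs = 3 * (a + 1) := rfl
        have e2 : (((3 * a : ℕ) : ℤ)).natAbs = 3 * a := rfl
        rw [e1, e2] at hm
        have hkl : x.natAbs ≠ 0 ∨ y.natAbs ≠ 0 := by
          by_contra h
          push Not at h
          apply h0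
          rw [Int.natAbs_eq_zero.1 h.1, Int.natAbs_eq_zero.1 h.2]; simp
        have h3 : 3 * x.natAbs ≤ a * x.natAbs := Nat.mul_le_mul_right _ ha
        have h4 : 3 * y.natAbs ≤ a * y.natAbs := Nat.mul_le_mul_right _ ha
        have hm' : 3 * (a * x.natAbs) + 3 * x.natAbs + 3 * (a * y.natAbs) ≤ m + 1 := by
          calc _ = 3 * (a + 1) * x.natAbs + 3 * a * y.natAbs := by ring
            _ ≤ _ := hm
        omega
      · rw [rstar_flip (by omega)]
        exact RStar.OK_flip (rstar_ok_base (by omega) _ hd')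
    · exact rstar_ok_base ha s hd

/-- bundle an allowed star -/
def mkStar (r : RStar) (h : r.OK) : Star := ⟨r, h⟩

@[simp] theorem mkStar_val (r : RStar) (h : r.OK) : (mkStar r h).1 = r := rfl

/-- the star at `(x,y)` (junk if `a < 3`) -/
def star (a : ℕ) (s : Star) (x y : ℤ) : Star :=
  if h : (rstar a s x y).OK then mkStar (rstar a s x y) h else s

theorem star_val {a : ℕ} (ha : 3 ≤ a) (s : Star) (x y : ℤ) :
    (star a s x y).1 = rstar a s x y := by
  unfold star
  rw [dif_pos (rstar_ok ha s x y), mkStar_val]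

/-- the letter of a point: digit and star at the pointer (base level `a = 3`) -/
def letter (x : X) : Fin 9 × Star :=
  (⟨dg 9 x.p.2, dg_lt (by norm_num) _⟩, star 3 x.s x.p.1 x.p.2)

theorem letter_eq_iff {x y : X} : letter x = letter y ↔
    dg 9 x.p.2 = dg 9 y.p.2 ∧ rstar 3 x.s x.p.1 x.p.2 = rstar 3 y.s y.p.1 y.p.2 := by
  rw [letter, letter, Prod.mk.injEq, Fin.mk.injEq]
  constructor
  · rintro ⟨h1, h2⟩
    refine ⟨h1, ?_⟩
    rw [← star_val le_rfl, ← star_val le_rfl, h2]
  · rintro ⟨h1, h2⟩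
    refine ⟨h1, ?_⟩
    apply Subtype.ext
    rw [star_val le_rfl, star_val le_rfl, h2]

end Crest.Agent.R189
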