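import Crest.Agent.R189.SysStrip
import Crest.Agent.R189.XOK
import Crest.Agent.R189.PWGrow
import Crest.Agent.R189.StripDefs

/-!
Row 189 (S0289), helper435.  The two instances of helper84's `Strip.StripSys` for the concrete
system: `rowSys` (infinite Q line, `u = x`, `r = y`) and `colSys` (infinite P line, `u = y`,
`r = x`).
-/

set_option autoImplicit false

namespace Crest.Agent.R189

/-- types in the three zones -/
def zoneTau (z : ℕ) : Tau := if z = 0 then .t00 else if z = 1 then .t11 else .t22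

theorem Sys.tauOf_zone {b e : ℕ} (hb : 2 ≤ b) (_h0 : 0 < e) (h1 : e < 3 * b) (h2 : e ≠ 1) (h3 : e ≠ b)
    (h4 : e ≠ 2 * b) (h5 : e + 1 ≠ 3 * b) : tauOf b e = zoneTau (e / b) := by
  unfold tauOf zoneTau
  rcases lt_or_ge e b with h | h
  · rw [Nat.div_eq_of_lt h, if_neg h2, if_pos h, if_pos rfl]
  · rcases lt_or_ge e (2 * b) with h' | h'
    · have : e / b = 1 := by
        rw [Nat.div_eq_iff (by omega)]; constructor <;> omega
      rw [this, if_neg h2, if_neg (by omega), if_neg h3, if_pos h', if_neg (by omega), if_pos rfl]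
    · have : e / b = 2 := by
        rw [Nat.div_eq_iff (by omega)]; constructor <;> omega
      rw [this, if_neg h2, if_neg (by omega), if_neg h3, if_neg (by omega), if_neg h4,
        if_pos (by omega), if_neg (by omega), if_neg (by omega)]

/-- letter at `(x,y)` in the configuration with corner star `s` -/
def lett (s : Star) (x y : ℤ) : Fin 9 × Star := letter ⟨(x, y), s⟩

theorem lett_eq {s s' : Star} {x y x' y' : ℤ} (h1 : dg 9 y = dg 9 y')
    (h2 : rstar 3 s x y = rstar 3 s' x' y') : lett s x y = lett s' x' y' :=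
  letter_eq_iff.2 ⟨h1, h2⟩

/-- the rows -/
noncomputable def rowSys : Strip.StripSys Tau (Fin 9 × Star) VLab where
  w j := PW 4 j
  b j := 4 + 2 * j
  H j := PW 3 j * (3 + 2 * j) - 1
  w_zero := by simp
  w_succ j := by rw [PW_succ']; ring
  three_le_b j := by omega
  tauOf j e := tauOf (4 + 2 * j) e
  zt := zoneTau
  tau_zone j e h0 h1 h2 h3 h4 h5 := Sys.tauOf_zone (by omega) h0 h1 h2 h3 h4 h5
  col u t := ptau 3 t u
  col_zero t := ptau_zero 3 t
  col_level j q t hq := by
    have e : ((PW (3 + 1) j : ℕ) : ℤ) * q = (PW 4 j : ℤ) * q := rfl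
    rw [← e, ptau_coarse (by omega), ptau_of_ne]
    · have e1 : 3 + 2 * j + 1 = 4 + 2 * j := by ring
      rw [e1]; rfl
    · rw [Ne, dg_eq_zero (by omega), Int.dvd_iff_emod_eq_zero]
      have e1 : ((3 * (3 + 2 * j + 1) : ℕ) : ℤ) = 3 * ((4 + 2 * j : ℕ) : ℤ) := by push_cast; ring
      rwa [e1]
  lett L u r t := lett (hStar L t) u r
  lett_off L L' u r t hr := lett_eq rfl (rstar_row_off (by omega) L L' t u hr)
  lett_strip L j r hr u u' t t' huu hcol := by
    refine lett_eq rfl (rstar_row (a := 3) (by omega) L t t' (j := j) ?_ huu hcol)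
    have hp := PW_pos (a := 3) (by omega) j
    have h2 : 0 < PW 3 j * (3 + 2 * j) := by positivity
    have : ((PW 3 j * (3 + 2 * j) - 1 : ℕ) : ℤ) = ((PW 3 j * (3 + 2 * j) : ℕ) : ℤ) - 1 := by
      push_cast [Nat.cast_sub (show 1 ≤ PW 3 j * (3 + 2 * j) by omega)]; ring
    rw [this] at hr
    omega
  H_le j := PW_H_le_row j
  H_grow M := PW_grow_row M

/-- the columns -/
noncomputable def colSys : Strip.StripSys Tau (Fin 9 × Star) VLab where
  w j := PW 3 (j + 1)
  b j := 5 + 2 * j
  H j := PW 4 j * (4 + 2 * j) - 1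
  w_zero := PW_pos (by omega) _
  w_succ j := by rw [PW_succ']; ring
  three_le_b j := by omega
  tauOf j e := tauOf (5 + 2 * j) e
  zt := zoneTau
  tau_zone j e h0 h1 h2 h3 h4 h5 := Sys.tauOf_zone (by omega) h0 h1 h2 h3 h4 h5
  col u t := qtau 3 t u
  col_zero t := qtau_zero 3 t
  col_level j q t hq := by
    have e : (PW 3 (j + 1) : ℤ) * q = ((3 * 3 : ℕ) : ℤ) * (((PW (4 + 1) j : ℕ) : ℤ) * q) := by
      rw [PW_succ]; push_cast; ring
    rw [e, qtau_mul (by omega), ptau_coarse (by omega), ptau_of_ne]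
    · have e1 : 3 + 1 + 2 * j + 1 = 5 + 2 * j := by ring
      rw [e1]; rfl
    · rw [Ne, dg_eq_zero (by omega), Int.dvd_iff_emod_eq_zero]
      have e1 : ((3 * (3 + 1 + 2 * j + 1) : ℕ) : ℤ) = 3 * ((5 + 2 * j : ℕ) : ℤ) := by
        push_cast; ring
      rwa [e1]
  lett L u r t := lett (vStar L t) r u
  lett_off L L' u r t hr := lett_eq rfl (rstar_col_off (by omega) L L' t u hr)
  lett_strip L j r hr u u' t t' huu hcol := by
    refine lett_eq (dg_congr_mod (N := PW 3 (j + 1)) ?_ huu)
      (rstar_col (a := 3) (by omega) L t t' (j := j) ?_ huu hcol)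
    · rw [PW_succ]; exact Dvd.intro _ rfl
    · have hp := PW_pos (a := 4) (by omega) j
      have h2 : 0 < PW 4 j * (4 + 2 * j) := by positivity
      have : ((PW 4 j * (4 + 2 * j) - 1 : ℕ) : ℤ) = ((PW 4 j * (4 + 2 * j) : ℕ) : ℤ) - 1 := by
        push_cast [Nat.cast_sub (show 1 ≤ PW 4 j * (4 + 2 * j) by omega)]; ring
      rw [this] at hr
      show |r| < ((PW 4 j * (4 + 2 * j) : ℕ) : ℤ)
      omega
  H_le j := PW_H_le_col j
  H_grow M := PW_grow_col M

end Crest.Agent.R189
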