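import Crest.Agent.R189.AmenX
import Crest.Agent.R189.StripInst

/-!
# Row 189: `Gp` is amenable (helper31, integration)
-/

set_option autoImplicit false

namespace Crest.Agent.R189

/-- **Amenability of the group** (Reiter form) -/
theorem amen_Gp (C : Type) [Fintype C] [DecidableEq C] :
    Amen (Gp (ℤ × ℤ) letter C) :=
  amen_Gp_of C rowSys (fun _ _ _ _ => rfl) colSys (fun _ _ _ _ => rfl)

/-- amenability in the sense of the frozen definition -/
theorem amenable_Gp (C : Type) [Fintype C] [DecidableEq C] :
    Crest.GroupTheory.Amenable (Gp (ℤ × ℤ) letter C) := (amen_Gp C).amenable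

end Crest.Agent.R189
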