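import Crest.Agent.R189.AmenRep
import Crest.Agent.R189.StripDefs

/-!
Row 189, M14: amenability of `Gp` for a system described by `SysData` (facts about the letters,
two strip systems).
-/

set_option autoImplicit false
set_option linter.unusedSectionVars false

namespace Crest.Agent.R189

open Equiv

variable {A C Θ Λ : Type} [Finite A] [Fintype C] [DecidableEq C] (letter : X → A)

/-- the representation on `Om Θ C` given by a family of stars and coordinates `e` -/
def famRep (st : Θ → Star) (e : (ℤ × ℤ) ≃+ (ℤ × ℤ)) :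
    Gp (ℤ × ℤ) letter C →* Perm (Strip.Om Θ C) where
  toFun g :=
    { toFun := fun q => ((e (rep letter (st q.2.2.1) g (e.symm (q.1, q.2.1), q.2.2.2)).1).1,
        (e (rep letter (st q.2.2.1) g (e.symm (q.1, q.2.1), q.2.2.2)).1).2, q.2.2.1,
        (rep letter (st q.2.2.1) g (e.symm (q.1, q.2.1), q.2.2.2)).2)
      invFun := fun q => ((e (rep letter (st q.2.2.1) g⁻¹ (e.symm (q.1, q.2.1), q.2.2.2)).1).1,
        (e (rep letter (st q.2.2.1) g⁻¹ (e.symm (q.1, q.2.1), q.2.2.2)).1).2, q.2.2.1,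
        (rep letter (st q.2.2.1) g⁻¹ (e.symm (q.1, q.2.1), q.2.2.2)).2)
      left_inv := by
        rintro ⟨u, r, τ, c⟩
        have h1 : ∀ x, (rep letter (st τ) g)⁻¹ (rep letter (st τ) g x) = x :=
          fun x => (rep letter (st τ) g).symm_apply_apply x
        simp only [Prod.mk.eta, AddEquiv.symm_apply_apply, map_inv, h1,
          AddEquiv.apply_symm_apply]
      right_inv := by
        rintro ⟨u, r, τ, c⟩
        have h1 : ∀ x, rep letter (st τ) g ((rep letter (st τ) g)⁻¹ x) = x :=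
          fun x => (rep letter (st τ) g).apply_symm_apply x
        simp only [Prod.mk.eta, AddEquiv.symm_apply_apply, map_inv, h1,
          AddEquiv.apply_symm_apply] }
  map_one' := by
    refine Equiv.ext fun q => ?_
    obtain ⟨u, r, τ, c⟩ := q
    simp
  map_mul' g h := by
    refine Equiv.ext fun q => ?_
    obtain ⟨u, r, τ, c⟩ := q
    simp [Perm.mul_apply]

theorem famRep_apply (st : Θ → Star) (e : (ℤ × ℤ) ≃+ (ℤ × ℤ)) (g : Gp (ℤ × ℤ) letter C)
    (u r : ℤ) (τ : Θ) (c : C) : famRep letter st e g (u, r, τ, c) =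
      ((e (rep letter (st τ) g (e.symm (u, r), c)).1).1,
        (e (rep letter (st τ) g (e.symm (u, r), c)).1).2, τ,
        (rep letter (st τ) g (e.symm (u, r), c)).2) := rfl

theorem famRep_eq_iff (st st' : Θ → Star) (e : (ℤ × ℤ) ≃+ (ℤ × ℤ)) (g : Gp (ℤ × ℤ) letter C) :
    famRep letter st e g = famRep letter st' e g ↔ ∀ τ, rep letter (st τ) g = rep letter (st' τ) g := by
  constructor
  · intro h τ
    refine Equiv.ext fun q => ?_
    obtain ⟨p, c⟩ := q
    have h1 := Equiv.ext_iff.1 h ((e p).1, (e p).2, τ, c)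
    rw [famRep_apply, famRep_apply] at h1
    simp only [Prod.mk.eta, AddEquiv.symm_apply_apply, Prod.mk.injEq, true_and] at h1
    refine Prod.ext ?_ h1.2.2
    apply e.injective
    exact Prod.ext h1.1 h1.2.1
  · intro h
    refine Equiv.ext fun q => ?_
    obtain ⟨u, r, τ, c⟩ := q
    rw [famRep_apply, famRep_apply, h τ]

theorem blind_famRep (st : Λ → Θ → Star) (e : (ℤ × ℤ) ≃+ (ℤ × ℤ)) :
    Strip.blind (fun l => famRep letter (C := C) (st l) e) = blindFam (rep letter) st := by
  ext g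
  show (∀ l l', famRep letter (st l) e g = famRep letter (st l') e g) ↔ _
  rw [mem_blindFam]
  simp only [famRep_eq_iff]

/-! ### unit generators -/

/-- generators with displacements bounded by one -/
def unitGens : Set (Gp (ℤ × ℤ) letter C) :=
  {g | (∃ lam : C → ℤ × ℤ, (∀ c, |(lam c).1| ≤ 1 ∧ |(lam c).2| ≤ 1) ∧
      (g : Perm (X × C)) = H lam) ∨
    (∃ α : A → Perm C, ∀ x c, (g : Perm (X × C)) (x, c) = (x, α (letter x) c))}

/-- elementary displacement -/
def dlt (a b : C) (v : ℤ × ℤ) : C → ℤ × ℤ := Pi.single a v - Pi.single b v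

theorem dlt_sum (a b : C) (v : ℤ × ℤ) : ∑ c, dlt a b v c = 0 := by
  simp [dlt, Finset.sum_sub_distrib]

theorem dlt_add (a b : C) (v w : ℤ × ℤ) : dlt a b (v + w) = dlt a b v + dlt a b w := by
  unfold dlt; rw [Pi.single_add, Pi.single_add]; abel

/-- `v ↦ H (dlt a b v)` -/
def dltHom (a b : C) : Multiplicative (ℤ × ℤ) →* Gp (ℤ × ℤ) letter C where
  toFun v := ⟨H (dlt a b v.toAdd), H_mem_Gp (dlt_sum a b _)⟩
  map_one' := by
    refine Subtype.ext ?_
    show H (dlt a b 0) = 1
    have : dlt a b (0 : ℤ × ℤ) = 0 := by simp [dlt]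
    rw [this, H_zero]
  map_mul' v w := by
    refine Subtype.ext ?_
    show H (dlt a b (v.toAdd + w.toAdd)) = _
    rw [dlt_add, H_add]; rfl

theorem dltHom_mem (a b : C) (v : ℤ × ℤ) :
    dltHom letter a b (Multiplicative.ofAdd v) ∈ Subgroup.closure (unitGens (C := C) letter) := by
  have hunit : ∀ v : ℤ × ℤ, |v.1| ≤ 1 → |v.2| ≤ 1 → a ≠ b →
      dltHom letter a b (Multiplicative.ofAdd v) ∈ Subgroup.closure (unitGens (C := C) letter) := by
    intro v h1 h2 hab
    refine Subgroup.subset_closure (Or.inl ⟨dlt a b v, fun c => ?_, rfl⟩)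
    unfold dlt
    by_cases ha : c = a
    · subst ha
      simp only [Pi.sub_apply, Pi.single_eq_same, Pi.single_eq_of_ne hab, sub_zero]
      exact ⟨h1, h2⟩
    · by_cases hb : c = b
      · subst hb
        simp only [Pi.sub_apply, Pi.single_eq_same, Pi.single_eq_of_ne ha, zero_sub, Prod.fst_neg,
          Prod.snd_neg, abs_neg]
        exact ⟨h1, h2⟩
      · simp [Pi.single_eq_of_ne ha, Pi.single_eq_of_ne hb]
  by_cases hab : a = b
  · subst hab
    have : dltHom letter a a (Multiplicative.ofAdd v) = (1 : Gp (ℤ × ℤ) letter C) := by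
      refine Subtype.ext ?_
      show H (dlt a a v) = 1
      have : dlt a a v = 0 := by simp [dlt]
      rw [this, H_zero]
    rw [this]; exact Subgroup.one_mem _
  · have e : Multiplicative.ofAdd v = (Multiplicative.ofAdd ((1, 0) : ℤ × ℤ)) ^ v.1
        * (Multiplicative.ofAdd ((0, 1) : ℤ × ℤ)) ^ v.2 := by
      rw [← ofAdd_zsmul, ← ofAdd_zsmul, ← ofAdd_add]
      congr 1
      ext <;> simp
    rw [e, map_mul, map_zpow, map_zpow]
    exact Subgroup.mul_mem _ (Subgroup.zpow_mem _ (hunit _ (by simp) (by simp) hab) _)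
      (Subgroup.zpow_mem _ (hunit _ (by simp) (by simp) hab) _)

theorem H_mem_closure (lam : C → ℤ × ℤ) (hlam : ∑ c, lam c = 0) :
    (⟨H lam, H_mem_Gp hlam⟩ : Gp (ℤ × ℤ) letter C) ∈ Subgroup.closure (unitGens (C := C) letter) := by
  classical
  rcases isEmpty_or_nonempty C with hC | ⟨⟨c0⟩⟩
  · have : (⟨H lam, H_mem_Gp hlam⟩ : Gp (ℤ × ℤ) letter C) = 1 := by
      refine Subtype.ext (Equiv.ext fun q => ?_)
      exact isEmptyElim q.2
    rw [this]; exact Subgroup.one_mem _
  · have key : ∀ S : Finset C, ∃ hS : ∑ c, (∑ a ∈ S, dlt a c0 (lam a)) c = 0,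
        (⟨H (∑ a ∈ S, dlt a c0 (lam a)), H_mem_Gp hS⟩ : Gp (ℤ × ℤ) letter C) ∈
          Subgroup.closure (unitGens (C := C) letter) := by
      intro S
      induction S using Finset.induction_on with
      | empty =>
        refine ⟨by simp, ?_⟩
        have : (⟨H (∑ a ∈ (∅ : Finset C), dlt a c0 (lam a)), H_mem_Gp (by simp)⟩ :
            Gp (ℤ × ℤ) letter C) = 1 := Subtype.ext (by simp)
        rw [this]; exact Subgroup.one_mem _
      | insert a S ha ih =>
        obtain ⟨hS, hmem⟩ := ih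
        have hsum : ∑ c, (∑ a ∈ insert a S, dlt a c0 (lam a)) c = 0 := by
          rw [Finset.sum_insert ha]
          simp only [Pi.add_apply, Finset.sum_add_distrib]
          rw [hS, dlt_sum, add_zero]
        refine ⟨hsum, ?_⟩
        have e : (⟨H (∑ a ∈ insert a S, dlt a c0 (lam a)), H_mem_Gp hsum⟩ : Gp (ℤ × ℤ) letter C)
            = dltHom letter a c0 (Multiplicative.ofAdd (lam a)) *
              ⟨H (∑ a ∈ S, dlt a c0 (lam a)), H_mem_Gp hS⟩ := by
          refine Subtype.ext ?_
          show H (∑ a ∈ insert a S, dlt a c0 (lam a)) = H (dlt a c0 (lam a)) * H _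
          rw [Finset.sum_insert ha, H_add]
        rw [e]
        exact Subgroup.mul_mem _ (dltHom_mem letter a c0 (lam a)) hmem
    obtain ⟨hS, hmem⟩ := key Finset.univ
    have e : (∑ a, dlt a c0 (lam a)) = lam := by
      unfold dlt
      rw [Finset.sum_sub_distrib]
      have h1 : ∑ a, Pi.single a (lam a) = lam := Finset.univ_sum_single lam
      have h2 : ∑ a, (Pi.single c0 (lam a) : C → ℤ × ℤ) = Pi.single c0 (∑ a, lam a) := by
        exact (map_sum (AddMonoidHom.single (fun _ : C => ℤ × ℤ) c0) lam Finset.univ).symm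
      rw [h1, h2, hlam]; simp
    have e2 : (⟨H (∑ a, dlt a c0 (lam a)), H_mem_Gp hS⟩ : Gp (ℤ × ℤ) letter C)
        = ⟨H lam, H_mem_Gp hlam⟩ := Subtype.ext (congrArg (fun l => H l) e)
    rw [← e2]; exact hmem

theorem closure_unitGens : Subgroup.closure (unitGens (C := C) letter) = ⊤ := by
  classical
  rw [eq_top_iff]
  rintro ⟨g, hg⟩ _
  induction hg using Subgroup.closure_induction with
  | mem x hx =>
    rcases hx with (⟨lam, hlam, rfl⟩ | ⟨s, hs, rfl⟩) | ⟨a, s, hs, rfl⟩
    · exact H_mem_closure letter lam hlam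
    · refine Subgroup.subset_closure (Or.inr ⟨fun _ => s, fun x c => ?_⟩)
      exact ev_univ_apply s x c
    · refine Subgroup.subset_closure (Or.inr ⟨fun a' => if a' = a then s else 1, fun x c => ?_⟩)
      by_cases h : letter x = a
      · have e1 := ev_apply_mem (E := {x | letter x = a}) (s := s) h c
        simp only [h, if_true]
        exact e1
      · have e1 := ev_apply_notMem (E := {x | letter x = a}) (s := s) h c
        simp only [if_neg h]
        exact e1
  | one => exact Subgroup.one_mem _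
  | mul x y hx hy ihx ihy =>
    exact Subgroup.mul_mem _ (ihx trivial) (ihy trivial)
  | inv x hx ihx => exact Subgroup.inv_mem _ (ihx trivial)

theorem isGen_of_unit (S : Strip.StripSys Θ A Λ) (st : Λ → Θ → Star) (e : (ℤ × ℤ) ≃+ (ℤ × ℤ))
    (he : ∀ p, |p.1| ≤ 1 ∧ |p.2| ≤ 1 → |(e p).1| ≤ 1 ∧ |(e p).2| ≤ 1)
    (hS : ∀ l u r τ, S.lett l u r τ = letter ⟨e.symm (u, r), st l τ⟩)
    (g : Gp (ℤ × ℤ) letter C) (hg : g ∈ unitGens letter) :
    Strip.IsGen S (fun l => famRep letter (C := C) (st l) e) g := by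
  rcases hg with ⟨lam, hlam, hgl⟩ | ⟨α, hα⟩
  · left
    refine ⟨fun c => e (lam c), fun c => he _ (hlam c), fun l => ?_⟩
    refine Equiv.ext fun q => ?_
    obtain ⟨u, r, τ, c⟩ := q
    rw [famRep_apply, rep_apply, hgl, H_apply, Strip.transl_apply]
    simp only [X.vadd_p, map_add, AddEquiv.apply_symm_apply, Prod.fst_add, Prod.snd_add]
    rw [add_comm u, add_comm r]
  · right
    refine ⟨α, fun l => ?_⟩
    refine Equiv.ext fun q => ?_
    obtain ⟨u, r, τ, c⟩ := q
    rw [famRep_apply, rep_apply, hα, Strip.recol_apply, hS]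
    simp only [AddEquiv.apply_symm_apply]

end Crest.Agent.R189
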