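import Crest.Agent.R189.Amen

/-!
Row 189, M14: abstract assembly of the amenability proof (steps C, D and the chain
`G ≥ G₁ ≥ G₂ ≥ G₃`).
-/

set_option autoImplicit false
set_option linter.unusedSectionVars false

namespace Crest.Agent.R189

open Equiv

section chain

variable {G : Type*} [Group G]

/-- iterate over a finite family of subgroups. -/
theorem amen_iterate {ι : Type*} (S : Finset ι) (E : ι → Subgroup G)
    (h : ∀ i ∈ S, ∀ H : Subgroup G, Amen ↥(H ⊓ E i) → Amen ↥H) (H : Subgroup G)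
    (hA : Amen ↥(H ⊓ S.inf E)) : Amen ↥H := by
  classical
  induction S using Finset.induction_on generalizing H with
  | empty => rwa [Finset.inf_empty, inf_top_eq] at hA
  | insert a s ha ih =>
    rw [Finset.inf_insert, ← inf_assoc] at hA
    have h1 : Amen ↥(H ⊓ E a) := ih (fun i hi => h i (Finset.mem_insert_of_mem hi)) (H ⊓ E a) hA
    exact h a (Finset.mem_insert_self a s) H h1

end chain

section main

variable {G Star Lab Tau A C : Type*} [Group G]

/-- equality of two families of representations -/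
def eqFam {Om : Type*} {ι : Type*} (f f' : ι → (G →* Perm Om)) : Subgroup G where
  carrier := {g | ∀ t, f t g = f' t g}
  one_mem' := fun t => by simp
  mul_mem' := fun {a b} ha hb t => by
    have ha := ha t; have hb := hb t
    rw [map_mul, map_mul, ha, hb]
  inv_mem' := fun {a} ha t => by
    have ha := ha t
    rw [map_inv, map_inv, ha]

theorem mem_eqFam {Om : Type*} {ι : Type*} {f f' : ι → (G →* Perm Om)} {g : G} :
    g ∈ eqFam f f' ↔ ∀ t, f t g = f' t g := Iff.rfl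

/-- blind to the labels of a family of stars -/
def blindFam (ρ : Star → (G →* Perm ((ℤ × ℤ) × C))) (st : Lab → Tau → Star) : Subgroup G where
  carrier := {g | ∀ l l' t, ρ (st l t) g = ρ (st l' t) g}
  one_mem' := fun l l' t => by simp
  mul_mem' := fun {a b} ha hb l l' t => by
    have ha := ha l l' t; have hb := hb l l' t
    rw [map_mul, map_mul, ha, hb]
  inv_mem' := fun {a} ha l l' t => by
    have ha := ha l l' t
    rw [map_inv, map_inv, ha]

theorem mem_blindFam {ρ : Star → (G →* Perm ((ℤ × ℤ) × C))} {st : Lab → Tau → Star} {g : G} :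
    g ∈ blindFam ρ st ↔ ∀ l l' t, ρ (st l t) g = ρ (st l' t) g := Iff.rfl

/-- letters in the box of radius `M` agree -/
def PatEq (L : Star → ℤ × ℤ → A) (M : ℕ) (s : Star) (p : ℤ × ℤ) (s' : Star) (p' : ℤ × ℤ) : Prop :=
  ∀ q : ℤ × ℤ, |q.1| ≤ M → |q.2| ≤ M → L s (p + q) = L s' (p' + q)

theorem PatEq.symm {L : Star → ℤ × ℤ → A} {M : ℕ} {s : Star} {p : ℤ × ℤ} {s' : Star}
    {p' : ℤ × ℤ} (h : PatEq L M s p s' p') : PatEq L M s' p' s p :=
  fun q h1 h2 => (h q h1 h2).symm

theorem PatEq.trans {L : Star → ℤ × ℤ → A} {M : ℕ} {s : Star} {p : ℤ × ℤ} {s' : Star}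
    {p' : ℤ × ℤ} {s'' : Star} {p'' : ℤ × ℤ} (h : PatEq L M s p s' p')
    (h' : PatEq L M s' p' s'' p'') : PatEq L M s p s'' p'' :=
  fun q h1 h2 => (h q h1 h2).trans (h' q h1 h2)

/-- the local rule of a group element -/
def LocRule (L : Star → ℤ × ℤ → A) (ρ : Star → (G →* Perm ((ℤ × ℤ) × C))) (g : G) (M : ℕ) : Prop :=
  ∀ s p s' p', PatEq L M s p s' p' → ∀ c,
    (ρ s g (p, c)).1 - p = (ρ s' g (p', c)).1 - p' ∧ (ρ s g (p, c)).2 = (ρ s' g (p', c)).2

theorem LocRule.mono {L : Star → ℤ × ℤ → A} {ρ : Star → (G →* Perm ((ℤ × ℤ) × C))} {g : G}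
    {M M' : ℕ} (h : LocRule L ρ g M) (hM : M ≤ M') : LocRule L ρ g M' := by
  intro s p s' p' hp c
  refine h s p s' p' (fun q h1 h2 => hp q ?_ ?_) c
  · exact h1.trans (by exact_mod_cast hM)
  · exact h2.trans (by exact_mod_cast hM)

/-- same position: equal action -/
theorem LocRule.eq_apply {L : Star → ℤ × ℤ → A} {ρ : Star → (G →* Perm ((ℤ × ℤ) × C))} {g : G}
    {M : ℕ} (h : LocRule L ρ g M) {s s' : Star} {p : ℤ × ℤ} (hp : PatEq L M s p s' p) (c : C) :
    ρ s g (p, c) = ρ s' g (p, c) := by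
  obtain ⟨h1, h2⟩ := h s p s' p hp c
  exact Prod.ext (by simpa using h1) h2

/-- the data of the amenability proof -/
structure AmenData (G Star Lab Tau A C : Type*) [Group G] where
  L : Star → ℤ × ℤ → A
  ρ : Star → (G →* Perm ((ℤ × ℤ) × C))
  hs : Lab → Tau → Star
  vs : Lab → Tau → Star
  up : Star → Lab
  down : Star → Lab
  left : Star → Lab
  right : Star → Lab
  inj : ∀ g, (∀ s, ρ s g = 1) → g = 1
  loc : ∀ g, ∃ M : ℕ, LocRule L ρ g M
  dis : ∀ g, ∃ M : ℕ, ∀ s p c, |((ρ s g (p, c)).1 - p).1| ≤ M ∧ |((ρ s g (p, c)).1 - p).2| ≤ M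
  F0 : ∀ s s' (q : ℤ × ℤ), q.1 ≠ 0 → q.2 ≠ 0 → L s q = L s' q
  F1u : ∀ s t (q : ℤ × ℤ), q.1 = 0 → 0 < q.2 → L s q = L (vs (up s) t) q
  F1d : ∀ s t (q : ℤ × ℤ), q.1 = 0 → q.2 < 0 → L s q = L (vs (down s) t) q
  F2r : ∀ s t (q : ℤ × ℤ), q.2 = 0 → 0 < q.1 → L s q = L (hs (right s) t) q
  F2l : ∀ s t (q : ℤ × ℤ), q.2 = 0 → q.1 < 0 → L s q = L (hs (left s) t) q
  FD : ∀ M : ℕ, ∃ w h : ℤ, 0 < w ∧ 0 < h ∧ ∀ s p i j, ∃ s1 s2 q,
    PatEq L M s p s1 q ∧ PatEq L M s (p + (w * i, h * j)) s2 q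
  /-- strip theorem for rows -/
  row : ∀ H : Subgroup G, Amen ↥(H ⊓ blindFam ρ hs) → Amen ↥H
  /-- strip theorem for columns -/
  col : ∀ H : Subgroup G, Amen ↥(H ⊓ blindFam ρ vs) → Amen ↥H

namespace AmenData

variable (D : AmenData G Star Lab Tau A C)

/-- blind to row labels and column labels -/
def G2 : Subgroup G := blindFam D.ρ D.hs ⊓ blindFam D.ρ D.vs

theorem amen_of_G2 (hA : Amen ↥D.G2) : Amen G := by
  have h1 : Amen ↥(blindFam D.ρ D.hs) := D.col _ hA
  have h2 : Amen ↥(⊤ : Subgroup G) := by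
    apply D.row
    rwa [top_inf_eq]
  exact h2.equiv Subgroup.topEquiv

/-- elements blind to row and column labels: the action far from the origin does not depend on
the star -/
theorem far {g : G} (hg : g ∈ D.G2) {M : ℕ} (hM : LocRule D.L D.ρ g M) [Nonempty Tau] (s s' : Star)
    (p : ℤ × ℤ) (hp : (M : ℤ) < |p.1| ∨ (M : ℤ) < |p.2|) (c : C) :
    D.ρ s g (p, c) = D.ρ s' g (p, c) := by
  obtain ⟨t⟩ := ‹Nonempty Tau›
  -- it suffices to compare with a star depending only on a label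
  by_cases h2 : (M : ℤ) < |p.2|
  · -- the box does not meet row 0
    have hq2 : ∀ q : ℤ × ℤ, |q.2| ≤ M → (0 < p.2 → 0 < (p + q).2) ∧ (p.2 < 0 → (p + q).2 < 0) := by
      intro q hq
      have := abs_le.1 hq
      constructor
      · intro h; rw [abs_of_pos h] at h2; simp only [Prod.snd_add]; omega
      · intro h; rw [abs_of_neg h] at h2; simp only [Prod.snd_add]; omega
    rcases lt_trichotomy p.2 0 with hn | h0 | hpos
    · have h3 : ∀ s : Star, D.ρ s g (p, c) = D.ρ (D.vs (D.down s) t) g (p, c) := by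
        intro s
        refine hM.eq_apply (fun q _ hq => ?_) c
        have hneg := (hq2 q hq).2 hn
        by_cases h1 : (p + q).1 = 0
        · exact D.F1d s t _ h1 hneg
        · exact D.F0 _ _ _ h1 (by omega)
      rw [h3 s, h3 s', hg.2 (D.down s) (D.down s') t]
    · rw [h0] at h2; simp at h2; omega
    · have h3 : ∀ s : Star, D.ρ s g (p, c) = D.ρ (D.vs (D.up s) t) g (p, c) := by
        intro s
        refine hM.eq_apply (fun q _ hq => ?_) c
        have hneg := (hq2 q hq).1 hpos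
        by_cases h1 : (p + q).1 = 0
        · exact D.F1u s t _ h1 hneg
        · exact D.F0 _ _ _ h1 (by omega)
      rw [h3 s, h3 s', hg.2 (D.up s) (D.up s') t]
  · have h1 : (M : ℤ) < |p.1| := hp.resolve_right h2
    have hq1 : ∀ q : ℤ × ℤ, |q.1| ≤ M → (0 < p.1 → 0 < (p + q).1) ∧ (p.1 < 0 → (p + q).1 < 0) := by
      intro q hq
      have := abs_le.1 hq
      constructor
      · intro h; rw [abs_of_pos h] at h1; simp only [Prod.fst_add]; omega
      · intro h; rw [abs_of_neg h] at h1; simp only [Prod.fst_add]; omega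
    rcases lt_trichotomy p.1 0 with hn | h0 | hpos
    · have h3 : ∀ s : Star, D.ρ s g (p, c) = D.ρ (D.hs (D.left s) t) g (p, c) := by
        intro s
        refine hM.eq_apply (fun q hq _ => ?_) c
        have hneg := (hq1 q hq).2 hn
        by_cases h1 : (p + q).2 = 0
        · exact D.F2l s t _ h1 hneg
        · exact D.F0 _ _ _ (by omega) h1
      rw [h3 s, h3 s', hg.1 (D.left s) (D.left s') t]
    · rw [h0] at h1; simp at h1; omega
    · have h3 : ∀ s : Star, D.ρ s g (p, c) = D.ρ (D.hs (D.right s) t) g (p, c) := by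
        intro s
        refine hM.eq_apply (fun q hq _ => ?_) c
        have hneg := (hq1 q hq).1 hpos
        by_cases h1 : (p + q).2 = 0
        · exact D.F2r s t _ h1 hneg
        · exact D.F0 _ _ _ (by omega) h1
      rw [h3 s, h3 s', hg.1 (D.right s) (D.right s') t]

theorem finite_diff {g : G} (hg : g ∈ D.G2) [Nonempty Tau] [Finite C] (s s' : Star) :
    {x | D.ρ s g x ≠ D.ρ s' g x}.Finite := by
  obtain ⟨M, hM⟩ := D.loc g
  refine Set.Finite.subset (s := ((Set.Icc (-(M : ℤ)) M ×ˢ Set.Icc (-(M : ℤ)) M) ×ˢ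
    (Set.univ : Set C))) ?_ ?_
  · exact ((Set.finite_Icc _ _).prod (Set.finite_Icc _ _)).prod Set.finite_univ
  · rintro ⟨p, c⟩ hx
    by_contra hcon
    apply hx
    refine D.far hg hM s s' p ?_ c
    by_contra h
    push Not at h
    apply hcon
    have h1 := abs_le.1 h.1
    have h2 := abs_le.1 h.2
    exact ⟨⟨⟨h1.1, h1.2⟩, ⟨h2.1, h2.2⟩⟩, Set.mem_univ _⟩

/-- blind to everything -/
def G3 (s0 : Star) : Subgroup G := D.G2 ⊓ eqFam (fun s => D.ρ s) (fun _ => D.ρ s0)

theorem G3_periodic (s0 : Star) (F : Finset G) (hF : ∀ g ∈ F, g ∈ D.G3 s0) :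
    ∃ w h : ℤ, 0 < w ∧ 0 < h ∧ ∀ g ∈ F, ∀ i j p c,
      D.ρ s0 g (p + (w * i, h * j), c) =
        ((D.ρ s0 g (p, c)).1 + (w * i, h * j), (D.ρ s0 g (p, c)).2) := by
  classical
  choose M hM using D.loc
  obtain ⟨w, h, hw, hh, hFD⟩ := D.FD (F.sup M)
  refine ⟨w, h, hw, hh, fun g hg i j p c => ?_⟩
  have hloc : LocRule D.L D.ρ g (F.sup M) := (hM g).mono (Finset.le_sup hg)
  obtain ⟨s1, s2, q, h1, h2⟩ := hFD s0 p i j
  have hbl : ∀ s, D.ρ s g = D.ρ s0 g := fun s => (hF g hg).2 s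
  obtain ⟨a1, a2⟩ := hloc _ _ _ _ h1 c
  obtain ⟨b1, b2⟩ := hloc _ _ _ _ h2 c
  rw [hbl s1] at a1 a2
  rw [hbl s2] at b1 b2
  refine Prod.ext ?_ ?_
  · have e : (D.ρ s0 g (p + (w * i, h * j), c)).1 - (p + (w * i, h * j))
        = (D.ρ s0 g (p, c)).1 - p := b1.trans a1.symm
    have e2 := congrArg (fun z => z + (p + (w * i, h * j))) e
    simp only [sub_add_cancel] at e2
    rw [e2]; show _ = (D.ρ s0 g (p, c)).1 + (w * i, h * j); abel
  · exact b2.trans a2.symm

end AmenData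

end main

end Crest.Agent.R189
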