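import Crest.Agent.R189.XDef
import Crest.Agent.R189.GpGroup
import Crest.Agent.R189.AmenMain

/-!
Row 189, M14: the representations `ρ_s` of `Gp` on `(ℤ × ℤ) × C` (one for every corner star).
-/

set_option autoImplicit false
set_option linter.unusedSectionVars false

namespace Crest.Agent.R189

open Equiv

variable {A C : Type} [Finite A] [Fintype C] [DecidableEq C] (letter : X → A)

theorem X.vadd_def (v : ℤ × ℤ) (x : X) : v +ᵥ x = ⟨v + x.p, x.s⟩ := rfl

/-- group elements preserve the corner star -/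
theorem Gp_star (g : Gp (ℤ × ℤ) letter C) (x : X) (c : C) :
    (((g : Perm (X × C)) (x, c)).1).s = x.s := by
  obtain ⟨W, d, k, _, h2⟩ := isLoc_of_mem_Gp (V := ℤ × ℤ) (letter := letter) g.2
  rw [h2]; rfl

/-- the representation attached to the star `s` -/
def rep (s : Star) : Gp (ℤ × ℤ) letter C →* Perm ((ℤ × ℤ) × C) where
  toFun g :=
    { toFun := fun q => (((g : Perm (X × C)) (⟨q.1, s⟩, q.2)).1.p, ((g : Perm (X × C)) (⟨q.1, s⟩, q.2)).2)
      invFun := fun q => ((((g⁻¹ : Gp (ℤ × ℤ) letter C) : Perm (X × C)) (⟨q.1, s⟩, q.2)).1.p,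
        (((g⁻¹ : Gp (ℤ × ℤ) letter C) : Perm (X × C)) (⟨q.1, s⟩, q.2)).2)
      left_inv := by
        rintro ⟨p, c⟩
        have h1 := Gp_star letter g ⟨p, s⟩ c
        have e : ((⟨((g : Perm (X × C)) (⟨p, s⟩, c)).1.p, s⟩ : X), ((g : Perm (X × C)) (⟨p, s⟩, c)).2)
            = (g : Perm (X × C)) (⟨p, s⟩, c) := by
          refine Prod.ext ?_ rfl
          exact X.ext rfl h1.symm
        simp only
        rw [e]
        simp
      right_inv := by
        rintro ⟨p, c⟩
        have h1 := Gp_star letter g⁻¹ ⟨p, s⟩ c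
        have e : ((⟨(((g⁻¹ : Gp (ℤ × ℤ) letter C) : Perm (X × C)) (⟨p, s⟩, c)).1.p, s⟩ : X),
            (((g⁻¹ : Gp (ℤ × ℤ) letter C) : Perm (X × C)) (⟨p, s⟩, c)).2)
            = ((g⁻¹ : Gp (ℤ × ℤ) letter C) : Perm (X × C)) (⟨p, s⟩, c) := by
          refine Prod.ext ?_ rfl
          exact X.ext rfl h1.symm
        simp only
        rw [e]
        simp }
  map_one' := by
    ext q <;> simp
  map_mul' g h := by
    refine Equiv.ext fun q => ?_
    obtain ⟨p, c⟩ := q
    have h1 := Gp_star letter h ⟨p, s⟩ c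
    have e : ((⟨((h : Perm (X × C)) (⟨p, s⟩, c)).1.p, s⟩ : X), ((h : Perm (X × C)) (⟨p, s⟩, c)).2)
        = (h : Perm (X × C)) (⟨p, s⟩, c) := by
      refine Prod.ext ?_ rfl
      exact X.ext rfl h1.symm
    show ((((g * h : Gp (ℤ × ℤ) letter C) : Perm (X × C)) (⟨p, s⟩, c)).1.p, _) = _
    simp only [Perm.mul_apply, Equiv.coe_fn_mk, Subgroup.coe_mul]
    rw [e]

theorem rep_apply (s : Star) (g : Gp (ℤ × ℤ) letter C) (p : ℤ × ℤ) (c : C) :
    rep letter s g (p, c) =
      (((g : Perm (X × C)) (⟨p, s⟩, c)).1.p, ((g : Perm (X × C)) (⟨p, s⟩, c)).2) := rfl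

/-- the fibrewise description of a group element -/
theorem coe_apply (g : Gp (ℤ × ℤ) letter C) (x : X) (c : C) :
    (g : Perm (X × C)) (x, c) = (⟨(rep letter x.s g (x.p, c)).1, x.s⟩, (rep letter x.s g (x.p, c)).2) := by
  refine Prod.ext ?_ rfl
  exact X.ext rfl (Gp_star letter g x c)

theorem rep_inj (g : Gp (ℤ × ℤ) letter C) (h : ∀ s, rep letter s g = 1) : g = 1 := by
  refine Subtype.ext (Equiv.ext fun q => ?_)
  obtain ⟨x, c⟩ := q
  rw [coe_apply, h x.s]
  rfl

theorem rep_loc (g : Gp (ℤ × ℤ) letter C) :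
    ∃ M : ℕ, LocRule (fun s p => letter ⟨p, s⟩) (rep letter) g M := by
  obtain ⟨W, d, k, h1, h2⟩ := isLoc_of_mem_Gp (V := ℤ × ℤ) (letter := letter) g.2
  refine ⟨W.sup fun v => max v.1.natAbs v.2.natAbs, ?_⟩
  intro s p s' p' hp c
  have hag : Agree letter (W : Set (ℤ × ℤ)) ⟨p, s⟩ ⟨p', s'⟩ := by
    intro v hv
    have hle : max v.1.natAbs v.2.natAbs ≤ W.sup fun v => max v.1.natAbs v.2.natAbs :=
      Finset.le_sup (f := fun v : ℤ × ℤ => max v.1.natAbs v.2.natAbs) hv
    have := hp v (by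
      have : v.1.natAbs ≤ W.sup fun v => max v.1.natAbs v.2.natAbs := (le_max_left _ _).trans hle
      rw [Int.abs_eq_natAbs]; exact_mod_cast this) (by
      have : v.2.natAbs ≤ W.sup fun v => max v.1.natAbs v.2.natAbs := (le_max_right _ _).trans hle
      rw [Int.abs_eq_natAbs]; exact_mod_cast this)
    rw [X.vadd_def, X.vadd_def]
    simp only
    rw [add_comm v p, add_comm v p']
    exact this
  obtain ⟨h3, h4⟩ := h1 _ _ hag c
  rw [rep_apply, rep_apply, h2, h2]
  refine ⟨?_, h4⟩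
  simp only [X.vadd_p]
  rw [h3]; simp

theorem rep_dis (g : Gp (ℤ × ℤ) letter C) :
    ∃ M : ℕ, ∀ s p c, |((rep letter s g (p, c)).1 - p).1| ≤ M ∧
      |((rep letter s g (p, c)).1 - p).2| ≤ M := by
  classical
  obtain ⟨W, d, k, h1, h2⟩ := isLoc_of_mem_Gp (V := ℤ × ℤ) (letter := letter) g.2
  have hfin : (Set.range (fun x => d x)).Finite :=
    finite_range_of_local (letter := letter) (W := W) (fun x y hxy => funext fun c => (h1 x y hxy c).1)

  let D : Finset (ℤ × ℤ) := hfin.toFinset.biUnion (fun f => Finset.univ.image f)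
  have hD : ∀ x c, d x c ∈ D := by
    intro x c
    simp only [D, Finset.mem_biUnion, Set.Finite.mem_toFinset, Finset.mem_image]
    exact ⟨d x, ⟨x, rfl⟩, c, Finset.mem_univ _, rfl⟩
  refine ⟨D.sup fun v => max v.1.natAbs v.2.natAbs, fun s p c => ?_⟩
  have e : (rep letter s g (p, c)).1 - p = d ⟨p, s⟩ c := by
    rw [rep_apply, h2]; simp
  rw [e]
  have hle := Finset.le_sup (f := fun v : ℤ × ℤ => max v.1.natAbs v.2.natAbs) (hD ⟨p, s⟩ c)
  have h3 : (d ⟨p, s⟩ c).1.natAbs ≤ D.sup fun v => max v.1.natAbs v.2.natAbs :=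
    (le_max_left _ _).trans hle
  have h4 : (d ⟨p, s⟩ c).2.natAbs ≤ D.sup fun v => max v.1.natAbs v.2.natAbs :=
    (le_max_right _ _).trans hle
  rw [Int.abs_eq_natAbs, Int.abs_eq_natAbs]
  exact ⟨by exact_mod_cast h3, by exact_mod_cast h4⟩

end Crest.Agent.R189
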