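import Mathlib
import Crest.Agent.R189.Amen

/-!
# Row 189, M14: Bernoulli laws on finite subsets

For a finitely supported family of angles `θ : J →₀ ℝ` the law `law θ : Finset J →₀ ℝ` of the
random finite subset of `J` which contains `j` with probability `sin² (θ j)`, independently.
-/

namespace Crest.Agent.R189

open Finset
open scoped Classical

section bern

variable {J : Type*}

/-- weight of `j` for the outcome `D` -/
noncomputable def bw (θ : J → ℝ) (D : Finset J) (j : J) : ℝ :=
  if j ∈ D then Real.sin (θ j) ^ 2 else Real.cos (θ j) ^ 2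

/-- amplitude of `j` for the outcome `D` -/
noncomputable def ba (θ : J → ℝ) (D : Finset J) (j : J) : ℝ :=
  if j ∈ D then Real.sin (θ j) else Real.cos (θ j)

lemma ba_sq (θ : J → ℝ) (D : Finset J) (j : J) : ba θ D j ^ 2 = bw θ D j := by
  unfold ba bw
  split_ifs <;> rfl

lemma bw_nonneg (θ : J → ℝ) (D : Finset J) (j : J) : 0 ≤ bw θ D j := by
  rw [← ba_sq]
  positivity

/-- the Bernoulli law with angles `θ` -/
noncomputable def law (θ : J →₀ ℝ) : Finset J →₀ ℝ :=
  Finsupp.onFinset θ.support.powerset (fun D => ∏ j ∈ θ.support ∪ D, bw θ D j) (by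
    intro D hD
    rw [Finset.mem_powerset]
    intro j hj
    by_contra hjs
    apply hD
    refine Finset.prod_eq_zero (Finset.mem_union_right _ hj) ?_
    have h0 : θ j = 0 := Finsupp.notMem_support_iff.1 hjs
    simp [bw, hj, h0])

lemma law_apply (θ : J →₀ ℝ) (D : Finset J) :
    law θ D = ∏ j ∈ θ.support ∪ D, bw θ D j := rfl

/-- value computed over any large finite set -/
lemma law_eq {θ : J →₀ ℝ} {D s : Finset J} (hs : θ.support ⊆ s) (hD : D ⊆ s) :
    law θ D = ∏ j ∈ s, bw θ D j := by
  rw [law_apply]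
  refine Finset.prod_subset (Finset.union_subset hs hD) ?_
  intro j _ hj
  rw [Finset.mem_union, not_or] at hj
  have h0 : θ j = 0 := Finsupp.notMem_support_iff.1 hj.1
  simp [bw, hj.2, h0]

lemma law_eq_sq {θ : J →₀ ℝ} {D s : Finset J} (hs : θ.support ⊆ s) (hD : D ⊆ s) :
    law θ D = (∏ j ∈ s, ba θ D j) ^ 2 := by
  rw [law_eq hs hD, ← Finset.prod_pow]
  exact Finset.prod_congr rfl (fun j _ => (ba_sq θ D j).symm)

lemma law_support (θ : J →₀ ℝ) : (law θ).support ⊆ θ.support.powerset :=
  Finsupp.support_onFinset_subset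

lemma law_support_of {θ : J →₀ ℝ} {s : Finset J} (hs : θ.support ⊆ s) :
    (law θ).support ⊆ s.powerset :=
  (law_support θ).trans (Finset.powerset_mono.2 hs)

/-- (B5) the random set is contained in the support of the angles -/
lemma subset_of_mem_law_support {θ : J →₀ ℝ} {D : Finset J} (hD : D ∈ (law θ).support) :
    D ⊆ θ.support := Finset.mem_powerset.1 (law_support θ hD)

/-- (B4) the random set contains all `j` of angle `π / 2` -/
lemma mem_of_mem_law_support {θ : J →₀ ℝ} {D : Finset J} (hD : D ∈ (law θ).support) {j : J}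
    (hj : θ j = Real.pi / 2) : j ∈ D := by
  by_contra hjD
  rw [Finsupp.mem_support_iff] at hD
  apply hD
  rw [law_apply]
  refine Finset.prod_eq_zero (i := j) (Finset.mem_union_left _ ?_) ?_
  · rw [Finsupp.mem_support_iff, hj]
    positivity
  · simp [bw, hjD, hj]

/-- the random set does not contain `j` of angle `0` -/
lemma notMem_of_mem_law_support {θ : J →₀ ℝ} {D : Finset J} (hD : D ∈ (law θ).support) {j : J}
    (hj : θ j = 0) : j ∉ D := fun h =>
  Finsupp.notMem_support_iff.2 hj (subset_of_mem_law_support hD h)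

/-- expansion of a product of sums -/
lemma sum_powerset_prod_ite (s : Finset J) (u v : J → ℝ) :
    ∑ D ∈ s.powerset, ∏ j ∈ s, (if j ∈ D then u j else v j) = ∏ j ∈ s, (u j + v j) := by
  rw [Finset.prod_add]
  refine Finset.sum_congr rfl (fun D hD => ?_)
  have hD' := Finset.mem_powerset.1 hD
  have h := Finset.prod_piecewise s D u v
  rw [Finset.inter_eq_right.2 hD'] at h
  rw [← h]
  rfl

/-- (B1) -/
theorem isProb_law (θ : J →₀ ℝ) : IsProb (law θ) := by
  constructor
  · intro D
    rw [law_apply]
    exact Finset.prod_nonneg (fun j _ => bw_nonneg θ D j)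
  · rw [mass_eq (law_support θ)]
    have h1 : ∀ D ∈ θ.support.powerset, law θ D = ∏ j ∈ θ.support,
        (if j ∈ D then Real.sin (θ j) ^ 2 else Real.cos (θ j) ^ 2) := by
      intro D hD
      exact law_eq (Finset.Subset.refl _) (Finset.mem_powerset.1 hD)
    rw [Finset.sum_congr rfl h1, sum_powerset_prod_ite]
    exact Finset.prod_eq_one (fun j _ => Real.sin_sq_add_cos_sq _)

/-- (B2) equivariance, for an arbitrary injection -/
lemma law_map_emb {J' : Type*} (θ : J →₀ ℝ) (f : J ↪ J') :
    (law θ).mapDomain (Finset.map f) = law (θ.embDomain f) := by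
  ext D
  have hsup : (θ.embDomain f).support = θ.support.map f := Finsupp.support_embDomain f θ
  by_cases hD : ∃ E : Finset J, E.map f = D
  · obtain ⟨E, rfl⟩ := hD
    rw [Finsupp.mapDomain_apply (Finset.map_injective f), law_apply, law_apply, hsup,
      ← Finset.map_union, Finset.prod_map]
    refine Finset.prod_congr rfl (fun j _ => ?_)
    unfold bw
    rw [Finsupp.embDomain_apply_self]
    simp only [Finset.mem_map' f]
  · rw [Finsupp.mapDomain_of_notMem_range _ _ (fun h => hD h)]
    symm
    rw [← Finsupp.notMem_support_iff]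
    intro h
    have h2 := subset_of_mem_law_support h
    rw [hsup] at h2
    obtain ⟨E, _, hE⟩ := Finset.subset_map_iff.1 h2
    exact hD ⟨E, hE.symm⟩

/-- (B2) equivariance, for a permutation -/
lemma law_map_equiv {J' : Type*} (θ : J →₀ ℝ) (σ : J ≃ J') :
    (law θ).mapDomain (Finset.map σ.toEmbedding) = law (θ.mapDomain σ) := by
  rw [law_map_emb, Finsupp.embDomain_eq_mapDomain]
  rfl

/-- (B2) equivariance, for a permutation of `J` -/
theorem law_map (θ : J →₀ ℝ) (σ : Equiv.Perm J) :
    (law θ).mapDomain (Finset.map σ.toEmbedding) = law (θ.mapDomain σ) := law_map_equiv θ σ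

lemma one_sub_prod_le (s : Finset J) (x : J → ℝ) (h0 : ∀ j ∈ s, 0 ≤ x j) (h1 : ∀ j ∈ s, x j ≤ 1) :
    0 ≤ ∏ j ∈ s, (1 - x j) ∧ ∏ j ∈ s, (1 - x j) ≤ 1 ∧ 1 - ∑ j ∈ s, x j ≤ ∏ j ∈ s, (1 - x j) := by
  induction s using Finset.induction_on with
  | empty => simp
  | insert a s ha ih =>
    obtain ⟨i1, i2, i3⟩ := ih (fun j hj => h0 j (Finset.mem_insert_of_mem hj))
      (fun j hj => h1 j (Finset.mem_insert_of_mem hj))
    have a0 := h0 a (Finset.mem_insert_self a s)
    have a1 := h1 a (Finset.mem_insert_self a s)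
    rw [Finset.prod_insert ha, Finset.sum_insert ha]
    refine ⟨mul_nonneg (by linarith) i1, ?_, ?_⟩
    · calc (1 - x a) * ∏ j ∈ s, (1 - x j) ≤ 1 * 1 :=
          mul_le_mul (by linarith) i2 i1 zero_le_one
        _ = 1 := one_mul 1
    · have h2 : x a * ∏ j ∈ s, (1 - x j) ≤ x a * 1 := mul_le_mul_of_nonneg_left i2 a0
      have h3 : (1 - x a) * ∏ j ∈ s, (1 - x j)
        = ∏ j ∈ s, (1 - x j) - x a * ∏ j ∈ s, (1 - x j) := by ring
      rw [h3]
      linarith

/-- (B3) the `ℓ¹`-distance of two Bernoulli laws is at most twice the `ℓ²`-distance of the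
angles -/
theorem l1_law_sub_le (θ θ' : J →₀ ℝ) (s : Finset J) (hs : θ.support ⊆ s)
    (hs' : θ'.support ⊆ s) :
    l1 (law θ - law θ') ≤ 2 * Real.sqrt (∑ j ∈ s, (θ j - θ' j) ^ 2) := by
  have hsup : (law θ - law θ').support ⊆ s.powerset := by
    intro D hD
    rcases Finset.mem_union.1 (Finsupp.support_sub hD) with h | h
    · exact law_support_of hs h
    · exact law_support_of hs' h
  rw [l1_eq hsup]
  set a : Finset J → ℝ := fun D => ∏ j ∈ s, ba θ D j with ha
  set b : Finset J → ℝ := fun D => ∏ j ∈ s, ba θ' D j with hb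
  have e1 : ∀ D ∈ s.powerset, |(law θ - law θ') D| = |a D - b D| * |a D + b D| := by
    intro D hD
    rw [Finsupp.sub_apply, law_eq_sq hs (Finset.mem_powerset.1 hD),
      law_eq_sq hs' (Finset.mem_powerset.1 hD), ← abs_mul]
    congr 1
    ring
  rw [Finset.sum_congr rfl e1]
  have haa : ∑ D ∈ s.powerset, a D ^ 2 = 1 := by
    have h := sum_powerset_prod_ite s (fun j => Real.sin (θ j) ^ 2) (fun j => Real.cos (θ j) ^ 2)
    rw [Finset.prod_eq_one (fun j _ => Real.sin_sq_add_cos_sq _)] at h
    rw [← h]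
    refine Finset.sum_congr rfl (fun D _ => ?_)
    rw [ha]
    simp only
    rw [← Finset.prod_pow]
    exact Finset.prod_congr rfl (fun j _ => ba_sq θ D j)
  have hbb : ∑ D ∈ s.powerset, b D ^ 2 = 1 := by
    have h := sum_powerset_prod_ite s (fun j => Real.sin (θ' j) ^ 2)
      (fun j => Real.cos (θ' j) ^ 2)
    rw [Finset.prod_eq_one (fun j _ => Real.sin_sq_add_cos_sq _)] at h
    rw [← h]
    refine Finset.sum_congr rfl (fun D _ => ?_)
    rw [hb]
    simp only
    rw [← Finset.prod_pow]
    exact Finset.prod_congr rfl (fun j _ => ba_sq θ' D j)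
  set c : ℝ := ∏ j ∈ s, Real.cos (θ j - θ' j) with hc
  have hab : ∑ D ∈ s.powerset, a D * b D = c := by
    have h := sum_powerset_prod_ite s (fun j => Real.sin (θ j) * Real.sin (θ' j))
      (fun j => Real.cos (θ j) * Real.cos (θ' j))
    have h2 : ∏ j ∈ s, (Real.sin (θ j) * Real.sin (θ' j) + Real.cos (θ j) * Real.cos (θ' j))
        = c := by
      rw [hc]
      refine Finset.prod_congr rfl (fun j _ => ?_)
      rw [Real.cos_sub]
      ring
    rw [← h2, ← h]
    refine Finset.sum_congr rfl (fun D _ => ?_)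
    rw [ha, hb]
    simp only
    rw [← Finset.prod_mul_distrib]
    refine Finset.prod_congr rfl (fun j _ => ?_)
    unfold ba
    split_ifs <;> rfl
  have hm : ∑ D ∈ s.powerset, (a D - b D) ^ 2 = 2 - 2 * c := by
    have : ∀ D ∈ s.powerset, (a D - b D) ^ 2 = a D ^ 2 + b D ^ 2 - 2 * (a D * b D) :=
      fun D _ => by ring
    rw [Finset.sum_congr rfl this, Finset.sum_sub_distrib, Finset.sum_add_distrib, haa, hbb,
      ← Finset.mul_sum, hab]
    ring
  have hp : ∑ D ∈ s.powerset, (a D + b D) ^ 2 = 2 + 2 * c := by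
    have : ∀ D ∈ s.powerset, (a D + b D) ^ 2 = a D ^ 2 + b D ^ 2 + 2 * (a D * b D) :=
      fun D _ => by ring
    rw [Finset.sum_congr rfl this, Finset.sum_add_distrib, Finset.sum_add_distrib, haa, hbb,
      ← Finset.mul_sum, hab]
    ring
  -- Cauchy-Schwarz
  have hcs : (∑ D ∈ s.powerset, |a D - b D| * |a D + b D|) ^ 2
      ≤ (∑ D ∈ s.powerset, |a D - b D| ^ 2) * ∑ D ∈ s.powerset, |a D + b D| ^ 2 :=
    Finset.sum_mul_sq_le_sq_mul_sq _ _ _
  simp only [sq_abs] at hcs
  rw [hm, hp] at hcs
  have hc2 : 1 - c ^ 2 ≤ ∑ j ∈ s, (θ j - θ' j) ^ 2 := by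
    have h1 : c ^ 2 = ∏ j ∈ s, (1 - Real.sin (θ j - θ' j) ^ 2) := by
      rw [hc, ← Finset.prod_pow]
      refine Finset.prod_congr rfl (fun j _ => ?_)
      exact Real.cos_sq' _
    have h2 := (one_sub_prod_le s (fun j => Real.sin (θ j - θ' j) ^ 2)
      (fun j _ => sq_nonneg _) (fun j _ => Real.sin_sq_le_one _)).2.2
    rw [← h1] at h2
    have h3 : ∑ j ∈ s, Real.sin (θ j - θ' j) ^ 2 ≤ ∑ j ∈ s, (θ j - θ' j) ^ 2 :=
      Finset.sum_le_sum (fun j _ => Real.sin_sq_le_sq)
    linarith
  have hfin : (∑ D ∈ s.powerset, |a D - b D| * |a D + b D|) ^ 2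
      ≤ (2 * Real.sqrt (∑ j ∈ s, (θ j - θ' j) ^ 2)) ^ 2 := by
    rw [mul_pow, Real.sq_sqrt (Finset.sum_nonneg (fun j _ => sq_nonneg _))]
    refine hcs.trans ?_
    have : (2 - 2 * c) * (2 + 2 * c) = 4 * (1 - c ^ 2) := by ring
    rw [this]
    linarith
  exact (pow_le_pow_iff_left₀ (Finset.sum_nonneg (fun D _ => by positivity)) (by positivity)
    two_ne_zero).1 hfin

/-- values of a push-forward -/
lemma mapDomain_apply_sum {S T : Type*} [DecidableEq T] (g : S → T) (p : S →₀ ℝ)
    {F : Finset S} (hF : p.support ⊆ F) (t : T) :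
    p.mapDomain g t = ∑ s ∈ F, if g s = t then p s else 0 := by
  rw [Finsupp.mapDomain, Finsupp.sum_apply]
  simp only [Finsupp.single_apply]
  refine Finsupp.sum_of_support_subset p hF _ (fun s _ => ?_)
  simp

/-- (B6) marginals: if `f : I → J` is injective on the finite set `S`, then the push-forward of
`law θ` under `A ↦ {i ∈ S | f i ∈ A}` is the law of the angles `θ ∘ f` on `S` -/
lemma law_marginal {I : Type*} (θ : J →₀ ℝ) (S : Finset I) (f : I → J)
    (hf : Set.InjOn f S) (θ' : I →₀ ℝ) (h1 : ∀ i ∈ S, θ' i = θ (f i)) (h2 : ∀ i ∉ S, θ' i = 0) :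
    (law θ).mapDomain (fun A => S.filter (fun i => f i ∈ A)) = law θ' := by
  ext D
  set T : Finset J := θ.support ∪ S.image f with hT
  have hTθ : θ.support ⊆ T := Finset.subset_union_left
  have hTS : S.image f ⊆ T := Finset.subset_union_right
  rw [mapDomain_apply_sum _ _ (law_support_of hTθ)]
  have hθ' : θ'.support ⊆ S := by
    intro i hi
    by_contra hiS
    exact (Finsupp.mem_support_iff.1 hi) (h2 i hiS)
  by_cases hDS : D ⊆ S
  · -- the value as a product
    rw [law_eq hθ' hDS]
    let u : J → ℝ := fun j => if j ∈ S.image f then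
      (if j ∈ D.image f then Real.sin (θ j) ^ 2 else 0) else Real.sin (θ j) ^ 2
    let v : J → ℝ := fun j => if j ∈ S.image f then
      (if j ∈ D.image f then 0 else Real.cos (θ j) ^ 2) else Real.cos (θ j) ^ 2
    have hmem : ∀ i ∈ S, (f i ∈ D.image f ↔ i ∈ D) := by
      intro i hi
      constructor
      · intro h
        obtain ⟨i', hi', he⟩ := Finset.mem_image.1 h
        rwa [← hf (hDS hi') hi he]
      · exact fun h => Finset.mem_image_of_mem f h
    have e1 : ∀ A ∈ T.powerset, (if S.filter (fun i => f i ∈ A) = D then law θ A else 0)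
        = ∏ j ∈ T, (if j ∈ A then u j else v j) := by
      intro A hA
      have hA' := Finset.mem_powerset.1 hA
      by_cases hAD : S.filter (fun i => f i ∈ A) = D
      · rw [if_pos hAD, law_eq hTθ hA']
        refine Finset.prod_congr rfl (fun j _ => ?_)
        by_cases hjS : j ∈ S.image f
        · obtain ⟨i, hi, rfl⟩ := Finset.mem_image.1 hjS
          have hiD : f i ∈ A ↔ f i ∈ D.image f := by
            rw [hmem i hi, ← hAD, Finset.mem_filter]
            exact ⟨fun h => ⟨hi, h⟩, fun h => h.2⟩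
          by_cases hiA : f i ∈ A
          · simp only [bw, u, hiA, hjS, hiD.1 hiA, if_true]
          · have hiD' : f i ∉ D.image f := fun h => hiA (hiD.2 h)
            simp only [bw, v, hiA, hjS, hiD', if_true, if_false]
        · simp only [bw, u, v, hjS, if_false]
      · rw [if_neg hAD]
        symm
        -- some coordinate is wrong
        have : ∃ i ∈ S, ¬ (f i ∈ A ↔ i ∈ D) := by
          by_contra hcon
          push Not at hcon
          apply hAD
          ext i
          rw [Finset.mem_filter]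
          constructor
          · rintro ⟨hi, hiA⟩
            exact (hcon i hi).1 hiA
          · intro hi
            exact ⟨hDS hi, (hcon i (hDS hi)).2 hi⟩
        obtain ⟨i, hi, hne⟩ := this
        have hfi : f i ∈ S.image f := Finset.mem_image_of_mem f hi
        refine Finset.prod_eq_zero (hTS hfi) ?_
        by_cases hiA : f i ∈ A
        · have hiD : f i ∉ D.image f := by
            rw [hmem i hi]
            intro h
            exact hne ⟨fun _ => h, fun _ => hiA⟩
          simp only [u, hiA, hfi, hiD, if_true, if_false]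
        · have hiD : f i ∈ D.image f := by
            rw [hmem i hi]
            by_contra h
            exact hne ⟨fun h' => absurd h' hiA, fun h' => absurd h' h⟩
          simp only [v, hiA, hfi, hiD, if_true, if_false]
    rw [Finset.sum_congr rfl e1, sum_powerset_prod_ite]
    have e2 : ∏ j ∈ T, (u j + v j) = ∏ j ∈ S.image f, (u j + v j) := by
      symm
      refine Finset.prod_subset hTS (fun j _ hj => ?_)
      simp only [u, v, hj, if_false]
      exact Real.sin_sq_add_cos_sq _
    rw [e2, Finset.prod_image hf]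
    refine Finset.prod_congr rfl (fun i hi => ?_)
    have hfi : f i ∈ S.image f := Finset.mem_image_of_mem f hi
    by_cases hiD : i ∈ D
    · have h3 := (hmem i hi).2 hiD
      simp only [u, v, bw, hfi, h3, hiD, if_true, h1 i hi, add_zero]
    · have h3 : f i ∉ D.image f := fun h => hiD ((hmem i hi).1 h)
      simp only [u, v, bw, hfi, h3, hiD, if_true, if_false, h1 i hi, zero_add]
  · have e0 : law θ' D = 0 := by
      rw [← Finsupp.notMem_support_iff]
      exact fun h => hDS ((subset_of_mem_law_support h).trans hθ')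
    rw [e0]
    refine Finset.sum_eq_zero (fun A _ => if_neg ?_)
    intro h
    apply hDS
    rw [← h]
    exact Finset.filter_subset _ _

end bern

end Crest.Agent.R189
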