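import Mathlib

set_option autoImplicit false

/-!
Row 189, amenability toolkit (helper777): two explicit radial profiles with small energy.

`logProf N K` is `π/2` on `[0,N]`, `0` on `[8^K N, ∞)`, with energy `O(1/K)` as soon as the balls
have quadratic growth; `linProf N` is `π/2` on `[0,N]` and `0` on `[2N,∞)`, with energy `O(J/N)`
as soon as the balls have linear growth with constant `J`.
-/

namespace Crest.Agent.R189

open Finset Real

/-- the elementary linear cut-off: `1` for `r ≤ n`, `0` for `r ≥ 2 n` -/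
noncomputable def cut (n r : ℕ) : ℝ := max 0 (min 1 (2 - (r : ℝ) / n))

theorem cut_nonneg (n r : ℕ) : 0 ≤ cut n r := le_max_left _ _

theorem cut_le_one (n r : ℕ) : cut n r ≤ 1 := max_le zero_le_one (min_le_left _ _)

theorem cut_eq_one {n r : ℕ} (h : r ≤ n) : cut n r = 1 := by
  unfold cut
  rcases Nat.eq_zero_or_pos n with rfl | hn
  · simp
  · have hn' : (0:ℝ) < n := by exact_mod_cast hn
    have : (r:ℝ) / n ≤ 1 := by
      rw [div_le_one hn']
      exact_mod_cast h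
    rw [min_eq_left (by linarith)]
    simp

theorem cut_eq_zero {n r : ℕ} (hn : 0 < n) (h : 2 * n ≤ r) : cut n r = 0 := by
  unfold cut
  have hn' : (0:ℝ) < n := by exact_mod_cast hn
  have : 2 ≤ (r:ℝ) / n := by
    rw [le_div_iff₀ hn']
    exact_mod_cast h
  refine max_eq_left ((min_le_right _ _).trans (by linarith))

theorem abs_clamp_sub_le (a b : ℝ) : |max 0 (min 1 a) - max 0 (min 1 b)| ≤ |a - b| := by
  have h1 : |max 0 (min 1 a) - max 0 (min 1 b)| ≤ |min 1 a - min 1 b| := by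
    have := abs_max_sub_max_le_abs (min 1 a) (min 1 b) 0
    rwa [max_comm (min 1 a), max_comm (min 1 b)] at this
  refine h1.trans ?_
  have h2 := abs_min_sub_min_le_max 1 a 1 b
  simpa using h2

theorem cut_diff_le {n r r' M : ℕ} (hn : 0 < n) (h1 : r ≤ r' + M) (h2 : r' ≤ r + M) :
    |cut n r' - cut n r| ≤ (M : ℝ) / n := by
  unfold cut
  have hn' : (0:ℝ) < n := by exact_mod_cast hn
  refine (abs_clamp_sub_le _ _).trans ?_
  have : (2 - (r':ℝ) / n) - (2 - (r:ℝ) / n) = ((r:ℝ) - r') / n := by ring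
  rw [this, abs_div, abs_of_pos hn']
  gcongr
  rw [abs_le]
  have h1' : (r:ℝ) ≤ r' + M := by exact_mod_cast h1
  have h2' : (r':ℝ) ≤ r + M := by exact_mod_cast h2
  constructor <;> linarith

/-- The difference vanishes off the shell `n - M < r < 2 n + M`. -/
theorem cut_diff_eq_zero {n r r' M : ℕ} (hn : 0 < n) (h1 : r ≤ r' + M) (h2 : r' ≤ r + M)
    (h : r + M ≤ n ∨ 2 * n + M ≤ r) : cut n r' - cut n r = 0 := by
  rcases h with h | h
  · rw [cut_eq_one (by omega), cut_eq_one (by omega), sub_self]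
  · rw [cut_eq_zero hn (by omega), cut_eq_zero hn (by omega), sub_self]

/-! ### linear profile -/

/-- linear profile: `π/2` for `r ≤ N`, `0` for `r ≥ 2 N` -/
noncomputable def linProf (N r : ℕ) : ℝ := π / 2 * cut N r

theorem linProf_nonneg (N r : ℕ) : 0 ≤ linProf N r :=
  mul_nonneg (by positivity) (cut_nonneg _ _)

theorem linProf_le (N r : ℕ) : linProf N r ≤ π / 2 := by
  have := cut_le_one N r
  have h : (0:ℝ) ≤ π / 2 := by positivity
  unfold linProf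
  nlinarith

theorem linProf_eq {N r : ℕ} (h : r ≤ N) : linProf N r = π / 2 := by
  rw [linProf, cut_eq_one h, mul_one]

theorem linProf_eq_zero {N r : ℕ} (hN : 0 < N) (h : 2 * N ≤ r) : linProf N r = 0 := by
  rw [linProf, cut_eq_zero hN h, mul_zero]

/-- **Linear energy.** -/
theorem linProf_energy {Ω : Type*} (ρ : Ω → ℕ) (J : ℝ)
    (hJ : ∀ (n : ℕ) (s : Finset Ω), (∀ ω ∈ s, ρ ω ≤ n) → (s.card : ℝ) ≤ J * (2 * n + 1))
    {N M : ℕ} (hN : 0 < N) (s : Finset Ω) (g : Ω → Ω)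
    (hg1 : ∀ ω ∈ s, ρ ω ≤ ρ (g ω) + M) (hg2 : ∀ ω ∈ s, ρ (g ω) ≤ ρ ω + M) :
    ∑ ω ∈ s, (linProf N (ρ (g ω)) - linProf N (ρ ω)) ^ 2 ≤
      (π / 2) ^ 2 * (J * (4 * N + 2 * M + 1)) * ((M:ℝ) / N) ^ 2 := by
  classical
  have hN' : (0:ℝ) < N := by exact_mod_cast hN
  have hJ0 : 0 ≤ J := by
    have := hJ 0 ∅ (by simp)
    simpa using this
  have h1 : ∀ ω ∈ s, (linProf N (ρ (g ω)) - linProf N (ρ ω)) ^ 2 ≤
      if ρ ω ≤ 2 * N + M then (π / 2) ^ 2 * ((M:ℝ) / N) ^ 2 else 0 := by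
    intro ω hω
    have e : linProf N (ρ (g ω)) - linProf N (ρ ω) = π / 2 * (cut N (ρ (g ω)) - cut N (ρ ω)) := by
      unfold linProf; ring
    rw [e, mul_pow]
    split_ifs with h
    · refine mul_le_mul_of_nonneg_left ?_ (by positivity)
      rw [← sq_abs]
      exact pow_le_pow_left₀ (abs_nonneg _) (cut_diff_le hN (hg1 ω hω) (hg2 ω hω)) 2
    · rw [cut_diff_eq_zero hN (hg1 ω hω) (hg2 ω hω) (Or.inr (by omega))]
      simp
  refine (Finset.sum_le_sum h1).trans ?_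
  rw [← Finset.sum_filter, Finset.sum_const, nsmul_eq_mul]
  have h2 := hJ (2 * N + M) (s.filter fun ω => ρ ω ≤ 2 * N + M) (fun ω hω => (Finset.mem_filter.1 hω).2)
  push_cast at h2
  have h3 : (0:ℝ) ≤ (π / 2) ^ 2 * ((M:ℝ) / N) ^ 2 := by positivity
  calc ((s.filter fun ω => ρ ω ≤ 2 * N + M).card : ℝ) * ((π / 2) ^ 2 * ((M:ℝ) / N) ^ 2)
      ≤ (J * (2 * (2 * N + M) + 1)) * ((π / 2) ^ 2 * ((M:ℝ) / N) ^ 2) :=
        mul_le_mul_of_nonneg_right h2 h3
    _ = _ := by ring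

/-! ### logarithmic profile -/

/-- logarithmic profile: `π/2` for `r ≤ N`, `0` for `r ≥ 8 ^ K * N` -/
noncomputable def logProf (N K r : ℕ) : ℝ :=
  π / 2 * ((K:ℝ)⁻¹ * ∑ j ∈ Finset.range K, cut (8 ^ j * N) r)

theorem logProf_nonneg (N K r : ℕ) : 0 ≤ logProf N K r :=
  mul_nonneg (by positivity) (mul_nonneg (by positivity)
    (Finset.sum_nonneg fun _ _ => cut_nonneg _ _))

theorem logProf_le (N K r : ℕ) : logProf N K r ≤ π / 2 := by
  have h : (0:ℝ) ≤ π / 2 := by positivity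
  have h1 : ∑ j ∈ Finset.range K, cut (8 ^ j * N) r ≤ K := by
    calc ∑ j ∈ Finset.range K, cut (8 ^ j * N) r ≤ ∑ _j ∈ Finset.range K, (1:ℝ) :=
          Finset.sum_le_sum fun _ _ => cut_le_one _ _
      _ = K := by simp
  have h2 : (K:ℝ)⁻¹ * ∑ j ∈ Finset.range K, cut (8 ^ j * N) r ≤ 1 := by
    rcases Nat.eq_zero_or_pos K with rfl | hK
    · simp
    · have hK' : (0:ℝ) < K := by exact_mod_cast hK
      rw [inv_mul_le_iff₀ hK']
      linarith
  unfold logProf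
  nlinarith

theorem logProf_eq {N K r : ℕ} (hK : 0 < K) (h : r ≤ N) : logProf N K r = π / 2 := by
  unfold logProf
  have h1 : ∑ j ∈ Finset.range K, cut (8 ^ j * N) r = K := by
    rw [Finset.sum_congr rfl (g := fun _ => (1:ℝ)) (fun j _ => cut_eq_one ?_)]
    · simp
    · calc r ≤ 1 * N := by omega
        _ ≤ 8 ^ j * N := Nat.mul_le_mul_right _ (Nat.one_le_pow _ _ (by norm_num))
  have hK' : (0:ℝ) < K := by exact_mod_cast hK
  rw [h1, inv_mul_cancel₀ hK'.ne', mul_one]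

theorem logProf_eq_zero {N K r : ℕ} (hN : 0 < N) (h : 8 ^ K * N ≤ r) : logProf N K r = 0 := by
  unfold logProf
  rw [Finset.sum_eq_zero, mul_zero, mul_zero]
  intro j hj
  refine cut_eq_zero (by positivity) ?_
  rw [Finset.mem_range] at hj
  calc 2 * (8 ^ j * N) ≤ 8 ^ (j + 1) * N := by
        rw [pow_succ]
        nlinarith [Nat.zero_le (8 ^ j * N)]
    _ ≤ 8 ^ K * N := Nat.mul_le_mul_right _ (Nat.pow_le_pow_right (by norm_num) hj)
    _ ≤ r := h

/-- Sums with at most one nonzero term. -/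
theorem sq_sum_of_disjoint {ι : Type*} (s : Finset ι) (d : ι → ℝ)
    (h : ∀ i ∈ s, ∀ j ∈ s, i ≠ j → d i = 0 ∨ d j = 0) :
    (∑ i ∈ s, d i) ^ 2 = ∑ i ∈ s, d i ^ 2 := by
  classical
  by_cases hz : ∃ i ∈ s, d i ≠ 0
  · obtain ⟨i, hi, hne⟩ := hz
    have h1 : ∀ j ∈ s, j ≠ i → d j = 0 := fun j hj hji => (h i hi j hj (Ne.symm hji)).resolve_left hne
    rw [Finset.sum_eq_single_of_mem i hi h1,
      Finset.sum_eq_single_of_mem i hi (fun j hj hji => by rw [h1 j hj hji]; simp)]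
  · push Not at hz
    rw [Finset.sum_eq_zero hz, Finset.sum_eq_zero (fun i hi => by rw [hz i hi]; simp)]
    simp

/-- **Logarithmic energy.** -/
theorem logProf_energy {Ω : Type*} (ρ : Ω → ℕ) (A : ℝ)
    (hA : ∀ (n : ℕ) (s : Finset Ω), 1 ≤ n → (∀ ω ∈ s, ρ ω ≤ n) → (s.card : ℝ) ≤ A * n ^ 2)
    {N K M : ℕ} (hN : 0 < N) (hK : 0 < K) (hM : 2 * M ≤ N) (s : Finset Ω) (g : Ω → Ω)
    (hg1 : ∀ ω ∈ s, ρ ω ≤ ρ (g ω) + M) (hg2 : ∀ ω ∈ s, ρ (g ω) ≤ ρ ω + M) :
    ∑ ω ∈ s, (logProf N K (ρ (g ω)) - logProf N K (ρ ω)) ^ 2 ≤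
      9 * (π / 2) ^ 2 * A * (M:ℝ) ^ 2 / K := by
  classical
  have hK' : (0:ℝ) < K := by exact_mod_cast hK
  let n : ℕ → ℕ := fun j => 8 ^ j * N
  have hn0 : ∀ j, 0 < n j := fun j => by positivity
  have hnN : ∀ j, N ≤ n j := fun j => by
    calc N = 1 * N := by ring
      _ ≤ 8 ^ j * N := Nat.mul_le_mul_right _ (Nat.one_le_pow _ _ (by norm_num))
  let d : ℕ → Ω → ℝ := fun j ω => cut (n j) (ρ (g ω)) - cut (n j) (ρ ω)
  have hd0 : ∀ j, ∀ ω ∈ s, ¬ (n j < 2 * ρ ω ∧ ρ ω < 3 * n j) → d j ω = 0 := by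
    intro j ω hω h
    refine cut_diff_eq_zero (hn0 j) (hg1 ω hω) (hg2 ω hω) ?_
    have := hnN j
    by_contra hc
    push Not at hc
    apply h
    constructor <;> omega
  have hd1 : ∀ j, ∀ ω ∈ s, |d j ω| ≤ (M:ℝ) / n j := fun j ω hω =>
    cut_diff_le (hn0 j) (hg1 ω hω) (hg2 ω hω)
  have hdisj : ∀ ω ∈ s, ∀ i ∈ Finset.range K, ∀ j ∈ Finset.range K, i ≠ j →
      d i ω = 0 ∨ d j ω = 0 := by
    have key : ∀ ω ∈ s, ∀ i j, i < j → d i ω = 0 ∨ d j ω = 0 := by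
      intro ω hω i j hij
      by_contra hc
      push Not at hc
      have h1 : n i < 2 * ρ ω ∧ ρ ω < 3 * n i := by
        by_contra h; exact hc.1 (hd0 i ω hω h)
      have h2 : n j < 2 * ρ ω ∧ ρ ω < 3 * n j := by
        by_contra h; exact hc.2 (hd0 j ω hω h)
      have h3 : 8 * n i ≤ n j := by
        calc 8 * n i = 8 ^ (i + 1) * N := by simp only [n]; rw [pow_succ]; ring
          _ ≤ 8 ^ j * N := Nat.mul_le_mul_right _ (Nat.pow_le_pow_right (by norm_num) hij)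
      omega
    intro ω hω i _ j _ hij
    rcases Nat.lt_or_gt_of_ne hij with h | h
    · exact key ω hω i j h
    · exact (key ω hω j i h).symm
  have e : ∀ ω ∈ s, (logProf N K (ρ (g ω)) - logProf N K (ρ ω)) ^ 2 =
      (π / 2) ^ 2 * ((K:ℝ)⁻¹) ^ 2 * ∑ j ∈ Finset.range K, d j ω ^ 2 := by
    intro ω hω
    rw [← sq_sum_of_disjoint _ _ (hdisj ω hω)]
    unfold logProf
    rw [← mul_sub, ← mul_sub, ← Finset.sum_sub_distrib]
    simp only [d, n]
    ring
  rw [Finset.sum_congr rfl e, ← Finset.mul_sum, Finset.sum_comm]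
  have h1 : ∀ j ∈ Finset.range K, ∑ ω ∈ s, d j ω ^ 2 ≤ 9 * A * (M:ℝ) ^ 2 := by
    intro j _
    have hnj : (0:ℝ) < n j := by exact_mod_cast hn0 j
    have h2 : ∀ ω ∈ s, d j ω ^ 2 ≤ if ρ ω ≤ 3 * n j then ((M:ℝ) / n j) ^ 2 else 0 := by
      intro ω hω
      split_ifs with h
      · rw [← sq_abs]
        exact pow_le_pow_left₀ (abs_nonneg _) (hd1 j ω hω) 2
      · rw [hd0 j ω hω (by intro h'; omega)]
        simp
    refine (Finset.sum_le_sum h2).trans ?_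
    rw [← Finset.sum_filter, Finset.sum_const, nsmul_eq_mul]
    have h3 := hA (3 * n j) (s.filter fun ω => ρ ω ≤ 3 * n j) (by have := hn0 j; omega)
      (fun ω hω => (Finset.mem_filter.1 hω).2)
    push_cast at h3
    calc ((s.filter fun ω => ρ ω ≤ 3 * n j).card : ℝ) * ((M:ℝ) / n j) ^ 2
        ≤ (A * (3 * n j) ^ 2) * ((M:ℝ) / n j) ^ 2 :=
          mul_le_mul_of_nonneg_right h3 (by positivity)
      _ = 9 * A * (M:ℝ) ^ 2 := by
        field_simp
        ring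
  calc (π / 2) ^ 2 * ((K:ℝ)⁻¹) ^ 2 * ∑ j ∈ Finset.range K, ∑ ω ∈ s, d j ω ^ 2
      ≤ (π / 2) ^ 2 * ((K:ℝ)⁻¹) ^ 2 * ∑ _j ∈ Finset.range K, (9 * A * (M:ℝ) ^ 2) :=
        mul_le_mul_of_nonneg_left (Finset.sum_le_sum h1) (by positivity)
    _ = 9 * (π / 2) ^ 2 * A * (M:ℝ) ^ 2 / K := by
      rw [Finset.sum_const, Finset.card_range, nsmul_eq_mul]
      field_simp

end Crest.Agent.R189
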