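import Mathlib
import Crest.Agent.R189.AmenAM
import Crest.Agent.R189.Bern
import Crest.Agent.R189.Energy

/-!
# Row 189: finite difference theorem (helper710)

* `amen_finDiff'`, `amen_finDiff` : random finite sets form;
* `amen_angles` : angles form;
* `amen_oneD`   : bounded displacements on `ℤ × B`, `B` finite.
-/

set_option autoImplicit false

namespace Crest.Agent.R189

open Equiv

section

variable {G Ω : Type*} [Group G]

/-- two actions with finite differences, random finite sets -/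
theorem amen_finDiff' (ρ0 ρ1 : G →* Perm Ω) (hfin : ∀ g, {x | ρ0 g x ≠ ρ1 g x}.Finite)
    (hp : ∀ (F : Finset G) (E : Finset Ω) (ε : ℝ), 0 < ε → ∃ p : Finset Ω →₀ ℝ, IsProb p ∧
      (∀ D ∈ p.support, E ⊆ D) ∧
      ∀ g ∈ F, l1 (p.mapDomain (Finset.map (ρ0 g).toEmbedding) - p) < ε)
    (H : Subgroup G) (hH : Amen (H ⊓ MonoidHom.eqLocus ρ0 ρ1 : Subgroup G)) : Amen H := by
  classical
  refine amen_twist_fin' ρ0 ρ1 hfin ?_ H hH
  intro F B hB ε hε
  obtain ⟨p, h1, h2, h3⟩ := hp F hB.toFinset ε hε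
  refine ⟨p.mapDomain (fun D : Finset Ω => (D : Set Ω)), h1.map _, ?_, ?_⟩
  · intro D hD
    obtain ⟨D', hD', rfl⟩ := Finset.mem_image.1 (Finsupp.mapDomain_support hD)
    refine ⟨D'.finite_toSet, ?_⟩
    intro x hx
    exact h2 D' hD' (hB.mem_toFinset.2 hx)
  · intro g hg
    have e : (p.mapDomain (fun D : Finset Ω => (D : Set Ω))).mapDomain (fun D => (ρ0 g) '' D)
        - p.mapDomain (fun D : Finset Ω => (D : Set Ω))
        = (p.mapDomain (Finset.map (ρ0 g).toEmbedding) - p).mapDomain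
          (fun D : Finset Ω => (D : Set Ω)) := by
      rw [mapDomain_sub, ← Finsupp.mapDomain_comp, ← Finsupp.mapDomain_comp]
      congr 2
      funext D
      simp
    rw [e]
    exact (l1_mapDomain_le _ _).trans_lt (h3 g hg)

/-- the whole group -/
theorem amen_finDiff (ρ0 ρ1 : G →* Perm Ω) (hfin : ∀ g, {x | ρ0 g x ≠ ρ1 g x}.Finite)
    (hp : ∀ (F : Finset G) (E : Finset Ω) (ε : ℝ), 0 < ε → ∃ p : Finset Ω →₀ ℝ, IsProb p ∧
      (∀ D ∈ p.support, E ⊆ D) ∧
      ∀ g ∈ F, l1 (p.mapDomain (Finset.map (ρ0 g).toEmbedding) - p) < ε)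
    (hA : Amen ↥(MonoidHom.eqLocus ρ0 ρ1)) : Amen G := by
  have key : Amen (⊤ : Subgroup G) := by
    refine amen_finDiff' ρ0 ρ1 hfin hp ⊤ ?_
    exact hA.of_inj (Subgroup.inclusion inf_le_right) (Subgroup.inclusion_injective _)
  exact key.equiv Subgroup.topEquiv

/-- Bernoulli sets from angles of small energy -/
theorem exists_law_of_angles (ρ0 : G →* Perm Ω) (F : Finset G) (E : Finset Ω)
    (hθ : ∀ ε : ℝ, 0 < ε → ∃ θ : Ω →₀ ℝ, (∀ x ∈ E, θ x = Real.pi / 2) ∧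
      ∀ g ∈ F, ∀ s : Finset Ω, ∑ x ∈ s, (θ (ρ0 g x) - θ x) ^ 2 < ε) (ε : ℝ) (hε : 0 < ε) :
    ∃ p : Finset Ω →₀ ℝ, IsProb p ∧ (∀ D ∈ p.support, E ⊆ D) ∧
      ∀ g ∈ F, l1 (p.mapDomain (Finset.map (ρ0 g).toEmbedding) - p) < ε := by
  classical
  obtain ⟨θ, h1, h2⟩ := hθ ((ε / 2) ^ 2) (by positivity)
  refine ⟨law θ, isProb_law θ, fun D hD x hx => mem_of_mem_law_support hD (h1 x hx),
    fun g hg => ?_⟩
  rw [law_map]
  set θ' : Ω →₀ ℝ := θ.mapDomain (ρ0 g) with hθ'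
  refine (l1_law_sub_le θ' θ (θ'.support ∪ θ.support) Finset.subset_union_left
    Finset.subset_union_right).trans_lt ?_
  have e : ∀ x, θ' x = θ ((ρ0 g).symm x) := by
    intro x
    conv_lhs => rw [← (ρ0 g).apply_symm_apply x]
    exact Finsupp.mapDomain_apply (ρ0 g).injective _ _
  have h3 := h2 g hg ((θ'.support ∪ θ.support).map (ρ0 g).symm.toEmbedding)
  rw [Finset.sum_map] at h3
  have h4 : ∑ x ∈ θ'.support ∪ θ.support, (θ' x - θ x) ^ 2 < (ε / 2) ^ 2 := by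
    refine lt_of_eq_of_lt (Finset.sum_congr rfl (fun x _ => ?_)) h3
    rw [e]
    have e2 : (ρ0 g) ((ρ0 g).symm.toEmbedding x) = x := (ρ0 g).apply_symm_apply x
    rw [e2]
    have e3 : (ρ0 g).symm.toEmbedding x = (ρ0 g).symm x := rfl
    rw [e3]
    ring
  have h5 : √(∑ x ∈ θ'.support ∪ θ.support, (θ' x - θ x) ^ 2) < ε / 2 := by
    rw [Real.sqrt_lt' (by positivity)]
    exact h4
  linarith

/-- two actions with finite differences, angles of small energy -/
theorem amen_angles (ρ0 ρ1 : G →* Perm Ω) (hfin : ∀ g, {x | ρ0 g x ≠ ρ1 g x}.Finite)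
    (hθ : ∀ (F : Finset G) (E : Finset Ω) (ε : ℝ), 0 < ε → ∃ θ : Ω →₀ ℝ,
      (∀ x ∈ E, θ x = Real.pi / 2) ∧
      ∀ g ∈ F, ∀ s : Finset Ω, ∑ x ∈ s, (θ (ρ0 g x) - θ x) ^ 2 < ε)
    (H : Subgroup G) (hH : Amen (H ⊓ MonoidHom.eqLocus ρ0 ρ1 : Subgroup G)) : Amen H :=
  amen_finDiff' ρ0 ρ1 hfin (fun F E ε hε => exists_law_of_angles ρ0 F E (hθ F E) ε hε) H hH

end

section oneD

variable {G B : Type*} [Group G] [Finite B]

/-- the linear profile on `ℤ × B` -/
theorem exists_angles_oneD (ρ0 : G →* Perm (ℤ × B))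
    (hdisp : ∀ g, ∃ M : ℕ, ∀ x, |(ρ0 g x).1 - x.1| ≤ M) (F : Finset G) (E : Finset (ℤ × B))
    (ε : ℝ) (hε : 0 < ε) : ∃ θ : ℤ × B →₀ ℝ, (∀ x ∈ E, θ x = Real.pi / 2) ∧
      ∀ g ∈ F, ∀ s : Finset (ℤ × B), ∑ x ∈ s, (θ (ρ0 g x) - θ x) ^ 2 < ε := by
  classical
  have := Fintype.ofFinite B
  choose Mf hMf using hdisp
  set M : ℕ := F.sup Mf with hM
  set J : ℝ := ((Fintype.card B : ℕ) : ℝ) with hJ
  set K : ℝ := (Real.pi / 2) ^ 2 * (7 * J) * M ^ 2 with hK
  have hK0 : 0 ≤ K := by positivity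
  obtain ⟨N0, hN0⟩ := exists_nat_gt (K / ε)
  set N : ℕ := max (max 1 N0) (max M (E.sup (fun x => x.1.natAbs))) with hN
  have hN1 : 1 ≤ N := (le_max_left _ _).trans (le_max_left _ _)
  have hNN0 : N0 ≤ N := (le_max_right _ _).trans (le_max_left _ _)
  have hNM : M ≤ N := (le_max_left _ _).trans (le_max_right _ _)
  have hNE : ∀ x ∈ E, x.1.natAbs ≤ N := fun x hx =>
    (Finset.le_sup (f := fun x : ℤ × B => x.1.natAbs) hx).trans
      ((le_max_right _ _).trans (le_max_right _ _))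
  let θ : ℤ × B →₀ ℝ := Finsupp.onFinset
    ((Finset.Icc (-(2 * N : ℤ)) (2 * N)) ×ˢ (Finset.univ : Finset B))
    (fun x => linProf N x.1.natAbs) (by
      intro x hx
      rw [Finset.mem_product]
      refine ⟨?_, Finset.mem_univ _⟩
      have h1 : x.1.natAbs < 2 * N := by
        by_contra hc
        exact hx (linProf_eq_zero (by omega) (by omega))
      rw [Finset.mem_Icc]
      omega)
  have hθ : ∀ x, θ x = linProf N x.1.natAbs := fun x => rfl
  refine ⟨θ, fun x hx => ?_, fun g hg s => ?_⟩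
  · rw [hθ]
    exact linProf_eq (hNE x hx)
  · simp only [hθ]
    have hcard : ∀ (n : ℕ) (s : Finset (ℤ × B)), (∀ ω ∈ s, ω.1.natAbs ≤ n) →
        (s.card : ℝ) ≤ J * (2 * n + 1) := by
      intro n s hs
      have h1 : s ⊆ (Finset.Icc (-(n : ℤ)) n) ×ˢ (Finset.univ : Finset B) := by
        intro x hx
        rw [Finset.mem_product]
        refine ⟨?_, Finset.mem_univ _⟩
        have := hs x hx
        rw [Finset.mem_Icc]
        omega
      have h2 := Finset.card_le_card h1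
      rw [Finset.card_product, Int.card_Icc, Finset.card_univ] at h2
      have h3 : ((n : ℤ) + 1 - -(n : ℤ)).toNat = 2 * n + 1 := by omega
      rw [h3] at h2
      have h4 : (s.card : ℝ) ≤ ((2 * n + 1) * Fintype.card B : ℕ) := by exact_mod_cast h2
      refine h4.trans (le_of_eq ?_)
      push_cast
      rw [hJ]; ring
    have hMg : Mf g ≤ M := Finset.le_sup hg
    have hd : ∀ x, |(ρ0 g x).1 - x.1| ≤ M := fun x =>
      (hMf g x).trans (by exact_mod_cast hMg)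
    have hE := linProf_energy (fun x : ℤ × B => x.1.natAbs) J hcard (N := N) (M := M)
      (by omega) s (fun x => ρ0 g x)
      (fun x _ => by have := abs_le.1 (hd x); omega)
      (fun x _ => by have := abs_le.1 (hd x); omega)
    refine hE.trans_lt ?_
    have hNpos : (0 : ℝ) < N := by exact_mod_cast hN1
    have hJ0 : (0 : ℝ) ≤ J := by rw [hJ]; positivity
    have h1 : (Real.pi / 2) ^ 2 * (J * (4 * N + 2 * M + 1)) * ((M : ℝ) / N) ^ 2 ≤ K / N := by
      have h2 : (4 * N + 2 * M + 1 : ℝ) ≤ 7 * N := by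
        have h3 : (M : ℝ) ≤ N := by exact_mod_cast hNM
        have h4 : (1 : ℝ) ≤ N := by exact_mod_cast hN1
        linarith
      calc (Real.pi / 2) ^ 2 * (J * (4 * N + 2 * M + 1)) * ((M : ℝ) / N) ^ 2
          ≤ (Real.pi / 2) ^ 2 * (J * (7 * N)) * ((M : ℝ) / N) ^ 2 := by gcongr
        _ = K / N := by
          rw [hK]
          field_simp
    refine h1.trans_lt ?_
    rw [div_lt_iff₀ hNpos]
    rw [div_lt_iff₀ hε] at hN0
    have h5 : (N0 : ℝ) ≤ N := by exact_mod_cast hNN0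
    nlinarith

/-- two actions on `ℤ × B` with bounded displacements and finite differences -/
theorem amen_oneD (ρ0 ρ1 : G →* Perm (ℤ × B)) (hfin : ∀ g, {x | ρ0 g x ≠ ρ1 g x}.Finite)
    (hdisp : ∀ g, ∃ M : ℕ, ∀ x, |(ρ0 g x).1 - x.1| ≤ M)
    (H : Subgroup G) (hH : Amen (H ⊓ MonoidHom.eqLocus ρ0 ρ1 : Subgroup G)) : Amen H :=
  amen_angles ρ0 ρ1 hfin (fun F E ε hε => exists_angles_oneD ρ0 hdisp F E ε hε) H hH

end oneD

end Crest.Agent.R189
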