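import Crest.Agent.R189.Amen
import Crest.Agent.R189.Energy
import Crest.Agent.R189.Bern

/-!
Row 189, step C: random finite subsets of `(ℤ × ℤ) × C` which are almost invariant under
finitely many permutations of bounded displacement.
-/

set_option autoImplicit false

namespace Crest.Agent.R189

open Equiv Real

section

variable {C : Type*}

/-- radius of a point -/
def rad (x : (ℤ × ℤ) × C) : ℕ := max x.1.1.natAbs x.1.2.natAbs

theorem rad_ball [Fintype C] (n : ℕ) (s : Finset ((ℤ × ℤ) × C)) (hn : 1 ≤ n)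
    (hs : ∀ ω ∈ s, rad ω ≤ n) : (s.card : ℝ) ≤ (9 * Fintype.card C : ℝ) * n ^ 2 := by
  classical
  have hsub : s ⊆ (Finset.Icc (-(n : ℤ)) n ×ˢ Finset.Icc (-(n : ℤ)) n) ×ˢ (Finset.univ : Finset C) := by
    intro x hx
    have h := hs x hx
    unfold rad at h
    have h1 : x.1.1.natAbs ≤ n := (le_max_left _ _).trans h
    have h2 : x.1.2.natAbs ≤ n := (le_max_right _ _).trans h
    simp only [Finset.mem_product, Finset.mem_Icc, Finset.mem_univ, and_true]
    omega
  have hc := Finset.card_le_card hsub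
  rw [Finset.card_product, Finset.card_product, Int.card_Icc, Finset.card_univ] at hc
  have e : ((n : ℤ) + 1 - -(n : ℤ)).toNat = 2 * n + 1 := by omega
  rw [e] at hc
  have h3 : (2 * n + 1) * (2 * n + 1) * Fintype.card C ≤ (3 * n) * (3 * n) * Fintype.card C := by
    gcongr <;> omega
  have h4 : (s.card : ℝ) ≤ ((3 * n) * (3 * n) * Fintype.card C : ℕ) := by
    exact_mod_cast hc.trans h3
  refine h4.trans (le_of_eq ?_)
  push_cast; ring

/-- bounded displacement -/
def BddDisp (M : ℕ) (σ : Perm ((ℤ × ℤ) × C)) : Prop :=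
  ∀ x, |((σ x).1 - x.1).1| ≤ M ∧ |((σ x).1 - x.1).2| ≤ M

theorem BddDisp.rad_le {M : ℕ} {σ : Perm ((ℤ × ℤ) × C)} (h : BddDisp M σ) (x : (ℤ × ℤ) × C) :
    rad (σ x) ≤ rad x + M ∧ rad x ≤ rad (σ x) + M := by
  obtain ⟨h1, h2⟩ := h x
  have a1 := abs_le.1 h1
  have a2 := abs_le.1 h2
  simp only [Prod.fst_sub, Prod.snd_sub] at a1 a2
  unfold rad
  constructor
  · apply max_le
    · have : x.1.1.natAbs ≤ max x.1.1.natAbs x.1.2.natAbs := le_max_left _ _
      omega
    · have : x.1.2.natAbs ≤ max x.1.1.natAbs x.1.2.natAbs := le_max_right _ _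
      omega
  · apply max_le
    · have : (σ x).1.1.natAbs ≤ max (σ x).1.1.natAbs (σ x).1.2.natAbs := le_max_left _ _
      omega
    · have : (σ x).1.2.natAbs ≤ max (σ x).1.1.natAbs (σ x).1.2.natAbs := le_max_right _ _
      omega

theorem BddDisp.inv {M : ℕ} {σ : Perm ((ℤ × ℤ) × C)} (h : BddDisp M σ) : BddDisp M σ⁻¹ := by
  intro x
  obtain ⟨h1, h2⟩ := h (σ⁻¹ x)
  have e : σ (σ⁻¹ x) = x := σ.apply_symm_apply x
  rw [e] at h1 h2
  constructor
  · rw [← abs_neg]; simpa using h1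
  · rw [← abs_neg]; simpa using h2

theorem BddDisp.mono {M M' : ℕ} {σ : Perm ((ℤ × ℤ) × C)} (h : BddDisp M σ) (hM : M ≤ M') :
    BddDisp M' σ := by
  intro x
  have hM' : (M : ℤ) ≤ M' := by exact_mod_cast hM
  exact ⟨(h x).1.trans hM', (h x).2.trans hM'⟩

theorem finite_rad_lt [Finite C] (n : ℕ) : {x : (ℤ × ℤ) × C | rad x < n}.Finite := by
  classical
  refine Set.Finite.subset (s := ((Set.Icc (-(n : ℤ)) n ×ˢ Set.Icc (-(n : ℤ)) n) ×ˢ
    (Set.univ : Set C))) ?_ ?_
  · exact ((Set.finite_Icc _ _).prod (Set.finite_Icc _ _)).prod Set.finite_univ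
  · intro x hx
    have h : rad x < n := hx
    unfold rad at h
    have h1 : x.1.1.natAbs < n := lt_of_le_of_lt (le_max_left _ _) h
    have h2 : x.1.2.natAbs < n := lt_of_le_of_lt (le_max_right _ _) h
    refine ⟨⟨⟨?_, ?_⟩, ⟨?_, ?_⟩⟩, Set.mem_univ _⟩ <;> omega

/-- the angle function -/
noncomputable def angle (C : Type*) [Finite C] (N K : ℕ) : ((ℤ × ℤ) × C) →₀ ℝ :=
  Finsupp.onFinset (finite_rad_lt (C := C) (8 ^ K * N)).toFinset
    (fun x => if 0 < N then logProf N K (rad x) else 0) (by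
      intro x hx
      rw [Set.Finite.mem_toFinset]
      by_contra h
      have h' : ¬ rad x < 8 ^ K * N := h
      apply hx
      split_ifs with hN
      · exact logProf_eq_zero hN (not_lt.1 h')
      · rfl)

theorem angle_apply [Finite C] {N K : ℕ} (hN : 0 < N) (x : (ℤ × ℤ) × C) :
    angle C N K x = logProf N K (rad x) := by
  unfold angle
  rw [Finsupp.onFinset_apply, if_pos hN]

/-- **Random finite sets.** -/
theorem exists_random_finset [Finite C] (F : Finset (Perm ((ℤ × ℤ) × C)))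
    (hF : ∀ σ ∈ F, ∃ M, BddDisp M σ) (D0 : Finset ((ℤ × ℤ) × C)) {ε : ℝ} (hε : 0 < ε) :
    ∃ p : Finset ((ℤ × ℤ) × C) →₀ ℝ, IsProb p ∧ (∀ D ∈ p.support, D0 ⊆ D) ∧
      ∀ σ ∈ F, l1 (p.mapDomain (Finset.map σ.toEmbedding) - p) < ε := by
  classical
  have := Fintype.ofFinite C
  -- common displacement bound
  obtain ⟨M, hM⟩ : ∃ M : ℕ, ∀ σ ∈ F, BddDisp M σ := by
    choose! m hm using hF
    exact ⟨F.sup m, fun σ hσ => (hm σ hσ).mono (Finset.le_sup hσ)⟩
  set A : ℝ := 9 * Fintype.card C with hA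
  have hA0 : 0 ≤ A := by positivity
  -- choose `N`
  let N : ℕ := 2 * M + 1 + D0.sup rad
  have hN : 0 < N := by omega
  have hMN : 2 * M ≤ N := by omega
  -- choose `K`
  obtain ⟨K, hK⟩ : ∃ K : ℕ, 4 * (9 * (π / 2) ^ 2 * A * (M:ℝ) ^ 2) / ε ^ 2 < K := exists_nat_gt _
  have hK0 : 0 < K := by
    have h1 : (0:ℝ) ≤ 4 * (9 * (π / 2) ^ 2 * A * (M:ℝ) ^ 2) / ε ^ 2 := by positivity
    have : (0:ℝ) < K := lt_of_le_of_lt h1 hK
    exact_mod_cast this
  refine ⟨law (angle C N K), isProb_law _, ?_, ?_⟩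
  · intro D hD x hx
    refine mem_of_mem_law_support hD ?_
    rw [angle_apply hN]
    refine logProf_eq hK0 ?_
    have : rad x ≤ D0.sup rad := Finset.le_sup (f := rad) hx
    omega
  · intro σ hσ
    have hσM := hM σ hσ
    rw [law_map]
    set s : Finset ((ℤ × ℤ) × C) := ((angle C N K).mapDomain σ).support ∪ (angle C N K).support with hs
    have hen := logProf_energy (Ω := (ℤ × ℤ) × C) rad A (fun n s hn hs => rad_ball n s hn hs)
      hN hK0 hMN s (σ⁻¹ : Perm _) (fun ω _ => (hσM.inv.rad_le ω).2)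
      (fun ω _ => (hσM.inv.rad_le ω).1)
    have h1 := l1_law_sub_le ((angle C N K).mapDomain σ) (angle C N K) s
      Finset.subset_union_left Finset.subset_union_right
    have e : ∀ j, (angle C N K).mapDomain σ j = logProf N K (rad ((σ⁻¹ : Perm _) j)) := by
      intro j
      have hj : j = σ ((σ⁻¹ : Perm _) j) := (σ.apply_symm_apply j).symm
      conv_lhs => rw [hj]
      rw [Finsupp.mapDomain_apply σ.injective, angle_apply hN]
    have e2 : ∑ j ∈ s, ((angle C N K).mapDomain σ j - angle C N K j) ^ 2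
        ≤ 9 * (π / 2) ^ 2 * A * (M:ℝ) ^ 2 / K := by
      refine le_trans (le_of_eq ?_) hen
      refine Finset.sum_congr rfl fun j _ => ?_
      rw [e, angle_apply hN]
    refine lt_of_le_of_lt (h1.trans (mul_le_mul_of_nonneg_left (Real.sqrt_le_sqrt e2)
      (by norm_num))) ?_
    have hKpos : (0:ℝ) < K := by exact_mod_cast hK0
    have h5 : 9 * (π / 2) ^ 2 * A * (M:ℝ) ^ 2 / K < (ε / 2) ^ 2 := by
      rw [div_lt_iff₀ hKpos]
      rw [div_lt_iff₀ (by positivity)] at hK
      nlinarith [hK]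
    have h6 := Real.sqrt_lt_sqrt (by positivity) h5
    rw [Real.sqrt_sq (by positivity)] at h6
    linarith

end

end Crest.Agent.R189
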