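import Mathlib
import Crest.Agent.R189.Amen

/-!
# Row 189, M14 Step D: groups of doubly periodic permutations of `ℤ² × C` are amenable

* `Per w h C` : the permutations of `(ℤ × ℤ) × C` commuting with the translations by
  `(w i, h j)`; for `w, h ≠ 0` and `C` finite it is virtually abelian, hence `Amen`.
* `amen_of_per` : a group with an injective hom to `Perm ((ℤ × ℤ) × C)` all of whose finite
  subsets land in some `Per w h C` is `Amen`.
-/

namespace Crest.Agent.R189.PerGp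

open Crest.Agent.R189

variable {C : Type*}

/-- translation of the board -/
def tr (v : ℤ × ℤ) (x : (ℤ × ℤ) × C) : (ℤ × ℤ) × C := (x.1 + v, x.2)

@[simp] lemma tr_fst (v : ℤ × ℤ) (x : (ℤ × ℤ) × C) : (tr v x).1 = x.1 + v := rfl
@[simp] lemma tr_snd (v : ℤ × ℤ) (x : (ℤ × ℤ) × C) : (tr v x).2 = x.2 := rfl

lemma tr_tr (v v' : ℤ × ℤ) (x : (ℤ × ℤ) × C) : tr v (tr v' x) = tr (v' + v) x := by
  ext <;> simp [tr, add_assoc]

/-- permutations commuting with the translations by `(w i, h j)` -/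
def Per (w h : ℤ) (C : Type*) : Subgroup (Equiv.Perm ((ℤ × ℤ) × C)) where
  carrier := {π | ∀ (x : (ℤ × ℤ) × C) (i j : ℤ), π (tr (w * i, h * j) x) = tr (w * i, h * j) (π x)}
  mul_mem' := by
    intro a b ha hb x i j
    rw [Equiv.Perm.mul_apply, Equiv.Perm.mul_apply, hb, ha]
  one_mem' := by
    intro x i j
    rfl
  inv_mem' := by
    intro a ha x i j
    have h1 := ha (a⁻¹ x) i j
    have e1 : a (a⁻¹ x) = x := a.apply_symm_apply x
    rw [e1] at h1
    rw [← h1]
    exact a.symm_apply_apply _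

lemma mem_Per {w h : ℤ} {π : Equiv.Perm ((ℤ × ℤ) × C)} :
    π ∈ Per w h C ↔ ∀ (x : (ℤ × ℤ) × C) (i j : ℤ),
      π (tr (w * i, h * j) x) = tr (w * i, h * j) (π x) := Iff.rfl

/-- the same, spelled out -/
lemma mem_Per' {w h : ℤ} {π : Equiv.Perm ((ℤ × ℤ) × C)} :
    π ∈ Per w h C ↔ ∀ (p : ℤ × ℤ) (c : C) (i j : ℤ),
      π (p + (w * i, h * j), c) = ((π (p, c)).1 + (w * i, h * j), (π (p, c)).2) :=
  ⟨fun H p c i j => H (p, c) i j, fun H x i j => H x.1 x.2 i j⟩

lemma Per_mono {w h w' h' : ℤ} (hw : w ∣ w') (hh : h ∣ h') : Per w h C ≤ Per w' h' C := by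
  intro π hπ x i j
  obtain ⟨a, rfl⟩ := hw
  obtain ⟨b, rfl⟩ := hh
  rw [mul_assoc, mul_assoc]
  exact hπ x (a * i) (b * j)

/-- the finite quotient of the board -/
abbrev Quo (w h : ℤ) (C : Type*) := (ZMod w.natAbs × ZMod h.natAbs) × C

/-- projection to the finite quotient -/
def quo (w h : ℤ) (x : (ℤ × ℤ) × C) : Quo w h C :=
  (((x.1.1 : ZMod w.natAbs), (x.1.2 : ZMod h.natAbs)), x.2)

lemma quo_surj (w h : ℤ) : Function.Surjective (quo w h : (ℤ × ℤ) × C → Quo w h C) := by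
  rintro ⟨⟨a, b⟩, c⟩
  obtain ⟨x, rfl⟩ := ZMod.intCast_surjective a
  obtain ⟨y, rfl⟩ := ZMod.intCast_surjective b
  exact ⟨((x, y), c), rfl⟩

lemma quo_eq_iff {w h : ℤ} {x y : (ℤ × ℤ) × C} :
    quo w h x = quo w h y ↔ ∃ i j : ℤ, y = tr (w * i, h * j) x := by
  constructor
  · intro H
    simp only [quo, Prod.mk.injEq] at H
    obtain ⟨⟨h1, h2⟩, h3⟩ := H
    rw [ZMod.intCast_eq_intCast_iff_dvd_sub] at h1 h2
    rw [Int.natAbs_dvd] at h1 h2
    obtain ⟨i, hi⟩ := h1
    obtain ⟨j, hj⟩ := h2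
    refine ⟨i, j, ?_⟩
    ext
    · simp only [tr_fst, Prod.fst_add]; omega
    · simp only [tr_fst, Prod.snd_add]; omega
    · exact h3.symm
  · rintro ⟨i, j, rfl⟩
    simp only [quo, Prod.mk.injEq, tr_fst, tr_snd, Prod.fst_add, Prod.snd_add]
    refine ⟨⟨?_, ?_⟩, trivial⟩
    · rw [ZMod.intCast_eq_intCast_iff_dvd_sub, Int.natAbs_dvd]
      exact ⟨i, by ring⟩
    · rw [ZMod.intCast_eq_intCast_iff_dvd_sub, Int.natAbs_dvd]
      exact ⟨j, by ring⟩

lemma quo_congr {w h : ℤ} {π : Equiv.Perm ((ℤ × ℤ) × C)} (hπ : π ∈ Per w h C)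
    {x y : (ℤ × ℤ) × C} (H : quo w h x = quo w h y) : quo w h (π x) = quo w h (π y) := by
  rw [quo_eq_iff] at H ⊢
  obtain ⟨i, j, rfl⟩ := H
  exact ⟨i, j, hπ x i j⟩

/-- induced map on the quotient -/
noncomputable def qmap (w h : ℤ) (π : Equiv.Perm ((ℤ × ℤ) × C)) (z : Quo w h C) : Quo w h C :=
  quo w h (π (Function.surjInv (quo_surj w h) z))

lemma qmap_quo {w h : ℤ} {π : Equiv.Perm ((ℤ × ℤ) × C)} (hπ : π ∈ Per w h C)
    (x : (ℤ × ℤ) × C) : qmap w h π (quo w h x) = quo w h (π x) :=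
  quo_congr hπ (Function.surjInv_eq (quo_surj w h) _)

/-- the induced permutation of the finite quotient -/
noncomputable def qhom (w h : ℤ) (C : Type*) : Per w h C →* Equiv.Perm (Quo w h C) where
  toFun π :=
    { toFun := qmap w h π.1
      invFun := qmap w h (π.1)⁻¹
      left_inv := by
        intro z
        obtain ⟨x, rfl⟩ := quo_surj w h z
        rw [qmap_quo π.2, qmap_quo ((Per w h C).inv_mem π.2)]
        exact congrArg (quo w h) (π.1.symm_apply_apply x)
      right_inv := by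
        intro z
        obtain ⟨x, rfl⟩ := quo_surj w h z
        rw [qmap_quo ((Per w h C).inv_mem π.2), qmap_quo π.2]
        exact congrArg (quo w h) (π.1.apply_symm_apply x) }
  map_one' := by
    ext1 z
    obtain ⟨x, rfl⟩ := quo_surj w h z
    exact qmap_quo (Per w h C).one_mem x
  map_mul' := by
    intro a b
    ext1 z
    obtain ⟨x, rfl⟩ := quo_surj w h z
    show qmap w h (a * b : Per w h C).1 (quo w h x) = qmap w h a.1 (qmap w h b.1 (quo w h x))
    rw [qmap_quo (a * b).2, qmap_quo b.2, qmap_quo a.2]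
    rfl

lemma qhom_quo {w h : ℤ} (π : Per w h C) (x : (ℤ × ℤ) × C) :
    qhom w h C π (quo w h x) = quo w h (π.1 x) := qmap_quo π.2 x

/-- elements of the kernel move every point by a lattice vector -/
lemma ker_spec {w h : ℤ} {π : Per w h C} (hπ : π ∈ (qhom w h C).ker) (x : (ℤ × ℤ) × C) :
    ∃ i j : ℤ, π.1 x = tr (w * i, h * j) x := by
  have h1 : qhom w h C π (quo w h x) = quo w h x := by
    rw [MonoidHom.mem_ker] at hπ
    rw [hπ]
    rfl
  rw [qhom_quo] at h1
  exact quo_eq_iff.1 h1.symm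

lemma ker_comm {w h : ℤ} (a b : Per w h C) (ha : a ∈ (qhom w h C).ker)
    (hb : b ∈ (qhom w h C).ker) : a * b = b * a := by
  ext1
  refine Equiv.ext (fun x => ?_)
  show a.1 (b.1 x) = b.1 (a.1 x)
  obtain ⟨i, j, h1⟩ := ker_spec ha x
  obtain ⟨k, l, h2⟩ := ker_spec hb x
  rw [h1, h2, a.2 x k l, b.2 x i j, h1, h2, tr_tr, tr_tr, add_comm]

/-- groups of doubly periodic permutations are amenable (virtually abelian) -/
theorem amen_Per [Finite C] {w h : ℤ} (hw : w ≠ 0) (hh : h ≠ 0) : Amen (Per w h C) := by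
  have : NeZero w.natAbs := ⟨Int.natAbs_ne_zero.2 hw⟩
  have : NeZero h.natAbs := ⟨Int.natAbs_ne_zero.2 hh⟩
  have : Finite (Equiv.Perm (Quo w h C)) := inferInstance
  refine amen_of_ker (qhom w h C) amen_finite ?_
  let _ : CommGroup (qhom w h C).ker :=
    { (inferInstance : Group (qhom w h C).ker) with
      mul_comm := fun a b => Subtype.ext (ker_comm a.1 b.1 a.2 b.2) }
  exact amen_comm (G := (qhom w h C).ker)

variable {K : Type*} [Group K]

/-- STEP D, finite subsets form -/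
theorem amen_of_per [Finite C] (ρ : K →* Equiv.Perm ((ℤ × ℤ) × C)) (hρ : Function.Injective ρ)
    (H : ∀ F : Finset K, ∃ w h : ℤ, w ≠ 0 ∧ h ≠ 0 ∧ ∀ g ∈ F, ρ g ∈ Per w h C) : Amen K := by
  refine amen_of_local (fun F => ?_)
  obtain ⟨w, h, hw, hh, hF⟩ := H F
  refine ⟨(Per w h C).comap ρ, fun g hg => hF g hg, ?_⟩
  refine Amen.of_inj (amen_Per (C := C) hw hh)
    ((ρ.comp (Subgroup.subtype _)).codRestrict (Per w h C) (fun g => g.2)) ?_
  intro a b hab
  have h1 : ρ a.1 = ρ b.1 := congrArg Subtype.val hab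
  exact Subtype.ext (hρ h1)

/-- STEP D, chain form: every element is periodic along some member of a divisibility chain -/
theorem amen_of_per_chain [Finite C] (ρ : K →* Equiv.Perm ((ℤ × ℤ) × C))
    (hρ : Function.Injective ρ) (w h : ℕ → ℤ) (hw : ∀ n, w n ≠ 0) (hh : ∀ n, h n ≠ 0)
    (hw' : ∀ n, w n ∣ w (n + 1)) (hh' : ∀ n, h n ∣ h (n + 1))
    (H : ∀ g : K, ∃ n, ρ g ∈ Per (w n) (h n) C) : Amen K := by
  have hm : ∀ m n, m ≤ n → Per (w m) (h m) C ≤ Per (w n) (h n) C := by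
    intro m n hmn
    induction n, hmn using Nat.le_induction with
    | base => exact le_rfl
    | succ n _ ih => exact ih.trans (Per_mono (hw' n) (hh' n))
  choose N hN using H
  refine amen_of_per ρ hρ (fun F => ⟨w (F.sup N), h (F.sup N), hw _, hh _, fun g hg => ?_⟩)
  exact hm _ _ (Finset.le_sup hg) (hN g)

/-- STEP D with two independent chains (periods may be enlarged independently) -/
theorem amen_of_per_lcm [Finite C] (ρ : K →* Equiv.Perm ((ℤ × ℤ) × C))
    (hρ : Function.Injective ρ)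
    (H : ∀ g : K, ∃ w h : ℤ, w ≠ 0 ∧ h ≠ 0 ∧ ρ g ∈ Per w h C) : Amen K := by
  classical
  choose w h hw hh hg using H
  refine amen_of_per ρ hρ (fun F => ⟨∏ g ∈ F, w g, ∏ g ∈ F, h g, ?_, ?_, fun g hgF => ?_⟩)
  · exact Finset.prod_ne_zero_iff.2 (fun g _ => hw g)
  · exact Finset.prod_ne_zero_iff.2 (fun g _ => hh g)
  · exact Per_mono (Finset.dvd_prod_of_mem w hgF) (Finset.dvd_prod_of_mem h hgF) (hg g)

end Crest.Agent.R189.PerGp
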