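import Crest.Agent.R189.AmenMain
import Crest.Agent.R189.FinRand
import Crest.Agent.R189.PerGp
import Crest.Agent.R189.FinDiff

/-!
Row 189, M14: step C (removing the finite difference) and step D, i.e. the abstract theorem
`AmenData.amen`.
-/

set_option autoImplicit false
set_option linter.unusedSectionVars false

namespace Crest.Agent.R189

open Equiv

namespace AmenData

variable {G Star Lab Tau A C : Type*} [Group G] (D : AmenData G Star Lab Tau A C)

theorem bddDisp (g : G) (s : Star) : ∃ M, BddDisp M (D.ρ s g) := by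
  obtain ⟨M, hM⟩ := D.dis g
  exact ⟨M, fun x => hM s x.1 x.2⟩

/-- one step of step C -/
theorem stepC_one [Nonempty Tau] [Finite C]
    (s0 s : Star)
    (H : Subgroup G) (hH : H ≤ D.G2) (hA : Amen ↥(H ⊓ (D.ρ s0).eqLocus (D.ρ s))) : Amen ↥H := by
  classical
  refine amen_finDiff ((D.ρ s0).comp H.subtype) ((D.ρ s).comp H.subtype) ?_ ?_ ?_
  · intro g
    exact D.finite_diff (hH g.2) s0 s
  · intro F E ε hε
    obtain ⟨p, hp, hpD, hpF⟩ := exists_random_finset (F.image (fun g : H => D.ρ s0 (g : G)))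
      (by
        intro σ hσ
        obtain ⟨g, _, rfl⟩ := Finset.mem_image.1 hσ
        exact D.bddDisp _ _) E hε
    exact ⟨p, hp, hpD, fun g hg => hpF _ (Finset.mem_image_of_mem _ hg)⟩
  · refine Amen.of_inj hA ⟨⟨fun g => ⟨((g : H) : G), ⟨(g : H).2, g.2⟩⟩, rfl⟩, fun _ _ => rfl⟩ ?_
    intro a b hab
    have := congrArg (fun x : (H ⊓ (D.ρ s0).eqLocus (D.ρ s) : Subgroup G) => (x : G)) hab
    exact Subtype.ext (Subtype.ext this)

theorem stepC [Nonempty Tau] [Finite C] [Finite Star]
    (s0 : Star)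
    (hA : Amen ↥(D.G3 s0)) : Amen ↥D.G2 := by
  classical
  have := Fintype.ofFinite Star
  have key : ∀ (T : Finset Star) (H : Subgroup G), H ≤ D.G2 →
      Amen ↥(H ⊓ T.inf (fun s => (D.ρ s0).eqLocus (D.ρ s))) → Amen ↥H := by
    intro T
    induction T using Finset.induction_on with
    | empty => intro H _ h; rwa [Finset.inf_empty, inf_top_eq] at h
    | insert a T ha ih =>
      intro H hH h
      rw [Finset.inf_insert, ← inf_assoc] at h
      exact D.stepC_one s0 a H hH (ih _ (inf_le_left.trans hH) h)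
  refine key Finset.univ _ le_rfl ?_
  have e : (D.G2 ⊓ (Finset.univ : Finset Star).inf (fun s => (D.ρ s0).eqLocus (D.ρ s)) : Subgroup G)
      = D.G3 s0 := by
    ext g
    simp only [Finset.inf_univ_eq_iInf, Subgroup.mem_inf, Subgroup.mem_iInf]
    constructor
    · rintro ⟨h1, h2⟩
      exact ⟨h1, fun s => (h2 s).symm⟩
    · rintro ⟨h1, h2⟩
      exact ⟨h1, fun s => (h2 s).symm⟩
  rw [e]
  exact hA

/-- step D -/
theorem amen_G3 [Finite C] (s0 : Star) : Amen ↥(D.G3 s0) := by
  refine PerGp.amen_of_per ((D.ρ s0).comp (D.G3 s0).subtype) ?_ ?_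
  · rw [← MonoidHom.ker_eq_bot_iff, Subgroup.eq_bot_iff_forall]
    intro g hg
    have hg' : D.ρ s0 (g : G) = 1 := hg
    refine Subtype.ext (D.inj _ fun s => ?_)
    rw [← hg']
    exact g.2.2 s
  · intro F
    classical
    obtain ⟨w, h, hw, hh, hF⟩ := D.G3_periodic s0 (F.image (fun g : D.G3 s0 => (g : G))) (by
      intro g hg
      obtain ⟨g', _, rfl⟩ := Finset.mem_image.1 hg
      exact g'.2)
    refine ⟨w, h, hw.ne', hh.ne', fun g hg => ?_⟩
    rw [PerGp.mem_Per]
    rintro ⟨p, c⟩ i j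
    exact hF _ (Finset.mem_image_of_mem _ hg) i j p c

include D in
/-- **Abstract amenability theorem.** -/
theorem amen [Nonempty Star] [Nonempty Tau] [Finite C] [Finite Star] :
    Amen G := by
  obtain ⟨s0⟩ := ‹Nonempty Star›
  exact D.amen_of_G2 (D.stepC s0 (D.amen_G3 s0))

end AmenData

end Crest.Agent.R189
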