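import Mathlib
import Crest.Agent.R189.Amen

/-!
# Row 189, M14: centralisers of cofinite abelian actions are amenable

* `Cent A Ω` : the permutations of `Ω` commuting with the action of the abelian group `A`;
  if the number of orbits is finite, it is virtually abelian, hence `Amen` (`amen_Cent`).
* one dimensional form: `Per1 w F` : the permutations of `ℤ × F` commuting with the translation
  by `w i`; `amen_Per1` for `w ≠ 0`, `F` finite, and the local criteria `amen_of_per1` (finite
  subsets) and `amen_of_per1_lcm` (each element has some period).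
-/

namespace Crest.Agent.R189.PerGp

open Crest.Agent.R189

section general

variable (A Ω : Type*) [CommGroup A] [MulAction A Ω]

/-- permutations commuting with the action of `A` -/
def Cent : Subgroup (Equiv.Perm Ω) where
  carrier := {π | ∀ (a : A) (x : Ω), π (a • x) = a • π x}
  mul_mem' := by
    intro a b ha hb t x
    rw [Equiv.Perm.mul_apply, Equiv.Perm.mul_apply, hb, ha]
  one_mem' := by
    intro t x
    rfl
  inv_mem' := by
    intro a ha t x
    have h1 := ha t (a⁻¹ x)
    have e1 : a (a⁻¹ x) = x := a.apply_symm_apply x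
    rw [e1] at h1
    rw [← h1]
    exact a.symm_apply_apply _

variable {A Ω}

lemma mem_Cent {π : Equiv.Perm Ω} : π ∈ Cent A Ω ↔ ∀ (a : A) (x : Ω), π (a • x) = a • π x :=
  Iff.rfl

lemma cent_congr {π : Equiv.Perm Ω} (hπ : π ∈ Cent A Ω) {x y : Ω}
    (H : MulAction.orbitRel A Ω x y) : MulAction.orbitRel A Ω (π x) (π y) := by
  rw [MulAction.orbitRel_apply, MulAction.mem_orbit_iff] at H ⊢
  obtain ⟨a, rfl⟩ := H
  exact ⟨a, (hπ a y).symm⟩

/-- the induced map on the orbit space -/
def cmap (π : Equiv.Perm Ω) (hπ : π ∈ Cent A Ω) :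
    MulAction.orbitRel.Quotient A Ω → MulAction.orbitRel.Quotient A Ω :=
  Quotient.map π (fun _ _ H => cent_congr hπ H)

variable (A Ω) in
/-- the induced permutation of the orbit space -/
def chom : Cent A Ω →* Equiv.Perm (MulAction.orbitRel.Quotient A Ω) where
  toFun π :=
    { toFun := cmap π.1 π.2
      invFun := cmap (π.1)⁻¹ ((Cent A Ω).inv_mem π.2)
      left_inv := by
        intro z
        induction z using Quotient.inductionOn with
        | h x => exact congrArg (Quotient.mk _) (π.1.symm_apply_apply x)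
      right_inv := by
        intro z
        induction z using Quotient.inductionOn with
        | h x => exact congrArg (Quotient.mk _) (π.1.apply_symm_apply x) }
  map_one' := by
    ext1 z
    induction z using Quotient.inductionOn with
    | h x => rfl
  map_mul' := by
    intro a b
    ext1 z
    induction z using Quotient.inductionOn with
    | h x => rfl

lemma cker_spec {π : Cent A Ω} (hπ : π ∈ (chom A Ω).ker) (x : Ω) : ∃ a : A, π.1 x = a • x := by
  have h1 : chom A Ω π (Quotient.mk _ x) = Quotient.mk _ x := by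
    rw [MonoidHom.mem_ker] at hπ
    rw [hπ]
    rfl
  have h2 : MulAction.orbitRel A Ω (π.1 x) x := Quotient.exact h1
  rw [MulAction.orbitRel_apply, MulAction.mem_orbit_iff] at h2
  obtain ⟨a, ha⟩ := h2
  exact ⟨a, ha.symm⟩

lemma cker_comm (a b : Cent A Ω) (ha : a ∈ (chom A Ω).ker) (hb : b ∈ (chom A Ω).ker) :
    a * b = b * a := by
  ext1
  refine Equiv.ext (fun x => ?_)
  show a.1 (b.1 x) = b.1 (a.1 x)
  obtain ⟨s, h1⟩ := cker_spec ha x
  obtain ⟨t, h2⟩ := cker_spec hb x
  rw [h1, h2, a.2 t x, b.2 s x, h1, h2, smul_smul, smul_smul, mul_comm]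

/-- the centraliser of a cofinite abelian action is amenable -/
theorem amen_Cent [Finite (MulAction.orbitRel.Quotient A Ω)] : Amen (Cent A Ω) := by
  have : Finite (Equiv.Perm (MulAction.orbitRel.Quotient A Ω)) := inferInstance
  refine amen_of_ker (chom A Ω) amen_finite ?_
  let _ : CommGroup (chom A Ω).ker :=
    { (inferInstance : Group (chom A Ω).ker) with
      mul_comm := fun a b => Subtype.ext (cker_comm a.1 b.1 a.2 b.2) }
  exact amen_comm (G := (chom A Ω).ker)

end general

section oneD

variable {F : Type*}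

/-- permutations of `ℤ × F` commuting with the translation by `w` -/
def Per1 (w : ℤ) (F : Type*) : Subgroup (Equiv.Perm (ℤ × F)) where
  carrier := {π | ∀ (x : ℤ × F) (i : ℤ), π (x.1 + w * i, x.2) = ((π x).1 + w * i, (π x).2)}
  mul_mem' := by
    intro a b ha hb x i
    rw [Equiv.Perm.mul_apply, Equiv.Perm.mul_apply, hb, ha]
  one_mem' := by
    intro x i
    rfl
  inv_mem' := by
    intro a ha x i
    have h1 := ha (a⁻¹ x) i
    have e1 : a (a⁻¹ x) = x := a.apply_symm_apply x
    rw [e1] at h1
    rw [← h1]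
    exact a.symm_apply_apply _

lemma mem_Per1 {w : ℤ} {π : Equiv.Perm (ℤ × F)} :
    π ∈ Per1 w F ↔ ∀ (x : ℤ × F) (i : ℤ), π (x.1 + w * i, x.2) = ((π x).1 + w * i, (π x).2) :=
  Iff.rfl

lemma Per1_mono {w w' : ℤ} (hw : w ∣ w') : Per1 w F ≤ Per1 w' F := by
  intro π hπ x i
  obtain ⟨a, rfl⟩ := hw
  rw [mul_assoc]
  exact hπ x (a * i)

/-- the action of the lattice `wℤ` -/
@[instance_reducible] def act1 (w : ℤ) (F : Type*) : MulAction (Multiplicative ℤ) (ℤ × F) where
  smul i x := (x.1 + w * Multiplicative.toAdd i, x.2)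
  one_smul x := by
    show (x.1 + w * (0 : ℤ), x.2) = x
    simp
  mul_smul i j x := by
    show (x.1 + w * (Multiplicative.toAdd i + Multiplicative.toAdd j), x.2)
      = (x.1 + w * Multiplicative.toAdd j + w * Multiplicative.toAdd i, x.2)
    ext
    · show x.1 + _ = _ + _
      ring
    · rfl

theorem amen_Per1 [Finite F] {w : ℤ} (hw : w ≠ 0) : Amen (Per1 w F) := by
  let _ : MulAction (Multiplicative ℤ) (ℤ × F) := act1 w F
  have hf : Finite (MulAction.orbitRel.Quotient (Multiplicative ℤ) (ℤ × F)) := by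
    have : NeZero w.natAbs := ⟨Int.natAbs_ne_zero.2 hw⟩
    let f : Fin w.natAbs × F → MulAction.orbitRel.Quotient (Multiplicative ℤ) (ℤ × F) :=
      fun z => Quotient.mk _ ((z.1 : ℕ), z.2)
    refine Finite.of_surjective f ?_
    intro z
    induction z using Quotient.inductionOn with
    | h x =>
      have hlt : (x.1 % w).toNat < w.natAbs := by
        have h1 := Int.emod_lt_abs x.1 hw
        have h2 := Int.emod_nonneg x.1 hw
        have h3 : ((w.natAbs : ℕ) : ℤ) = |w| := Int.natCast_natAbs w
        omega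
      refine ⟨(⟨(x.1 % w).toNat, hlt⟩, x.2), Quotient.sound ?_⟩
      show MulAction.orbitRel (Multiplicative ℤ) (ℤ × F) _ _
      rw [MulAction.orbitRel_apply, MulAction.mem_orbit_iff]
      refine ⟨Multiplicative.ofAdd (-(x.1 / w)), ?_⟩
      show (x.1 + w * (-(x.1 / w)), x.2) = (((x.1 % w).toNat : ℤ), x.2)
      ext
      · show x.1 + w * (-(x.1 / w)) = ((x.1 % w).toNat : ℤ)
        have h2 := Int.emod_nonneg x.1 hw
        rw [Int.toNat_of_nonneg h2]
        have h3 := Int.emod_add_mul_ediv x.1 w
        linarith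
      · rfl
  refine Amen.of_inj (amen_Cent (A := Multiplicative ℤ) (Ω := ℤ × F))
    ((Subgroup.subtype (Per1 w F)).codRestrict (Cent (Multiplicative ℤ) (ℤ × F))
      (fun g a x => g.2 x (Multiplicative.toAdd a))) ?_
  intro a b hab
  exact Subtype.ext (congrArg (fun z : Cent (Multiplicative ℤ) (ℤ × F) => z.1) hab)

variable {K : Type*} [Group K]

/-- finite subsets form -/
theorem amen_of_per1 [Finite F] (ρ : K →* Equiv.Perm (ℤ × F)) (hρ : Function.Injective ρ)
    (H : ∀ S : Finset K, ∃ w : ℤ, w ≠ 0 ∧ ∀ g ∈ S, ρ g ∈ Per1 w F) : Amen K := by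
  refine amen_of_local (fun S => ?_)
  obtain ⟨w, hw, hF⟩ := H S
  refine ⟨(Per1 w F).comap ρ, fun g hg => hF g hg, ?_⟩
  refine Amen.of_inj (amen_Per1 (F := F) hw)
    ((ρ.comp (Subgroup.subtype _)).codRestrict (Per1 w F) (fun g => g.2)) ?_
  intro a b hab
  have h1 : ρ a.1 = ρ b.1 := congrArg Subtype.val hab
  exact Subtype.ext (hρ h1)

/-- each element has some period -/
theorem amen_of_per1_lcm [Finite F] (ρ : K →* Equiv.Perm (ℤ × F))
    (hρ : Function.Injective ρ) (H : ∀ g : K, ∃ w : ℤ, w ≠ 0 ∧ ρ g ∈ Per1 w F) : Amen K := by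
  classical
  choose w hw hg using H
  refine amen_of_per1 ρ hρ (fun S => ⟨∏ g ∈ S, w g, ?_, fun g hgF => ?_⟩)
  · exact Finset.prod_ne_zero_iff.2 (fun g _ => hw g)
  · exact Per1_mono (Finset.dvd_prod_of_mem w hgF) (hg g)

end oneD

end Crest.Agent.R189.PerGp
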