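import Mathlib
import Crest.Agent.R189.StripDefs

/-!
# Row 189: locally determined permutations and domains of a strip system
(INTERFACE by helper84; proofs: helper189). Do not change the statements.
-/

set_option autoImplicit false
set_option linter.unusedSectionVars false
set_option linter.unusedVariables false

namespace Crest.Agent.R189.Strip

open Equiv

namespace StripSys

variable {Θ A Λ C : Type} (S : StripSys Θ A Λ)

lemma w_pos (j : ℕ) : 0 < S.w j := by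
  induction j with
  | zero => exact S.w_zero
  | succ j ih =>
    rw [S.w_succ]
    have := S.three_le_b j
    positivity

lemma w_dvd_succ (j : ℕ) : S.w j ∣ S.w (j + 1) := ⟨3 * S.b j, by rw [S.w_succ]; ring⟩

lemma w_dvd {j j' : ℕ} (h : j ≤ j') : S.w j ∣ S.w j' := by
  induction h with
  | refl => exact dvd_rfl
  | step _ ih => exact ih.trans (S.w_dvd_succ _)

lemma exists_level (R : ℕ) : ∃ j, R ≤ S.H j := by
  obtain ⟨j, hj⟩ := S.H_grow R
  exact ⟨j, (Nat.le_mul_of_pos_right R (S.w_pos j)).trans hj⟩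

lemma w_lt_succ (j : ℕ) : S.w j < S.w (j + 1) := by
  rw [S.w_succ]
  have h1 := S.three_le_b j
  have h2 := S.w_pos j
  nlinarith

lemma w_strictMono : StrictMono S.w := strictMono_nat_of_lt_succ S.w_lt_succ

lemma w_mono {i j : ℕ} (h : i ≤ j) : S.w i ≤ S.w j := S.w_strictMono.monotone h

lemma lt_w (j : ℕ) : j < S.w j := by
  induction j with
  | zero => exact S.w_zero
  | succ j ih =>
    have := S.w_lt_succ j
    omega

lemma w_posZ (j : ℕ) : (0 : ℤ) < S.w j := by exact_mod_cast S.w_pos j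

lemma w_dvdZ {j j' : ℕ} (h : j ≤ j') : (S.w j : ℤ) ∣ S.w j' := by exact_mod_cast S.w_dvd h

lemma Sim.refl (j : ℕ) (u : ℤ) (τ : Θ) : S.Sim j u τ u τ := ⟨Int.ModEq.refl _, rfl, rfl⟩

lemma Sim.symm {j : ℕ} {u u' : ℤ} {τ τ' : Θ} (h : S.Sim j u τ u' τ') : S.Sim j u' τ' u τ :=
  ⟨h.1.symm, h.2.1.symm, h.2.2.symm⟩

/-! ### blocks -/

/-- left end of the level `j` block of `u` -/
def blk (j : ℕ) (u : ℤ) : ℤ := S.w j * (u / S.w j)

lemma blk_dvd (j : ℕ) (u : ℤ) : (S.w j : ℤ) ∣ S.blk j u := Dvd.intro _ rfl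

lemma blk_le (j : ℕ) (u : ℤ) : S.blk j u ≤ u := Int.mul_ediv_self_le (S.w_posZ j).ne'

lemma lt_blk (j : ℕ) (u : ℤ) : u < S.blk j u + S.w j := by
  have := Int.lt_mul_ediv_self_add (x := u) (S.w_posZ j)
  simpa [blk] using this

lemma blk_of_dvd {j : ℕ} {u : ℤ} (h : (S.w j : ℤ) ∣ u) : S.blk j u = u := by
  unfold blk
  exact Int.mul_ediv_cancel' h

lemma blk_add {i j : ℕ} (h : i ≤ j) (u q : ℤ) :
    S.blk i (u + S.w j * q) = S.blk i u + S.w j * q := by
  obtain ⟨m, hm⟩ := S.w_dvdZ h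
  unfold blk
  rw [hm, mul_assoc, Int.add_mul_ediv_left _ _ (S.w_posZ i).ne', mul_add]

/-- the types of the lines which are not of level `≥ j'` are periodic -/
lemma col_per {j j' : ℕ} (hj : j ≤ j') {x x' : ℤ} {τ τ' : Θ} (hx : (S.w j : ℤ) ∣ x)
    (hx' : ¬ (S.w j' : ℤ) ∣ x) (h : (S.w j' : ℤ) ∣ x' - x) : S.col x τ = S.col x' τ' := by
  induction hj with
  | refl => exact absurd hx hx'
  | @step m hm ih =>
    by_cases hd : (S.w m : ℤ) ∣ x
    · obtain ⟨q, rfl⟩ := hd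
      obtain ⟨t, ht⟩ := h
      have hw : ((S.w (m + 1) : ℕ) : ℤ) = S.w m * (3 * (S.b m : ℤ)) := by
        rw [S.w_succ]; push_cast; ring
      have hq : q % (3 * (S.b m : ℤ)) ≠ 0 := by
        intro h0
        apply hx'
        rw [Nat.succ_eq_add_one, hw]
        exact mul_dvd_mul_left _ (Int.dvd_of_emod_eq_zero h0)
      have hx1 : x' = S.w m * (q + 3 * (S.b m : ℤ) * t) := by
        rw [Nat.succ_eq_add_one, hw] at ht
        linarith
      have hq1 : (q + 3 * (S.b m : ℤ) * t) % (3 * (S.b m : ℤ)) = q % (3 * (S.b m : ℤ)) := by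
        rw [Int.add_mul_emod_self_left]
      rw [S.col_level m q τ hq, hx1, S.col_level m _ τ' (by rw [hq1]; exact hq), hq1]
    · exact ih hd ((S.w_dvdZ (Nat.le_succ m)).trans h)

variable {S}

lemma Sim.dvd {j : ℕ} {u u' : ℤ} {τ τ' : Θ} (h : S.Sim j u τ u' τ') : (S.w j : ℤ) ∣ u' - u :=
  h.1.dvd

lemma Sim.blk_sub {j : ℕ} {u u' : ℤ} {τ τ' : Θ} (h : S.Sim j u τ u' τ') :
    S.blk j u' - S.blk j u = u' - u := by
  obtain ⟨q, hq⟩ := h.dvd
  have : u' = u + S.w j * q := by linarith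
  rw [this, S.blk_add le_rfl]
  ring

lemma Sim.colL_eq {j : ℕ} {u u' : ℤ} {τ τ' : Θ} (h : S.Sim j u τ u' τ') :
    S.col (S.blk j u) τ = S.col (S.blk j u') τ' := h.2.1

lemma Sim.colR_eq {j : ℕ} {u u' : ℤ} {τ τ' : Θ} (h : S.Sim j u τ u' τ') :
    S.col (S.blk j u + S.w j) τ = S.col (S.blk j u' + S.w j) τ' := by
  have := h.2.2
  unfold colR at this
  rw [mul_add, mul_add, mul_one] at this
  exact this

/-- in the window of three blocks around `u`, the types are the same -/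
lemma Sim.col_window {i j : ℕ} (hij : i ≤ j) {u u' : ℤ} {τ τ' : Θ} (h : S.Sim j u τ u' τ') {y : ℤ}
    (hy : (S.w i : ℤ) ∣ y) (h1 : - (S.w j : ℤ) < y) (h2 : y < 2 * S.w j) :
    S.col (S.blk j u + y) τ = S.col (S.blk j u' + y) τ' := by
  by_cases hy0 : y = 0
  · subst hy0; simpa using h.colL_eq
  by_cases hy1 : y = S.w j
  · subst hy1; exact h.colR_eq
  have hyj : ¬ (S.w j : ℤ) ∣ y := by
    rintro ⟨m, rfl⟩
    have hw := S.w_posZ j
    have h1' : -1 < m := by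
      by_contra hc
      have : m ≤ -1 := by omega
      nlinarith
    have h2' : m < 2 := by
      by_contra hc
      have : 2 ≤ m := by omega
      nlinarith
    have : m = 0 ∨ m = 1 := by omega
    rcases this with rfl | rfl <;> simp_all
  refine S.col_per hij ?_ ?_ ?_
  · exact dvd_add ((S.w_dvdZ hij).trans (S.blk_dvd j u)) hy
  · exact fun hc => hyj ((dvd_add_right (S.blk_dvd j u)).1 hc)
  · have := dvd_sub (S.blk_dvd j u') (S.blk_dvd j u)
    simpa using this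

lemma Sim.shift {i j : ℕ} (hij : i ≤ j) {M : ℤ} (hM : M + S.w i ≤ S.w j) {u u' : ℤ} {τ τ' : Θ}
    (h : S.Sim j u τ u' τ') {d : ℤ} (hd : |d| ≤ M) : S.Sim i (u + d) τ (u' + d) τ' := by
  obtain ⟨q, hq⟩ := h.dvd
  have hu : u' + d = u + d + S.w j * q := by linarith
  have hb := h.blk_sub
  have hbi : S.blk i (u' + d) = S.blk i (u + d) + S.w j * q := by rw [hu, S.blk_add hij]
  have a1 := S.blk_le i (u + d)
  have a2 := S.lt_blk i (u + d)
  have a3 := S.blk_le j u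
  have a4 := S.lt_blk j u
  have a5 := abs_le.1 hd
  have hw := S.w_posZ i
  have hwj := S.w_posZ j
  set y := S.blk i (u + d) - S.blk j u with hy
  have e1 : S.blk i (u + d) = S.blk j u + y := by ring
  have e2 : S.blk i (u' + d) = S.blk j u' + y := by linarith
  have hyd : (S.w i : ℤ) ∣ y := dvd_sub (S.blk_dvd i _) ((S.w_dvdZ hij).trans (S.blk_dvd j u))
  refine ⟨?_, ?_, ?_⟩
  · rw [Int.modEq_iff_dvd]
    have : (S.w i : ℤ) ∣ S.w j * q := (S.w_dvdZ hij).mul_right q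
    rwa [show u' + d - (u + d) = S.w j * q by linarith]
  · change S.col (S.blk i (u + d)) τ = S.col (S.blk i (u' + d)) τ'
    rw [e1, e2]
    exact h.col_window hij hyd (by omega) (by omega)
  · unfold colR
    rw [mul_add, mul_add, mul_one]
    change S.col (S.blk i (u + d) + S.w i) τ = S.col (S.blk i (u' + d) + S.w i) τ'
    rw [e1, e2, add_assoc, add_assoc]
    exact h.col_window hij (dvd_add hyd dvd_rfl) (by omega) (by omega)

variable (S)

/-- finer levels -/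
theorem Sim.mono {j j' : ℕ} (hj : j ≤ j') {u u' : ℤ} {τ τ' : Θ} (h : S.Sim j' u τ u' τ') :
    S.Sim j u τ u' τ' := by
  have hw : (S.w j : ℤ) ≤ S.w j' := by exact_mod_cast S.w_mono hj
  have := h.shift hj (M := 0) (by simpa using hw) (d := 0) (by simp)
  simpa using this

/-- T-closure -/
theorem exists_shift_level (j M : ℕ) : ∃ j', j ≤ j' ∧ ∀ (u : ℤ) (τ : Θ) (u' : ℤ) (τ' : Θ),
    S.Sim j' u τ u' τ' → ∀ d : ℤ, |d| ≤ M → S.Sim j (u + d) τ (u' + d) τ' := by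
  refine ⟨max j (M + S.w j), le_max_left _ _, fun u τ u' τ' h d hd => ?_⟩
  refine h.shift (le_max_left _ _) (M := M) ?_ hd
  have h1 : M + S.w j ≤ S.w (M + S.w j) := (S.lt_w _).le
  have h2 : S.w (M + S.w j) ≤ S.w (max j (M + S.w j)) := S.w_mono (le_max_right _ _)
  exact_mod_cast h1.trans h2

/-- similar points carry the same line type -/
theorem Sim.col_eq {j : ℕ} {u u' : ℤ} {τ τ' : Θ} (h : S.Sim j u τ u' τ') (hu : (S.w j : ℤ) ∣ u) :
    S.col u τ = S.col u' τ' := by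
  have hu' : (S.w j : ℤ) ∣ u' := by
    have := dvd_add h.dvd hu
    simpa using this
  have := h.colL_eq
  rwa [S.blk_of_dvd hu, S.blk_of_dvd hu'] at this

theorem Sim.lett_eq {j : ℕ} {u u' : ℤ} {τ τ' : Θ} (h : S.Sim j u τ u' τ') (l : Λ) {r : ℤ}
    (hr : |r| ≤ S.H j) : S.lett l u r τ = S.lett l u' r τ' :=
  S.lett_strip l j r hr u u' τ τ' h.1 (fun hu => Sim.col_eq S h hu)

theorem LocOn.mono {k : Perm (Om Θ C)} {M R j M' R' j' : ℕ} (h : S.LocOn k M R j)
    (hM : M ≤ M') (hR : R' ≤ R) (hj : j ≤ j') : S.LocOn k M' R' j' := by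
  intro u τ u' τ' hs r hr c
  have hR' : (R' : ℤ) ≤ R := by exact_mod_cast hR
  have hM' : (M : ℤ) ≤ M' := by exact_mod_cast hM
  obtain ⟨du, dr, c', h1, h2, h3, h4⟩ := h u τ u' τ' (Sim.mono S hj hs) r (hr.trans hR') c
  exact ⟨du, dr, c', h1.trans hM', h2.trans hM', h3, h4⟩

variable {S}

lemma IsLoc.mul {a b : Perm (Om Θ C)} (ha : S.IsLoc a) (hb : S.IsLoc b) : S.IsLoc (a * b) := by
  obtain ⟨M, hM⟩ := ha
  obtain ⟨N, hN⟩ := hb
  refine ⟨M + N, fun R => ?_⟩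
  obtain ⟨j1, h1⟩ := hM (R + N)
  obtain ⟨j2, h2⟩ := hN R
  obtain ⟨j3, h13, h3⟩ := S.exists_shift_level j1 N
  refine ⟨max j2 j3, fun u τ u' τ' hs r hr c => ?_⟩
  obtain ⟨du, dr, c', e1, e2, e3, e4⟩ :=
    h2 u τ u' τ' (Sim.mono S (le_max_left _ _) hs) r hr c
  have hs' := h3 u τ u' τ' (Sim.mono S (le_max_right _ _) hs) du e1
  have hr' : |r + dr| ≤ ((R + N : ℕ) : ℤ) := by
    push_cast
    exact (abs_add_le _ _).trans (add_le_add hr e2)
  obtain ⟨du', dr', c'', f1, f2, f3, f4⟩ := h1 _ _ _ _ hs' (r + dr) hr' c'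
  refine ⟨du + du', dr + dr', c'', ?_, ?_, ?_, ?_⟩
  · push_cast
    have := abs_add_le du du'
    linarith
  · push_cast
    have := abs_add_le dr dr'
    linarith
  · rw [Perm.mul_apply, e3, f3, ← add_assoc, ← add_assoc]
  · rw [Perm.mul_apply, e4, f4, ← add_assoc, ← add_assoc]

lemma IsLoc.inv {a : Perm (Om Θ C)} (ha : S.IsLoc a) : S.IsLoc a⁻¹ := by
  obtain ⟨M, hM⟩ := ha
  refine ⟨M, fun R => ?_⟩
  obtain ⟨j1, h1⟩ := hM (R + M)
  obtain ⟨j3, h13, h3⟩ := S.exists_shift_level j1 M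
  refine ⟨j3, fun u τ u' τ' hs r hr c => ?_⟩
  obtain ⟨⟨v, s, σ, d⟩, hq⟩ : ∃ q, q = a⁻¹ (u, r, τ, c) := ⟨_, rfl⟩
  have haq : a (v, s, σ, d) = (u, r, τ, c) := by rw [hq]; simp
  obtain ⟨j4, h4⟩ := hM s.natAbs
  obtain ⟨du, dr, c', e1, e2, e3, -⟩ := h4 v σ v σ (Sim.refl S j4 v σ) s (by simp) d
  rw [haq] at e3
  simp only [Prod.mk.injEq] at e3
  obtain ⟨hu, hr0, hτ, hc⟩ := e3
  subst hτ
  have hv : v = u + -du := by linarith
  have hsr : s = r - dr := by linarith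
  have hs' : S.Sim j1 v τ (u' + -du) τ' := by
    have := h3 u τ u' τ' hs (-du) (by rwa [abs_neg])
    rwa [← hv] at this
  have hsb : |s| ≤ ((R + M : ℕ) : ℤ) := by
    push_cast
    rw [hsr]
    exact (abs_sub _ _).trans (add_le_add hr e2)
  obtain ⟨du2, dr2, c2, f1, f2, f3, f4⟩ := h1 v τ (u' + -du) τ' hs' s hsb d
  rw [haq] at f3
  simp only [Prod.mk.injEq] at f3
  obtain ⟨gu, gr, -, gc⟩ := f3
  subst gc
  have hdu : du2 = du := by linarith
  have hdr : dr2 = dr := by linarith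
  subst hdu hdr
  refine ⟨-du2, -dr2, d, by rwa [abs_neg], by rwa [abs_neg], ?_, ?_⟩
  · rw [← hq, hv, hsr]; rfl
  · have : a (u' + -du2, s, τ', d) = (u', r, τ', c) := by
      rw [f4]
      have h5 : u' + -du2 + du2 = u' := by ring
      have h6 : s + dr2 = r := by linarith
      rw [h5, h6]
    have h6 : r + -dr2 = s := by linarith
    rw [Perm.inv_eq_iff_eq, h6, this]

lemma IsLoc.one : S.IsLoc (1 : Perm (Om Θ C)) :=
  ⟨0, fun R => ⟨0, fun u τ u' τ' hs r hr c => ⟨0, 0, c, by simp, by simp, by simp, by simp⟩⟩⟩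

variable (S)

/-- the group of locally determined permutations -/
def Loc (C : Type) : Subgroup (Perm (Om Θ C)) where
  carrier := {k | S.IsLoc k}
  one_mem' := IsLoc.one
  mul_mem' := fun ha hb => IsLoc.mul ha hb
  inv_mem' := fun ha => IsLoc.inv ha

theorem mem_Loc {k : Perm (Om Θ C)} : k ∈ S.Loc C ↔ S.IsLoc k := Iff.rfl

theorem transl_mem_Loc [Finite C] (v : C → ℤ × ℤ) : (transl v : Perm (Om Θ C)) ∈ S.Loc C := by
  classical
  have := Fintype.ofFinite C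
  have hsum : ∀ c, ((v c).1.natAbs + (v c).2.natAbs) ≤ ∑ c, ((v c).1.natAbs + (v c).2.natAbs) :=
    fun c => Finset.single_le_sum (f := fun c => (v c).1.natAbs + (v c).2.natAbs)
      (fun _ _ => Nat.zero_le _) (Finset.mem_univ c)
  refine ⟨∑ c, ((v c).1.natAbs + (v c).2.natAbs), fun R => ⟨0, fun u τ u' τ' hs r hr c =>
    ⟨(v c).1, (v c).2, c, ?_, ?_, ?_, ?_⟩⟩⟩
  · have h := hsum c
    rw [Int.abs_eq_natAbs]
    exact_mod_cast (by omega : (v c).1.natAbs ≤ _)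
  · have h := hsum c
    rw [Int.abs_eq_natAbs]
    exact_mod_cast (by omega : (v c).2.natAbs ≤ _)
  · rw [transl_apply]
  · rw [transl_apply]

theorem recol_mem_Loc (l : Λ) (α : A → Perm C) : recol (S.lett l) α ∈ S.Loc C := by
  refine ⟨0, fun R => ?_⟩
  obtain ⟨j, hj⟩ := S.exists_level R
  refine ⟨j, fun u τ u' τ' hs r hr c => ⟨0, 0, α (S.lett l u r τ) c, by simp, by simp, ?_, ?_⟩⟩
  · rw [recol_apply]; simp
  · have hr' : |r| ≤ S.H j := hr.trans (by exact_mod_cast hj)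
    rw [recol_apply, Sim.lett_eq S hs l hr']; simp

theorem isGen_mem_Loc [Finite C] {G : Type} [Group G] {ρ : Λ → G →* Perm (Om Θ C)} {g : G}
    (hg : IsGen S ρ g) (l : Λ) : ρ l g ∈ S.Loc C := by
  rcases hg with ⟨v, -, hv⟩ | ⟨α, hα⟩
  · rw [hv l]; exact S.transl_mem_Loc v
  · rw [hα l]; exact S.recol_mem_Loc l α

theorem rho_mem_Loc [Finite C] {G : Type} [Group G] (ρ : Λ → G →* Perm (Om Θ C)) {Gen : Set G}
    (hGen : Subgroup.closure Gen = ⊤) (hg : ∀ g ∈ Gen, IsGen S ρ g) (l : Λ) (g : G) :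
    ρ l g ∈ S.Loc C := by
  have h : (Subgroup.closure Gen) ≤ (S.Loc C).comap (ρ l) := by
    rw [Subgroup.closure_le]
    intro x hx
    exact S.isGen_mem_Loc (hg x hx) l
  rw [hGen] at h
  exact h (Subgroup.mem_top g)

variable {S}

/-- bounded displacement and preservation of `τ`, with the rule on the strip -/
lemma IsLoc.spec {k : Perm (Om Θ C)} {M : ℕ} (hM : ∀ R : ℕ, ∃ j : ℕ, S.LocOn k M R j)
    (u r : ℤ) (τ : Θ) (c : C) : ∃ (du dr : ℤ) (c' : C), |du| ≤ M ∧ |dr| ≤ M ∧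
      k (u, r, τ, c) = (u + du, r + dr, τ, c') := by
  obtain ⟨j, hj⟩ := hM r.natAbs
  obtain ⟨du, dr, c', h1, h2, h3, -⟩ := hj u τ u τ (Sim.refl S j u τ) r (by simp) c
  exact ⟨du, dr, c', h1, h2, h3⟩

variable (S)

/-- `Loc` acts on domains -/
theorem IsDom.image {k : Perm (Om Θ C)} (hk : k ∈ S.Loc C) {D : Set (Om Θ C)} (hD : S.IsDom D) :
    S.IsDom (k '' D) := by
  obtain ⟨⟨R, hR⟩, i, hi⟩ := hD
  have hk' : k⁻¹ ∈ S.Loc C := inv_mem hk
  obtain ⟨M, hM⟩ := hk'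
  obtain ⟨N, hN⟩ := hk
  have key : ∀ p : Om Θ C, p ∈ k '' D ↔ k⁻¹ p ∈ D := by
    intro p
    rw [Equiv.image_eq_preimage_symm]; rfl
  have hbd : ∀ p ∈ k '' D, |p.2.1| ≤ ((R + N : ℕ) : ℤ) := by
    rintro _ ⟨⟨u, r, τ, c⟩, hp, rfl⟩
    obtain ⟨du, dr, c', e1, e2, e3⟩ := IsLoc.spec hN u r τ c
    rw [e3]
    push_cast
    exact (abs_add_le _ _).trans (add_le_add (hR _ hp) e2)
  refine ⟨⟨R + N, hbd⟩, ?_⟩
  obtain ⟨j1, h1⟩ := hM (R + N)
  obtain ⟨j3, h13, h3⟩ := S.exists_shift_level i M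
  have main : ∀ (u : ℤ) (τ : Θ) (u' : ℤ) (τ' : Θ), S.Sim (max j1 j3) u τ u' τ' →
      ∀ (r : ℤ) (c : C), (u, r, τ, c) ∈ k '' D → (u', r, τ', c) ∈ k '' D := by
    intro u τ u' τ' hs r c hp
    obtain ⟨du, dr, c', e1, e2, e3, e4⟩ := h1 u τ u' τ' (Sim.mono S (le_max_left _ _) hs) r
      (hbd _ hp) c
    have hs' := h3 u τ u' τ' (Sim.mono S (le_max_right _ _) hs) du e1
    rw [key, e3] at hp
    rw [key, e4]
    exact (hi _ _ _ _ hs' _ _).1 hp
  exact ⟨max j1 j3, fun u τ u' τ' hs r c => ⟨main u τ u' τ' hs r c, main u' τ' u τ hs.symm r c⟩⟩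

/-- locally determined permutations supported in `D` -/
def KD (D : Set (Om Θ C)) : Subgroup (Perm (Om Θ C)) where
  carrier := {k | k ∈ S.Loc C ∧ ∀ p, p ∉ D → k p = p}
  one_mem' := ⟨one_mem _, fun _ _ => rfl⟩
  mul_mem' := by
    rintro a b ⟨ha, ha'⟩ ⟨hb, hb'⟩
    refine ⟨mul_mem ha hb, fun p hp => ?_⟩
    rw [Perm.mul_apply, hb' p hp, ha' p hp]
  inv_mem' := by
    rintro a ⟨ha, ha'⟩
    refine ⟨inv_mem ha, fun p hp => ?_⟩
    rw [Perm.inv_eq_iff_eq, ha' p hp]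

theorem mem_KD {D : Set (Om Θ C)} {k : Perm (Om Θ C)} :
    k ∈ S.KD D ↔ k ∈ S.Loc C ∧ ∀ p, p ∉ D → k p = p := Iff.rfl

theorem KD_mono {D E : Set (Om Θ C)} (h : D ⊆ E) : S.KD D ≤ S.KD E :=
  fun _ hπ => ⟨hπ.1, fun p hp => hπ.2 p (fun hD => hp (h hD))⟩

/-- `K_D` preserves `D` -/
theorem apply_mem_iff_of_mem_KD {D : Set (Om Θ C)} {π : Perm (Om Θ C)} (h : π ∈ S.KD D)
    (p : Om Θ C) : π p ∈ D ↔ p ∈ D := by
  constructor
  · intro hp
    by_contra hc
    rw [h.2 p hc] at hp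
    exact hc hp
  · intro hp
    by_contra hc
    have h1 := h.2 _ hc
    have h2 := π.injective h1
    rw [h2] at hc
    exact hc hp

theorem KD_conj_le {k : Perm (Om Θ C)} (hk : k ∈ S.Loc C) {D : Set (Om Θ C)} {x : Perm (Om Θ C)}
    (hx : x ∈ S.KD D) : k * x * k⁻¹ ∈ S.KD (k '' D) := by
  refine ⟨mul_mem (mul_mem hk hx.1) (inv_mem hk), fun p hp => ?_⟩
  have : k⁻¹ p ∉ D := by
    intro hc
    exact hp ⟨k⁻¹ p, hc, by simp⟩
  rw [Perm.mul_apply, Perm.mul_apply, hx.2 _ this]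
  simp

theorem KD_conj {k : Perm (Om Θ C)} (hk : k ∈ S.Loc C) (D : Set (Om Θ C)) (x : Perm (Om Θ C)) :
    k * x * k⁻¹ ∈ S.KD (k '' D) ↔ x ∈ S.KD D := by
  refine ⟨fun h => ?_, S.KD_conj_le hk⟩
  have := S.KD_conj_le (inv_mem hk) h
  rw [Set.image_image] at this
  simpa [mul_assoc] using this

open Classical in
/-- restriction of a permutation to an invariant set -/
noncomputable def restr (g : Perm (Om Θ C)) (D : Set (Om Θ C)) (h : g '' D = D) :
    Perm (Om Θ C) where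
  toFun p := if p ∈ D then g p else p
  invFun p := if p ∈ D then g.symm p else p
  left_inv p := by
    by_cases hp : p ∈ D
    · have : g p ∈ D := by rw [← h]; exact ⟨p, hp, rfl⟩
      simp [hp, this]
    · simp [hp]
  right_inv p := by
    by_cases hp : p ∈ D
    · have : g.symm p ∈ D := by
        rw [← h] at hp
        obtain ⟨q, hq, rfl⟩ := hp
        simpa using hq
      simp [hp, this]
    · simp [hp]

/-- restriction of a locally determined permutation to an invariant domain -/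
theorem exists_restr {k : Perm (Om Θ C)} (hk : k ∈ S.Loc C) {D : Set (Om Θ C)} (hD : S.IsDom D)
    (hkD : k '' D = D) : ∃ k' ∈ S.KD D, ∀ p ∈ D, k' p = k p := by
  classical
  obtain ⟨M, hM⟩ := hk
  obtain ⟨⟨R, hR⟩, i, hi⟩ := hD
  have happ : ∀ p, restr k D hkD p = if p ∈ D then k p else p := fun _ => rfl
  refine ⟨restr k D hkD, ⟨⟨M, fun R' => ?_⟩, fun p hp => by rw [happ, if_neg hp]⟩,
    fun p hp => by rw [happ, if_pos hp]⟩
  obtain ⟨j1, h1⟩ := hM R'
  refine ⟨max j1 i, fun u τ u' τ' hs r hr c => ?_⟩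
  have hmem := hi u τ u' τ' (Sim.mono S (le_max_right _ _) hs) r c
  by_cases hp : (u, r, τ, c) ∈ D
  · obtain ⟨du, dr, c', e1, e2, e3, e4⟩ :=
      h1 u τ u' τ' (Sim.mono S (le_max_left _ _) hs) r hr c
    refine ⟨du, dr, c', e1, e2, ?_, ?_⟩
    · rw [happ, if_pos hp, e3]
    · rw [happ, if_pos (hmem.1 hp), e4]
  · refine ⟨0, 0, c, by simp, by simp, ?_, ?_⟩
    · rw [happ, if_neg hp]; simp
    · rw [happ, if_neg (fun hc => hp (hmem.2 hc))]; simp

/-- the cocycle of a generator is supported in the infinite line -/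
theorem kappa_mem_KD [Finite C] {G : Type} [Group G] (ρ : Λ → G →* Perm (Om Θ C)) {g : G}
    (hg : IsGen S ρ g) (l l' : Λ) {D : Set (Om Θ C)} (hD : S.IsDom D)
    (h0 : ∀ p : Om Θ C, p.2.1 = 0 → p ∈ D) : ρ l' g * (ρ l g)⁻¹ ∈ S.KD (ρ l g '' D) := by
  refine ⟨mul_mem (S.isGen_mem_Loc hg l') (inv_mem (S.isGen_mem_Loc hg l)), fun p hp => ?_⟩
  rcases hg with ⟨v, -, hv⟩ | ⟨α, hα⟩
  · rw [hv l, hv l', mul_inv_cancel]; rfl
  · rw [hα l] at hp ⊢
    rw [hα l']
    obtain ⟨u, r, τ, c⟩ := p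
    have hr : r ≠ 0 := by
      intro h
      apply hp
      refine ⟨(u, r, τ, (α (S.lett l u r τ))⁻¹ c), h0 _ h, ?_⟩
      rw [recol_apply]; simp
    have e1 : (recol (S.lett l) α)⁻¹ (u, r, τ, c) = (u, r, τ, (α (S.lett l u r τ))⁻¹ c) := rfl
    rw [Perm.mul_apply, e1, recol_apply, S.lett_off l' l u r τ hr]
    simp

/-- the sets `D(ω)` are domains -/
theorem isDom_Dset (j : ℕ) (ω : Finset (Pc Θ C (S.w j))) : S.IsDom (S.Dset j ω) := by
  classical
  -- bound for the distances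
  let f : Pc Θ C (S.w j) → ℕ := fun x => x.elim (fun y => y.2.2.1.natAbs)
    (fun y => y.2.2.2.1.natAbs + y.2.2.1.natAbs)
  obtain ⟨B, hB⟩ : ∃ B, ∀ x ∈ ω, f x ≤ B := ⟨ω.sup f, fun x hx => Finset.le_sup hx⟩
  refine ⟨⟨B, ?_⟩, ?_⟩
  · rintro ⟨u, r, τ, c⟩ (h | ⟨q, cls, hq, h⟩)
    · have h1 : r.natAbs ≤ B := hB _ h
      change |r| ≤ (B : ℤ)
      rw [Int.abs_eq_natAbs]
      omega
    · have h1 : r.natAbs + (u - S.w j * q).natAbs ≤ B := hB _ h
      change |r| ≤ (B : ℤ)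
      rw [Int.abs_eq_natAbs]
      omega
  · obtain ⟨j1, hj1, h1⟩ := S.exists_shift_level j B
    have main : ∀ (u : ℤ) (τ : Θ) (u' : ℤ) (τ' : Θ), S.Sim (max j1 (j + 1)) u τ u' τ' →
        ∀ (r : ℤ) (c : C), (u, r, τ, c) ∈ S.Dset j ω → (u', r, τ', c) ∈ S.Dset j ω := by
      intro u τ u' τ' hs r c hp
      have hsj := Sim.mono S (le_max_right j1 (j + 1)) hs
      obtain ⟨t, ht⟩ := hsj.dvd
      have hw : ((S.w (j + 1) : ℕ) : ℤ) = S.w j * (3 * (S.b j : ℤ)) := by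
        rw [S.w_succ]; push_cast; ring
      have hu' : u' = u + S.w j * (3 * (S.b j : ℤ) * t) := by
        rw [hw] at ht; linarith
      have hdiv : u' / S.w j = u / S.w j + 3 * (S.b j : ℤ) * t := by
        rw [hu', Int.add_mul_ediv_left _ _ (S.w_posZ j).ne']
      rcases hp with h | ⟨q, cls, hq, h⟩
      · left
        have e1 : ((u' : ℤ) : ZMod (S.w j)) = (u : ZMod (S.w j)) := by
          rw [ZMod.intCast_eq_intCast_iff]
          exact (Sim.mono S (Nat.le_succ j) hsj).1.symm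
        have e2 : S.zone j u' = S.zone j u := by
          unfold zone
          rw [hdiv, Int.add_mul_emod_self_left]
        change Sum.inl (((u' : ℤ) : ZMod (S.w j)), S.zone j u', r, c) ∈ ω
        rw [e1, e2]
        exact h
      · right
        have hB' : r.natAbs + (u - S.w j * q).natAbs ≤ B := hB _ h
        refine ⟨q + 3 * (S.b j : ℤ) * t, cls, ?_, ?_⟩
        · rw [Int.add_mul_emod_self_left]; exact hq
        · have hs1 := h1 u τ u' τ' (Sim.mono S (le_max_left _ _) hs) (-(u - S.w j * q))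
            (by rw [abs_neg, Int.abs_eq_natAbs]; omega)
          have e1 : u + -(u - S.w j * q) = S.w j * q := by ring
          have e2 : u' + -(u - S.w j * q) = S.w j * (q + 3 * (S.b j : ℤ) * t) := by
            rw [hu']; ring
          rw [e1, e2] at hs1
          have hc := Sim.col_eq S hs1 (Dvd.intro _ rfl)
          change Sum.inr (cls, S.col (S.w j * (q + 3 * (S.b j : ℤ) * t)) τ',
            u' - S.w j * (q + 3 * (S.b j : ℤ) * t), r, c) ∈ ω
          rw [← hc]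
          have e3 : u' - S.w j * (q + 3 * (S.b j : ℤ) * t) = u - S.w j * q := by
            rw [hu']; ring
          rw [e3]
          exact h
    exact ⟨max j1 (j + 1), fun u τ u' τ' hs r c =>
      ⟨main u τ u' τ' hs r c, main u' τ' u τ hs.symm r c⟩⟩

end StripSys

end Crest.Agent.R189.Strip
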