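import Mathlib
import Crest.Agent.R189.StripLoc
import Crest.Agent.R189.PerGen
import Crest.Agent.R189.FinDiff
import Crest.Agent.R189.AmenMain

/-!
# Row 189: the groups `K_D` of a strip system are amenable (helper710)
-/

set_option autoImplicit false

namespace Crest.Agent.R189.Strip

open Equiv

namespace StripSys

variable {Θ A Λ C : Type} (S : StripSys Θ A Λ)

/-- the type of a line at a nonzero place does not depend on the copy -/
theorem col_indep : ∀ (n : ℕ) (j : ℕ) (q : ℤ), q.natAbs ≤ n → q ≠ 0 → ∀ τ τ' : Θ,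
    S.col (S.w j * q) τ = S.col (S.w j * q) τ' := by
  intro n
  induction n with
  | zero =>
    intro j q hn hq
    exact absurd (Int.natAbs_eq_zero.1 (Nat.le_zero.1 hn)) hq
  | succ n ih =>
    intro j q hn hq τ τ'
    by_cases h : q % (3 * (S.b j : ℤ)) = 0
    · obtain ⟨q', hq'⟩ := Int.dvd_of_emod_eq_zero h
      have hb := S.three_le_b j
      have e : (S.w j : ℤ) * q = S.w (j + 1) * q' := by
        rw [S.w_succ, hq']; push_cast; ring
      rw [e]
      have hq'0 : q' ≠ 0 := by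
        rintro rfl; simp at hq'; exact hq hq'
      refine ih (j + 1) q' ?_ hq'0 τ τ'
      have h1 : q.natAbs = 3 * S.b j * q'.natAbs := by
        rw [hq', Int.natAbs_mul, Int.natAbs_mul]; simp
      have h2 : 1 ≤ q'.natAbs := Nat.one_le_iff_ne_zero.2 (by simpa using hq'0)
      nlinarith
    · rw [S.col_level j q τ h, S.col_level j q τ' h]

/-- far from the origin the copies are similar -/
theorem sim_of_far {j : ℕ} {u : ℤ} (h0 : u / S.w j ≠ 0) (h1 : u / S.w j ≠ -1) (τ τ' : Θ) :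
    S.Sim j u τ u τ' :=
  ⟨Int.ModEq.refl _, S.col_indep _ j _ le_rfl h0 τ τ',
    S.col_indep _ j _ le_rfl (by omega) τ τ'⟩

/-- same move of `k` at `(u, r, τ, c)` and `(u', r, τ', c)` -/
def SameMv (k : Perm (Om Θ C)) (r : ℤ) (c : C) (u : ℤ) (τ : Θ) (u' : ℤ) (τ' : Θ) : Prop :=
  (k (u, r, τ, c)).1 - u = (k (u', r, τ', c)).1 - u' ∧
  (k (u, r, τ, c)).2.1 = (k (u', r, τ', c)).2.1 ∧
  (k (u, r, τ, c)).2.2.2 = (k (u', r, τ', c)).2.2.2

lemma SameMv.symm {k : Perm (Om Θ C)} {r : ℤ} {c : C} {u : ℤ} {τ : Θ} {u' : ℤ} {τ' : Θ}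
    (h : SameMv k r c u τ u' τ') : SameMv k r c u' τ' u τ :=
  ⟨h.1.symm, h.2.1.symm, h.2.2.symm⟩

lemma SameMv.trans {k : Perm (Om Θ C)} {r : ℤ} {c : C} {u : ℤ} {τ : Θ} {u' : ℤ} {τ' : Θ} {u'' : ℤ}
    {τ'' : Θ} (h : SameMv k r c u τ u' τ') (h' : SameMv k r c u' τ' u'' τ'') :
    SameMv k r c u τ u'' τ'' :=
  ⟨h.1.trans h'.1, h.2.1.trans h'.2.1, h.2.2.trans h'.2.2⟩

variable {S}

/-- the move of a locally determined permutation at similar points -/
theorem LocOn.sameMv {k : Perm (Om Θ C)} {M R j : ℕ} (h : S.LocOn k M R j) {u u' : ℤ} {τ τ' : Θ}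
    (hs : S.Sim j u τ u' τ') {r : ℤ} (hr : |r| ≤ R) (c : C) : SameMv k r c u τ u' τ' := by
  obtain ⟨du, dr, c', _, _, e1, e2⟩ := h u τ u' τ' hs r hr c
  unfold SameMv
  rw [e1, e2]
  exact ⟨by simp, rfl, rfl⟩

theorem LocOn.tau {k : Perm (Om Θ C)} {M R j : ℕ} (h : S.LocOn k M R j) {u r : ℤ} {τ : Θ}
    (hr : |r| ≤ R) (c : C) : (k (u, r, τ, c)).2.2.1 = τ := by
  obtain ⟨du, dr, c', _, _, e1, e2⟩ := h u τ u τ ⟨Int.ModEq.refl _, rfl, rfl⟩ r hr c
  rw [e1]

theorem LocOn.disp {k : Perm (Om Θ C)} {M R j : ℕ} (h : S.LocOn k M R j) {u r : ℤ} {τ : Θ}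
    (hr : |r| ≤ R) (c : C) : |(k (u, r, τ, c)).1 - u| ≤ M := by
  obtain ⟨du, dr, c', h1, _, e1, e2⟩ := h u τ u τ ⟨Int.ModEq.refl _, rfl, rfl⟩ r hr c
  rw [e1]
  simpa using h1

theorem IsLoc.tau {k : Perm (Om Θ C)} (h : S.IsLoc k) (p : Om Θ C) :
    (k p).2.2.1 = p.2.2.1 := by
  obtain ⟨M, hM⟩ := h
  obtain ⟨j, hj⟩ := hM p.2.1.natAbs
  exact hj.tau (by simp) p.2.2.2

/-- a locally determined permutation which does not see the copy is periodic -/
theorem LocOn.periodic {k : Perm (Om Θ C)} {M R j : ℕ} (h : S.LocOn k M R j)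
    (hb : ∀ (u r : ℤ) (c : C) (τ τ' : Θ), |r| ≤ R → SameMv k r c u τ u τ')
    {u u' : ℤ} (huu : u ≡ u' [ZMOD S.w (j + 1)]) {r : ℤ} (hr : |r| ≤ R) (c : C) (τ : Θ) :
    SameMv k r c u τ u' τ := by
  have hw : (0 : ℤ) < S.w j := by exact_mod_cast S.w_pos j
  have hb3 := S.three_le_b j
  have hB : (0 : ℤ) < 3 * (S.b j : ℤ) := by omega
  have h9 : (9 : ℤ) ≤ 3 * (S.b j : ℤ) := by omega
  -- u' = u + w_j * (3 b_j * m)
  obtain ⟨m, hm⟩ := huu.dvd
  have hu' : u' = u + S.w j * (3 * S.b j * m) := by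
    rw [S.w_succ] at hm
    push_cast at hm
    linarith
  have hq : u' / S.w j = u / S.w j + 3 * S.b j * m := by
    rw [hu', Int.add_mul_ediv_left _ _ hw.ne']
  have hmod : u' % S.w j = u % S.w j := by
    rw [hu', Int.add_mul_emod_self_left]
  have he : (u' / S.w j) % (3 * (S.b j : ℤ)) = (u / S.w j) % (3 * (S.b j : ℤ)) := by
    rw [hq, Int.add_mul_emod_self_left]
  have he0 := Int.emod_nonneg (u / S.w j) hB.ne'
  have he1 := Int.emod_lt_of_pos (u / S.w j) hB
  -- type of the line on the left, on the right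
  have hL : ∀ v : ℤ, (v / S.w j) % (3 * (S.b j : ℤ)) ≠ 0 → ∀ t,
      S.colL j v t = S.tauOf j ((v / S.w j) % (3 * (S.b j : ℤ))).toNat := fun v hv t =>
    S.col_level j _ t hv
  have hR1 : ∀ v : ℤ, (v / S.w j) % (3 * (S.b j : ℤ)) + 1 < 3 * (S.b j : ℤ) →
      (v / S.w j + 1) % (3 * (S.b j : ℤ)) = (v / S.w j) % (3 * (S.b j : ℤ)) + 1 := by
    intro v hv
    rw [Int.add_emod, Int.emod_eq_of_lt (a := 1) (by norm_num) (by omega)]
    exact Int.emod_eq_of_lt (by have := Int.emod_nonneg (v / S.w j) hB.ne'; omega) hv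
  have hR : ∀ v : ℤ, (v / S.w j) % (3 * (S.b j : ℤ)) + 1 < 3 * (S.b j : ℤ) → ∀ t,
      S.colR j v t = S.tauOf j ((v / S.w j) % (3 * (S.b j : ℤ)) + 1).toNat := by
    intro v hv t
    have h1 := hR1 v hv
    have h0 := Int.emod_nonneg (v / S.w j) hB.ne'
    have h2 := S.col_level j (v / S.w j + 1) t (by rw [h1]; omega)
    rw [h1] at h2
    exact h2
  by_cases c0 : (u / S.w j) % (3 * (S.b j : ℤ)) = 0
  · -- first block
    have key : ∀ v : ℤ, (v / S.w j) % (3 * (S.b j : ℤ)) = 0 →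
        SameMv k r c v τ (v % S.w j) τ := by
      intro v hv
      have hz : (v % S.w j) / S.w j = 0 := Int.ediv_eq_zero_of_lt (Int.emod_nonneg _ hw.ne')
        (Int.emod_lt_of_pos _ hw)
      have h1 : S.Sim j v τ (v % S.w j) (S.colL j v τ) := by
        refine ⟨(Int.mod_modEq _ _).symm, ?_, ?_⟩
        · unfold colL
          rw [hz, mul_zero, S.col_zero]
        · rw [hR v (by omega), hR (v % S.w j) (by rw [hz]; simp; omega), hv, hz, Int.zero_emod]
      exact (h.sameMv h1 hr c).trans (hb _ _ _ _ _ hr)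
    have k1 := key u c0
    have k2 := key u' (he.trans c0)
    rw [hmod] at k2
    exact k1.trans k2.symm
  · by_cases c1 : (u / S.w j) % (3 * (S.b j : ℤ)) + 1 = 3 * (S.b j : ℤ)
    · -- last block
      have key : ∀ v : ℤ, (v / S.w j) % (3 * (S.b j : ℤ)) + 1 = 3 * (S.b j : ℤ) →
          SameMv k r c v τ (v % S.w j - S.w j) τ := by
        intro v hv
        have hz : (v % S.w j - S.w j) / S.w j = -1 := by
          have : v % S.w j - S.w j = v % S.w j + S.w j * (-1) := by ring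
          rw [this, Int.add_mul_ediv_left _ _ hw.ne', Int.ediv_eq_zero_of_lt
            (Int.emod_nonneg _ hw.ne') (Int.emod_lt_of_pos _ hw)]
          norm_num
        have hm1 : (-1 : ℤ) % (3 * (S.b j : ℤ)) = 3 * (S.b j : ℤ) - 1 := by
          have : (-1 : ℤ) = (3 * (S.b j : ℤ) - 1) + 3 * (S.b j : ℤ) * (-1) := by ring
          rw [this, Int.add_mul_emod_self_left]
          exact Int.emod_eq_of_lt (by omega) (by omega)
        have h1 : S.Sim j v τ (v % S.w j - S.w j) (S.colR j v τ) := by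
          refine ⟨?_, ?_, ?_⟩
          · refine (Int.mod_modEq v (S.w j)).symm.trans ?_
            have : v % S.w j = (v % S.w j - S.w j) + S.w j * 1 := by ring
            conv_lhs => rw [this]
            exact Int.modEq_add_fac_self
          · rw [hL v (by omega), hL _ (by rw [hz, hm1]; omega), hz, hm1]
            congr 2
            omega
          · have e : ∀ t : Θ, S.colR j (v % S.w j - S.w j) t = t := by
              intro t
              unfold colR
              rw [hz, show (-1 + 1 : ℤ) = 0 by norm_num, mul_zero, S.col_zero]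
            exact (e _).symm
        exact (h.sameMv h1 hr c).trans (hb _ _ _ _ _ hr)
      have k1 := key u c1
      have k2 := key u' (by rw [he]; exact c1)
      rw [hmod] at k2
      exact k1.trans k2.symm
    · -- middle
      have h1 : S.Sim j u τ u' τ := by
        refine ⟨?_, ?_, ?_⟩
        · rw [hu']
          exact Int.modEq_add_fac_self.symm
        · rw [hL u c0, hL u' (by rw [he]; exact c0), he]
        · rw [hR u (by omega), hR u' (by omega), he]
      exact h.sameMv h1 hr c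

/-! ### the cross-section -/

/-- finite cross-section of the strip -/
abbrev Cross (R : ℕ) (C : Type) := {r : ℤ // |r| ≤ (R : ℤ)} × C

instance finiteCross (R : ℕ) (C : Type) [Finite C] : Finite (Cross R C) := by
  have : Finite {r : ℤ // |r| ≤ (R : ℤ)} := by
    refine Set.Finite.subset (s := Set.Icc (-(R : ℤ)) R) (Set.finite_Icc _ _) ?_
    intro r hr
    exact abs_le.1 hr
  infer_instance

theorem KD_strip {D : Set (Om Θ C)} {R : ℕ} (hR : ∀ p ∈ D, |p.2.1| ≤ (R : ℤ)) {k : Perm (Om Θ C)}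
    (hk : k ∈ S.KD D) {p : Om Θ C} (hp : |p.2.1| ≤ (R : ℤ)) : |(k p).2.1| ≤ (R : ℤ) := by
  by_cases h : k p ∈ D
  · exact hR _ h
  · have h1 := k.injective ((mem_KD S).1 hk |>.2 _ h)
    rw [h1]; exact hp

/-- the copy `τ` of the strip -/
def lift {R : ℕ} (τ : Θ) (x : ℤ × Cross R C) : Om Θ C := (x.1, x.2.1.1, τ, x.2.2)

theorem lift_inj {R : ℕ} {τ : Θ} {x y : ℤ × Cross R C} (h : lift τ x = lift τ y) : x = y := by
  obtain ⟨a, ⟨r, hr⟩, c⟩ := x
  obtain ⟨a', ⟨r', hr'⟩, c'⟩ := y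
  simp only [lift, Prod.mk.injEq] at h
  obtain ⟨h1, h2, -, h3⟩ := h
  subst h1 h2 h3
  rfl

variable {D : Set (Om Θ C)} {R : ℕ}

/-- restriction to a copy, as a function -/
def resFun (hR : ∀ p ∈ D, |p.2.1| ≤ (R : ℤ)) (τ : Θ) (k : S.KD D) (x : ℤ × Cross R C) :
    ℤ × Cross R C :=
  ((k.1 (lift τ x)).1, ⟨(k.1 (lift τ x)).2.1, KD_strip hR k.2 x.2.1.2⟩, (k.1 (lift τ x)).2.2.2)

theorem lift_resFun (hR : ∀ p ∈ D, |p.2.1| ≤ (R : ℤ)) (τ : Θ) (k : S.KD D) (x : ℤ × Cross R C) :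
    lift τ (resFun hR τ k x) = k.1 (lift τ x) := by
  have h : (k.1 (lift τ x)).2.2.1 = τ := IsLoc.tau ((mem_Loc S).1 ((mem_KD S).1 k.2).1) (lift τ x)
  refine Prod.ext rfl (Prod.ext rfl (Prod.ext ?_ rfl))
  exact h.symm

/-- restriction to a copy -/
def res (hR : ∀ p ∈ D, |p.2.1| ≤ (R : ℤ)) (τ : Θ) : S.KD D →* Perm (ℤ × Cross R C) where
  toFun k :=
    { toFun := resFun hR τ k
      invFun := resFun hR τ k⁻¹
      left_inv := fun x => lift_inj (τ := τ) (by
        rw [lift_resFun, lift_resFun]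
        exact k.1.symm_apply_apply _)
      right_inv := fun x => lift_inj (τ := τ) (by
        rw [lift_resFun, lift_resFun]
        exact k.1.apply_symm_apply _) }
  map_one' := by
    ext1 x
    exact lift_inj (τ := τ) (by
      show lift τ (resFun hR τ 1 x) = lift τ x
      rw [lift_resFun]; rfl)
  map_mul' := by
    intro a b
    ext1 x
    refine lift_inj (τ := τ) ?_
    show lift τ (resFun hR τ (a * b) x) = lift τ (resFun hR τ a (resFun hR τ b x))
    rw [lift_resFun, lift_resFun, lift_resFun]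
    rfl

theorem lift_res (hR : ∀ p ∈ D, |p.2.1| ≤ (R : ℤ)) (τ : Θ) (k : S.KD D) (x : ℤ × Cross R C) :
    lift τ (res hR τ k x) = k.1 (lift τ x) := lift_resFun hR τ k x

theorem res_fst (hR : ∀ p ∈ D, |p.2.1| ≤ (R : ℤ)) (τ : Θ) (k : S.KD D) (x : ℤ × Cross R C) :
    (res hR τ k x).1 = (k.1 (x.1, x.2.1.1, τ, x.2.2)).1 := rfl

theorem res_snd (hR : ∀ p ∈ D, |p.2.1| ≤ (R : ℤ)) (τ : Θ) (k : S.KD D) (x : ℤ × Cross R C) :
    (res hR τ k x).2.1.1 = (k.1 (x.1, x.2.1.1, τ, x.2.2)).2.1 := rfl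

theorem res_col (hR : ∀ p ∈ D, |p.2.1| ≤ (R : ℤ)) (τ : Θ) (k : S.KD D) (x : ℤ × Cross R C) :
    (res hR τ k x).2.2 = (k.1 (x.1, x.2.1.1, τ, x.2.2)).2.2.2 := rfl

/-- an element which is trivial in all copies is trivial -/
theorem res_faithful (hR : ∀ p ∈ D, |p.2.1| ≤ (R : ℤ)) {k k' : S.KD D}
    (h : ∀ τ, res hR τ k = res hR τ k') : k = k' := by
  refine Subtype.ext (Equiv.ext (fun p => ?_))
  by_cases hp : |p.2.1| ≤ (R : ℤ)
  · have e : p = lift (R := R) p.2.2.1 (p.1, ⟨p.2.1, hp⟩, p.2.2.2) := rfl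
    rw [e, ← lift_res hR, ← lift_res hR, h]
  · have hpD : p ∉ D := fun hc => hp (hR p hc)
    rw [((mem_KD S).1 k.2).2 p hpD, ((mem_KD S).1 k'.2).2 p hpD]

theorem KD_locOn (k : S.KD D) (R : ℕ) : ∃ M j, S.LocOn k.1 M R j := by
  obtain ⟨M, hM⟩ := (mem_Loc S).1 ((mem_KD S).1 k.2).1
  exact ⟨M, hM R⟩

/-- two copies differ only near the origin -/
theorem res_finite [Finite C] (hR : ∀ p ∈ D, |p.2.1| ≤ (R : ℤ)) (τ τ' : Θ) (k : S.KD D) :
    {x | res hR τ k x ≠ res hR τ' k x}.Finite := by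
  obtain ⟨M, j, h⟩ := KD_locOn k R
  have hw : (0 : ℤ) < S.w j := by exact_mod_cast S.w_pos j
  refine Set.Finite.subset (s := (Set.Icc (-(S.w j : ℤ)) (S.w j)) ×ˢ Set.univ)
    ((Set.finite_Icc _ _).prod Set.finite_univ) ?_
  intro x hx
  by_contra hc
  apply hx
  have hx1 : ¬ (-(S.w j : ℤ) ≤ x.1 ∧ x.1 ≤ S.w j) := fun h' => hc ⟨h', Set.mem_univ _⟩
  have h0 : x.1 / S.w j ≠ 0 := by
    intro h0
    apply hx1
    have h1 := Int.mul_ediv_add_emod x.1 (S.w j)
    rw [h0] at h1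
    have h2 := Int.emod_nonneg x.1 hw.ne'
    have h3 := Int.emod_lt_of_pos x.1 hw
    constructor <;> omega
  have h1 : x.1 / S.w j ≠ -1 := by
    intro h0
    apply hx1
    have h1 := Int.mul_ediv_add_emod x.1 (S.w j)
    rw [h0] at h1
    have h2 := Int.emod_nonneg x.1 hw.ne'
    have h3 := Int.emod_lt_of_pos x.1 hw
    constructor <;> omega
  have hs := h.sameMv (S.sim_of_far h0 h1 τ τ') x.2.1.2 x.2.2
  refine Prod.ext ?_ (Prod.ext (Subtype.ext ?_) ?_)
  · rw [res_fst, res_fst]; have := hs.1; omega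
  · rw [res_snd, res_snd]; exact hs.2.1
  · rw [res_col, res_col]; exact hs.2.2

theorem res_disp (hR : ∀ p ∈ D, |p.2.1| ≤ (R : ℤ)) (k : S.KD D) :
    ∃ M : ℕ, ∀ τ x, |(res hR τ k x).1 - x.1| ≤ M := by
  obtain ⟨M, j, h⟩ := KD_locOn k R
  exact ⟨M, fun τ x => h.disp x.2.1.2 x.2.2⟩

/-- elements which act in the same way on all copies -/
theorem KD_amen_aux [Finite C] (hR : ∀ p ∈ D, |p.2.1| ≤ (R : ℤ)) (τ₀ : Θ)
    (E : Subgroup (S.KD D)) (hE : ∀ k ∈ E, ∀ τ, res hR τ₀ k = res hR τ k) : Amen E := by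
  refine PerGp.amen_of_per1_lcm ((res hR τ₀).comp E.subtype) ?_ ?_
  · intro a b hab
    have hab' : res hR τ₀ a.1 = res hR τ₀ b.1 := hab
    refine Subtype.ext (res_faithful hR (fun τ => ?_))
    rw [← hE a.1 a.2 τ, ← hE b.1 b.2 τ, hab']
  · intro k
    obtain ⟨M, j, h⟩ := KD_locOn k.1 R
    have hw : (0 : ℤ) < S.w (j + 1) := by exact_mod_cast S.w_pos (j + 1)
    refine ⟨S.w (j + 1), hw.ne', ?_⟩
    rw [PerGp.mem_Per1]
    intro x i
    have hb : ∀ (u r : ℤ) (c : C) (τ τ' : Θ), |r| ≤ R → SameMv k.1.1 r c u τ u τ' := by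
      have key : ∀ (u r : ℤ) (c : C) (τ : Θ), |r| ≤ R → SameMv k.1.1 r c u τ₀ u τ := by
        intro u r c τ hr
        have e := DFunLike.congr_fun (hE k.1 k.2 τ) (u, (⟨r, hr⟩, c))
        refine ⟨?_, ?_, ?_⟩
        · have := congrArg (fun z => z.1) e
          simp only [res_fst] at this
          rw [this]
        · have := congrArg (fun z => z.2.1.1) e
          simpa only [res_snd] using this
        · have := congrArg (fun z => z.2.2) e
          simpa only [res_col] using this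
      intro u r c τ τ' hr
      exact (key u r c τ hr).symm.trans (key u r c τ' hr)
    have hp := h.periodic hb (u := x.1 + S.w (j + 1) * i) (u' := x.1)
      (Int.modEq_add_fac_self) x.2.1.2 x.2.2 τ₀
    have e0 : ∀ y : ℤ × Cross R C, ((res hR τ₀).comp E.subtype) k y = res hR τ₀ k.1 y :=
      fun y => rfl
    rw [e0, e0]
    refine Prod.ext ?_ (Prod.ext (Subtype.ext ?_) ?_)
    · rw [res_fst]
      have := hp.1
      show _ = (res hR τ₀ k.1 x).1 + _
      rw [res_fst]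
      simp only
      omega
    · rw [res_snd]
      exact hp.2.1
    · rw [res_col]
      exact hp.2.2

/-- **the groups `K_D` are amenable** -/
theorem KD_amen_of_bdd [Finite Θ] [Finite C] (hR : ∀ p ∈ D, |p.2.1| ≤ (R : ℤ)) :
    Amen (S.KD D) := by
  classical
  have := Fintype.ofFinite Θ
  rcases isEmpty_or_nonempty Θ with hΘ | ⟨⟨τ₀⟩⟩
  · have : Subsingleton (S.KD D) := ⟨fun a b => res_faithful hR (fun τ => isEmptyElim τ)⟩
    exact amen_finite
  · have key : Amen (⊤ : Subgroup (S.KD D)) := by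
      refine amen_iterate (Finset.univ : Finset Θ)
        (fun τ => MonoidHom.eqLocus (res hR τ₀) (res hR τ)) (fun τ _ H hH => ?_) ⊤ ?_
      · refine amen_oneD (res hR τ₀) (res hR τ) (fun g => res_finite hR τ₀ τ g) (fun g => ?_) H hH
        obtain ⟨M, hM⟩ := res_disp hR g
        exact ⟨M, fun x => hM τ₀ x⟩
      · refine KD_amen_aux hR τ₀ _ (fun k hk τ => ?_)
        have h1 := (Subgroup.mem_inf.1 hk).2
        rw [Finset.inf_univ_eq_iInf, Subgroup.mem_iInf] at h1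
        exact h1 τ
    exact key.equiv Subgroup.topEquiv

variable (S) in
theorem KD_amen [Finite Θ] [Finite C] {D : Set (Om Θ C)} (hD : S.IsDom D) : Amen (S.KD D) := by
  obtain ⟨⟨R, hR⟩, -⟩ := hD
  exact KD_amen_of_bdd (R := R) hR

end StripSys

end Crest.Agent.R189.Strip
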