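import Mathlib
import Crest.Agent.R189.StripDefs

/-!
# Row 189: exact equivariance of the sets `D(ω)` (helper84)
-/

set_option autoImplicit false

namespace Crest.Agent.R189.Strip

open Equiv

namespace StripSys

variable {Θ A Λ C : Type} (S : StripSys Θ A Λ)

lemma w_pos' (j : ℕ) : 0 < S.w j := by
  induction j with
  | zero => exact S.w_zero
  | succ j ih =>
    rw [S.w_succ]
    have := S.three_le_b j
    positivity

lemma mem_Dset {j : ℕ} {ω : Finset (Pc Θ C (S.w j))} {u r : ℤ} {τ : Θ} {c : C} :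
    ((u, r, τ, c) : Om Θ C) ∈ S.Dset j ω ↔ (Sum.inl ((u : ZMod (S.w j)), S.zone j u, r, c) ∈ ω ∨
    ∃ (q : ℤ) (cls : Fin 3), q % (3 * (S.b j : ℤ)) = (cls : ℤ) * S.b j ∧
      Sum.inr (cls, S.col (S.w j * q) τ, u - S.w j * q, r, c) ∈ ω) := Iff.rfl

/-- the zone changes only at centres -/
lemma zone_succ (j : ℕ) (u : ℤ) (h : S.zone j u ≠ S.zone j (u + 1)) :
    ∃ (q : ℤ) (cls : Fin 3), q % (3 * (S.b j : ℤ)) = (cls : ℤ) * S.b j ∧ u + 1 = S.w j * q := by
  have hw : (0 : ℤ) < S.w j := by exact_mod_cast S.w_pos' j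
  have hb : (3 : ℤ) ≤ S.b j := by exact_mod_cast S.three_le_b j
  by_cases hd : (S.w j : ℤ) ∣ u + 1
  · obtain ⟨q, hq⟩ := hd
    have hdiv : (u + 1) / (S.w j : ℤ) = q := by
      rw [hq]; exact Int.mul_ediv_cancel_left _ hw.ne'
    have hdiv2 : u / (S.w j : ℤ) = q - 1 := by
      have : u = (S.w j : ℤ) - 1 + (S.w j : ℤ) * (q - 1) := by linarith
      rw [this, Int.add_mul_ediv_left _ _ hw.ne', Int.ediv_eq_zero_of_lt (by linarith) (by linarith)]
      ring
    have hm0 := Int.emod_nonneg q (show (3 * (S.b j : ℤ)) ≠ 0 by positivity)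
    have hm1 := Int.emod_lt_of_pos q (show 0 < 3 * (S.b j : ℤ) by positivity)
    by_cases h0 : q % (3 * (S.b j : ℤ)) = 0
    · exact ⟨q, 0, by simpa using h0, hq⟩
    by_cases h1 : q % (3 * (S.b j : ℤ)) = S.b j
    · exact ⟨q, 1, by simpa using h1, hq⟩
    by_cases h2 : q % (3 * (S.b j : ℤ)) = 2 * S.b j
    · exact ⟨q, 2, by simpa using h2, hq⟩
    exfalso
    apply h
    have hpred : (q - 1) % (3 * (S.b j : ℤ)) = q % (3 * (S.b j : ℤ)) - 1 := by
      have h3 : q - 1 = (q % (3 * (S.b j : ℤ)) - 1) + (3 * (S.b j : ℤ)) * (q / (3 * (S.b j : ℤ))) := by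
        have := Int.emod_add_mul_ediv q (3 * (S.b j : ℤ))
        linarith
      rw [h3, Int.add_mul_emod_self_left]
      exact Int.emod_eq_of_lt (by omega) (by omega)
    unfold zone
    rw [hdiv, hdiv2, hpred]
    generalize q % (3 * (S.b j : ℤ)) = e at *
    split_ifs <;> first | rfl | (exfalso; omega)
  · exfalso
    apply h
    have : (u + 1) / (S.w j : ℤ) = u / (S.w j : ℤ) := by
      have h0 := Int.emod_nonneg u hw.ne'
      have h1 := Int.emod_lt_of_pos u hw
      have h2 := Int.emod_add_mul_ediv u (S.w j : ℤ)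
      have h3 : u % (S.w j : ℤ) + 1 ≠ S.w j := by
        intro h3
        apply hd
        refine ⟨u / (S.w j : ℤ) + 1, ?_⟩
        have h5 : (S.w j : ℤ) * (u / S.w j + 1) = S.w j * (u / S.w j) + S.w j := by ring
        rw [h5]
        linarith
      have h4 : u + 1 = (u % (S.w j : ℤ) + 1) + (S.w j : ℤ) * (u / (S.w j : ℤ)) := by linarith
      rw [h4, Int.add_mul_ediv_left _ _ hw.ne',
        Int.ediv_eq_zero_of_lt (by linarith) (by omega)]
      simp
    unfold zone
    rw [this]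

lemma zone_change (j : ℕ) (u a : ℤ) (ha : |a| ≤ 1) (h : S.zone j (u - a) ≠ S.zone j u) :
    ∃ (q : ℤ) (cls : Fin 3), q % (3 * (S.b j : ℤ)) = (cls : ℤ) * S.b j ∧
      |u - a - S.w j * q| ≤ 1 := by
  have ha' : a = 0 ∨ a = 1 ∨ a = -1 := by
    rw [abs_le] at ha; omega
  rcases ha' with rfl | rfl | rfl
  · simp at h
  · obtain ⟨q, cls, h1, h2⟩ := S.zone_succ j (u - 1) (by simpa using h)
    refine ⟨q, cls, h1, ?_⟩
    have : u - 1 - S.w j * q = -1 := by linarith
    rw [this]; simp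
  · obtain ⟨q, cls, h1, h2⟩ := S.zone_succ j u (by simpa using h.symm)
    refine ⟨q, cls, h1, ?_⟩
    have : u - -1 - S.w j * q = 0 := by linarith
    rw [this]; simp

theorem image_transl_Dset [DecidableEq Θ] [DecidableEq C] {j N : ℕ} {ω : Finset (Pc Θ C (S.w j))}
    (hω : S.Good j N ω) (v : C → ℤ × ℤ) (hv : ∀ c, |(v c).1| ≤ 1 ∧ |(v c).2| ≤ 1) :
    transl v '' (S.Dset j ω) = S.Dset j (ω.map (phiT (S.w j) v).toEmbedding) := by
  ext ⟨u, r, τ, c⟩
  rw [Equiv.image_eq_preimage_symm, Set.mem_preimage, transl_symm_apply, mem_Dset, mem_Dset,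
    Finset.mem_map_equiv]
  have hloc : (∃ (q : ℤ) (cls : Fin 3), q % (3 * (S.b j : ℤ)) = (cls : ℤ) * S.b j ∧
      (Sum.inr (cls, S.col (S.w j * q) τ, u - S.w j * q, r, c) : Pc Θ C (S.w j)) ∈
        ω.map (phiT (S.w j) v).toEmbedding) ↔
      (∃ (q : ℤ) (cls : Fin 3), q % (3 * (S.b j : ℤ)) = (cls : ℤ) * S.b j ∧
      Sum.inr (cls, S.col (S.w j * q) τ, u - (v c).1 - S.w j * q, r - (v c).2, c) ∈ ω) := by
    refine exists_congr fun q => exists_congr fun cls => and_congr_right fun _ => ?_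
    rw [Finset.mem_map_equiv]
    have : (phiT (S.w j) v).symm
        (Sum.inr (cls, S.col (S.w j * q) τ, u - S.w j * q, r, c) : Pc Θ C (S.w j)) =
        Sum.inr (cls, S.col (S.w j * q) τ, u - (v c).1 - S.w j * q, r - (v c).2, c) := by
      simp only [phiT]
      show Sum.inr (cls, S.col (S.w j * q) τ, u - S.w j * q - (v c).1, r - (v c).2, c) = _
      rw [sub_right_comm]
    rw [this]
  rw [hloc]
  have hper : (phiT (S.w j) v).symm
      (Sum.inl ((u : ZMod (S.w j)), S.zone j u, r, c) : Pc Θ C (S.w j)) =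
      Sum.inl (((u - (v c).1 : ℤ) : ZMod (S.w j)), S.zone j u, r - (v c).2, c) := by
    simp only [phiT]
    show Sum.inl ((u : ZMod (S.w j)) - (((v c).1 : ℤ) : ZMod (S.w j)), S.zone j u, r - (v c).2, c) = _
    push_cast
    rfl
  rw [hper]
  by_cases hz : S.zone j (u - (v c).1) = S.zone j u
  · rw [hz]
  · obtain ⟨q, cls, h1, h2⟩ := S.zone_change j u (v c).1 (hv c).1 hz
    have hcore : |r - (v c).2| ≤ N → ∃ (q : ℤ) (cls : Fin 3),
        q % (3 * (S.b j : ℤ)) = (cls : ℤ) * S.b j ∧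
        Sum.inr (cls, S.col (S.w j * q) τ, u - (v c).1 - S.w j * q, r - (v c).2, c) ∈ ω := by
      intro hr
      have hN : (1 : ℤ) ≤ N := by exact_mod_cast hω.one_le
      exact ⟨q, cls, h1, hω.core _ _ _ _ _ (h2.trans hN) hr⟩
    constructor
    · rintro (h | h)
      · exact Or.inr (hcore (hω.per _ _ _ _ h))
      · exact Or.inr h
    · rintro (h | h)
      · exact Or.inr (hcore (hω.per _ _ _ _ h))
      · exact Or.inr h

/-- letters on the local pieces -/
lemma locLet_eq (l : Λ) (j : ℕ) {cls : Fin 3} {q u r : ℤ} {τ : Θ}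
    (hq : q % (3 * (S.b j : ℤ)) = (cls : ℤ) * S.b j)
    (hdx : |u - S.w j * q| < S.b j * S.w j) (hr : |r| ≤ S.H j) :
    S.locLet l j cls (S.col (S.w j * q) τ) (u - S.w j * q) r = S.lett l u r τ := by
  have hw : (0 : ℤ) < S.w j := by exact_mod_cast S.w_pos' j
  have hb : (3 : ℤ) ≤ S.b j := by exact_mod_cast S.three_le_b j
  unfold locLet
  apply S.lett_strip l j r hr
  · have : (S.w j : ℤ) * ((cls : ℤ) * S.b j) + (u - S.w j * q)
        = u + S.w j * ((cls : ℤ) * S.b j - q) := by ring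
    rw [this]
    exact (Int.modEq_iff_dvd.mpr ⟨-((cls : ℤ) * S.b j - q), by ring⟩)
  · intro hd
    have hd' : (S.w j : ℤ) ∣ u - S.w j * q := by
      rwa [Int.dvd_add_right (Dvd.intro _ rfl)] at hd
    obtain ⟨e, he⟩ := hd'
    have he' : |e| < S.b j := by
      rw [he, abs_mul, abs_of_pos hw, mul_comm] at hdx
      exact lt_of_mul_lt_mul_right hdx hw.le
    have hu : u = S.w j * (q + e) := by linarith
    have hcls : (0 : ℤ) ≤ (cls : ℤ) ∧ ((cls : ℕ) : ℤ) ≤ 2 := by
      have := cls.2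
      constructor
      · positivity
      · omega
    rw [he, ← mul_add, hu]
    by_cases he0 : e = 0
    · subst he0
      simp only [add_zero]
      by_cases hc : (cls : ℤ) = 0
      · rw [hc]
        simp [S.col_zero]
      · have h1 : (((cls : ℤ) * S.b j) % (3 * (S.b j : ℤ))) = (cls : ℤ) * S.b j :=
          Int.emod_eq_of_lt (by nlinarith [hcls.1]) (by nlinarith [hcls.2])
        have h2 : ((cls : ℤ) * S.b j) ≠ 0 := mul_ne_zero hc (by linarith)
        rw [S.col_level j _ _ (by rw [h1]; exact h2), S.col_level j q τ (by rw [hq]; exact h2),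
          h1, hq]
    · have h1 : ((cls : ℤ) * S.b j + e) % (3 * (S.b j : ℤ)) = (q + e) % (3 * (S.b j : ℤ)) := by
        have : (q + e) % (3 * (S.b j : ℤ)) = (q % (3 * (S.b j : ℤ)) + e) % (3 * (S.b j : ℤ)) := by
          rw [Int.emod_add_emod]
        rw [this, hq]
      have h2 : ((cls : ℤ) * S.b j + e) % (3 * (S.b j : ℤ)) ≠ 0 := by
        intro h
        obtain ⟨k, hk⟩ := Int.dvd_of_emod_eq_zero h
        rw [abs_lt] at he'
        have hk1 : -1 < k := by
          by_contra hc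
          push Not at hc
          nlinarith [hcls.1]
        have hk2 : k < 1 := by
          by_contra hc
          push Not at hc
          nlinarith [hcls.2]
        have hk0 : k = 0 := by omega
        rw [hk0, mul_zero] at hk
        by_cases hc : (cls : ℤ) = 0
        · rw [hc] at hk
          simp at hk
          exact he0 hk
        · have : (1 : ℤ) ≤ (cls : ℤ) := by omega
          nlinarith
      rw [S.col_level j _ _ h2, S.col_level j _ _ (by rw [← h1]; exact h2), h1]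

/-- letters on the periodic pieces, away from the centres -/
lemma perLet_eq_or (l : Λ) (j : ℕ) {u r : ℤ} (τ : Θ) (hr : |r| ≤ S.H j) :
    S.perLet l j (u : ZMod (S.w j)) (S.zone j u) r = S.lett l u r τ ∨
    ∃ (q : ℤ) (cls : Fin 3), q % (3 * (S.b j : ℤ)) = (cls : ℤ) * S.b j ∧
      |u - S.w j * q| ≤ S.w j := by
  have hw : (0 : ℤ) < S.w j := by exact_mod_cast S.w_pos' j
  have hb : (3 : ℤ) ≤ S.b j := by exact_mod_cast S.three_le_b j
  have : NeZero (S.w j) := ⟨(S.w_pos' j).ne'⟩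
  have hval : (((u : ZMod (S.w j)).val : ℕ) : ℤ) = u % (S.w j : ℤ) := ZMod.val_intCast u
  by_cases hirr : ∃ (q : ℤ) (cls : Fin 3), q % (3 * (S.b j : ℤ)) = (cls : ℤ) * S.b j ∧
      |u - S.w j * q| ≤ S.w j
  · exact Or.inr hirr
  left
  unfold perLet
  rw [hval]
  apply S.lett_strip l j r hr
  · rw [Int.modEq_iff_dvd]
    refine ⟨u / S.w j - S.eOf j (S.zone j u), ?_⟩
    have := Int.emod_add_mul_ediv u (S.w j : ℤ)
    linarith
  · intro hd
    have hd' : (S.w j : ℤ) ∣ u % (S.w j : ℤ) := by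
      rwa [Int.dvd_add_right (Dvd.intro _ rfl)] at hd
    have hu0 : u % (S.w j : ℤ) = 0 :=
      Int.eq_zero_of_dvd_of_nonneg_of_lt (Int.emod_nonneg _ hw.ne') (Int.emod_lt_of_pos _ hw) hd'
    obtain ⟨q, hq⟩ := Int.dvd_of_emod_eq_zero hu0
    rw [hu0, add_zero]
    have hm0 := Int.emod_nonneg q (show (3 * (S.b j : ℤ)) ≠ 0 by positivity)
    have hm1 := Int.emod_lt_of_pos q (show 0 < 3 * (S.b j : ℤ) by positivity)
    have hdiv : u / (S.w j : ℤ) = q := by
      rw [hq]; exact Int.mul_ediv_cancel_left _ hw.ne'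
    -- the index of the line
    have hne0 : q % (3 * (S.b j : ℤ)) ≠ 0 := by
      intro h
      exact hirr ⟨q, 0, by simpa using h, by rw [hq]; simp⟩
    have hneb : q % (3 * (S.b j : ℤ)) ≠ S.b j := by
      intro h
      exact hirr ⟨q, 1, by simpa using h, by rw [hq]; simp⟩
    have hne2b : q % (3 * (S.b j : ℤ)) ≠ 2 * S.b j := by
      intro h
      exact hirr ⟨q, 2, by simpa using h, by rw [hq]; simp⟩
    have hne1 : q % (3 * (S.b j : ℤ)) ≠ 1 := by
      intro h
      refine hirr ⟨q - 1, 0, ?_, ?_⟩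
      · have h3 : q - 1 = 0 + (3 * (S.b j : ℤ)) * (q / (3 * (S.b j : ℤ))) := by
          have := Int.emod_add_mul_ediv q (3 * (S.b j : ℤ))
          linarith
        rw [h3, Int.add_mul_emod_self_left]
        simp
      · have : u - S.w j * (q - 1) = S.w j := by rw [hq]; ring
        rw [this, abs_of_pos hw]
    have hnel : q % (3 * (S.b j : ℤ)) ≠ 3 * S.b j - 1 := by
      intro h
      refine hirr ⟨q + 1, 0, ?_, ?_⟩
      · have h3 : q + 1 = 0 + (3 * (S.b j : ℤ)) * (q / (3 * (S.b j : ℤ)) + 1) := by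
          have := Int.emod_add_mul_ediv q (3 * (S.b j : ℤ))
          linarith
        rw [h3, Int.add_mul_emod_self_left]
        simp
      · have : u - S.w j * (q + 1) = -S.w j := by rw [hq]; ring
        rw [this, abs_neg, abs_of_pos hw]
    obtain ⟨e, he⟩ : ∃ e : ℕ, q % (3 * (S.b j : ℤ)) = e := ⟨(q % (3 * (S.b j : ℤ))).toNat, by omega⟩
    have hcolu : S.col u τ = S.zt (e / S.b j) := by
      rw [hq, S.col_level j q τ hne0, he, Int.toNat_natCast]
      apply S.tau_zone <;> omega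
    have hbn := S.three_le_b j
    have hz : ((S.zone j u : Fin 3) : ℕ) = e / S.b j := by
      unfold zone
      rw [hdiv, he]
      symm
      split_ifs with h1 h2
      · exact Nat.div_eq_of_lt (by omega)
      · exact Nat.div_eq_of_lt_le (by omega) (by omega)
      · exact Nat.div_eq_of_lt_le (by omega) (by omega)
    have he2 : (S.eOf j (S.zone j u) : ℤ) % (3 * (S.b j : ℤ)) = S.eOf j (S.zone j u) := by
      apply Int.emod_eq_of_lt (by positivity)
      unfold eOf
      have h3 : ((S.zone j u : Fin 3) : ℕ) ≤ 2 := by omega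
      split_ifs
      · push_cast; linarith
      · push_cast
        have h3' : (((S.zone j u : Fin 3) : ℕ) : ℤ) ≤ 2 := by exact_mod_cast h3
        nlinarith
    have hz3 : S.eOf j (S.zone j u) / S.b j = ((S.zone j u : Fin 3) : ℕ) ∧
        0 < S.eOf j (S.zone j u) ∧ S.eOf j (S.zone j u) < 3 * S.b j ∧ S.eOf j (S.zone j u) ≠ 1 ∧
        S.eOf j (S.zone j u) ≠ S.b j ∧ S.eOf j (S.zone j u) ≠ 2 * S.b j ∧
        S.eOf j (S.zone j u) + 1 ≠ 3 * S.b j := by
      generalize S.zone j u = z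
      unfold eOf
      fin_cases z
      · simp only [Fin.zero_eta, if_true, Fin.val_zero]
        refine ⟨Nat.div_eq_of_lt (by omega), ?_⟩
        omega
      · simp only [Fin.mk_one, Fin.isValue, one_ne_zero, if_false, Fin.val_one]
        refine ⟨Nat.div_eq_of_lt_le (by omega) (by omega), ?_⟩
        omega
      · have h20 : ¬ ((⟨2, by omega⟩ : Fin 3) = 0) := by
          intro h
          exact absurd (congrArg Fin.val h) (by norm_num)
        simp only [h20, if_false]
        refine ⟨Nat.div_eq_of_lt_le (by omega) (by omega), ?_⟩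
        omega
    have hcol2 : S.col (S.w j * (S.eOf j (S.zone j u) : ℤ)) (S.zt 0) = S.zt (e / S.b j) := by
      rw [S.col_level j _ _ (by rw [he2]; have := hz3.2.1; omega), he2, Int.toNat_natCast,
        S.tau_zone j _ hz3.2.1 hz3.2.2.1 hz3.2.2.2.1 hz3.2.2.2.2.1 hz3.2.2.2.2.2.1
          hz3.2.2.2.2.2.2, hz3.1, hz]
    rw [hcol2, hcolu]

theorem image_recol_Dset [DecidableEq Θ] [DecidableEq C] {j N : ℕ} {ω : Finset (Pc Θ C (S.w j))}
    (hω : S.Good j N ω) (l : Λ) (α : A → Perm C) :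
    recol (S.lett l) α '' (S.Dset j ω) = S.Dset j (ω.map (S.phiC l j α).toEmbedding) := by
  ext ⟨u, r, τ, c⟩
  rw [Equiv.image_eq_preimage_symm, Set.mem_preimage, recol_symm_apply, mem_Dset, mem_Dset,
    Finset.mem_map_equiv]
  have hNH : (N : ℤ) ≤ S.H j := by exact_mod_cast hω.N_le
  have hloc : (∃ (q : ℤ) (cls : Fin 3), q % (3 * (S.b j : ℤ)) = (cls : ℤ) * S.b j ∧
      (Sum.inr (cls, S.col (S.w j * q) τ, u - S.w j * q, r, c) : Pc Θ C (S.w j)) ∈
        ω.map (S.phiC l j α).toEmbedding) ↔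
      (∃ (q : ℤ) (cls : Fin 3), q % (3 * (S.b j : ℤ)) = (cls : ℤ) * S.b j ∧
      Sum.inr (cls, S.col (S.w j * q) τ, u - S.w j * q, r, (α (S.lett l u r τ))⁻¹ c) ∈ ω) := by
    refine exists_congr fun q => exists_congr fun cls => and_congr_right fun hq => ?_
    rw [Finset.mem_map_equiv]
    have : (S.phiC l j α).symm
        (Sum.inr (cls, S.col (S.w j * q) τ, u - S.w j * q, r, c) : Pc Θ C (S.w j)) =
        Sum.inr (cls, S.col (S.w j * q) τ, u - S.w j * q, r,
          (α (S.locLet l j cls (S.col (S.w j * q) τ) (u - S.w j * q) r))⁻¹ c) := rfl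
    rw [this]
    constructor
    · intro h
      have hb := hω.loc _ _ _ _ _ h
      rwa [S.locLet_eq l j hq hb.1 hb.2] at h
    · intro h
      have hb := hω.loc _ _ _ _ _ h
      rwa [S.locLet_eq l j hq hb.1 hb.2]
  rw [hloc]
  have hper : (S.phiC l j α).symm
      (Sum.inl ((u : ZMod (S.w j)), S.zone j u, r, c) : Pc Θ C (S.w j)) =
      Sum.inl ((u : ZMod (S.w j)), S.zone j u, r,
        (α (S.perLet l j (u : ZMod (S.w j)) (S.zone j u) r))⁻¹ c) := rfl
  rw [hper]
  by_cases hr : |r| ≤ N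
  · rcases S.perLet_eq_or l j (u := u) τ (hr.trans hNH) with h | ⟨q, cls, h1, h2⟩
    · rw [h]
    · have hwN : (S.w j : ℤ) ≤ N := by exact_mod_cast hω.w_le
      have hcore : ∃ (q : ℤ) (cls : Fin 3), q % (3 * (S.b j : ℤ)) = (cls : ℤ) * S.b j ∧
          Sum.inr (cls, S.col (S.w j * q) τ, u - S.w j * q, r, (α (S.lett l u r τ))⁻¹ c) ∈ ω :=
        ⟨q, cls, h1, hω.core _ _ _ _ _ (h2.trans hwN) hr⟩
      exact ⟨fun _ => Or.inr hcore, fun _ => Or.inr hcore⟩
  · constructor
    · rintro (h | h)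
      · exact absurd (hω.per _ _ _ _ h) hr
      · exact Or.inr h
    · rintro (h | h)
      · exact absurd (hω.per _ _ _ _ h) hr
      · exact Or.inr h

theorem zero_mem_Dset {j : ℕ} {ω : Finset (Pc Θ C (S.w j))}
    (h : ∀ (i : ZMod (S.w j)) (z : Fin 3) (c : C), Sum.inl (i, z, (0 : ℤ), c) ∈ ω)
    (p : Om Θ C) (hp : p.2.1 = 0) : p ∈ S.Dset j ω := by
  obtain ⟨u, r, τ, c⟩ := p
  simp only at hp
  subst hp
  exact Or.inl (h _ _ _)

end StripSys

end Crest.Agent.R189.Strip
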