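import Crest.Agent.R189.StripLoc
import Crest.Agent.R189.StripD
import Crest.Agent.R189.Energy
import Crest.Agent.R189.Bern

/-!
# Row 189: the almost invariant random strip subsets (helper777)

`ang n N K` : the angle function on the pieces (linear profile of radius `n` on the periodic
pieces, logarithmic profile from radius `N` to `8^K N` on the local pieces).
Main result: `StripSys.exists_meas`.
-/

set_option autoImplicit false

namespace Crest.Agent.R189.Strip

open Finset Real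

namespace StripSys

section angles

variable {w : ℕ} {Θ C : Type}

/-- the angles -/
noncomputable def ang (n N K : ℕ) : Pc Θ C w → ℝ
  | .inl (_, _, r, _) => linProf n r.natAbs
  | .inr (_, _, x, r, _) => logProf N K (max x.natAbs r.natAbs)

@[simp] theorem ang_inl (n N K : ℕ) (i : ZMod w) (z : Fin 3) (r : ℤ) (c : C) :
    ang n N K (.inl (i, z, r, c) : Pc Θ C w) = linProf n r.natAbs := rfl

@[simp] theorem ang_inr (n N K : ℕ) (k : Fin 3) (t : Θ) (x r : ℤ) (c : C) :
    ang n N K (.inr (k, t, x, r, c) : Pc Θ C w) = logProf N K (max x.natAbs r.natAbs) := rfl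

theorem ang_inl_eq {n N K : ℕ} {r : ℤ} (h : r.natAbs ≤ n) (i : ZMod w) (z : Fin 3) (c : C) :
    ang n N K (.inl (i, z, r, c) : Pc Θ C w) = π / 2 := linProf_eq h

theorem ang_inr_eq {n N K : ℕ} (hK : 0 < K) (k : Fin 3) (t : Θ) {x r : ℤ} (c : C)
    (hx : x.natAbs ≤ N) (hr : r.natAbs ≤ N) :
    ang n N K (.inr (k, t, x, r, c) : Pc Θ C w) = π / 2 := logProf_eq hK (max_le hx hr)

/-- position of a nonzero angle, periodic case -/
theorem lt_of_ang_inl_ne {n N K : ℕ} (hn : 0 < n) {r : ℤ} {i : ZMod w} {z : Fin 3} {c : C}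
    (h : ang n N K (.inl (i, z, r, c) : Pc Θ C w) ≠ 0) : r.natAbs < 2 * n := by
  by_contra hc
  exact h (linProf_eq_zero hn (not_lt.1 hc))

/-- position of a nonzero angle, local case -/
theorem lt_of_ang_inr_ne {n N K : ℕ} (hN : 0 < N) {k : Fin 3} {t : Θ} {x r : ℤ} {c : C}
    (h : ang n N K (.inr (k, t, x, r, c) : Pc Θ C w) ≠ 0) :
    x.natAbs < 8 ^ K * N ∧ r.natAbs < 8 ^ K * N := by
  by_contra hc
  refine h (logProf_eq_zero hN ?_)
  rcases not_and_or.1 hc with h' | h'
  · exact (not_lt.1 h').trans (le_max_left _ _)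
  · exact (not_lt.1 h').trans (le_max_right _ _)

variable [NeZero w] [Fintype Θ] [Fintype C]

theorem card_per_le (n : ℕ) (s : Finset (ZMod w × Fin 3 × ℤ × C))
    (h : ∀ j ∈ s, j.2.2.1.natAbs ≤ n) :
    (s.card : ℝ) ≤ (w * 3 * Fintype.card C : ℝ) * (2 * n + 1) := by
  classical
  have h1 : s ⊆ (Finset.univ : Finset (ZMod w)) ×ˢ (Finset.univ : Finset (Fin 3)) ×ˢ
      (Finset.Icc (-(n:ℤ)) n) ×ˢ (Finset.univ : Finset C) := by
    intro j hj
    have := h j hj
    simp only [Finset.mem_product, Finset.mem_Icc, Finset.mem_univ, true_and, and_true]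
    omega
  have h2 := Finset.card_le_card h1
  simp only [Finset.card_product, Finset.card_univ, Int.card_Icc, Fintype.card_fin, ZMod.card]
    at h2
  have h3 : ((n:ℤ) + 1 - -(n:ℤ)).toNat = 2 * n + 1 := by omega
  rw [h3] at h2
  calc (s.card : ℝ) ≤ ((w * (3 * ((2 * n + 1) * Fintype.card C)) : ℕ) : ℝ) := by exact_mod_cast h2
    _ = _ := by push_cast; ring

theorem card_loc_le (n : ℕ) (s : Finset (Fin 3 × Θ × ℤ × ℤ × C)) (hn : 1 ≤ n)
    (h : ∀ j ∈ s, max j.2.2.1.natAbs j.2.2.2.1.natAbs ≤ n) :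
    (s.card : ℝ) ≤ (27 * Fintype.card Θ * Fintype.card C : ℝ) * n ^ 2 := by
  classical
  have h1 : s ⊆ (Finset.univ : Finset (Fin 3)) ×ˢ (Finset.univ : Finset Θ) ×ˢ
      (Finset.Icc (-(n:ℤ)) n) ×ˢ (Finset.Icc (-(n:ℤ)) n) ×ˢ (Finset.univ : Finset C) := by
    intro j hj
    have := h j hj
    simp only [Finset.mem_product, Finset.mem_Icc, Finset.mem_univ, true_and, and_true]
    have h5 := (le_max_left _ _).trans this
    have h6 := (le_max_right _ _).trans this
    omega
  have h2 := Finset.card_le_card h1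
  simp only [Finset.card_product, Finset.card_univ, Int.card_Icc, Fintype.card_fin] at h2
  have h3 : ((n:ℤ) + 1 - -(n:ℤ)).toNat = 2 * n + 1 := by omega
  rw [h3] at h2
  have hn' : (1:ℝ) ≤ n := by exact_mod_cast hn
  calc (s.card : ℝ) ≤ ((3 * (Fintype.card Θ * ((2 * n + 1) * ((2 * n + 1) * Fintype.card C))) : ℕ) : ℝ) := by
        exact_mod_cast h2
    _ = (3 * Fintype.card Θ * Fintype.card C : ℝ) * (2 * n + 1) ^ 2 := by push_cast; ring
    _ ≤ (3 * Fintype.card Θ * Fintype.card C : ℝ) * (3 * n) ^ 2 := by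
        refine mul_le_mul_of_nonneg_left ?_ (by positivity)
        exact pow_le_pow_left₀ (by positivity) (by linarith) 2
    _ = _ := by ring

/-- the support of the angle function is finite -/
theorem ang_finite {n N : ℕ} (K : ℕ) (hn : 0 < n) (hN : 0 < N) :
    {j : Pc Θ C w | ang n N K j ≠ 0}.Finite := by
  classical
  let s : Finset (Pc Θ C w) :=
    ((Finset.univ : Finset (ZMod w)) ×ˢ (Finset.univ : Finset (Fin 3)) ×ˢ
      (Finset.Icc (-((2 * n : ℕ):ℤ)) (2 * n : ℕ)) ×ˢ (Finset.univ : Finset C)).map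
      Function.Embedding.inl ∪
    ((Finset.univ : Finset (Fin 3)) ×ˢ (Finset.univ : Finset Θ) ×ˢ
      (Finset.Icc (-((8 ^ K * N : ℕ):ℤ)) (8 ^ K * N : ℕ)) ×ˢ
      (Finset.Icc (-((8 ^ K * N : ℕ):ℤ)) (8 ^ K * N : ℕ)) ×ˢ (Finset.univ : Finset C)).map
      Function.Embedding.inr
  refine s.finite_toSet.subset ?_
  rintro (⟨i, z, r, c⟩ | ⟨k, t, x, r, c⟩) hj
  · have := lt_of_ang_inl_ne hn hj
    rw [Finset.mem_coe, Finset.mem_union]
    left
    rw [Finset.mem_map]
    refine ⟨(i, z, r, c), ?_, rfl⟩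
    simp only [Finset.mem_product, Finset.mem_Icc, Finset.mem_univ, and_true, true_and]
    omega
  · have := lt_of_ang_inr_ne hN hj
    rw [Finset.mem_coe, Finset.mem_union]
    right
    rw [Finset.mem_map]
    refine ⟨(k, t, x, r, c), ?_, rfl⟩
    simp only [Finset.mem_product, Finset.mem_Icc, Finset.mem_univ, and_true, true_and]
    omega

/-- **Energy of a map of displacement at most one.** -/
theorem energy_of_unit (n N K : ℕ) (hn : 0 < n) (hN : 2 ≤ N) (hK : 0 < K)
    (σ : Pc Θ C w → Pc Θ C w)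
    (hσ1 : ∀ i z r c, ∃ i' z' r' c', σ (.inl (i, z, r, c)) = .inl (i', z', r', c') ∧
      r.natAbs ≤ r'.natAbs + 1 ∧ r'.natAbs ≤ r.natAbs + 1)
    (hσ2 : ∀ k t x r c, ∃ k' t' x' r' c', σ (.inr (k, t, x, r, c)) = .inr (k', t', x', r', c') ∧
      max x.natAbs r.natAbs ≤ max x'.natAbs r'.natAbs + 1 ∧
      max x'.natAbs r'.natAbs ≤ max x.natAbs r.natAbs + 1)
    (s : Finset (Pc Θ C w)) :
    ∑ j ∈ s, (ang n N K (σ j) - ang n N K j) ^ 2 ≤
      (π / 2) ^ 2 * ((w * 3 * Fintype.card C : ℝ) * (4 * n + 3)) * (1 / n) ^ 2 +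
      9 * (π / 2) ^ 2 * (27 * Fintype.card Θ * Fintype.card C : ℝ) / K := by
  classical
  -- split the sum
  have hs : s = (s.preimage Sum.inl (Sum.inl_injective.injOn)).map Function.Embedding.inl ∪
      (s.preimage Sum.inr (Sum.inr_injective.injOn)).map Function.Embedding.inr := by
    ext j
    rw [Finset.mem_union, Finset.mem_map, Finset.mem_map]
    rcases j with a | a <;> simp
  have hdisj : Disjoint ((s.preimage Sum.inl (Sum.inl_injective.injOn)).map
      (Function.Embedding.inl : _ ↪ Pc Θ C w))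
      ((s.preimage Sum.inr (Sum.inr_injective.injOn)).map
      (Function.Embedding.inr : _ ↪ Pc Θ C w)) := by
    rw [Finset.disjoint_left]
    intro j h1 h2
    rw [Finset.mem_map] at h1 h2
    obtain ⟨a, -, rfl⟩ := h1
    obtain ⟨b, -, h⟩ := h2
    simp at h
  rw [hs, Finset.sum_union hdisj, Finset.sum_map, Finset.sum_map]
  refine add_le_add ?_ ?_
  · -- periodic part
    let g : (ZMod w × Fin 3 × ℤ × C) → (ZMod w × Fin 3 × ℤ × C) := fun a =>
      Sum.elim id (fun _ => a) (σ (Sum.inl a) : Pc Θ C w)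
    have hg : ∀ a, (σ (Sum.inl a) : Pc Θ C w) = Sum.inl (g a) ∧
        a.2.2.1.natAbs ≤ (g a).2.2.1.natAbs + 1 ∧ (g a).2.2.1.natAbs ≤ a.2.2.1.natAbs + 1 := by
      rintro ⟨i, z, r, c⟩
      obtain ⟨i', z', r', c', h1, h2, h3⟩ := hσ1 i z r c
      have : g (i, z, r, c) = (i', z', r', c') := by
        simp only [g]
        rw [h1]
        rfl
      rw [this]
      exact ⟨h1, h2, h3⟩
    have := linProf_energy (fun a : ZMod w × Fin 3 × ℤ × C => a.2.2.1.natAbs)
      (w * 3 * Fintype.card C : ℝ) card_per_le (N := n) (M := 1) hn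
      (s.preimage Sum.inl (Sum.inl_injective.injOn)) g (fun a _ => (hg a).2.1)
      (fun a _ => (hg a).2.2)
    have e : ∀ a ∈ s.preimage Sum.inl (Sum.inl_injective.injOn),
        (ang n N K (σ (Function.Embedding.inl a)) -
          ang n N K (Function.Embedding.inl a : Pc Θ C w)) ^ 2 =
        (linProf n (g a).2.2.1.natAbs - linProf n a.2.2.1.natAbs) ^ 2 := by
      intro a _
      change (ang n N K (σ (Sum.inl a)) - _) ^ 2 = _
      rw [(hg a).1]
      rfl
    rw [Finset.sum_congr rfl e]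
    refine this.trans (le_of_eq ?_)
    push_cast
    ring
  · -- local part
    let g : (Fin 3 × Θ × ℤ × ℤ × C) → (Fin 3 × Θ × ℤ × ℤ × C) := fun a =>
      Sum.elim (fun _ => a) id (σ (Sum.inr a) : Pc Θ C w)
    have hg : ∀ a, (σ (Sum.inr a) : Pc Θ C w) = Sum.inr (g a) ∧
        max a.2.2.1.natAbs a.2.2.2.1.natAbs ≤
          max (g a).2.2.1.natAbs (g a).2.2.2.1.natAbs + 1 ∧
        max (g a).2.2.1.natAbs (g a).2.2.2.1.natAbs ≤
          max a.2.2.1.natAbs a.2.2.2.1.natAbs + 1 := by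
      rintro ⟨k, t, x, r, c⟩
      obtain ⟨k', t', x', r', c', h1, h2, h3⟩ := hσ2 k t x r c
      have : g (k, t, x, r, c) = (k', t', x', r', c') := by
        simp only [g]
        rw [h1]
        rfl
      rw [this]
      exact ⟨h1, h2, h3⟩
    have := logProf_energy (fun a : Fin 3 × Θ × ℤ × ℤ × C => max a.2.2.1.natAbs a.2.2.2.1.natAbs)
      (27 * Fintype.card Θ * Fintype.card C : ℝ) card_loc_le (N := N) (K := K) (M := 1)
      (by omega) hK (by omega)
      (s.preimage Sum.inr (Sum.inr_injective.injOn)) g (fun a _ => (hg a).2.1)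
      (fun a _ => (hg a).2.2)
    have e : ∀ a ∈ s.preimage Sum.inr (Sum.inr_injective.injOn),
        (ang n N K (σ (Function.Embedding.inr a)) -
          ang n N K (Function.Embedding.inr a : Pc Θ C w)) ^ 2 =
        (logProf N K (max (g a).2.2.1.natAbs (g a).2.2.2.1.natAbs) -
          logProf N K (max a.2.2.1.natAbs a.2.2.2.1.natAbs)) ^ 2 := by
      intro a _
      change (ang n N K (σ (Sum.inr a)) - _) ^ 2 = _
      rw [(hg a).1]
      rfl
    rw [Finset.sum_congr rfl e]
    refine this.trans (le_of_eq ?_)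
    push_cast
    ring

/-- energy of the translations -/
theorem energy_phiT (n N K : ℕ) (hn : 0 < n) (hN : 2 ≤ N) (hK : 0 < K) (v : C → ℤ × ℤ)
    (hv : ∀ c, |(v c).1| ≤ 1 ∧ |(v c).2| ≤ 1) (s : Finset (Pc Θ C w)) :
    ∑ j ∈ s, (ang n N K ((phiT w v).symm j : Pc Θ C w) - ang n N K j) ^ 2 ≤
      (π / 2) ^ 2 * ((w * 3 * Fintype.card C : ℝ) * (4 * n + 3)) * (1 / n) ^ 2 +
      9 * (π / 2) ^ 2 * (27 * Fintype.card Θ * Fintype.card C : ℝ) / K := by
  refine energy_of_unit n N K hn hN hK _ ?_ ?_ s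
  · intro i z r c
    refine ⟨i - (((v c).1 : ℤ) : ZMod w), z, r - (v c).2, c, rfl, ?_⟩
    have h := (hv c).2
    rw [Int.abs_eq_natAbs] at h
    omega
  · intro k t x r c
    refine ⟨k, t, x - (v c).1, r - (v c).2, c, rfl, ?_⟩
    have h := (hv c).2
    have h' := (hv c).1
    rw [Int.abs_eq_natAbs] at h h'
    omega

end angles

variable {Θ A Λ C : Type} (S : StripSys Θ A Λ)

theorem ang_phiC (l : Λ) (j : ℕ) (α : A → Equiv.Perm C) (n N K : ℕ) (x : Pc Θ C (S.w j)) :
    ang n N K ((S.phiC l j α).symm x) = ang n N K x := by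
  rcases x with ⟨i, z, r, c⟩ | ⟨k, t, x, r, c⟩ <;> rfl

/-- the comparison of the laws of `D(ω)` -/
theorem l1_law_Dset_le (j : ℕ) (θ : Pc Θ C (S.w j) →₀ ℝ) (g : Equiv.Perm (Om Θ C))
    (φ : Equiv.Perm (Pc Θ C (S.w j)))
    (hφ : ∀ ω ∈ (law θ).support, g '' (S.Dset j ω) = S.Dset j (ω.map φ.toEmbedding)) {δ : ℝ}
    (hδ : ∀ s : Finset (Pc Θ C (S.w j)), ∑ x ∈ s, (θ (φ.symm x) - θ x) ^ 2 ≤ δ) :
    l1 (((law θ).mapDomain (S.Dset j)).mapDomain (fun D => g '' D) -
      (law θ).mapDomain (S.Dset j)) ≤ 2 * √δ := by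
  classical
  have e1 : ((law θ).mapDomain (S.Dset j)).mapDomain (fun D => g '' D) =
      (law (θ.mapDomain φ)).mapDomain (S.Dset j) := by
    rw [← law_map, ← Finsupp.mapDomain_comp, ← Finsupp.mapDomain_comp]
    exact Finsupp.mapDomain_congr fun ω hω => hφ ω hω
  rw [e1, ← mapDomain_sub]
  refine (l1_mapDomain_le _ _).trans ?_
  have h := l1_law_sub_le (θ.mapDomain φ) θ ((θ.mapDomain φ).support ∪ θ.support)
    Finset.subset_union_left Finset.subset_union_right
  refine h.trans ?_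
  refine mul_le_mul_of_nonneg_left ?_ (by norm_num)
  refine Real.sqrt_le_sqrt ?_
  refine le_trans (le_of_eq ?_) (hδ ((θ.mapDomain φ).support ∪ θ.support))
  refine Finset.sum_congr rfl fun x _ => ?_
  rw [Finsupp.mapDomain_equiv_apply]

/-- **Almost invariant random strip subsets.** -/
theorem exists_meas [Finite Θ] [Finite C] (l : Λ) {ε : ℝ} (hε : 0 < ε) :
    ∃ P : Set (Om Θ C) →₀ ℝ, IsProb P ∧
      (∀ D ∈ P.support, S.IsDom D ∧ ∀ p : Om Θ C, p.2.1 = 0 → p ∈ D) ∧
      ∀ g : Equiv.Perm (Om Θ C),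
        ((∃ v : C → ℤ × ℤ, (∀ c, |(v c).1| ≤ 1 ∧ |(v c).2| ≤ 1) ∧ g = transl v) ∨
        (∃ α : A → Equiv.Perm C, g = recol (S.lett l) α)) →
        l1 (P.mapDomain (fun D => g '' D) - P) < ε := by
  classical
  let _ := Fintype.ofFinite Θ
  let _ := Fintype.ofFinite C
  -- constants
  set δ : ℝ := ε ^ 2 / 16 with hδ
  have hδ0 : 0 < δ := by positivity
  obtain ⟨C₀, hC₀⟩ := exists_nat_ge ((π / 2) ^ 2 * (21 * Fintype.card C) / (δ / 2) + 1)
  obtain ⟨K, hK⟩ := exists_nat_ge
    (9 * (π / 2) ^ 2 * (27 * Fintype.card Θ * Fintype.card C : ℝ) / (δ / 2) + 1)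
  have hC₀1 : (1:ℝ) ≤ C₀ := by
    refine le_trans ?_ hC₀
    have : 0 ≤ (π / 2) ^ 2 * (21 * Fintype.card C) / (δ / 2) := by positivity
    linarith
  have hK1 : (1:ℝ) ≤ K := by
    refine le_trans ?_ hK
    have : 0 ≤ 9 * (π / 2) ^ 2 * (27 * Fintype.card Θ * Fintype.card C : ℝ) / (δ / 2) := by
      positivity
    linarith
  have hC₀n : 0 < C₀ := by
    have : (0:ℝ) < C₀ := by linarith
    exact_mod_cast this
  have hKn : 0 < K := by
    have : (0:ℝ) < K := by linarith
    exact_mod_cast this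
  obtain ⟨j, hj⟩ := S.H_grow (8 ^ K * (2 * C₀))
  have hw := S.w_pos j
  have : NeZero (S.w j) := ⟨hw.ne'⟩
  set n : ℕ := C₀ * S.w j with hn
  have hn0 : 0 < n := Nat.mul_pos hC₀n hw
  set N : ℕ := 2 * n with hN
  have hN2 : 2 ≤ N := by omega
  have h8 : 8 ^ K * N ≤ S.H j := by
    refine le_trans (le_of_eq ?_) hj
    rw [hN, hn]; ring
  have hNH : N ≤ S.H j := by
    refine le_trans ?_ h8
    exact Nat.le_mul_of_pos_left _ (by positivity)
  have hwn : S.w j ≤ n := Nat.le_mul_of_pos_left _ hC₀n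
  let θ : Pc Θ C (S.w j) →₀ ℝ := Finsupp.ofSupportFinite (ang n N K) (ang_finite K hn0 (by omega))
  have hθ : ∀ x, θ x = ang n N K x := fun x => rfl
  -- the sets in the support are good
  have hgood : ∀ ω ∈ (law θ).support, S.Good j N ω := by
    intro ω hω
    have hsub := subset_of_mem_law_support hω
    refine ⟨by omega, by omega, hNH, ?_, ?_, ?_⟩
    · intro i z r c h
      have h1 : ang n N K (Sum.inl (i, z, r, c) : Pc Θ C (S.w j)) ≠ 0 := by
        have := hsub h
        rwa [Finsupp.mem_support_iff] at this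
      have h2 := lt_of_ang_inl_ne hn0 h1
      rw [Int.abs_eq_natAbs]
      exact_mod_cast h2.le
    · intro cls t dx r c h
      have h1 : ang n N K (Sum.inr (cls, t, dx, r, c) : Pc Θ C (S.w j)) ≠ 0 := by
        have := hsub h
        rwa [Finsupp.mem_support_iff] at this
      have h2 := lt_of_ang_inr_ne (by omega) h1
      have h3 := S.H_le j
      rw [Int.abs_eq_natAbs, Int.abs_eq_natAbs]
      constructor
      · exact_mod_cast lt_of_lt_of_le h2.1 (h8.trans h3)
      · exact_mod_cast (lt_of_lt_of_le h2.2 h8).le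
    · intro cls t dx r c hdx hr
      refine mem_of_mem_law_support hω ?_
      rw [hθ]
      rw [Int.abs_eq_natAbs] at hdx hr
      exact ang_inr_eq hKn cls t c (by exact_mod_cast hdx) (by exact_mod_cast hr)
  have hzero : ∀ ω ∈ (law θ).support, ∀ (i : ZMod (S.w j)) (z : Fin 3) (c : C),
      Sum.inl (i, z, (0 : ℤ), c) ∈ ω := by
    intro ω hω i z c
    refine mem_of_mem_law_support hω ?_
    rw [hθ]
    exact ang_inl_eq (by simp) i z c
  refine ⟨(law θ).mapDomain (S.Dset j), (isProb_law θ).map _, ?_, ?_⟩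
  · intro D hD
    have := Finsupp.mapDomain_support hD
    rw [Finset.mem_image] at this
    obtain ⟨ω, hω, rfl⟩ := this
    exact ⟨S.isDom_Dset j ω, fun p hp => S.zero_mem_Dset (hzero ω hω) p hp⟩
  · -- almost invariance
    have hper : (π / 2) ^ 2 * ((S.w j * 3 * Fintype.card C : ℝ) * (4 * n + 3)) * (1 / n) ^ 2 ≤
        δ / 2 := by
      have hnr : (1:ℝ) ≤ n := by exact_mod_cast hn0
      have hwr : (0:ℝ) < S.w j := by exact_mod_cast hw
      have hnw : (n:ℝ) = C₀ * S.w j := by rw [hn]; push_cast; ring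
      calc (π / 2) ^ 2 * ((S.w j * 3 * Fintype.card C : ℝ) * (4 * n + 3)) * (1 / n) ^ 2
          ≤ (π / 2) ^ 2 * ((S.w j * 3 * Fintype.card C : ℝ) * (7 * n)) * (1 / n) ^ 2 := by
            gcongr
            linarith
        _ = (π / 2) ^ 2 * (21 * Fintype.card C) * (S.w j / n) := by
            field_simp
            ring
        _ = (π / 2) ^ 2 * (21 * Fintype.card C) / C₀ := by
            rw [hnw]
            field_simp
        _ ≤ δ / 2 := by
            rw [div_le_iff₀ (by linarith)]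
            have h1 : (π / 2) ^ 2 * (21 * Fintype.card C) / (δ / 2) ≤ C₀ := by linarith
            rw [div_le_iff₀ (by positivity)] at h1
            linarith
    have hloc : 9 * (π / 2) ^ 2 * (27 * Fintype.card Θ * Fintype.card C : ℝ) / K ≤ δ / 2 := by
      rw [div_le_iff₀ (by linarith)]
      have h1 : 9 * (π / 2) ^ 2 * (27 * Fintype.card Θ * Fintype.card C : ℝ) / (δ / 2) ≤ K := by
        linarith
      rw [div_le_iff₀ (by positivity)] at h1
      linarith
    have hfin : 2 * √δ < ε := by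
      have : √δ = ε / 4 := by
        rw [hδ, show ε ^ 2 / 16 = (ε / 4) ^ 2 by ring]
        exact Real.sqrt_sq (by positivity)
      rw [this]
      linarith
    intro g hg
    refine lt_of_le_of_lt ?_ hfin
    rcases hg with ⟨v, hv, rfl⟩ | ⟨α, rfl⟩
    · refine S.l1_law_Dset_le j θ _ (phiT (S.w j) v)
        (fun ω hω => S.image_transl_Dset (hgood ω hω) v hv) (fun s => ?_)
      simp only [hθ]
      refine (energy_phiT n N K hn0 hN2 hKn v hv s).trans ?_
      linarith
    · refine S.l1_law_Dset_le j θ _ (S.phiC l j α)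
        (fun ω hω => S.image_recol_Dset (hgood ω hω) l α) (fun s => ?_)
      simp only [hθ, ang_phiC, sub_self]
      simp
      positivity

end StripSys

end Crest.Agent.R189.Strip
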