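import Mathlib
import Crest.Agent.R189.StripK
import Crest.Agent.R189.StripP

/-!
# Row 189: STEP A / STEP B, the strip theorem (helper84)
-/

set_option autoImplicit false

namespace Crest.Agent.R189.Strip

open Equiv

/-- almost invariance under generators gives almost invariance under words -/
lemma word_bound {G S : Type*} [Group G] (a : G → S → S) (h1 : a 1 = id)
    (hmul : ∀ g h, a (g * h) = a g ∘ a h) {Gen : Set G} {g : G} (hg : g ∈ Subgroup.closure Gen) :
    ∃ n : ℕ, ∀ (p : S →₀ ℝ) (ε : ℝ), 0 ≤ ε → (∀ s ∈ Gen, l1 (p.mapDomain (a s) - p) ≤ ε) →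
      l1 (p.mapDomain (a g) - p) ≤ n * ε := by
  induction hg using Subgroup.closure_induction with
  | mem x hx => exact ⟨1, fun p ε _ h => by simpa using h x hx⟩
  | one =>
    refine ⟨0, fun p ε _ _ => ?_⟩
    rw [h1, Finsupp.mapDomain_id, sub_self]
    simp
  | mul x y _ _ ihx ihy =>
    obtain ⟨n, hn⟩ := ihx
    obtain ⟨m, hm⟩ := ihy
    refine ⟨n + m, fun p ε hε h => ?_⟩
    have e : p.mapDomain (a (x * y)) = (p.mapDomain (a y)).mapDomain (a x) := by
      rw [hmul, Finsupp.mapDomain_comp]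
    have h2 := l1_sub_le (p.mapDomain (a (x * y))) (p.mapDomain (a x)) p
    have h3 : l1 (p.mapDomain (a (x * y)) - p.mapDomain (a x)) ≤ m * ε := by
      rw [e, ← mapDomain_sub]
      exact (l1_mapDomain_le _ _).trans (hm p ε hε h)
    have h4 := hn p ε hε h
    push_cast
    linarith
  | inv x _ ih =>
    obtain ⟨n, hn⟩ := ih
    refine ⟨n, fun p ε hε h => ?_⟩
    have e : p.mapDomain (a x⁻¹) - p = (p - p.mapDomain (a x)).mapDomain (a x⁻¹) := by
      rw [mapDomain_sub, ← Finsupp.mapDomain_comp, ← hmul, inv_mul_cancel, h1,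
        Finsupp.mapDomain_id]
    rw [e]
    refine (l1_mapDomain_le _ _).trans ?_
    rw [l1_sub_comm]
    exact hn p ε hε h

section act

variable {Ω : Type} {G : Type} [Group G] (ρ ρ' : G →* Perm Ω)

/-- twisted action on pairs (domain, set of permutations) -/
def pact (g : G) (x : Set Ω × Set (Perm Ω)) : Set Ω × Set (Perm Ω) :=
  (ρ g '' x.1, (fun k => ρ' g * k * (ρ g)⁻¹) '' x.2)

lemma pact_one : pact ρ ρ' 1 = id := by
  funext x
  simp [pact]

lemma pact_mul (g h : G) : pact ρ ρ' (g * h) = pact ρ ρ' g ∘ pact ρ ρ' h := by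
  funext x
  simp only [pact, Function.comp, Set.image_image, map_mul, mul_inv_rev, Perm.coe_mul]
  refine Prod.ext rfl ?_
  simp only [mul_assoc]

/-- the twisted action as a `MulAction` -/
@[reducible] def pactAction : MulAction G (Set Ω × Set (Perm Ω)) where
  smul := pact ρ ρ'
  one_smul x := congrFun (pact_one ρ ρ') x
  mul_smul g h x := congrFun (pact_mul ρ ρ' g h) x

end act

namespace StripSys

variable {Θ A Λ C : Type} (S : StripSys Θ A Λ)

lemma KD_ext {D : Set (Om Θ C)} {k k' : Perm (Om Θ C)} (hk : k ∈ S.KD D) (hk' : k' ∈ S.KD D)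
    (h : ∀ p ∈ D, k p = k' p) : k = k' := by
  ext1 p
  by_cases hp : p ∈ D
  · exact h p hp
  · rw [((S.mem_KD).1 hk).2 p hp, ((S.mem_KD).1 hk').2 p hp]

lemma KD_maps {D : Set (Om Θ C)} {k : Perm (Om Θ C)} (hk : k ∈ S.KD D) {p : Om Θ C} :
    k p ∈ D ↔ p ∈ D := by
  constructor
  · intro h
    by_contra hp
    have := ((S.mem_KD).1 hk).2 p hp
    rw [this] at h
    exact hp h
  · intro hp
    by_contra h
    have h1 := ((S.mem_KD).1 hk).2 _ h
    have h2 := k.injective h1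
    rw [h2] at h
    exact h hp

lemma image_of_KD {D : Set (Om Θ C)} {k : Perm (Om Θ C)} (hk : k ∈ S.KD D) : k '' D = D := by
  ext p
  rw [Equiv.image_eq_preimage_symm, Set.mem_preimage]
  have := S.KD_maps hk (p := k.symm p)
  rw [← this, Equiv.apply_symm_apply]

/-- stabilisers are amenable -/
lemma amen_stab [Finite Θ] [Finite C] {K : Type} [Group K] (ρ ρ' : K →* Perm (Om Θ C))
    (hρ : ∀ g, ρ g ∈ S.Loc C) (hρ' : ∀ g, ρ' g ∈ S.Loc C) {D : Set (Om Θ C)} (hD : S.IsDom D)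
    (hK : Amen (ρ.eqLocus ρ')) (L : Subgroup K)
    (hL : ∀ g ∈ L, ρ g '' D = D ∧ ρ' g * (ρ g)⁻¹ ∈ S.KD D) : Amen L := by
  have hL' : ∀ g ∈ L, ρ' g '' D = D := by
    intro g hg
    obtain ⟨h1, h2⟩ := hL g hg
    have h3 := S.image_of_KD h2
    have e : (ρ' g : Perm (Om Θ C)) = (ρ' g * (ρ g)⁻¹) * ρ g := by group
    rw [e, Perm.coe_mul, Set.image_comp, h1, h3]
  choose f hf1 hf2 using fun g : L => S.exists_restr (hρ g) hD (hL g g.2).1
  choose f' hf1' hf2' using fun g : L => S.exists_restr (hρ' g) hD (hL' g g.2)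
  have hmem : ∀ (g : L) (p : Om Θ C), p ∈ D → ρ g p ∈ D := by
    intro g p hp
    have := (hL g g.2).1
    rw [← this]
    exact ⟨p, hp, rfl⟩
  have hmem' : ∀ (g : L) (p : Om Θ C), p ∈ D → ρ' g p ∈ D := by
    intro g p hp
    have := hL' g g.2
    rw [← this]
    exact ⟨p, hp, rfl⟩
  let φ : L →* (S.KD D) × (S.KD D) :=
    { toFun := fun g => (⟨f g, hf1 g⟩, ⟨f' g, hf1' g⟩)
      map_one' := by
        refine Prod.ext (Subtype.ext ?_) (Subtype.ext ?_)
        · refine S.KD_ext (hf1 1) (one_mem _) (fun p hp => ?_)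
          rw [hf2 1 p hp]; simp
        · refine S.KD_ext (hf1' 1) (one_mem _) (fun p hp => ?_)
          rw [hf2' 1 p hp]; simp
      map_mul' := by
        intro g h
        refine Prod.ext (Subtype.ext ?_) (Subtype.ext ?_)
        · refine S.KD_ext (hf1 _) (mul_mem (hf1 g) (hf1 h)) (fun p hp => ?_)
          show f (g * h) p = f g (f h p)
          rw [hf2 _ p hp, hf2 h p hp, hf2 g _ (hmem h p hp)]
          simp
        · refine S.KD_ext (hf1' _) (mul_mem (hf1' g) (hf1' h)) (fun p hp => ?_)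
          show f' (g * h) p = f' g (f' h p)
          rw [hf2' _ p hp, hf2' h p hp, hf2' g _ (hmem' h p hp)]
          simp }
  refine amen_of_ker φ (Amen.prod (S.KD_amen hD) (S.KD_amen hD)) ?_
  have hker : ∀ g : L, φ g = 1 → (g : K) ∈ ρ.eqLocus ρ' := by
    intro g hg
    show ρ g = ρ' g
    have h1 : f g = 1 := congrArg (fun x => (x.1 : Perm (Om Θ C))) hg
    have h2 : f' g = 1 := congrArg (fun x => (x.2 : Perm (Om Θ C))) hg
    ext1 p
    by_cases hp : p ∈ D
    · rw [← hf2 g p hp, ← hf2' g p hp, h1, h2]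
    · have h3 : ρ g p ∉ D := by
        intro h
        rw [← (hL g g.2).1] at h
        obtain ⟨q, hq, hqp⟩ := h
        exact hp ((ρ g).injective hqp ▸ hq)
      have h4 := ((S.mem_KD).1 (hL g g.2).2).2 _ h3
      rw [Perm.mul_apply] at h4
      simpa using h4.symm
  refine Amen.of_inj hK ⟨⟨fun g => ⟨(g : L), hker g (MonoidHom.mem_ker.1 g.2)⟩, rfl⟩,
    fun _ _ => rfl⟩ ?_
  intro a b hab
  have := congrArg (fun x : ρ.eqLocus ρ' => (x : K)) hab
  exact Subtype.ext (Subtype.ext this)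

/-- almost invariant probabilities on pairs -/
lemma exists_approx [Finite Θ] [Finite C] {G : Type} [Group G]
    (ρ : Λ → G →* Perm (Om Θ C)) {Gen : Set G} (hGen : Subgroup.closure Gen = ⊤)
    (hg : ∀ g ∈ Gen, IsGen S ρ g) (l l' : Λ) (F : Finset G) {ε : ℝ} (hε : 0 < ε) :
    ∃ p : (Set (Om Θ C) × Set (Perm (Om Θ C))) →₀ ℝ, IsProb p ∧
      (∀ s ∈ p.support, ∃ D, S.IsDom D ∧ s = (D, (S.KD D : Set (Perm (Om Θ C))))) ∧
      ∀ g ∈ F, l1 (p.mapDomain (pact (ρ l) (ρ l') g) - p) < ε := by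
  classical
  have hword : ∀ g : G, ∃ n : ℕ, ∀ (p : (Set (Om Θ C) × Set (Perm (Om Θ C))) →₀ ℝ) (ε : ℝ), 0 ≤ ε →
      (∀ s ∈ Gen, l1 (p.mapDomain (pact (ρ l) (ρ l') s) - p) ≤ ε) →
      l1 (p.mapDomain (pact (ρ l) (ρ l') g) - p) ≤ n * ε := by
    intro g
    exact word_bound (pact (ρ l) (ρ l')) (pact_one _ _) (pact_mul _ _)
      (by rw [hGen]; exact Subgroup.mem_top g)
  choose n hn using hword
  let N : ℕ := ∑ g ∈ F, n g
  have hNle : ∀ g ∈ F, n g ≤ N := fun g hgF =>
    Finset.single_le_sum (f := n) (fun _ _ => Nat.zero_le _) hgF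
  let δ : ℝ := ε / (N + 1)
  have hN1 : (0 : ℝ) < (N : ℝ) + 1 := by positivity
  have hδ : 0 < δ := div_pos hε hN1
  obtain ⟨P, hP, hPs, hPg⟩ := S.exists_meas (C := C) l hδ
  refine ⟨P.mapDomain (fun D => (D, (S.KD D : Set (Perm (Om Θ C))))), hP.map _, ?_, ?_⟩
  · intro s hs
    have := Finsupp.mapDomain_support hs
    rw [Finset.mem_image] at this
    obtain ⟨D, hD, rfl⟩ := this
    exact ⟨D, (hPs D hD).1, rfl⟩
  · intro g hgF
    have hgen : ∀ s ∈ Gen, l1 ((P.mapDomain (fun D => (D, (S.KD D : Set (Perm (Om Θ C)))))).mapDomain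
        (pact (ρ l) (ρ l') s) - P.mapDomain (fun D => (D, (S.KD D : Set (Perm (Om Θ C)))))) ≤ δ := by
      intro s hs
      have hgs := hg s hs
      have e1 : (P.mapDomain (fun D => (D, (S.KD D : Set (Perm (Om Θ C)))))).mapDomain
          (pact (ρ l) (ρ l') s) = (P.mapDomain (fun D => ρ l s '' D)).mapDomain
            (fun D => (D, (S.KD D : Set (Perm (Om Θ C))))) := by
        rw [← Finsupp.mapDomain_comp, ← Finsupp.mapDomain_comp]
        refine Finsupp.mapDomain_congr (fun D hD => ?_)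
        obtain ⟨hD1, hD0⟩ := hPs D hD
        simp only [Function.comp, pact]
        refine Prod.ext rfl ?_
        have hk := S.kappa_mem_KD ρ hgs l l' hD1 hD0
        have hl : ρ l s ∈ S.Loc C := S.rho_mem_Loc ρ hGen hg l s
        ext x
        simp only [Set.mem_image, SetLike.mem_coe]
        constructor
        · rintro ⟨k, hk2, rfl⟩
          have h3 := (S.KD_conj hl D k).2 hk2
          have e : ρ l' s * k * (ρ l s)⁻¹ = (ρ l' s * (ρ l s)⁻¹) * (ρ l s * k * (ρ l s)⁻¹) := by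
            group
          rw [e]
          exact mul_mem hk h3
        · intro hx
          refine ⟨(ρ l' s)⁻¹ * x * ρ l s, ?_, by group⟩
          rw [← S.KD_conj hl]
          have e : ρ l s * ((ρ l' s)⁻¹ * x * ρ l s) * (ρ l s)⁻¹ = (ρ l' s * (ρ l s)⁻¹)⁻¹ * x := by
            group
          rw [e]
          exact mul_mem (inv_mem hk) hx
      rw [e1, ← mapDomain_sub]
      refine (l1_mapDomain_le _ _).trans (le_of_lt ?_)
      apply hPg
      rcases hgs with ⟨v, hv, h⟩ | ⟨α, h⟩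
      · exact Or.inl ⟨v, hv, h l⟩
      · exact Or.inr ⟨α, h l⟩
    have h5 := hn g _ δ hδ.le hgen
    refine lt_of_le_of_lt h5 ?_
    have h6 : (n g : ℝ) ≤ N := by exact_mod_cast hNle g hgF
    have h7 : (n g : ℝ) * δ ≤ N * δ := mul_le_mul_of_nonneg_right h6 hδ.le
    have h8 : (N : ℝ) * δ + δ = ε := by
      simp only [δ]
      field_simp
    linarith

/-- two labels -/
theorem strip_amen_pair [Finite Θ] [Finite C] {G : Type} [Group G]
    (ρ : Λ → G →* Perm (Om Θ C)) {Gen : Set G} (hGen : Subgroup.closure Gen = ⊤)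
    (hg : ∀ g ∈ Gen, IsGen S ρ g) (l l' : Λ) (K : Subgroup G)
    (hK : Amen (K ⊓ (ρ l).eqLocus (ρ l') : Subgroup G)) : Amen K := by
  classical
  let σ : K →* Perm (Om Θ C) := (ρ l).comp K.subtype
  let σ' : K →* Perm (Om Θ C) := (ρ l').comp K.subtype
  let _ : MulAction K (Set (Om Θ C) × Set (Perm (Om Θ C))) := pactAction σ σ'
  refine amen_of_stab (G := K) {s : Set (Om Θ C) × Set (Perm (Om Θ C)) |
    ∃ D, S.IsDom D ∧ s = (D, (S.KD D : Set (Perm (Om Θ C))))} ?_ ?_
  · intro F ε hε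
    obtain ⟨p, hp, hps, hpg⟩ := S.exists_approx ρ hGen hg l l' (F.image (fun g : K => (g : G))) hε
    exact ⟨p, hp, hps, fun g hgF => hpg g (Finset.mem_image_of_mem _ hgF)⟩
  · rintro s ⟨D, hD, rfl⟩
    refine S.amen_stab σ σ' (fun g => S.rho_mem_Loc ρ hGen hg l g)
      (fun g => S.rho_mem_Loc ρ hGen hg l' g) hD ?_ _ ?_
    · refine Amen.of_inj hK ⟨⟨fun g => ⟨((g : K) : G), ⟨(g : K).2, g.2⟩⟩, rfl⟩,
        fun _ _ => rfl⟩ ?_
      intro a b hab
      have := congrArg (fun x : (K ⊓ (ρ l).eqLocus (ρ l') : Subgroup G) => (x : G)) hab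
      exact Subtype.ext (Subtype.ext this)
    · intro g hgs
      rw [MulAction.mem_stabilizer_iff] at hgs
      have hgs' : (σ g '' D, (fun k => σ' g * k * (σ g)⁻¹) '' (S.KD D : Set (Perm (Om Θ C))))
        = (D, (S.KD D : Set (Perm (Om Θ C)))) := hgs
      refine ⟨congrArg Prod.fst hgs', ?_⟩
      have h2 := congrArg Prod.snd hgs'
      simp only at h2
      have h3 : σ' g * 1 * (σ g)⁻¹ ∈ (S.KD D : Set (Perm (Om Θ C))) := by
        rw [← h2]
        exact ⟨1, one_mem _, rfl⟩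
      simpa using h3

/-- iterate over a finite family of subgroups. -/
lemma amen_iter {G : Type} [Group G] {ι : Type} (T : Finset ι) (E : ι → Subgroup G)
    (h : ∀ i ∈ T, ∀ H : Subgroup G, Amen (H ⊓ E i : Subgroup G) → Amen H) (H : Subgroup G)
    (hA : Amen (H ⊓ T.inf E : Subgroup G)) : Amen H := by
  classical
  induction T using Finset.induction_on generalizing H with
  | empty => rwa [Finset.inf_empty, inf_top_eq] at hA
  | insert a s ha ih =>
    rw [Finset.inf_insert, ← inf_assoc] at hA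
    have h1 : Amen (H ⊓ E a : Subgroup G) :=
      ih (fun i hi => h i (Finset.mem_insert_of_mem hi)) (H ⊓ E a) hA
    exact h a (Finset.mem_insert_self a s) H h1

/-- STEP A and STEP B -/
theorem strip_amen' [Finite Θ] [Finite C] [Finite Λ] {G : Type} [Group G]
    (ρ : Λ → G →* Perm (Om Θ C)) {Gen : Set G} (hGen : Subgroup.closure Gen = ⊤)
    (hg : ∀ g ∈ Gen, IsGen S ρ g) (K : Subgroup G) (hK : Amen (K ⊓ blind ρ : Subgroup G)) :
    Amen K := by
  classical
  have := Fintype.ofFinite Λ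
  refine amen_iter (Finset.univ : Finset (Λ × Λ)) (fun x => (ρ x.1).eqLocus (ρ x.2))
    (fun x _ H hH => S.strip_amen_pair ρ hGen hg x.1 x.2 H hH) K ?_
  have e : (Finset.univ : Finset (Λ × Λ)).inf (fun x => (ρ x.1).eqLocus (ρ x.2)) = blind ρ := by
    ext g
    simp only [Finset.inf_univ_eq_iInf, Subgroup.mem_iInf]
    exact ⟨fun h l l' => h (l, l'), fun h x => h x.1 x.2⟩
  rw [e]
  exact hK

end StripSys

end Crest.Agent.R189.Strip
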