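import Crest.Agent.R189.SysCoarse
import Crest.Agent.R189.StripDefs

/-!
Row 189 (S0289), helper435.  The explicit configurations near an infinite line which is crossed by
R-type / blank lines only: periodicity in strips, and the two instances (rows, columns) of helper84's
`Strip.StripSys`.
-/

set_option autoImplicit false

namespace Crest.Agent.R189

/-! ### the labels of lines crossing an infinite line in their R-zone -/

/-- label of a line of type `t` just before an R-type (or blank) crossing in which it is dominated -/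
def lowL (t : Tau) : Label := ⟨t, t.cls.map fun c => (Rtrans c).1, .B⟩

/-- label of a line of type `t` just after an R-type (or blank) crossing in which it is dominated -/
def upL (t : Tau) : Label := ⟨t, t.cls.map fun c => (Rtrans c).2, .A⟩

set_option maxRecDepth 100000 in
theorem Sys.core_hStar : ∀ (t : Tau) (u : Mem), validU t u = true → ∀ ts : Tau,
    (⟨t, u, u, ts, (lowL ts).st, (upL ts).st⟩ : Core) ∈ coreList := by
  decide

theorem Sys.rule_hStar (L : Label) (hL : L.Valid = true) (t : Tau) : Rule L L (lowL t) (upL t) := by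
  have h := hL
  simp only [Label.Valid, Bool.and_eq_true] at h
  refine ⟨rfl, rfl, ⟨h.1, ?_⟩, rfl, rfl, rfl, Sys.core_hStar L.tau L.u h.2 t⟩
  rintro (⟨-, -, h1, h2⟩ | ⟨-, -, h1, h2⟩)
  · have h1 : t = .t01 := h1
    subst h1
    exact absurd h2 (by decide)
  · have h1 : t = .t12 := h1
    subst h1
    exact absurd h2 (by decide)

/-- valid labels -/
abbrev VLab := {L : Label // L.Valid = true}

/-- the star of an infinite Q line with label `L` crossed by a line of type `t` -/
def hStar (L : VLab) (t : Tau) : Star :=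
  ⟨⟨false, lowL t, upL t, L.1, L.1⟩, by
    simpa [RStar.OK] using Sys.rule_hStar L.1 L.2 t⟩

/-- the star of an infinite P line with label `L` crossed by a line of type `t` -/
def vStar (L : VLab) (t : Tau) : Star := (hStar L t).flip

@[simp] theorem hStar_domP (L : VLab) (t : Tau) : (hStar L t).domP = false := rfl
@[simp] theorem hStar_Pb (L : VLab) (t : Tau) : (hStar L t).Pb = lowL t := rfl
@[simp] theorem hStar_Pf (L : VLab) (t : Tau) : (hStar L t).Pf = upL t := rfl
@[simp] theorem hStar_Qb (L : VLab) (t : Tau) : (hStar L t).Qb = L.1 := rfl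
@[simp] theorem hStar_Qf (L : VLab) (t : Tau) : (hStar L t).Qf = L.1 := rfl
@[simp] theorem vStar_flip (L : VLab) (t : Tau) : (vStar L t).flip = hStar L t := Star.flip_flip _
@[simp] theorem vStar_domP (L : VLab) (t : Tau) : (vStar L t).domP = true := rfl
@[simp] theorem vStar_Pb (L : VLab) (t : Tau) : (vStar L t).Pb = L.1 := rfl
@[simp] theorem vStar_Pf (L : VLab) (t : Tau) : (vStar L t).Pf = L.1 := rfl
@[simp] theorem vStar_Qb (L : VLab) (t : Tau) : (vStar L t).Qb = lowL t := rfl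
@[simp] theorem vStar_Qf (L : VLab) (t : Tau) : (vStar L t).Qf = upL t := rfl

/-- some valid label -/
def l0 : VLab := ⟨⟨.f0, none, .A⟩, by decide⟩

/-! ### types of the P lines -/

/-- type of the P line `x` at level `a`, when the P line `0` has type `t` -/
def ptau (a : ℕ) (t : Tau) (x : ℤ) : Tau := (V a (hStar l0 t) x 0).tau

theorem ptau_zero (a : ℕ) (t : Tau) : ptau a t 0 = t := by
  rw [ptau, V_zero]; rfl

theorem ptau_mul {a : ℕ} (ha : 1 ≤ a) (t : Tau) (x : ℤ) :
    ptau a t (((3 * (a + 1) : ℕ) : ℤ) * x) = ptau (a + 2) t x := by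
  rw [ptau, V_mul ha, Int.zero_ediv, ptau]

theorem ptau_of_ne {a : ℕ} (t : Tau) {x : ℤ} (h : dg (3 * (a + 1)) x ≠ 0) :
    ptau a t x = tauOf (a + 1) (dg (3 * (a + 1)) x) := by
  rw [ptau, V_of_ne _ _ h]

theorem ptau_coarse {a : ℕ} (ha : 1 ≤ a) (t : Tau) (j : ℕ) (x : ℤ) :
    ptau a t (((PW (a + 1) j : ℕ) : ℤ) * x) = ptau (a + 2 * j) t x := by
  rw [ptau, V_coarse ha, Int.zero_ediv, ptau]

/-! ### Lemma C: labels of the P lines near the row `0` -/

theorem Sys.state_first {b d : ℕ} (hb : 2 ≤ b) (hd : 0 < d) (_hd' : d < 3 * b) :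
    state b d 0 = (upL (tauOf b d)).st := by
  unfold state tauOf upL
  have h1 : sv (b + 1) 0 = .f := by simp [sv]
  have h2 : pos b 0 = b := by simp [pos]
  rw [h1, h2]
  unfold sgn
  split_ifs <;> first | rfl | (exfalso; omega)

theorem Sys.state_last {b d : ℕ} (hb : 2 ≤ b) (hd : 0 < d) (hd' : d < 3 * b) :
    state b d (3 * (b + 1) - 1) = (lowL (tauOf b d)).st := by
  unfold state tauOf lowL
  have h1 : sv (b + 1) (3 * (b + 1) - 1) = .l := by
    unfold sv; rw [if_neg (by omega), if_pos rfl]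
  have h2 : pos b (3 * (b + 1) - 1) = 2 * b := by
    unfold pos
    have : 3 * (b + 1) - 1 = b + 2 * (b + 1) := by omega
    rw [this, Nat.add_mul_mod_self_right, Nat.mod_eq_of_lt (by omega)]
    omega
  rw [h1, h2]
  unfold sgn
  split_ifs <;> first | rfl | (exfalso; omega)

/-- blank lines have no state -/
theorem Sys.state_blank {b d : ℕ} (j : ℕ) (h : d < b ∨ 2 * b < d) : state b d j = none := by
  unfold state
  rw [if_neg (by omega)]

theorem Sys.umem_low {a y d : ℕ} (ha : 1 ≤ a) (hy : y < a) : umem a y d = .A := by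
  unfold umem pos
  split_ifs <;> first | rfl | omega

theorem Sys.umem_high {a y d : ℕ} (hd : 0 < d) (hy : 2 * a ≤ y) : umem a y d = .B := by
  unfold umem pos
  by_cases h : d % (a + 1) = 0
  · rw [if_pos h, if_neg (by omega)]
  · rw [if_neg h]
    have h1 : (d - 1) % (a + 1) < a := by
      have h2 : (d - 1 + 1) % (a + 1) ≠ 0 := by rwa [Nat.sub_add_cancel hd]
      have h3 := Nat.mod_lt (d - 1) (show 0 < a + 1 by omega)
      by_contra h4
      have h5 : (d - 1) % (a + 1) = a := by omega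
      apply h2
      rw [Nat.add_mod, h5]
      rcases Nat.eq_zero_or_pos a with h6 | h6
      · subst h6; simp
      · rw [Nat.mod_eq_of_lt (show 1 < a + 1 by omega), Nat.mod_self]
    rw [if_neg (by omega), if_neg (by omega)]

/-- digits of small negative numbers -/
theorem Sys.dg_neg {n : ℕ} {y : ℤ} (h1 : -(n : ℤ) ≤ y) (h2 : y < 0) :
    ((dg n y : ℕ) : ℤ) = y + n := by
  have hn : 0 < n := by omega
  rw [dg_cast hn, ← Int.add_emod_right, Int.emod_eq_of_lt (by omega) (by omega)]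

theorem Sys.dg_nonneg {n : ℕ} {y : ℤ} (h1 : 0 ≤ y) (h2 : y < n) : ((dg n y : ℕ) : ℤ) = y := by
  have hn : 0 < n := by omega
  rw [dg_cast hn, Int.emod_eq_of_lt (by omega) (by omega)]

theorem Sys.ediv_neg_one {n y : ℤ} (h1 : -n ≤ y) (h2 : y < 0) : y / n = -1 := by
  rw [Int.ediv_eq_iff_of_pos (by omega)]
  constructor <;> omega

/-- Lemma C, single scale -/
theorem V_near {a : ℕ} (ha : 1 ≤ a) {s : Star} {t : Tau} (hf : s.Pf = upL t) (hb : s.Pb = lowL t)
    (x y : ℤ) (h1 : -(a : ℤ) ≤ y) (h2 : y < a) :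
    V a s x y = if 0 ≤ y then upL (ptau a t x) else lowL (ptau a t x) := by
  by_cases hx : x = 0
  · subst hx
    rw [V_zero, ptau_zero, hf, hb]
  obtain ⟨j, hj⟩ := exists_not_dvd (a := a + 1) (by omega) hx
  induction j generalizing a x y with
  | zero => simp at hj
  | succ j ih =>
    by_cases h0 : dg (3 * (a + 1)) x = 0
    · obtain ⟨x, rfl⟩ := (dg_eq_zero (by omega)).1 h0
      rw [PW_succ, mul_dvd_mul_cast_iff (by omega)] at hj
      have hx' : x ≠ 0 := by rintro rfl; simp at hx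
      rw [V_mul ha, ptau_mul ha]
      rcases lt_or_ge y 0 with hy | hy
      · have e : y / ((3 * a : ℕ) : ℤ) = -1 := Sys.ediv_neg_one (by push_cast; omega) hy
        rw [e, if_neg (by omega), ih (a := a + 2) (by omega) x (-1) (by push_cast; omega)
          (by push_cast; omega) hx' hj, if_neg (by omega)]
      · have e : y / ((3 * a : ℕ) : ℤ) = 0 := Int.ediv_eq_zero_of_lt hy (by push_cast; omega)
        rw [e, if_pos hy, ih (a := a + 2) (by omega) x 0 (by push_cast; omega)
          (by push_cast; omega) hx' hj, if_pos (by omega)]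
    · have hlt := dg_lt (n := 3 * (a + 1)) (by omega) x
      rw [V_of_ne _ _ h0, ptau_of_ne _ h0]
      rcases lt_or_ge y 0 with hy | hy
      · have e : y / ((3 * a : ℕ) : ℤ) = -1 := Sys.ediv_neg_one (by push_cast; omega) hy
        have e2 := Sys.dg_neg (n := 3 * a) (y := y) (by push_cast; omega) hy
        have e3 := Sys.dg_neg (n := 3 * (a + 2)) (y := -1) (by push_cast; omega) (by omega)
        have e4 : dg (3 * (a + 2)) (-1) = 3 * (a + 1 + 1) - 1 := by push_cast at e3; omega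
        rw [e, e4, if_neg (by omega), Sys.state_last (by omega) (by omega) hlt,
          Sys.umem_high (by omega) (by push_cast at e2; omega)]
        rfl
      · have e : y / ((3 * a : ℕ) : ℤ) = 0 := Int.ediv_eq_zero_of_lt hy (by push_cast; omega)
        have e2 := Sys.dg_nonneg (n := 3 * a) (y := y) hy (by push_cast; omega)
        have e4 : dg (3 * (a + 2)) 0 = 0 := by simp [dg]
        rw [e, e4, if_pos hy, Sys.state_first (by omega) (by omega) hlt,
          Sys.umem_low ha (by omega)]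
        rfl

/-- Lemma C -/
theorem V_near_coarse {a : ℕ} (ha : 1 ≤ a) {s : Star} {t : Tau} (hf : s.Pf = upL t)
    (hb : s.Pb = lowL t) {j : ℕ} {x y : ℤ} (hx : ((PW (a + 1) j : ℕ) : ℤ) ∣ x)
    (h1 : -((PW a j * (a + 2 * j) : ℕ) : ℤ) ≤ y) (h2 : y < ((PW a j * (a + 2 * j) : ℕ) : ℤ)) :
    V a s x y = if 0 ≤ y then upL (ptau a t x) else lowL (ptau a t x) := by
  obtain ⟨x, rfl⟩ := hx
  have hp := PW_cast_pos ha j
  push_cast at h1 h2
  rw [V_coarse ha, ptau_coarse ha, V_near (by omega) hf hb]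
  · have : 0 ≤ y / ((PW a j : ℕ) : ℤ) ↔ 0 ≤ y := by
      constructor
      · intro h
        by_contra h'
        exact absurd h (not_le.2 (Int.ediv_neg_of_neg_of_pos (not_le.1 h') hp))
      · intro h; exact Int.ediv_nonneg h hp.le
    simp only [this]
  · rw [Int.le_ediv_iff_mul_le hp]; push_cast; linarith
  · rw [Int.ediv_lt_iff_lt_mul hp]; push_cast; linarith

/-! ### Lemma D: lines of top order inside a strip are blank -/

/-- Lemma D', single scale: a blank line -/
theorem V_blank {a : ℕ} (s s' : Star) {x y y' : ℤ} (hx : dg (3 * (a + 1)) x ≠ 0)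
    (hb : dg (3 * (a + 1)) x < a + 1 ∨ 2 * (a + 1) < dg (3 * (a + 1)) x)
    (hyy : y ≡ y' [ZMOD ((3 * a : ℕ) : ℤ)]) : V a s x y = V a s' x y' := by
  rw [V_of_ne _ _ hx, V_of_ne _ _ hx, Sys.state_blank _ hb, Sys.state_blank _ hb,
    dg_congr_mod (dvd_refl _) hyy]

theorem Sys.dg_small {n : ℕ} (hn : 1 ≤ n) {x : ℤ} (h0 : x ≠ 0) (h : |x| < n) :
    dg (3 * n) x ≠ 0 ∧ (dg (3 * n) x < n ∨ 2 * n < dg (3 * n) x) := by
  rw [abs_lt] at h
  rcases lt_or_ge x 0 with hx | hx
  · have := Sys.dg_neg (n := 3 * n) (y := x) (by push_cast; omega) hx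
    push_cast at this
    omega
  · have := Sys.dg_nonneg (n := 3 * n) (y := x) hx (by push_cast; omega)
    omega

/-- Lemma D': a column at distance `< PW (a+1) j (a+1+2j)` from the column `0` is
`PW a (j+1)`-periodic -/
theorem V_strip {a : ℕ} (ha : 1 ≤ a) (s s' : Star) {j : ℕ} {x y y' : ℤ} (hx : x ≠ 0)
    (hlt : |x| < ((PW (a + 1) j * (a + 1 + 2 * j) : ℕ) : ℤ))
    (hyy : y ≡ y' [ZMOD ((PW a (j + 1) : ℕ) : ℤ)]) : V a s x y = V a s' x y' := by
  by_cases hd : ((PW (a + 1) j : ℕ) : ℤ) ∣ x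
  · obtain ⟨z, rfl⟩ := hd
    have hp := PW_cast_pos (a := a + 1) (by omega) j
    have hz : z ≠ 0 := by rintro rfl; simp at hx
    have hz' : |z| < ((a + 2 * j + 1 : ℕ) : ℤ) := by
      rw [abs_mul, abs_of_pos hp] at hlt
      push_cast at hlt ⊢
      have := lt_of_mul_lt_mul_left hlt hp.le
      linarith
    obtain ⟨h1, h2⟩ := Sys.dg_small (by omega) hz hz'
    rw [V_coarse ha, V_coarse ha]
    refine V_blank s s' h1 h2 (ediv_modEq (PW_pos ha j) ?_)
    rwa [PW_succ'] at hyy
  · exact V_low ha s s' hd rfl hyy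

/-- a row at distance `< PW a j (a+2j)` from the row `0` is `PW (a+1) j`-periodic -/
theorem Hf_strip {a : ℕ} (ha : 1 ≤ a) (s s' : Star) {j : ℕ} {x x' y : ℤ} (hy : y ≠ 0)
    (hlt : |y| < ((PW a j * (a + 2 * j) : ℕ) : ℤ))
    (hxx : x ≡ x' [ZMOD ((PW (a + 1) j : ℕ) : ℤ)]) : Hf a s x y = Hf a s' x' y := by
  cases j with
  | zero =>
    obtain ⟨h1, h2⟩ := Sys.dg_small ha hy (by simpa using hlt)
    rw [Hf_of_dg_ne _ _ h1, Hf_of_dg_ne _ _ h1, Sys.state_blank _ h2, Sys.state_blank _ h2]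
  | succ j =>
    by_cases h0 : dg (3 * a) y = 0
    · obtain ⟨z, rfl⟩ := (dg_eq_zero (by omega)).1 h0
      have hz : z ≠ 0 := by rintro rfl; simp at hy
      rw [Hf_mul ha, Hf_mul ha]
      refine V_strip (a := a + 1) (by omega) _ _ hz ?_ hxx
      rw [abs_mul, abs_of_pos (by positivity), PW_succ] at hlt
      push_cast at hlt ⊢
      have h3 : (0 : ℤ) < 3 * a := by positivity
      refine lt_of_mul_lt_mul_left (a := 3 * (a : ℤ)) ?_ h3.le
      calc _ < _ := hlt
        _ = _ := by ring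
    · rw [Hf_of_dg_ne _ _ h0, Hf_of_dg_ne _ _ h0,
        dg_congr_mod (N := PW (a + 1) (j + 1)) (by rw [PW_succ]; exact Dvd.intro _ rfl) hxx]

theorem Hb_strip {a : ℕ} (ha : 1 ≤ a) (s s' : Star) {j : ℕ} {x x' y : ℤ} (hy : y ≠ 0)
    (hlt : |y| < ((PW a j * (a + 2 * j) : ℕ) : ℤ))
    (hxx : x ≡ x' [ZMOD ((PW (a + 1) j : ℕ) : ℤ)]) : Hb a s x y = Hb a s' x' y := by
  have hxx := hxx.sub_right 1
  cases j with
  | zero =>
    obtain ⟨h1, h2⟩ := Sys.dg_small ha hy (by simpa using hlt)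
    rw [Hb_of_dg_ne _ _ h1, Hb_of_dg_ne _ _ h1, Sys.state_blank _ h2, Sys.state_blank _ h2]
  | succ j =>
    by_cases h0 : dg (3 * a) y = 0
    · obtain ⟨z, rfl⟩ := (dg_eq_zero (by omega)).1 h0
      have hz : z ≠ 0 := by rintro rfl; simp at hy
      rw [Hb_mul ha, Hb_mul ha]
      refine V_strip (a := a + 1) (by omega) _ _ hz ?_ hxx
      rw [abs_mul, abs_of_pos (by positivity), PW_succ] at hlt
      push_cast at hlt ⊢
      have h3 : (0 : ℤ) < 3 * a := by positivity
      refine lt_of_mul_lt_mul_left (a := 3 * (a : ℤ)) ?_ h3.le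
      calc _ < _ := hlt
        _ = _ := by ring
    · rw [Hb_of_dg_ne _ _ h0, Hb_of_dg_ne _ _ h0,
        dg_congr_mod (N := PW (a + 1) (j + 1)) (by rw [PW_succ]; exact Dvd.intro _ rfl) hxx]

/-! ### rows -/

theorem dom_zero_right {a : ℕ} (ha : 1 ≤ a) {s : Star} (hs : s.domP = false) (x : ℤ) :
    dom a s x 0 = false := by
  by_cases hx : x = 0
  · subst hx; rw [dom_zero, hs]
  · obtain ⟨j, hj⟩ := exists_not_dvd (a := a + 1) (by omega) hx
    exact dom_false ha s hj (dvd_zero _)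

/-- ROW STRIP THEOREM -/
theorem rstar_row {a : ℕ} (ha : 1 ≤ a) (L : VLab) (t t' : Tau) {j : ℕ} {x x' y : ℤ}
    (hy : |y| < ((PW a j * (a + 2 * j) : ℕ) : ℤ))
    (hxx : x ≡ x' [ZMOD ((PW (a + 1) j : ℕ) : ℤ)])
    (hcol : ((PW (a + 1) j : ℕ) : ℤ) ∣ x → ptau a t x = ptau a t' x') :
    rstar a (hStar L t) x y = rstar a (hStar L t') x' y := by
  have hV : ∀ z : ℤ, -((PW a j * (a + 2 * j) : ℕ) : ℤ) ≤ z → z < ((PW a j * (a + 2 * j) : ℕ) : ℤ) →
      V a (hStar L t) x z = V a (hStar L t') x' z := by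
    intro z h1 h2
    by_cases hd : ((PW (a + 1) j : ℕ) : ℤ) ∣ x
    · have hd' : ((PW (a + 1) j : ℕ) : ℤ) ∣ x' := (dvd_congr (dvd_refl _) hxx).1 hd
      rw [V_near_coarse ha (t := t) rfl rfl hd h1 h2, V_near_coarse ha (t := t') rfl rfl hd' h1 h2,
        hcol hd]
    · exact V_low ha _ _ hd hxx rfl
  have hlt := abs_lt.1 hy
  apply RStar.eq_of_fields
  · show dom a _ x y = dom a _ x' y
    by_cases hy0 : y = 0
    · subst hy0; rw [dom_zero_right ha rfl, dom_zero_right ha rfl]
    · by_cases hd : ((PW (a + 1) j : ℕ) : ℤ) ∣ x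
      · have hd' : ((PW (a + 1) j : ℕ) : ℤ) ∣ x' := (dvd_congr (dvd_refl _) hxx).1 hd
        have hy1 : ¬ ((PW a (j + 1) : ℕ) : ℤ) ∣ y := by
          intro h
          have h3 := Int.le_of_dvd (abs_pos.2 hy0) ((dvd_abs _ _).2 h)
          rw [PW_succ'] at h3
          have hp := PW_cast_pos ha j
          push_cast at h3 hy
          have : ((PW a j : ℕ) : ℤ) * (a + 2 * j) ≤ (PW a j : ℕ) * (3 * (a + 2 * j)) := by
            apply mul_le_mul_of_nonneg_left _ hp.le
            omega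
          omega
        rw [dom_true ha _ hd hy1, dom_true ha _ hd' hy1]
      · exact dom_low ha _ _ (fun h => hd h.1) hxx rfl
  · exact hV _ (by omega) (by omega)
  · exact hV _ (by omega) (by omega)
  · show Hb a _ x y = Hb a _ x' y
    by_cases hy0 : y = 0
    · subst hy0; rw [Hb_zero_right, Hb_zero_right]; simp
    · exact Hb_strip ha _ _ hy0 hy hxx
  · show Hf a _ x y = Hf a _ x' y
    by_cases hy0 : y = 0
    · subst hy0; rw [Hf_zero_right, Hf_zero_right]; simp
    · exact Hf_strip ha _ _ hy0 hy hxx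

/-- away from the row `0` the label of the row `0` is not seen -/
theorem rstar_row_off {a : ℕ} (ha : 1 ≤ a) (L L' : VLab) (t : Tau) (x : ℤ) {y : ℤ} (hy : y ≠ 0) :
    rstar a (hStar L t) x y = rstar a (hStar L' t) x y := by
  by_cases hx : x = 0
  · subst hx
    rcases lt_or_gt_of_ne hy with h | h
    · exact rstar_zero_of_neg (s := hStar L t) (s' := hStar L' t) ha rfl h
    · exact rstar_zero_of_pos (s := hStar L t) (s' := hStar L' t) ha rfl h
  · exact rstar_indep ha _ _ hx hy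

/-! ### columns -/

/-- type of the Q line `y` at level `a`, when the Q line `0` has type `t` -/
def qtau (a : ℕ) (t : Tau) (y : ℤ) : Tau :=
  if dg (3 * a) y = 0 then ptau (a + 1) t (y / ((3 * a : ℕ) : ℤ)) else tauOf a (dg (3 * a) y)

theorem qtau_zero (a : ℕ) (t : Tau) : qtau a t 0 = t := by
  rw [qtau, if_pos (by simp [dg]), Int.zero_ediv, ptau_zero]

theorem qtau_mul {a : ℕ} (ha : 1 ≤ a) (t : Tau) (y : ℤ) :
    qtau a t (((3 * a : ℕ) : ℤ) * y) = ptau (a + 1) t y := by
  have hp : (0 : ℤ) < ((3 * a : ℕ) : ℤ) := by exact_mod_cast (by omega : 0 < 3 * a)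
  rw [qtau, if_pos (dg_mul (by omega) y), Int.mul_ediv_cancel_left _ hp.ne']

/-- COLUMN STRIP THEOREM -/
theorem rstar_col {a : ℕ} (ha : 2 ≤ a) (L : VLab) (t t' : Tau) {j : ℕ} {x y y' : ℤ}
    (hx : |x| < ((PW (a + 1) j * (a + 1 + 2 * j) : ℕ) : ℤ))
    (hyy : y ≡ y' [ZMOD ((PW a (j + 1) : ℕ) : ℤ)])
    (hcol : ((PW a (j + 1) : ℕ) : ℤ) ∣ y → qtau a t y = qtau a t' y') :
    rstar a (vStar L t) x y = rstar a (vStar L t') x y' := by
  have hd : dg (3 * a) y = dg (3 * a) y' :=
    dg_congr_mod (by rw [PW_succ]; exact Dvd.intro _ rfl) hyy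
  by_cases h0 : dg (3 * a) y = 0
  · obtain ⟨z, rfl⟩ := (dg_eq_zero (by omega)).1 h0
    obtain ⟨z', rfl⟩ := (dg_eq_zero (by omega)).1 (hd ▸ h0)
    rw [rstar_flip ha, rstar_flip ha, vStar_flip, vStar_flip]
    congr 1
    rw [PW_succ, mul_modEq_mul_iff (by omega)] at hyy
    rw [PW_succ, mul_dvd_mul_cast_iff (by omega), qtau_mul (by omega), qtau_mul (by omega)] at hcol
    exact rstar_row (a := a + 1) (by omega) L t t' hx hyy hcol
  · have hV : ∀ z z' : ℤ, z ≡ z' [ZMOD ((PW a (j + 1) : ℕ) : ℤ)] →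
        V a (vStar L t) x z = V a (vStar L t') x z' := by
      intro z z' hzz
      by_cases hx0 : x = 0
      · subst hx0; rw [V_zero, V_zero]; simp
      · exact V_strip (by omega) _ _ hx0 hx hzz
    apply RStar.eq_of_fields
    · show dom a _ x y = dom a _ x y'
      rw [dom_of_ne _ _ h0, dom_of_ne _ _ (hd ▸ h0)]
    · exact hV _ _ (hyy.sub_right 1)
    · exact hV _ _ hyy
    · show Hb a _ x y = Hb a _ x y'
      rw [Hb_of_dg_ne _ _ h0, Hb_of_dg_ne _ _ (hd ▸ h0), hd]
    · show Hf a _ x y = Hf a _ x y'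
      rw [Hf_of_dg_ne _ _ h0, Hf_of_dg_ne _ _ (hd ▸ h0), hd]

/-- away from the column `0` the label of the column `0` is not seen -/
theorem rstar_col_off {a : ℕ} (ha : 1 ≤ a) (L L' : VLab) (t : Tau) {x : ℤ} (y : ℤ) (hx : x ≠ 0) :
    rstar a (vStar L t) x y = rstar a (vStar L' t) x y := by
  by_cases hy : y = 0
  · subst hy
    rcases lt_or_gt_of_ne hx with h | h
    · exact rstar_zero_right_of_neg (s := vStar L t) (s' := vStar L' t) ha rfl h
    · exact rstar_zero_right_of_pos (s := vStar L t) (s' := vStar L' t) ha rfl h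
  · exact rstar_indep ha _ _ hx hy

end Crest.Agent.R189
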