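import Crest.Agent.R189.XSepFD
import Crest.Agent.R189.SysStrip
import Crest.Agent.R189.AmenGp
import Crest.Agent.R189.AmenRep
import Crest.Agent.R189.StepC
import Crest.Agent.R189.AmenFin
import Crest.Agent.R189.StripMain

/-!
# Row 189: the concrete amenability data and the amenability of `Gp` (helper31, integration)
-/

set_option autoImplicit false

namespace Crest.Agent.R189

open Equiv

/-- letters agree if digit and star agree -/
theorem letter_congr {q q' : ℤ × ℤ} {s s' : Star} (h1 : dg 9 q.2 = dg 9 q'.2)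
    (h2 : rstar 3 s q.1 q.2 = rstar 3 s' q'.1 q'.2) : letter ⟨q, s⟩ = letter ⟨q', s'⟩ :=
  letter_eq_iff.2 ⟨h1, h2⟩

/-- exchange of the coordinates -/
def swapE : (ℤ × ℤ) ≃+ (ℤ × ℤ) := AddEquiv.prodComm

section data
variable (C : Type) [Fintype C] [DecidableEq C]

/-- the concrete data, from two strip systems -/
noncomputable def amenDataX
    (SR : Strip.StripSys Tau (Fin 9 × Star) VLab)
    (hSR : ∀ (l : VLab) (u r : ℤ) (t : Tau), SR.lett l u r t = letter ⟨(u, r), hStar l t⟩)
    (SC : Strip.StripSys Tau (Fin 9 × Star) VLab)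
    (hSC : ∀ (l : VLab) (u r : ℤ) (t : Tau), SC.lett l u r t = letter ⟨(r, u), vStar l t⟩) :
    AmenData (Gp (ℤ × ℤ) letter C) Star VLab Tau (Fin 9 × Star) C where
  L s q := letter ⟨q, s⟩
  ρ s := rep letter s
  hs := hStar
  vs := vStar
  up s := ⟨s.Pf, s.Pf_valid⟩
  down s := ⟨s.Pb, s.Pb_valid⟩
  left s := ⟨s.Qb, s.Qb_valid⟩
  right s := ⟨s.Qf, s.Qf_valid⟩
  inj g h := rep_inj letter g h
  loc g := rep_loc letter g
  dis g := rep_dis letter g
  F0 s s' q h1 h2 := letter_congr rfl (rstar_indep (a := 3) (by norm_num) s s' h1 h2)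
  F1u s t q h1 h2 := by
    obtain ⟨x, y⟩ := q
    simp only at h1 h2
    subst h1
    exact letter_congr rfl (rstar_zero_of_pos (a := 3) (s := s) (s' := vStar ⟨s.Pf, s.Pf_valid⟩ t)
      (by norm_num) rfl h2)
  F1d s t q h1 h2 := by
    obtain ⟨x, y⟩ := q
    simp only at h1 h2
    subst h1
    exact letter_congr rfl (rstar_zero_of_neg (a := 3) (s := s) (s' := vStar ⟨s.Pb, s.Pb_valid⟩ t)
      (by norm_num) rfl h2)
  F2r s t q h1 h2 := by
    obtain ⟨x, y⟩ := q
    simp only at h1 h2
    subst h1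
    exact letter_congr rfl (rstar_zero_right_of_pos (a := 3) (s := s) (s' := hStar ⟨s.Qf, s.Qf_valid⟩ t)
      (by norm_num) rfl h2)
  F2l s t q h1 h2 := by
    obtain ⟨x, y⟩ := q
    simp only at h1 h2
    subst h1
    exact letter_congr rfl (rstar_zero_right_of_neg (a := 3) (s := s) (s' := hStar ⟨s.Qb, s.Qb_valid⟩ t)
      (by norm_num) rfl h2)
  FD M := fd_letter M
  row H h := by
    refine SR.strip_amen' (fun l => famRep letter (hStar l) (AddEquiv.refl _))
      (closure_unitGens letter) (fun g hg => isGen_of_unit letter SR hStar (AddEquiv.refl _)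
        (fun v hv => hv) (fun l u r t => hSR l u r t) g hg) H ?_
    rw [blind_famRep]
    exact h
  col H h := by
    refine SC.strip_amen' (fun l => famRep letter (vStar l) swapE)
      (closure_unitGens letter) (fun g hg => isGen_of_unit letter SC vStar swapE
        (fun v hv => ⟨hv.2, hv.1⟩) (fun l u r t => hSC l u r t) g hg) H ?_
    rw [blind_famRep]
    exact h

/-- amenability of `Gp`, from the two strip systems -/
theorem amen_Gp_of
    (SR : Strip.StripSys Tau (Fin 9 × Star) VLab)
    (hSR : ∀ (l : VLab) (u r : ℤ) (t : Tau), SR.lett l u r t = letter ⟨(u, r), hStar l t⟩)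
    (SC : Strip.StripSys Tau (Fin 9 × Star) VLab)
    (hSC : ∀ (l : VLab) (u r : ℤ) (t : Tau), SC.lett l u r t = letter ⟨(r, u), vStar l t⟩) :
    Amen (Gp (ℤ × ℤ) letter C) := by
  have : Nonempty Star := ⟨hStar l0 .f0⟩
  have : Nonempty Tau := ⟨.f0⟩
  exact (amenDataX C SR hSR SC hSC).amen

end data

end Crest.Agent.R189
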