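import Crest.Agent.R189.StarFacts

/-!
Row 189 (S0289), helper787.  The stars allowed by (X1), (X2) at a row `j ≠ 0`.

`rstarOf a j j' L0` : the star at row `j` of a `P` line whose next-level digit is `j'` and whose
label above row `0` is `L0`.  `AdmL a j' L0` : the possible labels `L0`.
-/

set_option autoImplicit false

namespace Crest.Agent.R189

/-- label between the rows `j` and `j+1` of the `P` line with next-level digit `j'` and label `L0`
above row `0` -/
def lamAt (a j j' : ℕ) (L0 : Label) : Label :=
  if j' = 0 then L0 else ⟨L0.tau, L0.st, umem a j j'⟩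

/-- the star at row `j ≠ 0` of the `P` line with next-level digit `j'` and label `L0` above
row `0` -/
def rstarOf (a j j' : ℕ) (L0 : Label) : RStar :=
  ⟨true, lamAt a (j - 1) j' L0, lamAt a j j' L0,
    ⟨tauOf a j, state a j (prev a j'), .B⟩, ⟨tauOf a j, state a j j', .A⟩⟩

/-- admissible labels above row `0` of the `P` lines with next-level digit `j'` -/
def AdmL (a j' : ℕ) (L0 : Label) : Prop :=
  if j' = 0 then L0.Valid = true
  else ∃ j'' : ℕ, j'' < 3 * (a + 2) ∧ L0 = ⟨tauOf (a + 1) j', state (a + 1) j' j'', .A⟩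

@[simp] theorem lamAt_zero (a j : ℕ) (L0 : Label) : lamAt a j 0 L0 = L0 := by simp [lamAt]

theorem lamAt_of_ne {a j j' : ℕ} (h : j' ≠ 0) (L0 : Label) :
    lamAt a j j' L0 = ⟨L0.tau, L0.st, umem a j j'⟩ := by simp [lamAt, h]

theorem AdmL_zero {a : ℕ} {L0 : Label} : AdmL a 0 L0 ↔ L0.Valid = true := by simp [AdmL]

theorem AdmL_of_ne {a j' : ℕ} (h : j' ≠ 0) {L0 : Label} :
    AdmL a j' L0 ↔ ∃ j'' : ℕ, j'' < 3 * (a + 2) ∧
      L0 = ⟨tauOf (a + 1) j', state (a + 1) j' j'', .A⟩ := by simp [AdmL, h]

/-- a blank crossing exists for every valid label -/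
theorem blank_core_mem (t : Tau) (u : Mem) (h : validU t u = true) :
    (⟨t, u, u, .t00, none, none⟩ : Core) ∈ coreList := by
  revert h
  revert t u
  decide

theorem quiet_OK (L : Label) (h : L.Valid = true) :
    (⟨true, L, L, ⟨.t00, none, .B⟩, ⟨.t00, none, .A⟩⟩ : RStar).OK := by
  have h1 : validSt L.tau L.st = true := by
    simp only [Label.Valid, Bool.and_eq_true] at h; exact h.1
  have h2 : validU L.tau L.u = true := by
    simp only [Label.Valid, Bool.and_eq_true] at h; exact h.2
  have h3 := blank_core_mem L.tau L.u h2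
  simp [RStar.OK, Rule, BadX, h1, h3]

/-- a star with `Pf = L` dominated by the `P` line -/
def quietStar (L : Label) (h : L.Valid = true) : Star := ⟨_, quiet_OK L h⟩

@[simp] theorem quietStar_Pf (L : Label) (h : L.Valid = true) : (quietStar L h).Pf = L := rfl
@[simp] theorem quietStar_Pb (L : Label) (h : L.Valid = true) : (quietStar L h).Pb = L := rfl

end Crest.Agent.R189
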