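import Crest.Agent.R189.XDef
import Crest.Agent.R189.GpBasic

/-!
Row 189 (S0289), helper523.  SEPARATION of the explicit system: no configuration `rstar a s` has
a period (digits of every level are readable).
-/

set_option autoImplicit false

namespace Crest.Agent.R189

/-- `(v₁, v₂)` is a period of the level-`a` configuration with corner star `s` -/
structure Per (a : ℕ) (s : Star) (v₁ v₂ : ℤ) : Prop where
  dig : ∀ y : ℤ, dg (3 * a) (y + v₂) = dg (3 * a) y
  star : ∀ x y : ℤ, rstar a s (x + v₁) (y + v₂) = rstar a s x y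

theorem sv_eq_f {a j : ℕ} (h : sv a j = .f) : j = 0 := by
  unfold sv at h
  split_ifs at h with h1
  exact h1

theorem Per.step {a : ℕ} (ha : 2 ≤ a) {s : Star} {v₁ v₂ : ℤ} (h : Per a s v₁ v₂) :
    ∃ k : ℤ, v₂ = ((3 * a : ℕ) : ℤ) * k ∧ Per (a + 1) s.flip k v₁ := by
  have hp : (0 : ℤ) < ((3 * a : ℕ) : ℤ) := by exact_mod_cast (by omega : 0 < 3 * a)
  have h1 : dg (3 * a) v₂ = 0 := by
    have := h.dig 0
    rw [zero_add] at this
    rw [this]; simp [dg]
  obtain ⟨k, rfl⟩ := (dg_eq_zero (by omega)).1 h1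
  refine ⟨k, rfl, ⟨?_, ?_⟩⟩
  · -- the digit of `v₁`
    have h2 : dg (3 * (a + 1)) v₁ = 0 := by
      have h3 := congrArg RStar.Qf (h.star 0 (a : ℤ))
      have hd : dg (3 * a) ((a : ℤ)) = a := dg_natCast (by omega)
      have hd' : dg (3 * a) ((a : ℤ) + ((3 * a : ℕ) : ℤ) * k) = a := by
        rw [dg_add_mul, hd]
      have ha0 : a ≠ 0 := by omega
      simp only [rstar, Hf, hd, hd', if_neg ha0, zero_add] at h3
      have h4 := congrArg Label.st h3
      simp only [state] at h4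
      rw [if_pos ⟨le_rfl, by omega⟩, if_pos ⟨le_rfl, by omega⟩] at h4
      have h5 := congrArg Prod.fst (Option.some.inj h4)
      simp only at h5
      have h6 : dg (3 * (a + 1)) (0 : ℤ) = 0 := by simp [dg]
      rw [h6] at h5
      apply sv_eq_f (a := a + 1)
      rw [h5]; simp [sv]
    obtain ⟨l, rfl⟩ := (dg_eq_zero (by omega)).1 h2
    intro y
    exact dg_add_mul _ _ _
  · intro y x
    have h3 := h.star x (((3 * a : ℕ) : ℤ) * y)
    rw [← mul_add, rstar_flip ha, rstar_flip ha] at h3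
    have h4 := congrArg RStar.flip h3
    have hff : ∀ σ : RStar, σ.flip.flip = σ := fun σ => by simp [RStar.flip]
    rwa [hff, hff] at h4

theorem Per.eq_zero {a : ℕ} (ha : 2 ≤ a) {s : Star} {v₁ v₂ : ℤ} (h : Per a s v₁ v₂) :
    v₁ = 0 ∧ v₂ = 0 := by
  suffices H : ∀ (n : ℕ) (a : ℕ) (s : Star) (v₁ v₂ : ℤ), 2 ≤ a → v₁.natAbs + v₂.natAbs ≤ n →
      Per a s v₁ v₂ → v₁ = 0 ∧ v₂ = 0 from H _ a s v₁ v₂ ha le_rfl h
  intro n
  induction n with
  | zero =>
    intro a s v₁ v₂ _ hn _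
    constructor <;> omega
  | succ n ih =>
    intro a s v₁ v₂ ha hn h
    obtain ⟨k, rfl, h1⟩ := h.step ha
    obtain ⟨l, rfl, h2⟩ := h1.step (by omega)
    rw [Star.flip_flip] at h2
    by_cases h0 : l.natAbs + k.natAbs = 0
    · have hl : l = 0 := by omega
      have hk : k = 0 := by omega
      subst hl; subst hk; simp
    · have := ih (a + 1 + 1) s l k (by omega) (by
        rw [Int.natAbs_mul, Int.natAbs_mul] at hn
        have e1 : (((3 * (a + 1) : ℕ) : ℤ)).natAbs = 3 * (a + 1) := rfl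
        have e2 : (((3 * a : ℕ) : ℤ)).natAbs = 3 * a := rfl
        rw [e1, e2] at hn
        have h3 : 2 * l.natAbs ≤ 3 * (a + 1) * l.natAbs := Nat.mul_le_mul_right _ (by omega)
        have h4 : 2 * k.natAbs ≤ 3 * a * k.natAbs := Nat.mul_le_mul_right _ (by omega)
        omega) h2
      exact absurd (by rw [this.1, this.2]; rfl) h0

/-- SEPARATION for any letter map that determines the level-0 digit and the star. -/
theorem sep_of_letter {A : Type*} (letter : X → A)
    (hd : ∀ x y : X, letter x = letter y → dg 9 x.p.2 = dg 9 y.p.2)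
    (hs : ∀ x y : X, letter x = letter y →
      rstar 3 x.s x.p.1 x.p.2 = rstar 3 y.s y.p.1 y.p.2) :
    Sep (ℤ × ℤ) letter := by
  intro v hv x
  by_contra hcon
  push Not at hcon
  have key : ∀ q₁ q₂ : ℤ, letter ⟨(q₁, q₂), x.s⟩ = letter ⟨(q₁ + v.1, q₂ + v.2), x.s⟩ := by
    intro q₁ q₂
    have h1 := hcon ((q₁, q₂) - x.p)
    have e1 : ((q₁, q₂) - x.p) +ᵥ x = (⟨(q₁, q₂), x.s⟩ : X) := by
      apply X.ext
      · rw [X.vadd_p]; simp
      · rfl
    have e2 : ((q₁, q₂) - x.p) +ᵥ (v +ᵥ x) = (⟨(q₁ + v.1, q₂ + v.2), x.s⟩ : X) := by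
      apply X.ext
      · rw [X.vadd_p, X.vadd_p]
        apply Prod.ext <;> simp
      · rfl
    rw [e1, e2] at h1
    exact h1
  have hP : Per 3 x.s v.1 v.2 := by
    constructor
    · intro y
      exact (hd _ _ (key 0 y)).symm
    · intro a b
      exact (hs _ _ (key a b)).symm
  have := hP.eq_zero (by norm_num)
  exact hv (Prod.ext this.1 this.2)

end Crest.Agent.R189
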