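import Crest.Agent.R189.XOK
import Crest.Agent.R189.XSep
import Crest.Agent.R189.GpBasic
import Crest.Agent.R189.StarEx

/-!
Row 189 (S0289), helper869.  Occurrence of every allowed star at every level `≥ 4` and
minimality of the explicit system.
-/

set_option autoImplicit false

namespace Crest.Agent.R189

theorem dg_small_add {n i : ℕ} (hi : i < n) (k : ℤ) : dg n ((i : ℤ) + n * k) = i := by
  rw [dg_add_mul, dg_natCast hi]

theorem small_add_div {n i : ℕ} (hi : i < n) (k : ℤ) : ((i : ℤ) + n * k) / (n : ℤ) = k := by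
  rw [Int.add_mul_ediv_left _ _ (by omega), Int.ediv_eq_zero_of_lt (by positivity) (by omega)]
  ring

theorem occ_P {a : ℕ} (ha : 4 ≤ a) (σ : Star) (h : σ.domP = true) :
    ∃ x y : ℤ, x ≠ 0 ∧ y ≠ 0 ∧ ∀ s : Star, rstar a s x y = σ.1 := by
  rcases star_ex ha σ h with ⟨i, hi1, hi2, -, hσ⟩ | ⟨i, j, k, hi1, hi2, hj1, hj2, hk, hσ⟩
  · obtain ⟨k, j, l, hk1, hk2, hj, hl, hlam⟩ := label_ex (b := a + 3) (by omega) σ.Pb_valid
    have hl' : l < 3 * (a + 2) := by omega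
    set y1 : ℤ := (l : ℤ) + ((3 * (a + 2) : ℕ) : ℤ) * (j : ℤ) with hy1
    have hy1' : 0 ≤ y1 := by positivity
    refine ⟨((3 * (a + 1) : ℕ) : ℤ) * (k : ℤ), (i : ℤ) + ((3 * a : ℕ) : ℤ) * y1, ?_, ?_, ?_⟩
    · have : (0 : ℤ) < k := by exact_mod_cast hk1
      positivity
    · have : (0 : ℤ) < i := by exact_mod_cast hi1
      positivity
    · intro s
      have hdi : dg (3 * a) ((i : ℤ) + ((3 * a : ℕ) : ℤ) * y1) = i := dg_small_add hi2 _
      rw [rstar_Q s _ (by rw [hdi]; omega) (by omega), hdi, small_add_div hi2]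
      have hdk : dg (3 * (a + 2 + 1)) ((k : ℤ)) = k := dg_natCast (by omega)
      have hV : V (a + 2) s k y1 = σ.Pb := by
        rw [V_of_ne (a := a + 2) s y1 (by rw [hdk]; omega), hdk, hy1,
          dg_small_add hl', small_add_div hl', dg_natCast (by omega), hlam]
        rfl
      rw [hV, hσ]
      rfl
  · refine ⟨(j : ℤ), (i : ℤ) + ((3 * a : ℕ) : ℤ) * (k : ℤ), by omega, ?_, ?_⟩
    · have : (0 : ℤ) < i := by exact_mod_cast hi1
      positivity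
    · intro s
      have hdi : dg (3 * a) ((i : ℤ) + ((3 * a : ℕ) : ℤ) * (k : ℤ)) = i := dg_small_add hi2 _
      have hdj : dg (3 * (a + 1)) (j : ℤ) = j := dg_natCast (by omega)
      rw [rstar_I s (by rw [hdi]; omega) (by rw [hdj]; omega) (by omega), hdi, hdj,
        small_add_div hi2, dg_natCast (by omega), hσ]
      rfl

/-- every allowed star occurs at every level `≥ 4`, off the two infinite lines -/
theorem occ {a : ℕ} (ha : 4 ≤ a) (σ : Star) :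
    ∃ x y : ℤ, x ≠ 0 ∧ y ≠ 0 ∧ ∀ s : Star, rstar a s x y = σ.1 := by
  cases h : σ.domP
  · obtain ⟨x, y, hx, hy, hxy⟩ := occ_P (a := a + 1) (by omega) σ.flip (by simp [h])
    refine ⟨y, ((3 * a : ℕ) : ℤ) * x, hy, ?_, ?_⟩
    · have : (0 : ℤ) < ((3 * a : ℕ) : ℤ) := by exact_mod_cast (by omega : 0 < 3 * a)
      exact mul_ne_zero this.ne' hx
    · intro s
      rw [rstar_flip (by omega), hxy]
      have : σ.flip.1.flip = σ.1 := by
        have := congrArg Subtype.val σ.flip_flip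
        exact this
      exact this
  · exact occ_P ha σ h

/-- every allowed star occurs in every window of a fixed size -/
theorem occ_near {a : ℕ} (ha : 4 ≤ a) (σ : Star) :
    ∃ N : ℕ, 0 < N ∧ ∀ (s : Star) (X₀ Y₀ : ℤ), ∃ X Y : ℤ, X₀ ≤ X ∧ X < X₀ + N ∧ Y₀ ≤ Y ∧
      Y < Y₀ + N ∧ rstar a s X Y = σ.1 := by
  obtain ⟨x, y, hx, hy, hxy⟩ := occ ha σ
  set m := x.natAbs + y.natAbs with hm
  have h1 := lt_xh (a := a + 1) (by omega) m
  have h2 := lt_xh (a := a) (by omega) m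
  have hN1 := xh_pos (a := a + 1) (by omega) (m + 1)
  have hN2 := xh_pos (a := a) (by omega) (m + 1)
  refine ⟨xh (a + 1) (m + 1) + xh a (m + 1), by omega, ?_⟩
  intro s X₀ Y₀
  have e1 := Int.emod_nonneg (x - X₀) (b := ((xh (a + 1) (m + 1) : ℕ) : ℤ)) (by omega)
  have e2 := Int.emod_lt_of_pos (x - X₀) (b := ((xh (a + 1) (m + 1) : ℕ) : ℤ)) (by omega)
  have e3 := Int.emod_nonneg (y - Y₀) (b := ((xh a (m + 1) : ℕ) : ℤ)) (by omega)
  have e4 := Int.emod_lt_of_pos (y - Y₀) (b := ((xh a (m + 1) : ℕ) : ℤ)) (by omega)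
  refine ⟨X₀ + (x - X₀) % ((xh (a + 1) (m + 1) : ℕ) : ℤ),
    Y₀ + (y - Y₀) % ((xh a (m + 1) : ℕ) : ℤ), by omega, by push_cast; omega, by omega,
    by push_cast; omega, ?_⟩
  rw [← hxy s]
  symm
  apply rstar_congr (by omega) m
  · exact not_dvd_of_small (by omega) (by omega) hx
  · exact not_dvd_of_small (by omega) (by omega) hy
  · have := Int.mul_ediv_add_emod (x - X₀) ((xh (a + 1) (m + 1) : ℕ) : ℤ)
    exact ⟨(x - X₀) / ((xh (a + 1) (m + 1) : ℕ) : ℤ), by linarith⟩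
  · have := Int.mul_ediv_add_emod (y - Y₀) ((xh a (m + 1) : ℕ) : ℤ)
    exact ⟨(y - Y₀) / ((xh a (m + 1) : ℕ) : ℤ), by linarith⟩

/-- MINIMALITY of the explicit system -/
theorem letter_minl : Minl (ℤ × ℤ) letter := by
  classical
  rintro E ⟨W₀, hW₀⟩ ⟨x₀, hx₀⟩
  -- bound for the window
  obtain ⟨R, hR⟩ : ∃ R : ℕ, ∀ u ∈ W₀, (u + x₀.p).1.natAbs < R ∧ (u + x₀.p).2.natAbs < R := by
    refine ⟨(W₀.sup fun u => (u + x₀.p).1.natAbs + (u + x₀.p).2.natAbs) + 1, ?_⟩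
    intro u hu
    have := Finset.le_sup (f := fun u => (u + x₀.p).1.natAbs + (u + x₀.p).2.natAbs) hu
    omega
  have h1 := lt_xh (a := 3 + 1) (by norm_num) R
  have h2 := lt_xh (a := 3) (by norm_num) R
  have h3 : xh 3 R ≤ xh 3 (R + 1) :=
    Nat.le_of_dvd (xh_pos (by norm_num) _) (xh_dvd_succ 3 R)
  have hw := xh_pos (a := 3 + 1) (by norm_num) (R + 1)
  have hh := xh_pos (a := 3) (by norm_num) (R + 1)
  obtain ⟨N, hN0, hN⟩ := occ_near (a := 3 + 2 * (R + 1)) (by omega) x₀.s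
  set w : ℕ := xh (3 + 1) (R + 1) with hwdef
  set h : ℕ := xh 3 (R + 1) with hhdef
  refine ⟨Finset.Icc (x₀.p.1 - w) (x₀.p.1 + w * N) ×ˢ Finset.Icc (x₀.p.2 - h) (x₀.p.2 + h * N), ?_⟩
  intro x
  obtain ⟨X, Y, hX1, hX2, hY1, hY2, hXY⟩ := hN x.s (x.p.1 / w) (x.p.2 / h)
  refine ⟨((w : ℤ) * X + x₀.p.1 - x.p.1, (h : ℤ) * Y + x₀.p.2 - x.p.2), ?_, ?_⟩
  · have a1 := Int.mul_ediv_add_emod x.p.1 (w : ℤ)
    have a2 := Int.emod_nonneg x.p.1 (b := (w : ℤ)) (by omega)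
    have a3 := Int.emod_lt_of_pos x.p.1 (b := (w : ℤ)) (by omega)
    have b1 := Int.mul_ediv_add_emod x.p.2 (h : ℤ)
    have b2 := Int.emod_nonneg x.p.2 (b := (h : ℤ)) (by omega)
    have b3 := Int.emod_lt_of_pos x.p.2 (b := (h : ℤ)) (by omega)
    have c1 : (w : ℤ) * (x.p.1 / w) ≤ (w : ℤ) * X := mul_le_mul_of_nonneg_left hX1 (by omega)
    have c2 : (w : ℤ) * X ≤ (w : ℤ) * (x.p.1 / w + N) :=
      mul_le_mul_of_nonneg_left hX2.le (by omega)
    have d1 : (h : ℤ) * (x.p.2 / h) ≤ (h : ℤ) * Y := mul_le_mul_of_nonneg_left hY1 (by omega)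
    have d2 : (h : ℤ) * Y ≤ (h : ℤ) * (x.p.2 / h + N) :=
      mul_le_mul_of_nonneg_left hY2.le (by omega)
    rw [mul_add] at c2 d2
    rw [Finset.mem_product, Finset.mem_Icc, Finset.mem_Icc]
    refine ⟨⟨?_, ?_⟩, ?_, ?_⟩
    · show x₀.p.1 - (w : ℤ) ≤ (w : ℤ) * X + x₀.p.1 - x.p.1
      linarith
    · show (w : ℤ) * X + x₀.p.1 - x.p.1 ≤ x₀.p.1 + w * N
      linarith
    · show x₀.p.2 - (h : ℤ) ≤ (h : ℤ) * Y + x₀.p.2 - x.p.2
      linarith
    · show (h : ℤ) * Y + x₀.p.2 - x.p.2 ≤ x₀.p.2 + h * N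
      linarith
  · refine (hW₀ x₀ _ ?_).1 hx₀
    intro u hu
    obtain ⟨r1, r2⟩ := hR u hu
    rw [letter_eq_iff]
    have e1 : (u +ᵥ ((((w : ℤ) * X + x₀.p.1 - x.p.1, (h : ℤ) * Y + x₀.p.2 - x.p.2) : ℤ × ℤ) +ᵥ x)).p.1
        = (w : ℤ) * X + (u + x₀.p).1 := by
      simp only [R189.X.vadd_p, Prod.fst_add]; ring
    have e2 : (u +ᵥ ((((w : ℤ) * X + x₀.p.1 - x.p.1, (h : ℤ) * Y + x₀.p.2 - x.p.2) : ℤ × ℤ) +ᵥ x)).p.2
        = (h : ℤ) * Y + (u + x₀.p).2 := by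
      simp only [R189.X.vadd_p, Prod.snd_add]; ring
    rw [e1, e2, R189.X.vadd_p, R189.X.vadd_s, R189.X.vadd_s, R189.X.vadd_s]
    constructor
    · exact (dg_window (a := 3) R Y _).symm
    · exact (rstar_window (a := 3) (by norm_num) R x.s x₀.s X Y hXY (by omega) (by omega)
        (by omega) (by omega)).symm

/-- SEPARATION of the explicit system (helper523's lemma) -/
theorem letter_sep : Sep (ℤ × ℤ) letter :=
  sep_of_letter letter (fun _ _ h => (letter_eq_iff.1 h).1) (fun _ _ h => (letter_eq_iff.1 h).2)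

end Crest.Agent.R189
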