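import Crest.Agent.R189.GpSimple
import Crest.Agent.R189.XMin
import Crest.Agent.R189.AmenFinal
import Crest.Agent.R189.StarOf

/-!
Row 189 (S0289), helper474.  Assembly: the group is `Gp (ℤ × ℤ) letter (Fin 30)`.
-/

set_option autoImplicit false

namespace Crest.Agent.R189

instance asmNonemptyStar : Nonempty Star := ⟨quietStar ⟨.f0, none, .A⟩ rfl⟩

instance asmNonemptyX : Nonempty X := ⟨⟨0, Classical.arbitrary Star⟩⟩

/-- colours -/
abbrev Col : Type := Fin 30

/-- the group -/
abbrev GG : Type := Gp (ℤ × ℤ) letter Col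

theorem GG_infinite : Infinite GG :=
  infinite_Gp (by simp) letter_sep

theorem GG_simple : IsSimpleGroup GG :=
  isSimpleGroup_Gp (by simp) letter_sep letter_minl

theorem S0289_of (hfp : Group.IsFinitelyPresented GG) (ha : Amen GG) :
    ∃ (G : Type) (_ : Group G), Infinite G ∧ Group.IsFinitelyPresented G ∧ IsSimpleGroup G ∧
      Crest.GroupTheory.Amenable G :=
  ⟨GG, inferInstance, GG_infinite, hfp, GG_simple, ha.amenable⟩

/-- only finite presentability is missing -/
theorem S0289_of_fp (hfp : Group.IsFinitelyPresented GG) :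
    ∃ (G : Type) (_ : Group G), Infinite G ∧ Group.IsFinitelyPresented G ∧ IsSimpleGroup G ∧
      Crest.GroupTheory.Amenable G :=
  S0289_of hfp (amen_Gp Col)

end Crest.Agent.R189
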