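import Crest.Agent.R189.EvDefs

/-!
# Row 189 (S0289): the finitely presented group `T` (blueprint E0)   (helper396)

`MatchData A` : a finite list of matching relations `v . (∑_{x ∈ src} e_x) = ∑_{x ∈ dst} e_x` between letters.
`TModel M C G` : a group `G` with elements `one s`, `h i a b` (`i = false`: `X`, `i = true`: `Y`), `e x s`
satisfying (T0)-(T4).   `TGrp M C` : the group presented by these generators and relations, finitely
presented, with its universal model `tModel`; `TModel.lift : TGrp M C →* G`.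
-/

set_option autoImplicit false
set_option linter.unusedSectionVars false

namespace Crest.Agent.R189

open Equiv Equiv.Perm

/-- finite list of matching relations `vec . (sum of the letters in src) = (sum of the letters in dst)` -/
structure MatchData (A : Type) where
  ι : Type
  fin : Finite ι
  src : ι → Finset A
  vec : ι → ℤ × ℤ
  dst : ι → Finset A

/-- ordered product over a finset -/
noncomputable def lprod {A G : Type} [Group G] (E : Finset A) (f : A → G) : G :=
  (E.toList.map f).prod

theorem map_lprod {A G G' : Type} [Group G] [Group G'] (φ : G →* G') (E : Finset A) (f : A → G) :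
    φ (lprod E f) = lprod E (fun x => φ (f x)) := by
  simp [lprod, map_list_prod, List.map_map, Function.comp_def]

theorem lprod_congr {A G : Type} [Group G] {E : Finset A} {f g : A → G}
    (h : ∀ x ∈ E, f x = g x) : lprod E f = lprod E g := by
  unfold lprod
  congr 1
  exact List.map_congr_left (fun x hx => h x (by simpa using hx))

theorem lprod_mem {A G : Type} [Group G] {E : Finset A} {f : A → G} {K : Subgroup G}
    (h : ∀ x ∈ E, f x ∈ K) : lprod E f ∈ K := by
  unfold lprod
  apply Subgroup.list_prod_mem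
  intro y hy
  rw [List.mem_map] at hy
  obtain ⟨x, hx, rfl⟩ := hy
  exact h x (by simpa using hx)

theorem lprod_conj {A G : Type} [Group G] (E : Finset A) (f : A → G) (g : G) :
    g * lprod E f * g⁻¹ = lprod E (fun x => g * f x * g⁻¹) := by
  have := map_lprod (MulAut.conj g).toMonoidHom E f
  simpa [MulAut.conj_apply] using this

/-- product of pairwise commuting elements does not depend on the order -/
theorem lprod_eq_noncommProd {A G : Type} [Group G] (E : Finset A) (f : A → G)
    (comm : (E : Set A).Pairwise (Function.onFun Commute f)) :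
    lprod E f = E.noncommProd f comm := by
  classical
  have h := Finset.noncommProd_toFinset E.toList f (by simpa using comm) E.nodup_toList
  unfold lprod
  rw [← h]
  congr 1
  exact Finset.toList_toFinset E

section

variable {A : Type} {C : Type} [Fintype C] [DecidableEq C]

/-- generators of `T` -/
abbrev TGen (A C : Type) [Fintype C] [DecidableEq C] : Type :=
  alternatingGroup C ⊕ (Bool × C × C) ⊕ (A × alternatingGroup C)

/-- `h^v` for `v ∈ ℤ × ℤ` -/
def hpow {G : Type} [Group G] (h : Bool → C → C → G) (v : ℤ × ℤ) (a b : C) : G :=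
  h false a b ^ v.1 * h true a b ^ v.2

/-- the word for `H(λ)` with `λ = v` on `S` and `λ = -|S| v` at `d` -/
noncomputable def hword {G : Type} [Group G] (h : Bool → C → C → G) (v : ℤ × ℤ) (S : Finset C)
    (d : C) : G :=
  lprod S (fun c => hpow h v c d)

/-- The defining data of `T` in a group `G`. -/
structure TModel (M : MatchData A) (C : Type) [Fintype C] [DecidableEq C] [Fintype A]
    (G : Type) [Group G] where
  one : alternatingGroup C →* G
  h : Bool → C → C → G
  e : A → alternatingGroup C →* G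
  h_mul : ∀ i a b c, h i a b * h i b c = h i a c
  h_comm : ∀ i j a b c d, h i a b * h j c d = h j c d * h i a b
  one_h : ∀ (s : alternatingGroup C) i a b,
    one s * h i a b * (one s)⁻¹ = h i ((s : Perm C) a) ((s : Perm C) b)
  one_e : ∀ (s : alternatingGroup C) x t, one s * e x t * (one s)⁻¹ = e x (s * t * s⁻¹)
  e_comm : ∀ x y, x ≠ y → ∀ s t, e x s * e y t = e y t * e x s
  e_prod : ∀ s, lprod Finset.univ (fun x => e x s) = one s
  h_e : ∀ i a b x (s : alternatingGroup C), (s : Perm C) a = a → (s : Perm C) b = b →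
    h i a b * e x s = e x s * h i a b
  matching : ∀ (k : M.ι) (s : alternatingGroup C) (d : C), (s : Perm C) d = d →
    hword h (M.vec k) (s : Perm C).support d * lprod (M.src k) (fun x => e x s) *
      (hword h (M.vec k) (s : Perm C).support d)⁻¹ = lprod (M.dst k) (fun x => e x s)
  gen : Subgroup.closure (Set.range one ∪ {g | ∃ i a b, g = h i a b} ∪ {g | ∃ x s, g = e x s}) = ⊤

/-- generator `one s` in the free group -/
def gone (s : alternatingGroup C) : FreeGroup (TGen A C) := FreeGroup.of (Sum.inl s)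

/-- generator `h i a b` in the free group -/
def gh (i : Bool) (a b : C) : FreeGroup (TGen A C) := FreeGroup.of (Sum.inr (Sum.inl (i, a, b)))

/-- generator `e x s` in the free group -/
def ge (x : A) (s : alternatingGroup C) : FreeGroup (TGen A C) :=
  FreeGroup.of (Sum.inr (Sum.inr (x, s)))

variable [Fintype A]

/-- the relators of `T` -/
inductive TRels (M : MatchData A) : FreeGroup (TGen A C) → Prop
  | one_mul (s t : alternatingGroup C) : TRels M (gone s * gone t * (gone (s * t))⁻¹)
  | e_mul (x : A) (s t : alternatingGroup C) : TRels M (ge x s * ge x t * (ge x (s * t))⁻¹)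
  | h_mul (i : Bool) (a b c : C) : TRels M (gh i a b * gh i b c * (gh i a c)⁻¹)
  | h_comm (i j : Bool) (a b c d : C) :
      TRels M (gh i a b * gh j c d * (gh j c d * gh i a b)⁻¹)
  | one_h (s : alternatingGroup C) (i : Bool) (a b : C) :
      TRels M (gone s * gh i a b * (gone s)⁻¹ * (gh i ((s : Perm C) a) ((s : Perm C) b))⁻¹)
  | one_e (s : alternatingGroup C) (x : A) (t : alternatingGroup C) :
      TRels M (gone s * ge x t * (gone s)⁻¹ * (ge x (s * t * s⁻¹))⁻¹)
  | e_comm (x y : A) (h : x ≠ y) (s t : alternatingGroup C) :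
      TRels M (ge x s * ge y t * (ge y t * ge x s)⁻¹)
  | e_prod (s : alternatingGroup C) :
      TRels M (lprod Finset.univ (fun x : A => ge x s) * (gone s)⁻¹)
  | h_e (i : Bool) (a b : C) (x : A) (s : alternatingGroup C) (ha : (s : Perm C) a = a)
      (hb : (s : Perm C) b = b) : TRels M (gh i a b * ge x s * (ge x s * gh i a b)⁻¹)
  | matching (k : M.ι) (s : alternatingGroup C) (d : C) (hd : (s : Perm C) d = d) :
      TRels M (hword gh (M.vec k) (s : Perm C).support d * lprod (M.src k) (fun x => ge x s) *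
        (hword gh (M.vec k) (s : Perm C).support d)⁻¹ * (lprod (M.dst k) (fun x => ge x s))⁻¹)

/-- the set of relators -/
def trels (M : MatchData A) (C : Type) [Fintype C] [DecidableEq C] : Set (FreeGroup (TGen A C)) :=
  {r | TRels M r}

theorem trels_finite (M : MatchData A) : (trels M C).Finite := by
  have := M.fin
  let f1 : alternatingGroup C × alternatingGroup C → FreeGroup (TGen A C) :=
    fun p => gone p.1 * gone p.2 * (gone (p.1 * p.2))⁻¹
  let f2 : A × alternatingGroup C × alternatingGroup C → FreeGroup (TGen A C) :=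
    fun p => ge p.1 p.2.1 * ge p.1 p.2.2 * (ge p.1 (p.2.1 * p.2.2))⁻¹
  let f3 : Bool × C × C × C → FreeGroup (TGen A C) :=
    fun p => gh p.1 p.2.1 p.2.2.1 * gh p.1 p.2.2.1 p.2.2.2 * (gh p.1 p.2.1 p.2.2.2)⁻¹
  let f4 : (Bool × Bool) × (C × C) × (C × C) → FreeGroup (TGen A C) :=
    fun p => gh p.1.1 p.2.1.1 p.2.1.2 * gh p.1.2 p.2.2.1 p.2.2.2 *
      (gh p.1.2 p.2.2.1 p.2.2.2 * gh p.1.1 p.2.1.1 p.2.1.2)⁻¹
  let f5 : alternatingGroup C × Bool × C × C → FreeGroup (TGen A C) :=
    fun p => gone p.1 * gh p.2.1 p.2.2.1 p.2.2.2 * (gone p.1)⁻¹ *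
      (gh p.2.1 ((p.1 : Perm C) p.2.2.1) ((p.1 : Perm C) p.2.2.2))⁻¹
  let f6 : alternatingGroup C × A × alternatingGroup C → FreeGroup (TGen A C) :=
    fun p => gone p.1 * ge p.2.1 p.2.2 * (gone p.1)⁻¹ * (ge p.2.1 (p.1 * p.2.2 * p.1⁻¹))⁻¹
  let f7 : (A × A) × alternatingGroup C × alternatingGroup C → FreeGroup (TGen A C) :=
    fun p => ge p.1.1 p.2.1 * ge p.1.2 p.2.2 * (ge p.1.2 p.2.2 * ge p.1.1 p.2.1)⁻¹
  let f8 : alternatingGroup C → FreeGroup (TGen A C) :=
    fun s => lprod Finset.univ (fun x : A => ge x s) * (gone s)⁻¹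
  let f9 : (Bool × C × C) × A × alternatingGroup C → FreeGroup (TGen A C) :=
    fun p => gh p.1.1 p.1.2.1 p.1.2.2 * ge p.2.1 p.2.2 *
      (ge p.2.1 p.2.2 * gh p.1.1 p.1.2.1 p.1.2.2)⁻¹
  let f10 : M.ι × alternatingGroup C × C → FreeGroup (TGen A C) :=
    fun p => hword gh (M.vec p.1) (p.2.1 : Perm C).support p.2.2 *
      lprod (M.src p.1) (fun x => ge x p.2.1) *
      (hword gh (M.vec p.1) (p.2.1 : Perm C).support p.2.2)⁻¹ *
        (lprod (M.dst p.1) (fun x => ge x p.2.1))⁻¹
  refine Set.Finite.subset
    ((Set.finite_range f1).union ((Set.finite_range f2).union ((Set.finite_range f3).union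
      ((Set.finite_range f4).union ((Set.finite_range f5).union ((Set.finite_range f6).union
      ((Set.finite_range f7).union ((Set.finite_range f8).union ((Set.finite_range f9).union
      (Set.finite_range f10)))))))))) ?_
  intro r hr
  rcases hr with ⟨s, t⟩ | ⟨x, s, t⟩ | ⟨i, a, b, c⟩ | ⟨i, j, a, b, c, d⟩ | ⟨s, i, a, b⟩ | ⟨s, x, t⟩ |
    ⟨x, y, h, s, t⟩ | s | ⟨i, a, b, x, s, ha, hb⟩ | ⟨k, s, d, hd⟩
  · exact Or.inl ⟨(s, t), rfl⟩
  · exact Or.inr (Or.inl ⟨(x, s, t), rfl⟩)
  · exact Or.inr (Or.inr (Or.inl ⟨(i, a, b, c), rfl⟩))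
  · exact Or.inr (Or.inr (Or.inr (Or.inl ⟨((i, j), (a, b), (c, d)), rfl⟩)))
  · exact Or.inr (Or.inr (Or.inr (Or.inr (Or.inl ⟨(s, i, a, b), rfl⟩))))
  · exact Or.inr (Or.inr (Or.inr (Or.inr (Or.inr (Or.inl ⟨(s, x, t), rfl⟩)))))
  · exact Or.inr (Or.inr (Or.inr (Or.inr (Or.inr (Or.inr (Or.inl ⟨((x, y), s, t), rfl⟩))))))
  · exact Or.inr (Or.inr (Or.inr (Or.inr (Or.inr (Or.inr (Or.inr (Or.inl ⟨s, rfl⟩)))))))
  · exact Or.inr (Or.inr (Or.inr (Or.inr (Or.inr (Or.inr (Or.inr (Or.inr
      (Or.inl ⟨((i, a, b), x, s), rfl⟩))))))))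
  · exact Or.inr (Or.inr (Or.inr (Or.inr (Or.inr (Or.inr (Or.inr (Or.inr
      (Or.inr ⟨(k, s, d), rfl⟩))))))))

/-- the group `T` -/
abbrev TGrp (M : MatchData A) (C : Type) [Fintype C] [DecidableEq C] : Type :=
  PresentedGroup (trels M C)

/-- `T` is finitely presented. -/
theorem TGrp_fp (M : MatchData A) : Group.IsFinitelyPresented (TGrp M C) := by
  have : Finite (trels M C) := (trels_finite M).to_subtype
  infer_instance

/-- the quotient map from the free group -/
def tmk (M : MatchData A) : FreeGroup (TGen A C) →* TGrp M C := PresentedGroup.mk _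

theorem tmk_rel {M : MatchData A} {r : FreeGroup (TGen A C)} (h : TRels M r) : tmk M r = 1 :=
  PresentedGroup.one_of_mem h

theorem tmk_surjective (M : MatchData A) : Function.Surjective (tmk (C := C) M) :=
  PresentedGroup.mk_surjective _

theorem map_hpow {G G' : Type} [Group G] [Group G'] (φ : G →* G') (h : Bool → C → C → G)
    (v : ℤ × ℤ) (a b : C) : φ (hpow h v a b) = hpow (fun i a b => φ (h i a b)) v a b := by
  simp [hpow]

theorem map_hword {G G' : Type} [Group G] [Group G'] (φ : G →* G') (h : Bool → C → C → G)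
    (v : ℤ × ℤ) (S : Finset C) (d : C) :
    φ (hword h v S d) = hword (fun i a b => φ (h i a b)) v S d := by
  unfold hword
  rw [map_lprod]
  exact lprod_congr (fun c _ => map_hpow φ h v c d)

/-- transport of a model along a surjective homomorphism -/
def TModel.map {M : MatchData A} {G G' : Type} [Group G] [Group G'] (m : TModel M C G)
    (φ : G →* G') (hφ : Function.Surjective φ) : TModel M C G' where
  one := φ.comp m.one
  h := fun i a b => φ (m.h i a b)
  e := fun x => φ.comp (m.e x)
  h_mul := fun i a b c => by rw [← map_mul, m.h_mul]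
  h_comm := fun i j a b c d => by rw [← map_mul, m.h_comm, map_mul]
  one_h := fun s i a b => by
    rw [← m.one_h s i a b]; simp
  one_e := fun s x t => by
    simp only [MonoidHom.comp_apply]
    rw [← m.one_e s x t]; simp
  e_comm := fun x y hxy s t => by
    simp only [MonoidHom.comp_apply]
    rw [← map_mul, m.e_comm x y hxy, map_mul]
  e_prod := fun s => by
    have := congrArg φ (m.e_prod s)
    rw [map_lprod] at this
    simpa using this
  h_e := fun i a b x s ha hb => by
    simp only [MonoidHom.comp_apply]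
    rw [← map_mul, m.h_e i a b x s ha hb, map_mul]
  matching := fun k s d hd => by
    have := congrArg φ (m.matching k s d hd)
    simpa [map_lprod, map_hword] using this
  gen := by
    have h1 := congrArg (Subgroup.map φ) m.gen
    rw [MonoidHom.map_closure, Subgroup.map_top_of_surjective φ hφ] at h1
    rw [← h1]
    congr 1
    ext g
    simp only [Set.mem_union, Set.mem_range, Set.mem_image]
    constructor
    · rintro ((⟨s, rfl⟩ | ⟨i, a, b, rfl⟩) | ⟨x, s, rfl⟩)
      · exact ⟨m.one s, Or.inl (Or.inl ⟨s, rfl⟩), rfl⟩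
      · exact ⟨m.h i a b, Or.inl (Or.inr ⟨i, a, b, rfl⟩), rfl⟩
      · exact ⟨m.e x s, Or.inr ⟨x, s, rfl⟩, rfl⟩
    · rintro ⟨_, ((⟨s, rfl⟩ | ⟨i, a, b, rfl⟩) | ⟨x, s, rfl⟩), rfl⟩
      · exact Or.inl (Or.inl ⟨s, rfl⟩)
      · exact Or.inl (Or.inr ⟨i, a, b, rfl⟩)
      · exact Or.inr ⟨x, s, rfl⟩

/-- the universal model -/
def tModel (M : MatchData A) (C : Type) [Fintype C] [DecidableEq C] : TModel M C (TGrp M C) where
  one :=
    MonoidHom.mk' (fun s => tmk M (gone s)) (fun s t => by
      have := tmk_rel (TRels.one_mul (M := M) s t)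
      rw [map_mul, map_mul, map_inv, mul_inv_eq_one] at this
      exact this.symm)
  h := fun i a b => tmk M (gh i a b)
  e := fun x => MonoidHom.mk' (fun s => tmk M (ge x s)) (fun s t => by
      have := tmk_rel (TRels.e_mul (M := M) x s t)
      rw [map_mul, map_mul, map_inv, mul_inv_eq_one] at this
      exact this.symm)
  h_mul := fun i a b c => by
    have := tmk_rel (TRels.h_mul (M := M) i a b c)
    rwa [map_mul, map_mul, map_inv, mul_inv_eq_one] at this
  h_comm := fun i j a b c d => by
    have := tmk_rel (TRels.h_comm (M := M) i j a b c d)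
    rwa [map_mul, map_mul, map_inv, mul_inv_eq_one, map_mul] at this
  one_h := fun s i a b => by
    have := tmk_rel (TRels.one_h (M := M) s i a b)
    rwa [map_mul, map_mul, map_mul, map_inv, map_inv, mul_inv_eq_one] at this
  one_e := fun s x t => by
    have := tmk_rel (TRels.one_e (M := M) s x t)
    rwa [map_mul, map_mul, map_mul, map_inv, map_inv, mul_inv_eq_one] at this
  e_comm := fun x y h s t => by
    have := tmk_rel (TRels.e_comm (M := M) x y h s t)
    rwa [map_mul, map_mul, map_inv, mul_inv_eq_one, map_mul] at this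
  e_prod := fun s => by
    have := tmk_rel (TRels.e_prod (M := M) s)
    rwa [map_mul, map_inv, mul_inv_eq_one, map_lprod] at this
  h_e := fun i a b x s ha hb => by
    have := tmk_rel (TRels.h_e (M := M) i a b x s ha hb)
    rwa [map_mul, map_mul, map_inv, mul_inv_eq_one, map_mul] at this
  matching := fun k s d hd => by
    have := tmk_rel (TRels.matching (M := M) k s d hd)
    rwa [map_mul, map_mul, map_mul, map_inv, map_inv, mul_inv_eq_one, map_hword, map_lprod,
      map_lprod] at this
  gen := by
    have h1 : Subgroup.closure (Set.range (PresentedGroup.of : TGen A C → TGrp M C)) = ⊤ :=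
      PresentedGroup.closure_range_of _
    rw [← top_le_iff, ← h1, Subgroup.closure_le]
    rintro _ ⟨g, rfl⟩
    apply Subgroup.subset_closure
    rcases g with s | ⟨i, a, b⟩ | ⟨x, s⟩
    · exact Or.inl (Or.inl ⟨s, rfl⟩)
    · exact Or.inl (Or.inr ⟨i, a, b, rfl⟩)
    · exact Or.inr ⟨x, s, rfl⟩

namespace TModel

variable {M : MatchData A} {G : Type} [Group G] (m : TModel M C G)

/-- the images of the generators -/
def fgen : TGen A C → G
  | Sum.inl s => m.one s
  | Sum.inr (Sum.inl (i, a, b)) => m.h i a b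
  | Sum.inr (Sum.inr (x, s)) => m.e x s

@[simp] theorem lift_gone (s : alternatingGroup C) : FreeGroup.lift m.fgen (gone s) = m.one s := by
  simp [gone, fgen]

@[simp] theorem lift_gh (i : Bool) (a b : C) : FreeGroup.lift m.fgen (gh i a b) = m.h i a b := by
  simp [gh, fgen]

@[simp] theorem lift_ge (x : A) (s : alternatingGroup C) :
    FreeGroup.lift m.fgen (ge x s) = m.e x s := by
  simp [ge, fgen]

theorem lift_rel (r : FreeGroup (TGen A C)) (hr : r ∈ trels M C) :
    FreeGroup.lift m.fgen r = 1 := by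
  rcases hr with ⟨s, t⟩ | ⟨x, s, t⟩ | ⟨i, a, b, c⟩ | ⟨i, j, a, b, c, d⟩ | ⟨s, i, a, b⟩ | ⟨s, x, t⟩ |
    ⟨x, y, h, s, t⟩ | s | ⟨i, a, b, x, s, ha, hb⟩ | ⟨k, s, d, hd⟩
  · simp
  · simp
  · simp [m.h_mul]
  · simp only [map_mul, map_inv, lift_gh, mul_inv_eq_one]
    exact m.h_comm i j a b c d
  · simp only [map_mul, map_inv, lift_gh, lift_gone, mul_inv_eq_one]
    exact m.one_h s i a b
  · simp only [map_mul, map_inv, lift_ge, lift_gone, mul_inv_eq_one]
    exact (m.one_e s x t).trans (by simp)
  · simp only [map_mul, map_inv, lift_ge, mul_inv_eq_one]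
    exact m.e_comm x y h s t
  · simp only [map_mul, map_inv, map_lprod, lift_ge, lift_gone, mul_inv_eq_one]
    exact m.e_prod s
  · simp only [map_mul, map_inv, lift_ge, lift_gh, mul_inv_eq_one]
    exact m.h_e i a b x s ha hb
  · simp only [map_mul, map_inv, map_lprod, map_hword, lift_ge, lift_gh, mul_inv_eq_one]
    exact m.matching k s d hd

/-- **universal property** : the homomorphism `T → G` of a model -/
def lift : TGrp M C →* G := PresentedGroup.toGroup m.lift_rel

theorem lift_mk (w : FreeGroup (TGen A C)) : m.lift (tmk M w) = FreeGroup.lift m.fgen w := rfl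

@[simp] theorem lift_one (s : alternatingGroup C) : m.lift ((tModel M C).one s) = m.one s :=
  m.lift_gone s

@[simp] theorem lift_h (i : Bool) (a b : C) : m.lift ((tModel M C).h i a b) = m.h i a b :=
  m.lift_gh i a b

@[simp] theorem lift_e (x : A) (s : alternatingGroup C) :
    m.lift ((tModel M C).e x s) = m.e x s :=
  m.lift_ge x s

theorem lift_surjective : Function.Surjective m.lift := by
  rw [← MonoidHom.range_eq_top, ← top_le_iff, ← m.gen, Subgroup.closure_le]
  rintro _ ((⟨s, rfl⟩ | ⟨i, a, b, rfl⟩) | ⟨x, s, rfl⟩)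
  · exact ⟨_, m.lift_one s⟩
  · exact ⟨_, m.lift_h i a b⟩
  · exact ⟨_, m.lift_e x s⟩

end TModel

end

end Crest.Agent.R189
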