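import Crest.Agent.R189.GpGroup
import Crest.Agent.R189.Tdef

/-!
Row 189 (S0289), helper474.  The group `Gp` is a model of the relations of `T`:
`gpModel : TModel M C (Gp (ℤ × ℤ) letter C)` as soon as the letters satisfy the matching relations.
Hence `gpModel.lift : TGrp M C →* Gp (ℤ × ℤ) letter C` is surjective.
-/

set_option autoImplicit false
set_option linter.unusedSectionVars false

namespace Crest.Agent.R189

open Equiv Equiv.Perm

/-! ### powers and sums of translations -/

section HLemmas

variable {V X C : Type*} [AddCommGroup V] [AddAction V X]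

theorem H_zsmul (lam : C → V) (n : ℤ) : (H (n • lam) : Perm (X × C)) = H lam ^ n := by
  have := map_zpow (Hhom (V := V) (X := X) (C := C)) (Multiplicative.ofAdd lam) n
  exact this

theorem H_list_sum (l : List (C → V)) :
    (H l.sum : Perm (X × C)) = (l.map (fun lam => H lam)).prod := by
  induction l with
  | nil => simp
  | cons a l ih => rw [List.sum_cons, H_add, ih, List.map_cons, List.prod_cons]

end HLemmas

section Letters

variable {X A C : Type*} (letter : X → A)

theorem ev_list_prod (s : Perm C) (l : List A) (hl : l.Nodup) :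
    (l.map (fun a => ev {x | letter x = a} s)).prod = ev {x | letter x ∈ l} s := by
  induction l with
  | nil => simp
  | cons a l ih =>
    rw [List.map_cons, List.prod_cons, ih hl.of_cons, ← ev_union]
    · have : {x | letter x = a} ∪ {x | letter x ∈ l} = {x | letter x ∈ a :: l} := by
        ext x
        simp
      rw [this]
    · rw [Set.disjoint_left]
      intro x hx hx'
      have h1 : letter x = a := hx
      have h2 : letter x ∈ l := hx'
      rw [h1] at h2
      exact (List.nodup_cons.1 hl).1 h2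

end Letters

/-- the unit vectors -/
def uv (i : Bool) : ℤ × ℤ := if i then (0, 1) else (1, 0)

theorem uv_decomp (v : ℤ × ℤ) : v.1 • uv false + v.2 • uv true = v := by
  simp [uv]

section Model

variable {X A C : Type} [AddAction (ℤ × ℤ) X] [Fintype C] [DecidableEq C]

/-- `v` on `a`, `-v` on `b` -/
def dl (v : ℤ × ℤ) (a b : C) : C → ℤ × ℤ := Pi.single a v - Pi.single b v

theorem dl_sum (v : ℤ × ℤ) (a b : C) : ∑ c, dl v a b c = 0 := by
  simp [dl, Finset.sum_sub_distrib, Finset.sum_pi_single']

theorem dl_add (v w : ℤ × ℤ) (a b : C) : dl (v + w) a b = dl v a b + dl w a b := by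
  unfold dl
  rw [Pi.single_add, Pi.single_add]
  abel

theorem dl_zsmul (n : ℤ) (v : ℤ × ℤ) (a b : C) : dl (n • v) a b = n • dl v a b := by
  unfold dl
  rw [smul_sub, Pi.single_smul, Pi.single_smul]

theorem dl_comp (v : ℤ × ℤ) (a b : C) (s : Perm C) :
    dl v a b ∘ (s⁻¹ : Perm C) = dl v (s a) (s b) := by
  have key : ∀ (c a : C), s⁻¹ c = a ↔ c = s a := fun c a => by
    constructor
    · rintro rfl; simp
    · rintro rfl; simp
  ext c <;> simp only [dl, Function.comp_apply, Pi.sub_apply, Pi.single_apply, key]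

theorem dl_mul (v : ℤ × ℤ) (a b c : C) : dl v a b + dl v b c = dl v a c := by
  unfold dl; abel

/-- sum of the elementary translations over a set of colours -/
theorem sum_dl_apply {S : Finset C} {d c : C} (v : ℤ × ℤ) (hd : d ∉ S) (hc : c ∈ S) :
    (∑ b ∈ S, dl v b d) c = v := by
  have hcd : c ≠ d := fun h => hd (h ▸ hc)
  simp only [dl, Finset.sum_apply, Pi.sub_apply, Pi.single_apply, hcd, if_false, sub_zero]
  rw [Finset.sum_ite_eq]
  simp [hc]

theorem H_mem_of_dl {K : Subgroup (Perm (X × C))} [Nonempty C]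
    (h : ∀ i a b, (H (dl (uv i) a b) : Perm (X × C)) ∈ K) {lam : C → ℤ × ℤ}
    (hlam : ∑ c, lam c = 0) : (H lam : Perm (X × C)) ∈ K := by
  classical
  obtain ⟨c0⟩ := ‹Nonempty C›
  have h1 : ∀ (v : ℤ × ℤ) a b, (H (dl v a b) : Perm (X × C)) ∈ K := by
    intro v a b
    rw [← uv_decomp v, dl_add, dl_zsmul, dl_zsmul, H_add, H_zsmul, H_zsmul]
    exact K.mul_mem (K.zpow_mem (h _ _ _) _) (K.zpow_mem (h _ _ _) _)
  have key : ∀ S : Finset C, (H (∑ c ∈ S, dl (lam c) c c0) : Perm (X × C)) ∈ K := by
    intro S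
    induction S using Finset.induction_on with
    | empty => simp
    | insert a S ha ih =>
      rw [Finset.sum_insert ha, H_add]
      exact K.mul_mem (h1 _ _ _) ih
  have h2 := key Finset.univ
  have h3 : ∑ c ∈ (Finset.univ : Finset C), dl (lam c) c c0 = lam := by
    unfold dl
    rw [Finset.sum_sub_distrib, Finset.univ_sum_single]
    have : ∑ c, (Pi.single c0 (lam c) : C → ℤ × ℤ) = Pi.single c0 (∑ c, lam c) := by
      ext a <;> rw [Finset.sum_apply, Pi.single_apply] <;> by_cases ha : a = c0
      · subst ha; simp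
      · simp [ha]
      · subst ha; simp
      · simp [ha]
    rw [this, hlam, Pi.single_zero, sub_zero]
  rwa [h3] at h2

variable [Fintype A] (letter : X → A)

/-- the elementary translations in `Gp` -/
def gH (i : Bool) (a b : C) : Gp (ℤ × ℤ) letter C :=
  ⟨H (dl (uv i) a b), H_mem_Gp (dl_sum _ _ _)⟩

/-- the events in `Gp` -/
noncomputable def gOne : alternatingGroup C →* Gp (ℤ × ℤ) letter C where
  toFun s := ⟨ev Set.univ (s : Perm C), ev_univ_mem_Gp s.2⟩
  map_one' := by ext1; simp
  map_mul' s t := by ext1; simp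

noncomputable def gE (a : A) : alternatingGroup C →* Gp (ℤ × ℤ) letter C where
  toFun s := ⟨ev {x | letter x = a} (s : Perm C), ev_letter_mem_Gp a s.2⟩
  map_one' := by ext1; simp
  map_mul' s t := by ext1; simp

@[simp] theorem coe_gH (i : Bool) (a b : C) :
    ((gH letter i a b : Gp (ℤ × ℤ) letter C) : Perm (X × C)) = H (dl (uv i) a b) := rfl

@[simp] theorem coe_gOne (s : alternatingGroup C) :
    ((gOne letter s : Gp (ℤ × ℤ) letter C) : Perm (X × C)) = ev Set.univ (s : Perm C) := rfl

@[simp] theorem coe_gE (a : A) (s : alternatingGroup C) :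
    ((gE letter a s : Gp (ℤ × ℤ) letter C) : Perm (X × C)) =
      ev {x | letter x = a} (s : Perm C) := rfl

theorem coe_hpow_gH (v : ℤ × ℤ) (a b : C) :
    ((hpow (gH letter) v a b : Gp (ℤ × ℤ) letter C) : Perm (X × C)) = H (dl v a b) := by
  have h : (H (dl v a b) : Perm (X × C)) =
      H (dl (uv false) a b) ^ v.1 * H (dl (uv true) a b) ^ v.2 := by
    conv_lhs => rw [← uv_decomp v, dl_add, dl_zsmul, dl_zsmul, H_add, H_zsmul, H_zsmul]
  rw [h]
  simp [hpow]

theorem coe_hword_gH (v : ℤ × ℤ) (S : Finset C) (d : C) :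
    ((hword (gH letter) v S d : Gp (ℤ × ℤ) letter C) : Perm (X × C)) =
      H (∑ c ∈ S, dl v c d) := by
  have h1 := map_lprod (Gp (ℤ × ℤ) letter C).subtype S (fun c => hpow (gH letter) v c d)
  simp only [Subgroup.subtype_apply] at h1
  unfold hword
  rw [h1]
  unfold lprod
  rw [← Finset.sum_map_toList, H_list_sum, List.map_map]
  congr 1
  apply List.map_congr_left
  intro c _
  exact coe_hpow_gH letter v c d

theorem coe_lprod_gE (E : Finset A) (s : alternatingGroup C) :
    ((lprod E (fun x => gE letter x s) : Gp (ℤ × ℤ) letter C) : Perm (X × C)) =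
      ev {x | letter x ∈ E} (s : Perm C) := by
  have h1 := map_lprod (Gp (ℤ × ℤ) letter C).subtype E (fun x => gE letter x s)
  simp only [Subgroup.subtype_apply, coe_gE] at h1
  rw [h1]
  unfold lprod
  rw [ev_list_prod letter _ _ E.nodup_toList]
  simp

theorem commute_H_ev {lam : C → ℤ × ℤ} (E : Set X) (s : Perm C)
    (h : ∀ c, s c ≠ c → lam c = 0) : H lam * ev E s = ev E s * H lam := by
  have h1 := H_conj_ev lam (0 : ℤ × ℤ) E s h
  have h2 : {x : X | -(0 : ℤ × ℤ) +ᵥ x ∈ E} = E := by
    ext x; simp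
  rw [h2] at h1
  exact mul_inv_eq_iff_eq_mul.1 h1

/-- **`Gp` is a model of `T`.** -/
noncomputable def gpModel (M : MatchData A) [Nonempty C]
    (hM : ∀ (k : M.ι) (x : X), letter (-(M.vec k) +ᵥ x) ∈ M.src k ↔ letter x ∈ M.dst k) :
    TModel M C (Gp (ℤ × ℤ) letter C) where
  one := gOne letter
  h := gH letter
  e := gE letter
  h_mul := fun i a b c => by
    ext1
    rw [Subgroup.coe_mul, coe_gH, coe_gH, coe_gH, ← H_add, dl_mul]
  h_comm := fun i j a b c d => by
    ext1
    rw [Subgroup.coe_mul, Subgroup.coe_mul, coe_gH, coe_gH, ← H_add, ← H_add, add_comm]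
  one_h := fun s i a b => by
    ext1
    rw [Subgroup.coe_mul, Subgroup.coe_mul, Subgroup.coe_inv, coe_gH, coe_gH, coe_gOne,
      ev_univ_conj_H, dl_comp]
  one_e := fun s x t => by
    ext1
    rw [Subgroup.coe_mul, Subgroup.coe_mul, Subgroup.coe_inv, coe_gE, coe_gE, coe_gOne,
      ev_univ_conj]
    rfl
  e_comm := fun x y hxy s t => by
    ext1
    rw [Subgroup.coe_mul, Subgroup.coe_mul, coe_gE, coe_gE]
    apply (ev_disjoint_commute ?_ _ _).eq
    rw [Set.disjoint_left]
    intro z hz hz'
    exact hxy (hz.symm.trans hz')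
  e_prod := fun s => by
    ext1
    rw [coe_lprod_gE, coe_gOne]
    have : {x : X | letter x ∈ (Finset.univ : Finset A)} = Set.univ := by
      ext x
      simp
    rw [this]
  h_e := fun i a b x s ha hb => by
    ext1
    rw [Subgroup.coe_mul, Subgroup.coe_mul, coe_gE, coe_gH]
    apply commute_H_ev
    intro c hc
    have h1 : c ≠ a := fun h => hc (by rw [h]; exact ha)
    have h2 : c ≠ b := fun h => hc (by rw [h]; exact hb)
    simp [dl, h1, h2]
  matching := fun k s d hd => by
    ext1
    rw [Subgroup.coe_mul, Subgroup.coe_mul, Subgroup.coe_inv, coe_hword_gH, coe_lprod_gE,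
      coe_lprod_gE, H_conj_ev _ (M.vec k)]
    · have : {x : X | -(M.vec k) +ᵥ x ∈ {x | letter x ∈ M.src k}} = {x | letter x ∈ M.dst k} := by
        ext x
        exact hM k x
      rw [this]
    · intro c hc
      exact sum_dl_apply _ (by simpa using hd) (by simpa using hc)
  gen := by
    set K : Subgroup (Gp (ℤ × ℤ) letter C) := Subgroup.closure
      (Set.range (gOne letter) ∪ {g | ∃ i a b, g = gH letter i a b} ∪
        {g | ∃ x s, g = gE letter x s}) with hK
    have hle : Gp (ℤ × ℤ) letter C ≤ K.map (Gp (ℤ × ℤ) letter C).subtype := by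
      conv_lhs => rw [Gp]
      rw [Subgroup.closure_le]
      rintro g ((⟨lam, hlam, rfl⟩ | ⟨s, hs, rfl⟩) | ⟨a, s, hs, rfl⟩)
      · apply H_mem_of_dl _ hlam
        intro i a b
        exact ⟨gH letter i a b, Subgroup.subset_closure (Or.inl (Or.inr ⟨i, a, b, rfl⟩)), rfl⟩
      · exact ⟨gOne letter ⟨s, hs⟩,
          Subgroup.subset_closure (Or.inl (Or.inl ⟨⟨s, hs⟩, rfl⟩)), rfl⟩
      · exact ⟨gE letter a ⟨s, hs⟩, Subgroup.subset_closure (Or.inr ⟨a, ⟨s, hs⟩, rfl⟩), rfl⟩
    rw [eq_top_iff]
    intro g _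
    obtain ⟨g', hg', hgg⟩ := hle g.2
    have : g' = g := Subtype.ext hgg
    rwa [← this]

end Model

end Crest.Agent.R189
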