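import Crest.Agent.R189.Tcol

/-!
# Row 189 (S0289): matching as translation of events; `T` is perfect; Gruen's lemma; `T / Z(T)`
(blueprint E0)   (helper396)
-/

set_option autoImplicit false
set_option linter.unusedSectionVars false

namespace Crest.Agent.R189

open Equiv Equiv.Perm Multiplicative
open scoped commutatorElement

/-- Two homomorphisms on `Alt(C)` that agree on 3-cycles are equal. -/
theorem altHom_ext {C : Type} [Fintype C] [DecidableEq C] {G : Type} [Group G]
    {f g : alternatingGroup C →* G}
    (h : ∀ s : alternatingGroup C, (s : Perm C).IsThreeCycle → f s = g s) : f = g := by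
  have h1 : Subgroup.closure {t : Perm C | t.IsThreeCycle} ≤
      (f.eqLocus g).map (alternatingGroup C).subtype := by
    rw [Subgroup.closure_le]
    intro t ht
    exact ⟨⟨t, ht.mem_alternatingGroup⟩, h _ ht, rfl⟩
  rw [Perm.closure_three_cycles_eq_alternating] at h1
  apply MonoidHom.ext
  intro s
  obtain ⟨s', hs', hss'⟩ := h1 s.2
  have : s' = s := Subtype.ext hss'
  rw [← this]
  exact hs'

/-- If all commutators `⁅x, g⁆` are central and `G` is perfect, then `x` is central. -/
theorem gruen_aux {G : Type} [Group G] (hG : commutator G = ⊤) (x : G)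
    (h1 : ∀ g : G, ⁅x, g⁆ ∈ Subgroup.center G) : x ∈ Subgroup.center G := by
  let φ : G →* G := MonoidHom.mk' (fun g => ⁅x, g⁆) (by
    intro g h
    show ⁅x, g * h⁆ = ⁅x, g⁆ * ⁅x, h⁆
    have h4 := Subgroup.mem_center_iff.1 (h1 h) g
    rw [commutatorElement_def] at h4 ⊢
    rw [commutatorElement_def, commutatorElement_def]
    calc x * (g * h) * x⁻¹ * (g * h)⁻¹
        = x * g * x⁻¹ * (x * h * x⁻¹ * h⁻¹) * g⁻¹ := by group
      _ = x * g * x⁻¹ * g⁻¹ * (g * (x * h * x⁻¹ * h⁻¹)) * g⁻¹ := by group
      _ = x * g * x⁻¹ * g⁻¹ * (x * h * x⁻¹ * h⁻¹ * g) * g⁻¹ := by rw [h4]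
      _ = x * g * x⁻¹ * g⁻¹ * (x * h * x⁻¹ * h⁻¹) := by group)
  have h5 : commutator G ≤ φ.ker := by
    rw [commutator_def, Subgroup.commutator_le]
    intro g _ h _
    rw [MonoidHom.mem_ker, map_commutatorElement]
    exact commutatorElement_eq_one_iff_mul_comm.2 (Subgroup.mem_center_iff.1 (h1 g) (φ h)).symm
  rw [Subgroup.mem_center_iff]
  intro g
  have h6 : g ∈ φ.ker := h5 (hG ▸ Subgroup.mem_top g)
  have h7 : ⁅x, g⁆ = 1 := MonoidHom.mem_ker.1 h6
  exact (commutatorElement_eq_one_iff_mul_comm.1 h7).symm

/-- Gruen's lemma: for a perfect group `G` the group `G / Z(G)` has trivial centre. -/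
theorem gruen {G : Type} [Group G] (hG : commutator G = ⊤) :
    Subgroup.center (G ⧸ Subgroup.center G) = ⊥ := by
  rw [eq_bot_iff]
  intro y hy
  obtain ⟨x, rfl⟩ := QuotientGroup.mk'_surjective (Subgroup.center G) y
  rw [Subgroup.mem_bot]
  have h0 : x ∈ Subgroup.center G := by
    apply gruen_aux hG
    intro g
    have h2 := Subgroup.mem_center_iff.1 hy (QuotientGroup.mk' (Subgroup.center G) g)
    have h3 : QuotientGroup.mk' (Subgroup.center G) ⁅x, g⁆ = 1 := by
      rw [map_commutatorElement]
      exact commutatorElement_eq_one_iff_mul_comm.2 h2.symm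
    rwa [← MonoidHom.mem_ker, QuotientGroup.ker_mk'] at h3
  rw [← QuotientGroup.ker_mk' (Subgroup.center G)] at h0
  exact MonoidHom.mem_ker.1 h0

namespace TModel

variable {A : Type} [Fintype A] {C : Type} [Fintype C] [DecidableEq C] {M : MatchData A}
  {G : Type} [Group G] (m : TModel M C G)

theorem setHom_conj (k : M.ι) (s : alternatingGroup C) (l : C → ℤ × ℤ) (hl : ∑ c, l c = 0)
    (hls : ∀ c ∈ (s : Perm C).support, l c = M.vec k) (c1 : C)
    (hs : (s : Perm C).support ≠ Finset.univ) :
    (m.HK c1 l : G) * m.setHom (M.src k) s * (m.HK c1 l : G)⁻¹ = m.setHom (M.dst k) s := by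
  classical
  obtain ⟨d, hd⟩ : ∃ d, d ∉ (s : Perm C).support := by
    by_contra hne
    push Not at hne
    exact hs (Finset.eq_univ_iff_forall.2 hne)
  set S := (s : Perm C).support with hS
  let l0 : C → ℤ × ℤ :=
    fun c => (if c ∈ S then M.vec k else 0) - (if c = d then (S.card • M.vec k) else 0)
  have hl0 : ∑ c, l0 c = 0 := by
    simp [l0, Finset.sum_sub_distrib, Finset.sum_ite_mem]
  have h1 : (m.HK c1 l0 : G) * m.setHom (M.src k) s * (m.HK c1 l0 : G)⁻¹ =
      m.setHom (M.dst k) s := by
    have h := m.matching k s d (Perm.notMem_support.1 hd)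
    rw [m.hword_eq c1 _ _ d hd] at h
    exact h
  have h2 : (m.HK c1 l : G) = m.HK c1 l0 * m.HK c1 (l - l0) := by
    rw [← Subgroup.coe_mul, ← m.HK_add]
    congr 2
    simp
  have h3 : ∑ c, (l - l0) c = 0 := by
    simp only [Pi.sub_apply, Finset.sum_sub_distrib, hl, hl0, sub_zero]
  have h4 : (m.HK c1 (l - l0) : G) ∈ m.sub Sᶜ := by
    rw [m.HK_base c1 d _ h3]
    refine m.HK_mem_sub d _ _ (by simpa using hd) ?_
    intro c hc
    rw [Finset.mem_compl, not_not] at hc
    have hcd : c ≠ d := fun h => hd (h ▸ hc)
    simp [l0, hc, hcd, hls c hc]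
  have h5 : m.setHom (M.src k) s ∈ m.sub S := lprod_mem (fun _ _ => m.e_mem_sub (le_refl _))
  have h6 := m.sub_comm (S := Sᶜ) (S' := S) disjoint_compl_left _ h4 _ h5
  rw [h2, mul_inv_rev, mul_assoc (m.HK c1 l0 : G), h6]
  rw [← h1]
  group

/-- the matching relations as translations of events -/
theorem isTrans_matching (hC : 30 ≤ Fintype.card C) (k : M.ι) :
    Ev.IsTrans (M.vec k) (m.setEv hC (M.src k)) (m.setEv hC (M.dst k)) := by
  intro s l hl hls
  have c1 : C := Classical.choice (nonempty_of_card hC)
  rw [m.colGrp_H hC c1 l hl]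
  by_cases hs : (s : Perm C).support = Finset.univ
  · have h0 : M.vec k = 0 := by
      have h1 : ∀ c, l c = M.vec k := fun c => hls c (hs ▸ Finset.mem_univ c)
      have h2 : Fintype.card C • M.vec k = 0 := by
        simpa [h1] using hl
      have h3 : Fintype.card C ≠ 0 := by omega
      exact (smul_eq_zero.1 h2).resolve_left h3
    have h1 : l = 0 := funext fun c => by rw [hls c (hs ▸ Finset.mem_univ c), h0]; rfl
    have h2 : m.setHom (M.src k) = m.setHom (M.dst k) := by
      apply altHom_ext
      intro t ht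
      have h4 : (t : Perm C).support ≠ Finset.univ := by
        intro h
        have := ht.card_support
        rw [h, Finset.card_univ] at this
        omega
      have h3 := m.setHom_conj k t 0 (by simp) (fun c _ => by rw [h0]; rfl) c1 h4
      simpa [HK] using h3
    show m.setHom (M.dst k) s = _ * m.setHom (M.src k) s * _
    rw [h1, h2]
    simp [HK]
  · exact (m.setHom_conj k s l hl hls c1 hs).symm

/-- the letter events: orthogonality -/
theorem letterEv_orth (hC : 30 ≤ Fintype.card C) {x y : A} (h : x ≠ y) :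
    Ev.Orth (m.letterEv hC x) (m.letterEv hC y) := fun s t => m.e_comm x y h s t

/-- the letter events: the total sum is the unit -/
theorem setEv_univ (hC : 30 ≤ Fintype.card C) :
    m.setEv hC Finset.univ = Ev.unit (m.colGrp hC) :=
  Ev.ext (fun s => m.e_prod s)

include m in
/-- every model (in particular `T`) is perfect -/
theorem perfect (hC : 30 ≤ Fintype.card C) : commutator G = ⊤ := by
  have hAlt : commutator (alternatingGroup C) = ⊤ :=
    commutator_alternatingGroup_eq_top (by rw [Nat.card_eq_fintype_card]; omega)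
  have key : ∀ (f : alternatingGroup C →* G) (s : alternatingGroup C), f s ∈ commutator G := by
    intro f s
    have h1 : (commutator (alternatingGroup C)).map f ≤ commutator G := by
      rw [commutator_def, commutator_def, Subgroup.map_commutator]
      exact Subgroup.commutator_mono le_top le_top
    exact h1 ⟨s, hAlt ▸ Subgroup.mem_top s, rfl⟩
  rw [← top_le_iff, ← m.gen, Subgroup.closure_le]
  rintro _ ((⟨s, rfl⟩ | ⟨i, b, c, rfl⟩) | ⟨x, s, rfl⟩)
  · exact key m.one s
  · by_cases hbc : b = c
    · subst hbc
      have h1 := m.h_mul i b b b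
      rw [mul_eq_left] at h1
      rw [h1]
      exact Subgroup.one_mem _
    · obtain ⟨a, ha⟩ : ∃ a, a ∉ ({b, c} : Finset C) := by
        by_contra hne
        push Not at hne
        have h1 : ({b, c} : Finset C) = Finset.univ := Finset.eq_univ_iff_forall.2 hne
        have h2 : ({b, c} : Finset C).card ≤ 2 := Finset.card_le_two
        rw [h1, Finset.card_univ] at h2
        omega
      obtain ⟨d, hd⟩ : ∃ d, d ∉ ({a, b, c} : Finset C) := by
        by_contra hne
        push Not at hne
        have h1 : ({a, b, c} : Finset C) = Finset.univ := Finset.eq_univ_iff_forall.2 hne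
        have h2 : ({a, b, c} : Finset C).card ≤ 3 := Finset.card_le_three
        rw [h1, Finset.card_univ] at h2
        omega
      simp only [Finset.mem_insert, Finset.mem_singleton, not_or] at ha hd
      have h3 : (swap b c * swap b d).IsThreeCycle :=
        Perm.isThreeCycle_swap_mul_swap_same hbc (Ne.symm hd.2.1) (Ne.symm hd.2.2)
      -- s = (b c)(b d) : b ↦ d ↦ d, d ↦ b ↦ c, c ↦ c ↦ b
      let s : alternatingGroup C := ⟨swap b c * swap b d, h3.mem_alternatingGroup⟩
      have hsa : (s : Perm C) a = a := by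
        show (swap b c * swap b d) a = a
        rw [Perm.mul_apply, swap_apply_of_ne_of_ne ha.1 (fun h => hd.1 h.symm),
          swap_apply_of_ne_of_ne ha.1 ha.2]
      have hsc : (s : Perm C) c = b := by
        show (swap b c * swap b d) c = b
        rw [Perm.mul_apply, swap_apply_of_ne_of_ne (Ne.symm hbc) (Ne.symm hd.2.2),
          swap_apply_right]
      have h4 := m.one_h s i a c
      rw [hsa, hsc] at h4
      -- h a b = [one s, h a c] * h a c ; h a c = h a b * h b c
      have h5 : ⁅m.one s, m.h i a c⁆ = (m.h i b c)⁻¹ := by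
        rw [commutatorElement_def, h4, ← m.h_mul i a b c, m.h_comm i i a b b c, mul_inv_rev,
          mul_inv_cancel_left]
      rw [← inv_inv (m.h i b c), ← h5]
      exact Subgroup.inv_mem _ (Subgroup.commutator_mem_commutator (Subgroup.mem_top _)
        (Subgroup.mem_top _))
  · exact key (m.e x) s

/-- the model `T / Z(T)` -/
noncomputable def modCenter : TModel M C (G ⧸ Subgroup.center G) :=
  m.map (QuotientGroup.mk' _) (QuotientGroup.mk'_surjective _)

include m in
theorem modCenter_center (hC : 30 ≤ Fintype.card C) :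
    Subgroup.center (G ⧸ Subgroup.center G) = ⊥ := gruen (m.perfect hC)

end TModel

/-- a surjection onto a centreless group kills the centre -/
theorem center_le_ker {G G' : Type} [Group G] [Group G'] (f : G →* G')
    (hf : Function.Surjective f) (hG' : Subgroup.center G' = ⊥) :
    Subgroup.center G ≤ f.ker := by
  intro z hz
  rw [MonoidHom.mem_ker, ← Subgroup.mem_bot, ← hG', Subgroup.mem_center_iff]
  intro g
  obtain ⟨g, rfl⟩ := hf g
  rw [← map_mul, ← map_mul, Subgroup.mem_center_iff.1 hz g]

end Crest.Agent.R189
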