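import Crest.Agent.R189.Sem
import Crest.Agent.R189.GlueT
import Crest.Agent.R189.Tper

/-!
# Row 189: concrete representations of the models of `T` (helper516)

`Conc m letter φ` : the homomorphism `φ : G →* Perm (X × C)` has the concrete values on the
generators of the model `m : TModel M C G`.  Then `Conc.rep : Rep (m.colGrp hC) X` and
`R.set (letterEv x) = {y | letter y = x}`.

* `qT letter M hM : TGrp M C →* Perm (X × C)`  and  `qTbar : TGrp M C ⧸ center →* Perm (X × C)`.
-/

set_option autoImplicit false

namespace Crest.Agent.R189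

open Equiv Equiv.Perm
open scoped IsMulCommutative

theorem sum_dl_self {C : Type} [Fintype C] [DecidableEq C] {lam : C → ℤ × ℤ}
    (hlam : ∑ c, lam c = 0) (c0 : C) : ∑ c, dl (lam c) c c0 = lam := by
  unfold dl
  rw [Finset.sum_sub_distrib, Finset.univ_sum_single]
  have : ∑ c, (Pi.single c0 (lam c) : C → ℤ × ℤ) = Pi.single c0 (∑ c, lam c) := by
    ext a <;> rw [Finset.sum_apply, Pi.single_apply] <;> by_cases ha : a = c0
    · subst ha; simp
    · simp [ha]
    · subst ha; simp
    · simp [ha]
  rw [this, hlam, Pi.single_zero, sub_zero]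

section

variable {X A C : Type} [AddAction (ℤ × ℤ) X] [Fintype C] [DecidableEq C] [Fintype A]
variable {M : MatchData A} {G : Type} [Group G]

/-- `φ` has the concrete values on the generators of the model `m` -/
structure Conc (m : TModel M C G) (letter : X → A) (φ : G →* Perm (X × C)) : Prop where
  one : ∀ s : alternatingGroup C, φ (m.one s) = ev Set.univ (s : Perm C)
  h : ∀ i a b, φ (m.h i a b) = H (dl (uv i) a b)
  e : ∀ x (s : alternatingGroup C), φ (m.e x s) = ev {y | letter y = x} (s : Perm C)

namespace Conc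

variable {m : TModel M C G} {letter : X → A} {φ : G →* Perm (X × C)}

theorem hpow_eq (hφ : Conc m letter φ) (v : ℤ × ℤ) (a b : C) :
    φ (hpow m.h v a b) = H (dl v a b) := by
  rw [map_hpow]
  simp only [hpow, hφ.h]
  conv_rhs => rw [← uv_decomp v, dl_add, dl_zsmul, dl_zsmul, H_add, H_zsmul, H_zsmul]

theorem HK_eq (hφ : Conc m letter φ) (c0 : C) {l : C → ℤ × ℤ} (hl : ∑ c, l c = 0) :
    φ (m.HK c0 l : G) = H l := by
  have key : ∀ S : Finset C, φ ((∏ c ∈ S, m.pK c c0 (Multiplicative.ofAdd (l c)) : m.K) : G) =
      H (∑ c ∈ S, dl (l c) c c0) := by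
    intro S
    induction S using Finset.induction_on with
    | empty => simp
    | insert a S ha ih =>
      rw [Finset.prod_insert ha, Finset.sum_insert ha, H_add, Subgroup.coe_mul, map_mul, ih,
        m.pK_coe, hφ.hpow_eq]
  have h1 := key Finset.univ
  rwa [sum_dl_self hl] at h1

/-- **the concrete representation of a model** -/
noncomputable def rep (hC : 30 ≤ Fintype.card C) (hφ : Conc m letter φ) :
    Rep (m.colGrp hC) X where
  toHom := φ
  one := hφ.one
  H l hl := hφ.HK_eq _ hl
  sub B t ht x c hc := by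
    change t ∈ m.sub B at ht
    unfold TModel.sub at ht
    induction ht using Subgroup.closure_induction with
    | mem t ht =>
      rcases ht with (⟨s, hs, rfl⟩ | ⟨i, a, b, ha, hb, rfl⟩) | ⟨y, s, hs, rfl⟩
      · rw [hφ.one, ev_univ_apply]
        have : c ∉ (s : Perm C).support := fun h => hc (hs h)
        rw [Perm.notMem_support.1 this]
      · rw [hφ.h, H_apply]
        have h1 : c ≠ a := fun h => hc (h ▸ ha)
        have h2 : c ≠ b := fun h => hc (h ▸ hb)
        simp [dl, h1, h2]
      · rw [hφ.e]
        have : c ∉ (s : Perm C).support := fun h => hc (hs h)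
        by_cases hy : x ∈ {z | letter z = y}
        · rw [ev_apply_mem hy, Perm.notMem_support.1 this]
        · rw [ev_apply_notMem hy]
    | one => rw [map_one, Perm.one_apply]
    | mul a b _ _ ha hb => rw [map_mul, Perm.mul_apply, hb, ha]
    | inv a _ ha => rw [map_inv, Perm.inv_eq_iff_eq]; exact ha.symm

@[simp] theorem rep_toHom (hC : 30 ≤ Fintype.card C) (hφ : Conc m letter φ) :
    (hφ.rep hC).toHom = φ := rfl

theorem set_letterEv (hC : 30 ≤ Fintype.card C) (hφ : Conc m letter φ) (x : A) :
    (hφ.rep hC).set (m.letterEv hC x) = {y | letter y = x} :=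
  (hφ.rep hC).set_eq_of_sem fun s => hφ.e x s

theorem setHom_eq (hφ : Conc m letter φ) (E : Finset A) (s : alternatingGroup C) :
    φ (m.setHom E s) = ev {y | letter y ∈ E} (s : Perm C) := by
  show φ (lprod E (fun x => m.e x s)) = _
  rw [map_lprod]
  simp only [hφ.e]
  unfold lprod
  rw [ev_list_prod letter _ _ E.nodup_toList]
  simp

theorem set_setEv (hC : 30 ≤ Fintype.card C) (hφ : Conc m letter φ) (E : Finset A) :
    (hφ.rep hC).set (m.setEv hC E) = {y | letter y ∈ E} :=
  (hφ.rep hC).set_eq_of_sem fun s => hφ.setHom_eq E s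

/-- values at a point -/
theorem one_apply (hφ : Conc m letter φ) (s : alternatingGroup C) (x : X) (c : C) :
    φ (m.one s) (x, c) = (x, (s : Perm C) c) := by
  rw [hφ.one, ev_univ_apply]

theorem h_apply (hφ : Conc m letter φ) (i : Bool) (a b : C) (x : X) (c : C) :
    φ (m.h i a b) (x, c) = (dl (uv i) a b c +ᵥ x, c) := by
  rw [hφ.h, H_apply]

theorem e_apply_eq (hφ : Conc m letter φ) {y : A} (s : alternatingGroup C) {x : X}
    (h : letter x = y) (c : C) : φ (m.e y s) (x, c) = (x, (s : Perm C) c) := by
  rw [hφ.e, ev_apply_mem (show x ∈ {z | letter z = y} from h)]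

theorem e_apply_ne (hφ : Conc m letter φ) {y : A} (s : alternatingGroup C) {x : X}
    (h : letter x ≠ y) (c : C) : φ (m.e y s) (x, c) = (x, c) := by
  rw [hφ.e, ev_apply_notMem (show x ∉ {z | letter z = y} from h)]

/-- transport along a surjection -/
theorem map {G' : Type} [Group G'] {ψ : G →* G'} (hψ : Function.Surjective ψ)
    {φ' : G' →* Perm (X × C)} (hφ : Conc m letter (φ'.comp ψ)) : Conc (m.map ψ hψ) letter φ' where
  one := hφ.one
  h := hφ.h
  e := hφ.e

end Conc

/-! ### the group `T` and `T / Z(T)` -/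

section T

variable [Nonempty C] (letter : X → A) (M : MatchData A)
  (hM : ∀ (k : M.ι) (x : X), letter (-(M.vec k) +ᵥ x) ∈ M.src k ↔ letter x ∈ M.dst k)

/-- `T → Perm (X × C)` -/
noncomputable def qT : TGrp M C →* Perm (X × C) :=
  (Gp (ℤ × ℤ) letter C).subtype.comp (gpModel letter M hM).lift

theorem qT_apply (t : TGrp M C) :
    qT (C := C) letter M hM t = ((gpModel letter M hM).lift t : Perm (X × C)) := rfl

theorem range_qT : (qT (C := C) letter M hM).range = Gp (ℤ × ℤ) letter C := by
  rw [qT, MonoidHom.range_comp, MonoidHom.range_eq_top.2 (gpModel letter M hM).lift_surjective,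
    ← MonoidHom.range_eq_map, Subgroup.range_subtype]

theorem ker_qT : (qT (C := C) letter M hM).ker = (gpModel (C := C) letter M hM).lift.ker := by
  ext t
  rw [MonoidHom.mem_ker, MonoidHom.mem_ker, qT_apply]
  exact ⟨fun h => Subtype.ext h, fun h => by rw [h]; rfl⟩

theorem conc_qT : Conc (tModel M C) letter (qT (C := C) letter M hM) where
  one s := by rw [qT_apply, TModel.lift_one]; rfl
  h i a b := by rw [qT_apply, TModel.lift_h]; rfl
  e x s := by rw [qT_apply, TModel.lift_e]; rfl

variable (hZ : Subgroup.center (Gp (ℤ × ℤ) letter C) = ⊥)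
include hZ

theorem center_le_ker_qT :
    Subgroup.center (TGrp M C) ≤ (qT (C := C) letter M hM).ker := by
  rw [ker_qT]
  exact center_le_ker _ (gpModel letter M hM).lift_surjective hZ

/-- `T / Z(T) → Perm (X × C)` -/
noncomputable def qTbar : TGrp M C ⧸ Subgroup.center (TGrp M C) →* Perm (X × C) :=
  QuotientGroup.lift _ (qT (C := C) letter M hM) (center_le_ker_qT letter M hM hZ)

theorem qTbar_mk (t : TGrp M C) :
    qTbar letter M hM hZ (QuotientGroup.mk' _ t) = qT (C := C) letter M hM t := rfl

theorem qTbar_comp :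
    (qTbar (C := C) letter M hM hZ).comp (QuotientGroup.mk' _) = qT (C := C) letter M hM := rfl

theorem conc_qTbar :
    Conc (tModel M C).modCenter letter (qTbar (C := C) letter M hM hZ) :=
  Conc.map (QuotientGroup.mk'_surjective _) (conc_qT letter M hM)

/-- if `T / Z(T)` acts faithfully then `ker (T → Gp) = Z(T)` -/
theorem ker_qT_eq_center (h : Function.Injective (qTbar (C := C) letter M hM hZ)) :
    (qT (C := C) letter M hM).ker = Subgroup.center (TGrp M C) := by
  apply le_antisymm _ (center_le_ker_qT letter M hM hZ)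
  intro t ht
  rw [MonoidHom.mem_ker, ← qTbar_mk letter M hM hZ] at ht
  have h1 : QuotientGroup.mk' (Subgroup.center (TGrp M C)) t = 1 :=
    h (ht.trans (map_one _).symm)
  exact (QuotientGroup.eq_one_iff t).1 h1

/-- the same from: the kernel of `T / Z(T) → Perm` is central -/
theorem injective_qTbar (hC : 30 ≤ Fintype.card C)
    (h : ∀ w, qTbar (C := C) letter M hM hZ w = 1 → w ∈ Subgroup.center (TGrp M C ⧸ Subgroup.center (TGrp M C))) :
    Function.Injective (qTbar (C := C) letter M hM hZ) := by
  rw [injective_iff_map_eq_one]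
  intro w hw
  have h1 := h w hw
  rw [(tModel M C).modCenter_center hC] at h1
  exact (Subgroup.mem_bot).1 h1

end T

end

end Crest.Agent.R189
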