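import Mathlib

/-!
# Row 189, M7 (E3): geometry of the hierarchy

`a₀` is the initial parameter, `aa a₀ k = a₀ + k`, `nn a₀ k = 3 * (a₀ + k)` the number of rows/columns
of level `k`; `pp k`, `qq k : ℤ × ℤ` the two steps of level `k`
(`p₀ = (0,1)`, `q₀ = (1,0)`, `p_{k+1} = q_k`, `q_{k+1} = n_k p_k`), `ww`, `hh` the width and the
height of the level `k` box `Bx k = [0,w_k) × [0,h_k)`.
-/

set_option autoImplicit false

namespace Crest.Agent.R189

def aa (a₀ k : ℕ) : ℕ := a₀ + k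
def nn (a₀ k : ℕ) : ℕ := 3 * (a₀ + k)

/-- the pair of steps `(p_k, q_k)` -/
def stp (a₀ : ℕ) : ℕ → (ℤ × ℤ) × (ℤ × ℤ)
  | 0 => ((0, 1), (1, 0))
  | k + 1 => ((stp a₀ k).2, (nn a₀ k : ℤ) • (stp a₀ k).1)

def pp (a₀ k : ℕ) : ℤ × ℤ := (stp a₀ k).1
def qq (a₀ k : ℕ) : ℤ × ℤ := (stp a₀ k).2

/-- width and height of the level `k` box -/
def wh (a₀ : ℕ) : ℕ → ℕ × ℕ
  | 0 => (1, 1)
  | k + 1 => if Even k then ((wh a₀ k).1, nn a₀ k * (wh a₀ k).2)
      else (nn a₀ k * (wh a₀ k).1, (wh a₀ k).2)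

def ww (a₀ k : ℕ) : ℕ := (wh a₀ k).1
def hh (a₀ k : ℕ) : ℕ := (wh a₀ k).2

variable {a₀ : ℕ}

@[simp] lemma pp_zero : pp a₀ 0 = (0, 1) := rfl
@[simp] lemma qq_zero : qq a₀ 0 = (1, 0) := rfl
lemma pp_succ (k : ℕ) : pp a₀ (k + 1) = qq a₀ k := rfl
lemma qq_succ (k : ℕ) : qq a₀ (k + 1) = (nn a₀ k : ℤ) • pp a₀ k := rfl
@[simp] lemma ww_zero : ww a₀ 0 = 1 := rfl
@[simp] lemma hh_zero : hh a₀ 0 = 1 := rfl
lemma ww_succ_even {k : ℕ} (hk : Even k) : ww a₀ (k + 1) = ww a₀ k := by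
  simp [ww, wh, hk]
lemma hh_succ_even {k : ℕ} (hk : Even k) : hh a₀ (k + 1) = nn a₀ k * hh a₀ k := by
  simp [hh, wh, hk]
lemma ww_succ_odd {k : ℕ} (hk : ¬ Even k) : ww a₀ (k + 1) = nn a₀ k * ww a₀ k := by
  simp [ww, wh, hk]
lemma hh_succ_odd {k : ℕ} (hk : ¬ Even k) : hh a₀ (k + 1) = hh a₀ k := by
  simp [hh, wh, hk]

lemma nn_pos (h : 0 < a₀) (k : ℕ) : 0 < nn a₀ k := by unfold nn; omega

lemma ww_pos (h : 0 < a₀) (k : ℕ) : 0 < ww a₀ k := by
  induction k with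
  | zero => simp
  | succ k ih =>
    by_cases hk : Even k
    · rw [ww_succ_even hk]; exact ih
    · rw [ww_succ_odd hk]; exact Nat.mul_pos (nn_pos h k) ih

lemma hh_pos (h : 0 < a₀) (k : ℕ) : 0 < hh a₀ k := by
  induction k with
  | zero => simp
  | succ k ih =>
    by_cases hk : Even k
    · rw [hh_succ_even hk]; exact Nat.mul_pos (nn_pos h k) ih
    · rw [hh_succ_odd hk]; exact ih

/-- the steps in terms of width and height -/
lemma stp_eq (k : ℕ) : stp a₀ k =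
    if Even k then ((0, (hh a₀ k : ℤ)), ((ww a₀ k : ℤ), 0))
      else (((ww a₀ k : ℤ), 0), (0, (hh a₀ k : ℤ))) := by
  induction k with
  | zero => simp [stp]
  | succ k ih =>
    by_cases hk : Even k
    · have hk' : ¬ Even (k + 1) := by
        intro h; exact (Nat.even_add_one.1 h) hk
      rw [if_neg hk', stp, ih, if_pos hk, ww_succ_even hk, hh_succ_even hk]
      simp
    · have hk' : Even (k + 1) := Nat.even_add_one.2 hk
      rw [if_pos hk', stp, ih, if_neg hk, ww_succ_odd hk, hh_succ_odd hk]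
      simp

lemma pp_even {k : ℕ} (hk : Even k) : pp a₀ k = (0, (hh a₀ k : ℤ)) := by
  rw [pp, stp_eq, if_pos hk]
lemma qq_even {k : ℕ} (hk : Even k) : qq a₀ k = ((ww a₀ k : ℤ), 0) := by
  rw [qq, stp_eq, if_pos hk]
lemma pp_odd {k : ℕ} (hk : ¬ Even k) : pp a₀ k = ((ww a₀ k : ℤ), 0) := by
  rw [pp, stp_eq, if_neg hk]
lemma qq_odd {k : ℕ} (hk : ¬ Even k) : qq a₀ k = (0, (hh a₀ k : ℤ)) := by
  rw [qq, stp_eq, if_neg hk]

/-- the level `k` box -/
noncomputable def Bx (a₀ k : ℕ) : Finset (ℤ × ℤ) :=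
  Finset.Ico (0 : ℤ) (ww a₀ k) ×ˢ Finset.Ico (0 : ℤ) (hh a₀ k)

lemma mem_Bx {k : ℕ} {v : ℤ × ℤ} :
    v ∈ Bx a₀ k ↔ (0 ≤ v.1 ∧ v.1 < ww a₀ k) ∧ (0 ≤ v.2 ∧ v.2 < hh a₀ k) := by
  simp [Bx, Finset.mem_product]

@[simp] lemma Bx_zero : Bx a₀ 0 = {(0, 0)} := by
  ext v; rw [mem_Bx]; simp [Prod.ext_iff]; omega

lemma card_Bx (k : ℕ) : (Bx a₀ k).card = ww a₀ k * hh a₀ k := by
  simp [Bx]

/-- decomposition of the next box -/
lemma Bx_succ (h : 0 < a₀) (k : ℕ) (v : ℤ × ℤ) :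
    v ∈ Bx a₀ (k + 1) ↔ ∃ u ∈ Bx a₀ k, ∃ j : ℕ, j < nn a₀ k ∧ v = u + (j : ℤ) • pp a₀ k := by
  have hw := ww_pos h k
  have hh' := hh_pos h k
  have hn := nn_pos h k
  by_cases hk : Even k
  · rw [mem_Bx, ww_succ_even hk, hh_succ_even hk, pp_even hk]
    constructor
    · rintro ⟨⟨h1, h2⟩, h3, h4⟩
      refine ⟨(v.1, v.2 % (hh a₀ k : ℤ)), ?_, (v.2 / (hh a₀ k : ℤ)).toNat, ?_, ?_⟩
      · rw [mem_Bx]
        refine ⟨⟨h1, h2⟩, Int.emod_nonneg _ (by omega), Int.emod_lt_of_pos _ (by exact_mod_cast hh')⟩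
      · have : v.2 / (hh a₀ k : ℤ) < nn a₀ k := by
          apply Int.ediv_lt_of_lt_mul (by exact_mod_cast hh'); push_cast at h4; exact h4
        have h5 : 0 ≤ v.2 / (hh a₀ k : ℤ) := Int.ediv_nonneg h3 (by positivity)
        omega
      · have h5 : 0 ≤ v.2 / (hh a₀ k : ℤ) := Int.ediv_nonneg h3 (by positivity)
        rw [Int.toNat_of_nonneg h5]
        ext
        · simp
        · simp only [Prod.snd_add, Prod.smul_snd, smul_eq_mul]
          have := Int.emod_add_mul_ediv v.2 (hh a₀ k : ℤ)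
          rw [mul_comm (v.2 / (hh a₀ k : ℤ))]; exact this.symm
    · rintro ⟨u, hu, j, hj, rfl⟩
      rw [mem_Bx] at hu
      obtain ⟨⟨h1, h2⟩, h3, h4⟩ := hu
      simp only [Prod.fst_add, Prod.smul_fst, Prod.snd_add, Prod.smul_snd, smul_eq_mul, mul_zero,
        add_zero]
      refine ⟨⟨h1, h2⟩, by positivity, ?_⟩
      have : (j : ℤ) + 1 ≤ nn a₀ k := by exact_mod_cast hj
      push_cast
      nlinarith
  · rw [mem_Bx, ww_succ_odd hk, hh_succ_odd hk, pp_odd hk]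
    constructor
    · rintro ⟨⟨h1, h2⟩, h3, h4⟩
      refine ⟨(v.1 % (ww a₀ k : ℤ), v.2), ?_, (v.1 / (ww a₀ k : ℤ)).toNat, ?_, ?_⟩
      · rw [mem_Bx]
        refine ⟨⟨Int.emod_nonneg _ (by omega), Int.emod_lt_of_pos _ (by exact_mod_cast hw)⟩, h3, h4⟩
      · have : v.1 / (ww a₀ k : ℤ) < nn a₀ k := by
          apply Int.ediv_lt_of_lt_mul (by exact_mod_cast hw); push_cast at h2; exact h2
        have h5 : 0 ≤ v.1 / (ww a₀ k : ℤ) := Int.ediv_nonneg h1 (by positivity)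
        omega
      · have h5 : 0 ≤ v.1 / (ww a₀ k : ℤ) := Int.ediv_nonneg h1 (by positivity)
        rw [Int.toNat_of_nonneg h5]
        ext
        · simp only [Prod.fst_add, Prod.smul_fst, smul_eq_mul]
          have := Int.emod_add_mul_ediv v.1 (ww a₀ k : ℤ)
          rw [mul_comm (v.1 / (ww a₀ k : ℤ))]; exact this.symm
        · simp
    · rintro ⟨u, hu, j, hj, rfl⟩
      rw [mem_Bx] at hu
      obtain ⟨⟨h1, h2⟩, h3, h4⟩ := hu
      simp only [Prod.fst_add, Prod.smul_fst, Prod.snd_add, Prod.smul_snd, smul_eq_mul, mul_zero,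
        add_zero]
      refine ⟨⟨by positivity, ?_⟩, h3, h4⟩
      have : (j : ℤ) + 1 ≤ nn a₀ k := by exact_mod_cast hj
      push_cast
      nlinarith

/-- the decomposition of `Bx_succ` is unique -/
lemma Bx_unique (h : 0 < a₀) {k : ℕ} {u u' : ℤ × ℤ} (hu : u ∈ Bx a₀ k) (hu' : u' ∈ Bx a₀ k)
    {j j' : ℤ} (he : u + j • pp a₀ k = u' + j' • pp a₀ k) : u = u' ∧ j = j' := by
  have hw : (0 : ℤ) < ww a₀ k := by exact_mod_cast ww_pos h k
  have hh' : (0 : ℤ) < hh a₀ k := by exact_mod_cast hh_pos h k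
  rw [mem_Bx] at hu hu'
  by_cases hk : Even k
  · rw [pp_even hk] at he
    have e1 := congrArg Prod.fst he
    have e2 := congrArg Prod.snd he
    simp only [Prod.fst_add, Prod.smul_fst, Prod.snd_add, Prod.smul_snd, smul_eq_mul, mul_zero,
        add_zero] at e1 e2
    have hj : j = j' := by
      by_contra hne
      rcases lt_or_gt_of_ne hne with hlt | hlt
      · have : (j + 1) * (hh a₀ k : ℤ) ≤ j' * (hh a₀ k : ℤ) :=
          mul_le_mul_of_nonneg_right (by omega) hh'.le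
        nlinarith [hu.2.1, hu.2.2, hu'.2.1, hu'.2.2]
      · have : (j' + 1) * (hh a₀ k : ℤ) ≤ j * (hh a₀ k : ℤ) :=
          mul_le_mul_of_nonneg_right (by omega) hh'.le
        nlinarith [hu.2.1, hu.2.2, hu'.2.1, hu'.2.2]
    subst hj
    exact ⟨Prod.ext e1 (by linarith), rfl⟩
  · rw [pp_odd hk] at he
    have e1 := congrArg Prod.fst he
    have e2 := congrArg Prod.snd he
    simp only [Prod.fst_add, Prod.smul_fst, Prod.snd_add, Prod.smul_snd, smul_eq_mul, mul_zero,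
        add_zero] at e1 e2
    have hj : j = j' := by
      by_contra hne
      rcases lt_or_gt_of_ne hne with hlt | hlt
      · have : (j + 1) * (ww a₀ k : ℤ) ≤ j' * (ww a₀ k : ℤ) :=
          mul_le_mul_of_nonneg_right (by omega) hw.le
        nlinarith [hu.1.1, hu.1.2, hu'.1.1, hu'.1.2]
      · have : (j' + 1) * (ww a₀ k : ℤ) ≤ j * (ww a₀ k : ℤ) :=
          mul_le_mul_of_nonneg_right (by omega) hw.le
        nlinarith [hu.1.1, hu.1.2, hu'.1.1, hu'.1.2]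
    subst hj
    exact ⟨Prod.ext (by linarith) e2, rfl⟩

/-- the lattice `L_k = w_k ℤ × h_k ℤ`, generated by `p_k`, `q_k` -/
lemma lattice_gen (k : ℕ) (x y : ℤ) :
    ((x * ww a₀ k, y * hh a₀ k) : ℤ × ℤ) =
      (if Even k then x • qq a₀ k + y • pp a₀ k else x • pp a₀ k + y • qq a₀ k) := by
  by_cases hk : Even k
  · rw [if_pos hk, pp_even hk, qq_even hk]; ext <;> simp
  · rw [if_neg hk, pp_odd hk, qq_odd hk]; ext <;> simp

end Crest.Agent.R189
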