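import Crest.Agent.R189.RN
import Crest.Agent.R189.HierGeo

/-!
# Row 189, M7 (E3): the hierarchy of levels (definitions)

Starting from a level structure `LS D p q a c St` all levels are explicit:
`hP k`, `hQ k : G`, `hD k : E`, `hc k : ℕ → E`, `hSt k : Star → E`, and
`LS.lvl : LS (hD k) (hP k) (hQ k) (a + k) (hc k) (hSt k)`.
For `G = Multiplicative (ℤ × ℤ)`, `p = (0,1)`, `q = (1,0)`: `hP k = ofAdd (pp a k)`,
`hQ k = ofAdd (qq a k)` (`pp`, `qq` of `HierGeo.lean`).
-/

set_option autoImplicit false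

namespace Crest.Agent.R189

open Romp

section steps
variable {G : Type*} [CommGroup G]

/-- the steps `(p_k, q_k)` in the group `G` -/
def hstp (p q : G) (a : ℕ) : ℕ → G × G
  | 0 => (p, q)
  | k + 1 => ((hstp p q a k).2, (hstp p q a k).1 ^ (3 * (a + k)))

/-- `p_k` -/
def hP (p q : G) (a k : ℕ) : G := (hstp p q a k).1
/-- `q_k` -/
def hQ (p q : G) (a k : ℕ) : G := (hstp p q a k).2

@[simp] theorem hP_zero (p q : G) (a : ℕ) : hP p q a 0 = p := rfl
@[simp] theorem hQ_zero (p q : G) (a : ℕ) : hQ p q a 0 = q := rfl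
theorem hP_succ (p q : G) (a k : ℕ) : hP p q a (k + 1) = hQ p q a k := rfl
theorem hQ_succ (p q : G) (a k : ℕ) : hQ p q a (k + 1) = hP p q a k ^ (3 * (a + k)) := rfl

end steps

/-- steps for `ℤ²` -/
theorem hstp_eq (a k : ℕ) :
    hstp (Multiplicative.ofAdd ((0, 1) : ℤ × ℤ)) (Multiplicative.ofAdd ((1, 0) : ℤ × ℤ)) a k =
      (Multiplicative.ofAdd (pp a k), Multiplicative.ofAdd (qq a k)) := by
  induction k with
  | zero => rfl
  | succ k ih =>
    rw [hstp, ih, pp_succ, qq_succ]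
    refine Prod.ext rfl ?_
    show Multiplicative.ofAdd (pp a k) ^ (3 * (a + k)) = _
    rw [← ofAdd_nsmul, nn, natCast_zsmul]

theorem hP_eq (a k : ℕ) :
    hP (Multiplicative.ofAdd ((0, 1) : ℤ × ℤ)) (Multiplicative.ofAdd ((1, 0) : ℤ × ℤ)) a k =
      Multiplicative.ofAdd (pp a k) := by rw [hP, hstp_eq]

theorem hQ_eq (a k : ℕ) :
    hQ (Multiplicative.ofAdd ((0, 1) : ℤ × ℤ)) (Multiplicative.ofAdd ((1, 0) : ℤ × ℤ)) a k =
      Multiplicative.ofAdd (qq a k) := by rw [hQ, hstp_eq]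

section levels
variable {G E : Type*} [CommGroup G] [ROMP E] [OMPAct G E]

/-- digits and stars of level `k` -/
noncomputable def hlvl (p q : G) (a : ℕ) (c : ℕ → E) (St : Star → E) :
    ℕ → (ℕ → E) × (Star → E)
  | 0 => (c, St)
  | k + 1 => (nextC (hQ p q a k) (hlvl p q a c St k).1 (hlvl p q a c St k).2,
      nextSt (hlvl p q a c St k).1 (hlvl p q a c St k).2)

/-- `c^(k)` -/
noncomputable def hc (p q : G) (a : ℕ) (c : ℕ → E) (St : Star → E) (k : ℕ) : ℕ → E :=
  (hlvl p q a c St k).1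

/-- `St^(k)` -/
noncomputable def hSt (p q : G) (a : ℕ) (c : ℕ → E) (St : Star → E) (k : ℕ) : Star → E :=
  (hlvl p q a c St k).2

/-- `D_k` -/
noncomputable def hD (D : E) (p q : G) (a : ℕ) (c : ℕ → E) (St : Star → E) : ℕ → E
  | 0 => D
  | k + 1 => hc p q a c St k 0

variable {D : E} {p q : G} {a : ℕ} {c : ℕ → E} {St : Star → E}

@[simp] theorem hc_zero : hc p q a c St 0 = c := rfl
@[simp] theorem hSt_zero : hSt p q a c St 0 = St := rfl
@[simp] theorem hD_zero : hD D p q a c St 0 = D := rfl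
theorem hc_succ (k : ℕ) : hc p q a c St (k + 1) =
    nextC (hQ p q a k) (hc p q a c St k) (hSt p q a c St k) := rfl
theorem hSt_succ (k : ℕ) : hSt p q a c St (k + 1) =
    nextSt (hc p q a c St k) (hSt p q a c St k) := rfl
theorem hD_succ (k : ℕ) : hD D p q a c St (k + 1) = hc p q a c St k 0 := rfl

end levels

section LS
variable {G E : Type*} [CommGroup G] [ROMP E] [OMPAct G E]
variable {D : E} {p q : G} {a : ℕ} {c : ℕ → E} {St : Star → E}

/-- every level is a level structure -/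
theorem LS.lvl (h : LS D p q a c St) (k : ℕ) :
    LS (hD D p q a c St k) (hP p q a k) (hQ p q a k) (a + k) (hc p q a c St k)
      (hSt p q a c St k) := by
  induction k with
  | zero => exact h
  | succ k ih => exact ih.next

end LS

end Crest.Agent.R189
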