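import Crest.Agent.R189.RN5
import Crest.Agent.R189.RN1Star

/-!
Row 189, THEOREM RN, steps 1-5 (helper535).

For `h : LS D p q a c St` and an active row `i` (`a ≤ i ≤ 2a`):
* `h.m = modeEv q (c 0) St`, `h.iota = c 0 - m`, `h.T Θ = c 0 ∧ [P.tau ∈ Θ]`
* `h.sp σ`, `h.sm σ` : the events `s⁺(σ)`, `s⁻(σ)` (independent of `i`)
* `h.m_eq_row_f : m = Row i {Qf.s = f}`, `h.m_eq_row_l : m = Row i {Qb.s = l}`
* `h.row_Qf_s : Row i {Qf.s = σ} = sp σ`, `h.row_Qb_s : Row i {Qb.s = σ} = sm σ`, `h.q_sp : q • sp σ = sm σ`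
* `h.comm_m_row`, `h.comm_m_Lab`, `h.comm_m_Pb`, `h.pow_m`
* `h.Lab_blank`, `h.Lab_low`, `h.Lab_high`, `h.Lab_st`
-/

set_option autoImplicit false

namespace Crest.Agent.R189

open Romp

variable {G E : Type*} [CommGroup G] [ROMP E] [OMPAct G E]
variable {D : E} {p q : G} {a : ℕ} {c : ℕ → E} {St : Star → E}

namespace LS

/-! ### definitions -/

/-- `T Θ = c 0 ∧ [P.tau ∈ Θ]` -/
noncomputable def T (_h : LS D p q a c St) (Θ : Set Tau) : E := Row p c St 0 {s | s.Pf.tau ∈ Θ}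

/-- the mode event -/
noncomputable def m (_h : LS D p q a c St) : E := modeEv q (c 0) St

/-- `iota = c 0 - m` -/
noncomputable def iota (_h : LS D p q a c St) : E := c 0 -ₒ modeEv q (c 0) St

open Classical in
/-- `s⁺(σ)` -/
noncomputable def sp (h : LS D p q a c St) (σ : S) : E :=
  if σ = .f then h.m else h.iota ⊓ₒ h.T {t | t.snd = σ}

open Classical in
/-- `s⁻(σ)` -/
noncomputable def sm (h : LS D p q a c St) (σ : S) : E :=
  if σ = .l then h.m else h.iota ⊓ₒ h.T {t | t.fst = σ}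

/-! ### active rows -/

theorem act_lt (h : LS D p q a c St) {i : ℕ} (h1 : a ≤ i) (h2 : i ≤ 2 * a) :
    0 < i ∧ i < 3 * a := by
  have := h.three_le
  omega

theorem row_le_act (h : LS D p q a c St) {i : ℕ} (h1 : a ≤ i) (h2 : i ≤ 2 * a) {A B : Set Star}
    (hAB : ∀ s ∈ A, s.domP = true → s.Qb.tau = tauOf a i → s.ActFacts → s ∈ B) :
    Row p c St i A ≤ Row p c St i B := by
  obtain ⟨h0, hj⟩ := h.act_lt h1 h2
  refine h.Row_le_Row h0 hj fun s hs hd ht => hAB s hs hd ht ?_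
  exact Star.actFacts hd (by rw [ht]; exact tauOf_active' h.three_le h1 h2)

theorem row_eq_act (h : LS D p q a c St) {i : ℕ} (h1 : a ≤ i) (h2 : i ≤ 2 * a) {A B : Set Star}
    (hAB : ∀ s : Star, s.domP = true → s.Qb.tau = tauOf a i → s.ActFacts → (s ∈ A ↔ s ∈ B)) :
    Row p c St i A = Row p c St i B := by
  obtain ⟨h0, hj⟩ := h.act_lt h1 h2
  refine h.Row_eq_Row h0 hj fun s hd ht => hAB s hd ht ?_
  exact Star.actFacts hd (by rw [ht]; exact tauOf_active' h.three_le h1 h2)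

/-- (L8) for sets of `s`-values -/
theorem q_row_Qf_s (h : LS D p q a c St) {i : ℕ} (h0 : 0 < i) (h2 : i < 3 * a)
    (Θ : Set (Option S)) :
    q • Row p c St i {s | s.Qf.s ∈ Θ} = Row p c St i {s | s.Qb.s ∈ Θ} :=
  h.q_Row h0 h2 {st | st.map Prod.fst ∈ Θ}

/-- (L8) for sets of `r`-values -/
theorem q_row_Qf_r (h : LS D p q a c St) {i : ℕ} (h0 : 0 < i) (h2 : i < 3 * a)
    (Θ : Set (Option Rel)) :
    q • Row p c St i {s | s.Qf.r ∈ Θ} = Row p c St i {s | s.Qb.r ∈ Θ} :=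
  h.q_Row h0 h2 {st | st.map Prod.snd ∈ Θ}

theorem T_eq_row (h : LS D p q a c St) (i : ℕ) (Θ : Set Tau) :
    h.T Θ = Row p c St i {s | s.Pf.tau ∈ Θ} := (h.Row_tau i Θ).symm

theorem T_eq_row_Pb (h : LS D p q a c St) (i : ℕ) (Θ : Set Tau) :
    h.T Θ = Row p c St i {s | s.Pb.tau ∈ Θ} := by
  rw [h.T_eq_row i]
  congr 1
  ext s
  simp [Star.Pf_tau']

theorem m_def (h : LS D p q a c St) : h.m = (q • h.T {.t2l}) ⊓ₒ (q⁻¹ • h.T {.f0}) := by
  simp [m, T, modeEv, Row]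

/-- the decomposition of `A_0` (step 3) -/
theorem step3 (h : LS D p q a c St) {i : ℕ} (h1 : a ≤ i) (h2 : i ≤ 2 * a) :
    ∃ X : E, Orth (Row p c St i {s | s.Qf.s = some .f}) X ∧
      q • h.T {.t2l} = Row p c St i {s | s.Qf.s = some .f} +ₒ X ∧
      Row p c St i {s | s.Qf.s = some .f} ≤ q⁻¹ • h.T {.f0} ∧ Orth X (q⁻¹ • h.T {.f0}) ∧
      X ≤ q • Row p c St i {s | s.Qf.s = some .f} := by
  obtain ⟨h0, hj⟩ := h.act_lt h1 h2
  have hM : Row p c St i {s | s.Qb.s = some .l} = Row p c St i {s | s.Qf.s = some .f} :=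
    h.row_eq_act h1 h2 fun s _ _ hs => hs.r_iff
  have hqf : ∀ σ : S, q • Row p c St i {s | s.Qf.s = some σ} = Row p c St i {s | s.Qb.s = some σ} :=
    fun σ => h.q_row_Qf_s h0 hj {some σ}
  have hdis : Disjoint {s : Star | s.Qf.s = some .l} {s : Star | s.Pf.tau = .t2l ∧ s.Qf.s ≠ some .l} := by
    rw [Set.disjoint_left]
    intro s hs hs'
    exact hs'.2 hs
  refine ⟨q • Row p c St i {s | s.Pf.tau = .t2l ∧ s.Qf.s ≠ some .l}, ?_, ?_, ?_, ?_, ?_⟩
  · rw [← hM, ← hqf, smul_orth_iff]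
    exact h.Row_orth i hdis
  · rw [← hM, ← hqf, ← Romp.smul_add, h.Row_add i hdis, h.T_eq_row i]
    congr 1
    refine h.row_eq_act h1 h2 fun s _ _ hs => ?_
    simp only [Set.mem_ofPred_eq, Set.mem_singleton_iff, Set.mem_union]
    constructor
    · intro ht
      by_cases hl : s.Qf.s = some .l
      · exact Or.inl hl
      · exact Or.inr ⟨ht, hl⟩
    · rintro (hl | ⟨ht, -⟩)
      · rw [Star.Pf_tau']; exact hs.f3 hl
      · exact ht
  · rw [← smul_le_smul_iff q, smul_inv_smul, hqf, h.T_eq_row i]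
    refine h.row_le_act h1 h2 fun s hs _ _ hf => ?_
    simp only [Set.mem_ofPred_eq, Set.mem_singleton_iff] at hs ⊢
    rw [Star.Pf_tau']; exact hf.f4 hs
  · have e1 : q • Row p c St i {s | s.Pf.tau = .t2l ∧ s.Qf.s ≠ some .l} ≤
        q • Row p c St i {s | s.Qf.s = some .f} := by
      rw [smul_le_smul_iff]
      refine h.row_le_act h1 h2 fun s hs _ _ hf => ?_
      exact hf.f5 (by rw [← Star.Pf_tau']; exact hs.1) hs.2
    have e2 : q • Row p c St i {s | s.Qf.s = some .f} ≤ Row p c St i {s | s.Qf.s = some .s0} := by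
      rw [hqf]
      exact h.row_le_act h1 h2 fun s hs _ _ hf => hf.f6 hs
    have e3 : Orth (Row p c St i {s | s.Qf.s = some .s0}) (q⁻¹ • h.T {.f0}) := by
      rw [← smul_orth_iff q, smul_inv_smul, hqf, h.T_eq_row i]
      have e4 : Row p c St i {s | s.Qb.s = some .s0} ≤ Row p c St i {s | s.Pf.tau ∈ ({.f0} : Set Tau)}ᶜ := by
        refine h.row_le_act h1 h2 fun s hs _ _ hf => ?_
        simp only [Set.mem_compl_iff, Set.mem_ofPred_eq, Set.mem_singleton_iff] at hs ⊢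
        rw [Star.Pf_tau']; exact hf.f7 hs
      exact (h.Row_orth i disjoint_compl_left).mono_left e4
    exact e3.mono_left (e1.trans e2)
  · rw [smul_le_smul_iff]
    refine h.row_le_act h1 h2 fun s hs _ _ hf => ?_
    exact hf.f5 (by rw [← Star.Pf_tau']; exact hs.1) hs.2

theorem m_eq_row_f (h : LS D p q a c St) {i : ℕ} (h1 : a ≤ i) (h2 : i ≤ 2 * a) :
    h.m = Row p c St i {s | s.Qf.s = some .f} := by
  obtain ⟨X, hX, hA, hB, hXB, -⟩ := h.step3 h1 h2
  rw [h.m_def, hA]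
  exact meet_eq_of_decomp hX hB hXB

theorem m_eq_row_l (h : LS D p q a c St) {i : ℕ} (h1 : a ≤ i) (h2 : i ≤ 2 * a) :
    h.m = Row p c St i {s | s.Qb.s = some .l} := by
  rw [h.m_eq_row_f h1 h2]
  exact h.row_eq_act h1 h2 fun s _ _ hs => hs.r_iff.symm

/-- `A_0 ~ B_0` -/
theorem comm_A_B (h : LS D p q a c St) : Comm (q • h.T {.t2l}) (q⁻¹ • h.T {.f0}) := by
  obtain ⟨X, hX, hA, hB, hXB, -⟩ := h.step3 (i := a) le_rfl (by omega)
  exact ⟨_, X, hX, hA, hB, hXB⟩

theorem m_le_A (h : LS D p q a c St) : h.m ≤ q • h.T {.t2l} := by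
  rw [h.m_def]; exact meet_le_left h.comm_A_B

theorem m_le_B (h : LS D p q a c St) : h.m ≤ q⁻¹ • h.T {.f0} := by
  rw [h.m_def]; exact meet_le_right h.comm_A_B

/-- `A_0 = m + X` with `X ≤ q • m` -/
theorem A_eq (h : LS D p q a c St) :
    ∃ X : E, Orth h.m X ∧ q • h.T {.t2l} = h.m +ₒ X ∧ X ≤ q • h.m := by
  obtain ⟨X, hX, hA, hB, hXB, hX2⟩ := h.step3 (i := a) le_rfl (by omega)
  rw [← h.m_eq_row_f le_rfl (by omega)] at hX hA hX2
  exact ⟨X, hX, hA, hX2⟩

theorem m_le (h : LS D p q a c St) : h.m ≤ c 0 := by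
  rw [h.m_eq_row_f (i := a) le_rfl (by omega)]; exact h.Row_le _ _

theorem iota_le (h : LS D p q a c St) : h.iota ≤ c 0 := sub_le h.m_le

theorem iota_def (h : LS D p q a c St) : h.iota = c 0 -ₒ h.m := rfl

theorem orth_m_iota (h : LS D p q a c St) : Orth h.m h.iota := orth_sub h.m_le

theorem m_add_iota (h : LS D p q a c St) : h.m +ₒ h.iota = c 0 := add_sub h.m_le

theorem iota_eq_row_f (h : LS D p q a c St) {i : ℕ} (h1 : a ≤ i) (h2 : i ≤ 2 * a) :
    h.iota = Row p c St i {s | s.Qf.s ≠ some .f} := by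
  rw [h.iota_def, h.m_eq_row_f h1 h2, h.Row_compl]; rfl

theorem iota_eq_row_l (h : LS D p q a c St) {i : ℕ} (h1 : a ≤ i) (h2 : i ≤ 2 * a) :
    h.iota = Row p c St i {s | s.Qb.s ≠ some .l} := by
  rw [h.iota_def, h.m_eq_row_l h1 h2, h.Row_compl]; rfl

/-- `m` is `p^n`-invariant -/
theorem pow_m (h : LS D p q a c St) : p ^ (3 * a) • h.m = h.m := by
  rw [h.m_def, smul_meet, smul_smul, smul_smul, mul_comm _ q, mul_comm _ q⁻¹, ← smul_smul,
    ← smul_smul]
  simp only [T]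
  rw [h.pn_Row_tau, h.pn_Row_tau]

theorem pow_iota (h : LS D p q a c St) : p ^ (3 * a) • h.iota = h.iota := by
  rw [h.iota_def, Romp.smul_sub, h.pow_m, h.pn_c]

/-! ### step 4 -/

theorem row_Qf_s (h : LS D p q a c St) {i : ℕ} (h1 : a ≤ i) (h2 : i ≤ 2 * a) (σ : S) :
    Row p c St i {s | s.Qf.s = some σ} = h.sp σ := by
  unfold sp
  split_ifs with hσ
  · subst hσ; exact (h.m_eq_row_f h1 h2).symm
  · rw [h.iota_eq_row_f h1 h2, h.T_eq_row i, h.Row_meet]
    refine h.row_eq_act h1 h2 fun s _ _ hs => ?_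
    simp only [Set.mem_ofPred_eq, Set.mem_inter_iff]
    constructor
    · intro e
      have hf : s.Qf.s ≠ some .f := by rw [e]; simpa using hσ
      refine ⟨hf, ?_⟩
      have := (hs.f8 (fun hl => hf (hs.r_iff.1 hl))).2
      rw [Star.Pf_tau']
      rw [e] at this
      exact (Option.some.inj this).symm
    · rintro ⟨hf, ht⟩
      have := (hs.f8 (fun hl => hf (hs.r_iff.1 hl))).2
      rw [this, ← Star.Pf_tau', ht]

theorem row_Qb_s (h : LS D p q a c St) {i : ℕ} (h1 : a ≤ i) (h2 : i ≤ 2 * a) (σ : S) :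
    Row p c St i {s | s.Qb.s = some σ} = h.sm σ := by
  unfold sm
  split_ifs with hσ
  · subst hσ; exact (h.m_eq_row_l h1 h2).symm
  · rw [h.iota_eq_row_l h1 h2, h.T_eq_row i, h.Row_meet]
    refine h.row_eq_act h1 h2 fun s _ _ hs => ?_
    simp only [Set.mem_ofPred_eq, Set.mem_inter_iff]
    constructor
    · intro e
      have hl : s.Qb.s ≠ some .l := by rw [e]; simpa using hσ
      refine ⟨hl, ?_⟩
      have := (hs.f8 hl).1
      rw [Star.Pf_tau']
      rw [e] at this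
      exact (Option.some.inj this).symm
    · rintro ⟨hl, ht⟩
      have := (hs.f8 hl).1
      rw [this, ← Star.Pf_tau', ht]

theorem q_sp (h : LS D p q a c St) (σ : S) : q • h.sp σ = h.sm σ := by
  have h1 : a ≤ a := le_rfl
  have h2 : a ≤ 2 * a := by omega
  obtain ⟨h0, hj⟩ := h.act_lt h1 h2
  rw [← h.row_Qf_s h1 h2, ← h.row_Qb_s h1 h2]
  exact h.q_row_Qf_s h0 hj {some σ}

theorem sp_f (h : LS D p q a c St) : h.sp .f = h.m := by simp [sp]
theorem sm_l (h : LS D p q a c St) : h.sm .l = h.m := by simp [sm]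
theorem sp_of_ne (h : LS D p q a c St) {σ : S} (hσ : σ ≠ .f) :
    h.sp σ = h.iota ⊓ₒ h.T {t | t.snd = σ} := by simp [sp, hσ]
theorem sm_of_ne (h : LS D p q a c St) {σ : S} (hσ : σ ≠ .l) :
    h.sm σ = h.iota ⊓ₒ h.T {t | t.fst = σ} := by simp [sm, hσ]

/-! ### step 5 -/

/-- `m` commutes with everything in the active rows -/
theorem comm_m_row (h : LS D p q a c St) {i : ℕ} (h1 : a ≤ i) (h2 : i ≤ 2 * a) (A : Set Star) :
    Comm h.m (Row p c St i A) := by
  rw [h.m_eq_row_f h1 h2]; exact h.Row_comm _ _ _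

theorem comm_iota_row (h : LS D p q a c St) {i : ℕ} (h1 : a ≤ i) (h2 : i ≤ 2 * a) (A : Set Star) :
    Comm h.iota (Row p c St i A) := by
  rw [h.iota_eq_row_f h1 h2]; exact h.Row_comm _ _ _

theorem comm_m_T (h : LS D p q a c St) (Θ : Set Tau) : Comm h.m (h.T Θ) := by
  rw [h.T_eq_row a]; exact h.comm_m_row le_rfl (by omega) _

theorem comm_iota_T (h : LS D p q a c St) (Θ : Set Tau) : Comm h.iota (h.T Θ) := by
  rw [h.T_eq_row a]; exact h.comm_iota_row le_rfl (by omega) _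

theorem Lab_succ (h : LS D p q a c St) {j : ℕ} (hj : j + 1 < 3 * a)
    (hb : ¬ (a ≤ j + 1 ∧ j + 1 ≤ 2 * a)) (A : Set Label) :
    Lab p c St (j + 1) A = Lab p c St j A := by
  rw [h.Lab_eq_Row_succ j, Lab_eq_Row]
  refine h.Row_eq_Row (Nat.succ_pos j) hj fun s hd ht => ?_
  simp only [Set.mem_ofPred_eq]
  rw [Star.Pf_eq_Pb_of_blank' hd (by rw [ht]; exact tauOf_blank' h.three_le hb)]

/-- labels below the active rows -/
theorem Lab_low (h : LS D p q a c St) {j : ℕ} (hj : j < a) (A : Set Label) :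
    Lab p c St j A = Lab p c St 0 A := by
  have h3 := h.three_le
  induction j with
  | zero => rfl
  | succ j ih => rw [h.Lab_succ (by omega) (by omega), ih (by omega)]

/-- labels above the active rows -/
theorem Lab_high (h : LS D p q a c St) {j : ℕ} (h1 : 2 * a ≤ j) (h2 : j < 3 * a) (A : Set Label) :
    Lab p c St j A = Lab p c St (2 * a) A := by
  induction j, h1 using Nat.le_induction with
  | base => rfl
  | succ j hj ih => rw [h.Lab_succ (by omega) (by omega), ih (by omega)]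

theorem comm_m_Lab (h : LS D p q a c St) {j : ℕ} (hj : j < 3 * a) (A : Set Label) :
    Comm h.m (Lab p c St j A) := by
  have h3 := h.three_le
  rcases lt_or_ge j a with hja | hja
  · rw [h.Lab_low hja, ← h.Lab_low (j := a - 1) (by omega), h.Lab_eq_Row_succ,
      show a - 1 + 1 = a by omega]
    exact h.comm_m_row le_rfl (by omega) _
  · rcases le_or_gt j (2 * a) with hj2 | hj2
    · rw [Lab_eq_Row]; exact h.comm_m_row hja hj2 _
    · rw [h.Lab_high hj2.le hj, Lab_eq_Row]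
      exact h.comm_m_row (by omega) le_rfl _

theorem comm_iota_Lab (h : LS D p q a c St) {j : ℕ} (hj : j < 3 * a) (A : Set Label) :
    Comm h.iota (Lab p c St j A) := by
  rw [h.iota_def]
  refine Comm.sub_left ?_ (h.comm_m_Lab hj A) h.m_le
  rw [← h.Row_univ j, Lab_eq_Row]
  exact h.Row_comm _ _ _

/-- `m ~ c 0 ∧ [Pb ∈ A]` -/
theorem comm_m_Pb (h : LS D p q a c St) (A : Set Label) :
    Comm h.m (Row p c St 0 {s | s.Pb ∈ A}) := by
  have h3 := h.three_le
  rw [← h.pn_Lab, ← h.pow_m, smul_comm_iff]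
  exact h.comm_m_Lab (by omega) A

/-- `m ~ c 0 ∧ [Pf ∈ A]` -/
theorem comm_m_Pf (h : LS D p q a c St) (A : Set Label) :
    Comm h.m (Row p c St 0 {s | s.Pf ∈ A}) := by
  have h3 := h.three_le
  rw [← Lab_eq_Row]; exact h.comm_m_Lab (by omega) A

/-- the facts used in `RN5` -/
theorem modeFacts (h : LS D p q a c St) : ModeFacts p q a c St where
  le := h.m_le
  inv := h.pow_m
  row _ h1 h2 := h.m_eq_row_f h1 h2
  comm_Lab _ hj A := h.comm_m_Lab hj A

end LS
end Crest.Agent.R189
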