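import Crest.Agent.R189.LETW1

/-!
# Row 189, M7/D (LETW): windows around the level `k` atoms, tiling by atoms, letters as sums

`h : LS D pZ qZ a c St` (level `0`, any ROMP with an action of `ℤ²`).

* `Atom (3 * (a + k))`: indices of the atoms of level `k` (`F j`, `P j L`, `Q j L`, `V j s`);
  `atomE a c St k κ : E` the event; `letterE c St x`, `x : Fin (3 * a) × Star`, the letters.
* `Atom.Win a k κ : Set (ℤ × ℤ)` the (open) window of the atom.
* (W1) `LS.ltr h k κ v : Fin (3 * a) × Star`, `LS.le_ltr`: for `v ∈ Win a k κ`,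
  `ofAdd v • atomE a c St k κ ≤ letterE c St (h.ltr k κ v)`.
* (W2) `LS.atom_orth`, `LS.atom_orth_same`.
* (W3) `LS.piece_part`, (W4) `LS.letter_eq_pieces`.
-/

set_option autoImplicit false

namespace Crest.Agent.R189

open Romp

namespace Atom

/-- length of `q_k` -/
def lq (a k : ℕ) : ℤ := if Even k then (ww a k : ℤ) else (hh a k : ℤ)
/-- length of `p_k` -/
def lp (a k : ℕ) : ℤ := if Even k then (hh a k : ℤ) else (ww a k : ℤ)
/-- coordinate along `q_k` -/
def cx (k : ℕ) (v : ℤ × ℤ) : ℤ := if Even k then v.1 else v.2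
/-- coordinate along `p_k` -/
def cy (k : ℕ) (v : ℤ × ℤ) : ℤ := if Even k then v.2 else v.1
/-- the point with coordinates `x` along `q_k`, `y` along `p_k` -/
def pt (k : ℕ) (x y : ℤ) : ℤ × ℤ := if Even k then (x, y) else (y, x)

theorem pt_cx_cy (k : ℕ) (v : ℤ × ℤ) : pt k (cx k v) (cy k v) = v := by
  unfold pt cx cy; split_ifs <;> rfl

@[simp] theorem cx_pt (k : ℕ) (x y : ℤ) : cx k (pt k x y) = x := by
  unfold pt cx; split_ifs <;> rfl

@[simp] theorem cy_pt (k : ℕ) (x y : ℤ) : cy k (pt k x y) = y := by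
  unfold pt cy; split_ifs <;> rfl

theorem pt_add (k : ℕ) (x y x' y' : ℤ) : pt k (x + x') (y + y') = pt k x y + pt k x' y' := by
  unfold pt; split_ifs <;> rfl

theorem cx_sub (k : ℕ) (v v' : ℤ × ℤ) : cx k (v - v') = cx k v - cx k v' := by
  unfold cx; split_ifs <;> rfl

theorem cy_sub (k : ℕ) (v v' : ℤ × ℤ) : cy k (v - v') = cy k v - cy k v' := by
  unfold cy; split_ifs <;> rfl

theorem cx_add (k : ℕ) (v v' : ℤ × ℤ) : cx k (v + v') = cx k v + cx k v' := by
  unfold cx; split_ifs <;> rfl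

theorem cy_add (k : ℕ) (v v' : ℤ × ℤ) : cy k (v + v') = cy k v + cy k v' := by
  unfold cy; split_ifs <;> rfl

theorem ext_c {k : ℕ} {v v' : ℤ × ℤ} (h1 : cx k v = cx k v') (h2 : cy k v = cy k v') :
    v = v' := by
  rw [← pt_cx_cy k v, ← pt_cx_cy k v', h1, h2]

theorem lq_pos {a : ℕ} (ha : 0 < a) (k : ℕ) : 0 < lq a k := by
  have h1 : (0 : ℤ) < ww a k := by exact_mod_cast ww_pos ha k
  have h2 : (0 : ℤ) < hh a k := by exact_mod_cast hh_pos ha k
  unfold lq; split_ifs <;> assumption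

theorem lp_pos {a : ℕ} (ha : 0 < a) (k : ℕ) : 0 < lp a k := by
  have h1 : (0 : ℤ) < ww a k := by exact_mod_cast ww_pos ha k
  have h2 : (0 : ℤ) < hh a k := by exact_mod_cast hh_pos ha k
  unfold lp; split_ifs <;> assumption

theorem pt_q (a k : ℕ) : pt k (lq a k) 0 = qq a k := by
  by_cases hk : Even k
  · rw [pt, if_pos hk, lq, if_pos hk, qq_even hk]
  · rw [pt, if_neg hk, lq, if_neg hk, qq_odd hk]

theorem pt_p (a k : ℕ) : pt k 0 (lp a k) = pp a k := by
  by_cases hk : Even k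
  · rw [pt, if_pos hk, lp, if_pos hk, pp_even hk]
  · rw [pt, if_neg hk, lp, if_neg hk, pp_odd hk]

theorem pt_mem_Bx {a k : ℕ} {x y : ℤ} :
    pt k x y ∈ Bx a k ↔ (0 ≤ x ∧ x < lq a k) ∧ (0 ≤ y ∧ y < lp a k) := by
  rw [mem_Bx]
  unfold pt lq lp
  by_cases hk : Even k
  · simp only [if_pos hk]
  · simp only [if_neg hk]; tauto

theorem onP_pt {k : ℕ} {x y : ℤ} : onP k (pt k x y) ↔ x = 0 := by
  unfold onP pt; split_ifs <;> rfl

theorem onQ_pt {k : ℕ} {x y : ℤ} : onQ k (pt k x y) ↔ y = 0 := by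
  unfold onQ pt; split_ifs <;> rfl

theorem Lat_iff_c {a k : ℕ} {v : ℤ × ℤ} : Lat a k v ↔ lq a k ∣ cx k v ∧ lp a k ∣ cy k v := by
  unfold Lat lq lp cx cy
  by_cases hk : Even k
  · simp only [if_pos hk]
  · simp only [if_neg hk]; tauto

/-- the window of an atom of level `k` -/
def Win (a k : ℕ) (κ : Atom (3 * (a + k))) : Set (ℤ × ℤ) :=
  {v | κ.InWin (lq a k) (lp a k) (cx k v) (cy k v)}

/-- the zone of an atom (coordinates) -/
def InZone {n : ℕ} (R lq lp : ℤ) : Atom n → ℤ → ℤ → Prop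
  | F _, x, y => (R ≤ x ∧ x < lq - R) ∧ (R ≤ y ∧ y < lp - R)
  | P _ _, x, y => (-R ≤ x ∧ x < R) ∧ (R ≤ y ∧ y < lp - R)
  | Q _ _, x, y => (R ≤ x ∧ x < lq - R) ∧ (-R ≤ y ∧ y < R)
  | V _ _, x, y => (-R ≤ x ∧ x < R) ∧ (-R ≤ y ∧ y < R)

/-- the zone `T_κ` of an atom of level `k`: `T_V = [-R,R)²`, `T_P = [-R,R) × [R,lp-R)`,
`T_Q = [R,lq-R) × [-R,R)`, `T_F = [R,lq-R) × [R,lp-R)` -/
def Zone (a k : ℕ) (R : ℤ) (κ : Atom (3 * (a + k))) : Set (ℤ × ℤ) :=
  {v | κ.InZone R (lq a k) (lp a k) (cx k v) (cy k v)}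

end Atom

/-- the letters -/
noncomputable def letterE {E : Type*} [OMP E] {a : ℕ} (c : ℕ → E) (St : Star → E)
    (x : Fin (3 * a) × Star) : E := c x.1 ⊓ₒ St x.2

section levels
variable {E : Type*} [ROMP E] [OMPAct (Multiplicative (ℤ × ℤ)) E]
variable {D : E} {a : ℕ} {c : ℕ → E} {St : Star → E}

/-- the event of an atom of level `k` -/
noncomputable def atomE (a : ℕ) (c : ℕ → E) (St : Star → E) (k : ℕ) (κ : Atom (3 * (a + k))) : E :=
  κ.event (hc pZ qZ a c St k) (hSt pZ qZ a c St k)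

omit [OMPAct (Multiplicative (ℤ × ℤ)) E] in
theorem Below.iff_letterE {x : E} :
    Below a c St x ↔ ∃ l : Fin (3 * a) × Star, x ≤ letterE c St l := by
  constructor
  · rintro ⟨j, hj, s, hs⟩; exact ⟨(⟨j, hj⟩, s), hs⟩
  · rintro ⟨⟨j, s⟩, hs⟩; exact ⟨j, j.2, s, hs⟩

namespace LS

theorem letCell (h : LS D pZ qZ a c St) (k : ℕ) :
    LetCell (Below a c St) (fun x y => Multiplicative.ofAdd (Atom.pt k x y)) (Atom.lq a k)
      (Atom.lp a k) (a + k) (hc pZ qZ a c St k) (hSt pZ qZ a c St k) := by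
  have H := h.letK k
  have ha : 0 < a := by have := h.three_le; omega
  have h1q := Atom.lq_pos ha k
  have h1p := Atom.lp_pos ha k
  refine ⟨?_, ?_, ?_, ?_⟩
  · intro x y hx hx' hy hy' j hj
    refine H.face j hj _ (Atom.pt_mem_Bx.2 ⟨⟨hx.le, hx'⟩, hy.le, hy'⟩) ?_ ?_
    · rw [Atom.onP_pt]; omega
    · rw [Atom.onQ_pt]; omega
  · intro y hy hy' j hj L
    refine H.lineP j hj _ (Atom.pt_mem_Bx.2 ⟨⟨le_rfl, by omega⟩, hy.le, hy'⟩) ?_ ?_ L
    · intro h0
      have := congrArg (Atom.cy k) h0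
      rw [Atom.cy_pt] at this
      have h1 : Atom.cy k (0 : ℤ × ℤ) = 0 := by unfold Atom.cy; split_ifs <;> rfl
      omega
    · rw [Atom.onP_pt]
  · intro x hx hx' j hj L
    refine H.lineQ j hj _ (Atom.pt_mem_Bx.2 ⟨⟨hx.le, hx'⟩, le_rfl, by omega⟩) ?_ ?_ L
    · intro h0
      have := congrArg (Atom.cx k) h0
      rw [Atom.cx_pt] at this
      have h1 : Atom.cx k (0 : ℤ × ℤ) = 0 := by unfold Atom.cx; split_ifs <;> rfl
      omega
    · rw [Atom.onQ_pt]
  · intro j hj s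
    exact H.corner j hj s

theorem a_pos (h : LS D pZ qZ a c St) : 0 < a := by have := h.three_le; omega

/-- (W1), existence -/
theorem below_atom (h : LS D pZ qZ a c St) (k : ℕ) (κ : Atom (3 * (a + k))) {v : ℤ × ℤ}
    (hv : v ∈ κ.Win a k) : Below a c St (Multiplicative.ofAdd v • atomE a c St k κ) := by
  have h1 := LetCell.window (h.lvl k) (fun x y hxy hy => hy.mono hxy)
    (fun x y x' y' => by rw [Atom.pt_add, ofAdd_add])
    (by rw [Atom.pt_q, hQ_eq]) (by rw [Atom.pt_p, hP_eq]) (h.letCell k) κ hv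
  rwa [Atom.pt_cx_cy] at h1

theorem exists_letter (h : LS D pZ qZ a c St) (k : ℕ) (κ : Atom (3 * (a + k))) {v : ℤ × ℤ}
    (hv : v ∈ κ.Win a k) :
    ∃ l : Fin (3 * a) × Star, Multiplicative.ofAdd v • atomE a c St k κ ≤ letterE c St l :=
  Below.iff_letterE.1 (h.below_atom k κ hv)

open Classical in
/-- the letter of the atom `κ` of level `k` at the position `v` of its window -/
noncomputable def ltr (h : LS D pZ qZ a c St) (k : ℕ) (κ : Atom (3 * (a + k))) (v : ℤ × ℤ) :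
    Fin (3 * a) × Star :=
  if hv : v ∈ κ.Win a k then (h.exists_letter k κ hv).choose
  else (⟨0, by have := h.a_pos; omega⟩, blankStar)

/-- (W1) -/
theorem le_ltr (h : LS D pZ qZ a c St) (k : ℕ) (κ : Atom (3 * (a + k))) {v : ℤ × ℤ}
    (hv : v ∈ κ.Win a k) :
    Multiplicative.ofAdd v • atomE a c St k κ ≤ letterE c St (h.ltr k κ v) := by
  unfold ltr
  rw [dif_pos hv]
  exact (h.exists_letter k κ hv).choose_spec

/-- atoms of level `k` are contained in `D_k` -/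
theorem atomE_le (h : LS D pZ qZ a c St) (k : ℕ) (κ : Atom (3 * (a + k))) :
    atomE a c St k κ ≤ hD D pZ qZ a c St k :=
  ((h.lvl k).event_le_c κ).trans ((h.lvl k).c_le _)

/-- (W2): translates of atoms (the same or different) by vectors different mod `L_k` are
orthogonal -/
theorem atom_orth (h : LS D pZ qZ a c St) (k : ℕ) (κ κ' : Atom (3 * (a + k))) {v v' : ℤ × ℤ}
    (hv : ¬ Lat a k (v - v')) :
    Orth (Multiplicative.ofAdd v • atomE a c St k κ)
      (Multiplicative.ofAdd v' • atomE a c St k κ') :=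
  (h.hD_orth k hv).mono (smul_le_smul _ (h.atomE_le k κ)) (smul_le_smul _ (h.atomE_le k κ'))

/-- (W2), short vectors -/
theorem atom_orth' (h : LS D pZ qZ a c St) (k : ℕ) (κ κ' : Atom (3 * (a + k))) {v v' : ℤ × ℤ}
    (h0 : v ≠ v') (h1 : |v.1 - v'.1| < ww a k) (h2 : |v.2 - v'.2| < hh a k) :
    Orth (Multiplicative.ofAdd v • atomE a c St k κ)
      (Multiplicative.ofAdd v' • atomE a c St k κ') :=
  h.atom_orth k κ κ' (not_Lat (sub_ne_zero.2 h0) h1 h2)

end LS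

end levels

namespace Atom

variable {n : ℕ}

/-- two atoms of the same kind -/
def SameKind : Atom n → Atom n → Prop
  | F _, F _ => True
  | P _ _, P _ _ => True
  | Q _ _, Q _ _ => True
  | V _ _, V _ _ => True
  | _, _ => False

theorem SameKind.of_zone {R lq lp : ℤ} {κ κ' : Atom n} {x y : ℤ} (h : κ.InZone R lq lp x y)
    (h' : κ'.InZone R lq lp x y) : SameKind κ κ' := by
  cases κ <;> cases κ' <;> simp only [InZone, SameKind] at h h' ⊢ <;> omega

theorem InZone.inWin {R lq lp : ℤ} (hR : 0 < R) (h1 : 2 * R ≤ lq) (h2 : 2 * R ≤ lp)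
    {κ : Atom n} {x y : ℤ} (h : κ.InZone R lq lp x y) : κ.InWin lq lp x y := by
  cases κ <;> simp only [InZone, InWin] at h ⊢ <;> omega

theorem InZone.inWin_ball {R lq lp : ℤ} (h1 : 4 * R ≤ lq) (h2 : 4 * R ≤ lp)
    {κ : Atom n} {x y : ℤ} (h : κ.InZone R lq lp x y) {u v : ℤ} (hu : |u| < R) (hv : |v| < R) :
    κ.InWin lq lp (x + u) (y + v) := by
  rw [abs_lt] at hu hv
  cases κ <;> simp only [InZone, InWin] at h ⊢ <;> omega

theorem InZone.diff {R lq lp : ℤ} (h1 : 4 * R ≤ lq) (h2 : 4 * R ≤ lp)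
    {κ : Atom n} {x y x' y' : ℤ} (h : κ.InZone R lq lp x y) (h' : κ.InZone R lq lp x' y')
    {u v u' v' : ℤ} (hu : |u| < R) (hv : |v| < R) (hu' : |u'| < R) (hv' : |v'| < R) :
    |(x + u) - (x' + u')| < lq ∧ |(y + v) - (y' + v')| < lp := by
  rw [abs_lt] at hu hv hu' hv'
  cases κ <;> simp only [InZone] at h h' <;> constructor <;> rw [abs_lt] <;> omega

/-- atoms of the same kind form a partition of `D`: orthogonality -/
theorem event_orth {G E : Type*} [CommGroup G] [ROMP E] [OMPAct G E] {D : E} {p q : G} {a : ℕ}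
    {c : ℕ → E} {St : Star → E} (h : LS D p q a c St) {κ κ' : Atom (3 * a)}
    (hk : SameKind κ κ') (hne : κ ≠ κ') : Orth (κ.event c St) (κ'.event c St) := by
  have hd : ∀ κ κ' : Atom (3 * a), κ.dig ≠ κ'.dig → Orth (κ.event c St) (κ'.event c St) := by
    intro κ κ' hd
    exact (h.part_c.orth hd).mono (h.event_le_c κ) (h.event_le_c κ')
  by_cases hd' : κ.dig = κ'.dig
  · cases κ <;> cases κ' <;> simp only [SameKind, dig] at hk hd'
    · subst hd'; exact absurd rfl hne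
    · rename_i j L j' L'
      subst hd'
      have hL : L ≠ L' := fun h0 => hne (by rw [h0])
      refine (h.part_St.ev_orth ?_).mono (meet_le_right (h.comm_ev j _))
        (meet_le_right (h.comm_ev j _))
      rw [Set.disjoint_left]
      intro s hs hs'
      exact hL (hs.symm.trans hs')
    · rename_i j L j' L'
      subst hd'
      have hL : L ≠ L' := fun h0 => hne (by rw [h0])
      refine (h.part_St.ev_orth ?_).mono (meet_le_right (h.comm_ev j _))
        (meet_le_right (h.comm_ev j _))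
      rw [Set.disjoint_left]
      intro s hs hs'
      exact hL (hs.symm.trans hs')
    · rename_i j s j' s'
      subst hd'
      have hs : s ≠ s' := fun h0 => hne (by rw [h0])
      exact (h.part_St.orth hs).mono (meet_le_right (h.comm_all j s))
        (meet_le_right (h.comm_all j s'))
  · exact hd _ _ hd'

/-- an upper bound of all vertex atoms, or all edge atoms etc. is an upper bound of `D` -/
theorem le_of_event_le {G E : Type*} [CommGroup G] [ROMP E] [OMPAct G E] {D : E} {p q : G} {a : ℕ}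
    {c : ℕ → E} {St : Star → E} (h : LS D p q a c St) (κ : Atom (3 * a)) (g : G) {y : E}
    (hy : ∀ κ', SameKind κ κ' → g • κ'.event c St ≤ y) : g • D ≤ y := by
  have hc : ∀ j : Fin (3 * a), g • c j ≤ y := by
    intro j
    cases κ with
    | F _ => exact hy (F j) trivial
    | V _ _ =>
      have h1 := smul_isLUB g (h.capPart j).isLUB_range
      apply h1.2
      rintro x ⟨_, ⟨s, rfl⟩, rfl⟩
      exact hy (V j s) trivial
    | P _ _ =>
      have h1 := smul_isLUB g (h.capPart j).isLUB_range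
      apply h1.2
      rintro x ⟨_, ⟨s, rfl⟩, rfl⟩
      exact (smul_le_smul g (h.star_le_Pf j s)).trans (hy (P j s.Pf) trivial)
    | Q _ _ =>
      have h1 := smul_isLUB g (h.capPart j).isLUB_range
      apply h1.2
      rintro x ⟨_, ⟨s, rfl⟩, rfl⟩
      exact (smul_le_smul g (h.star_le_Qf j s)).trans (hy (Q j s.Qf) trivial)
  have h1 := smul_isLUB g h.part_c.isLUB_range
  apply h1.2
  rintro x ⟨_, ⟨j, rfl⟩, rfl⟩
  exact hc j

end Atom

/-- the pieces of the tiling of level `k`, radius `R`: pairs (atom, position in its zone) -/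
def Piece (a k : ℕ) (R : ℤ) : Type :=
  {x : Atom (3 * (a + k)) × (ℤ × ℤ) // x.2 ∈ x.1.Zone a k R}

namespace Piece
variable {a k : ℕ} {R : ℤ}

/-- the atom of a piece -/
def atom (i : Piece a k R) : Atom (3 * (a + k)) := i.1.1
/-- the position of a piece -/
def vec (i : Piece a k R) : ℤ × ℤ := i.1.2
theorem mem (i : Piece a k R) : i.vec ∈ i.atom.Zone a k R := i.2

theorem ext {i i' : Piece a k R} (h1 : i.atom = i'.atom) (h2 : i.vec = i'.vec) : i = i' :=
  Subtype.ext (Prod.ext h1 h2)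

end Piece

namespace Atom

theorem InZone.box {n : ℕ} {R lq lp : ℤ} (h1 : 2 * R ≤ lq) (h2 : 2 * R ≤ lp) (hR : 0 ≤ R)
    {κ : Atom n} {x y : ℤ} (h : κ.InZone R lq lp x y) :
    (-R ≤ x ∧ x < lq - R) ∧ (-R ≤ y ∧ y < lp - R) := by
  cases κ <;> simp only [InZone] at h <;> omega

theorem InZone.bound {n : ℕ} {R lq lp : ℤ} {κ : Atom n} {x y : ℤ} (h : κ.InZone R lq lp x y) :
    (-|R| ≤ x ∧ x ≤ |lq| + |R|) ∧ (-|R| ≤ y ∧ y ≤ |lp| + |R|) := by
  have e1 := neg_abs_le R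
  have e2 := le_abs_self R
  have e3 := neg_abs_le lq
  have e4 := le_abs_self lq
  have e5 := neg_abs_le lp
  have e6 := le_abs_self lp
  have e7 := abs_nonneg R
  have e8 := abs_nonneg lq
  have e9 := abs_nonneg lp
  cases κ <;> simp only [InZone] at h <;> omega

theorem le_lq_lp {a k : ℕ} {R : ℤ} (h1 : R ≤ ww a k) (h2 : R ≤ hh a k) :
    R ≤ lq a k ∧ R ≤ lp a k := by
  unfold lq lp; split_ifs <;> exact ⟨by assumption, by assumption⟩

/-- zone ⊆ window -/
theorem Zone_subset_Win {a k : ℕ} {R : ℤ} (hR : 0 < R) (h1 : 2 * R ≤ ww a k)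
    (h2 : 2 * R ≤ hh a k) (κ : Atom (3 * (a + k))) : κ.Zone a k R ⊆ κ.Win a k := by
  intro v hv
  obtain ⟨h3, h4⟩ := le_lq_lp h1 h2
  exact InZone.inWin hR h3 h4 hv

theorem abs_cx_lt {k : ℕ} {u : ℤ × ℤ} {R : ℤ} (h1 : |u.1| < R) (h2 : |u.2| < R) :
    |cx k u| < R := by unfold cx; split_ifs <;> assumption

theorem abs_cy_lt {k : ℕ} {u : ℤ × ℤ} {R : ℤ} (h1 : |u.1| < R) (h2 : |u.2| < R) :
    |cy k u| < R := by unfold cy; split_ifs <;> assumption

/-- zone + ball of radius `< R` ⊆ window -/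
theorem add_mem_Win {a k : ℕ} {R : ℤ} (h1 : 4 * R ≤ ww a k) (h2 : 4 * R ≤ hh a k)
    {κ : Atom (3 * (a + k))} {v : ℤ × ℤ} (hv : v ∈ κ.Zone a k R) {u : ℤ × ℤ} (hu1 : |u.1| < R)
    (hu2 : |u.2| < R) : v + u ∈ κ.Win a k := by
  obtain ⟨h3, h4⟩ := le_lq_lp h1 h2
  show InWin _ _ κ _ _
  rw [cx_add, cy_add]
  exact InZone.inWin_ball h3 h4 hv (abs_cx_lt hu1 hu2) (abs_cy_lt hu1 hu2)

/-- positions in zone + ball have short differences -/
theorem diff_lt {a k : ℕ} {R : ℤ} (h1 : 4 * R ≤ ww a k) (h2 : 4 * R ≤ hh a k)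
    {κ : Atom (3 * (a + k))} {v v' : ℤ × ℤ} (hv : v ∈ κ.Zone a k R) (hv' : v' ∈ κ.Zone a k R)
    {u u' : ℤ × ℤ} (hu1 : |u.1| < R) (hu2 : |u.2| < R) (hu1' : |u'.1| < R) (hu2' : |u'.2| < R) :
    |(v + u).1 - (v' + u').1| < ww a k ∧ |(v + u).2 - (v' + u').2| < hh a k := by
  obtain ⟨h3, h4⟩ := le_lq_lp h1 h2
  have h5 := InZone.diff h3 h4 hv hv' (abs_cx_lt (k := k) hu1 hu2) (abs_cy_lt (k := k) hu1 hu2)
    (abs_cx_lt (k := k) hu1' hu2') (abs_cy_lt (k := k) hu1' hu2')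
  unfold lq lp cx cy at h5
  by_cases hk : Even k
  · simp only [if_pos hk] at h5; exact h5
  · simp only [if_neg hk] at h5; exact h5.symm

/-- positions in zone + ball which are equal mod `L_k` are equal -/
theorem eq_of_Lat {a k : ℕ} {R : ℤ} (h1 : 4 * R ≤ ww a k) (h2 : 4 * R ≤ hh a k)
    {κ : Atom (3 * (a + k))} {v v' : ℤ × ℤ} (hv : v ∈ κ.Zone a k R) (hv' : v' ∈ κ.Zone a k R)
    {u u' : ℤ × ℤ} (hu1 : |u.1| < R) (hu2 : |u.2| < R) (hu1' : |u'.1| < R) (hu2' : |u'.2| < R)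
    (hl : Lat a k ((v + u) - (v' + u'))) : v + u = v' + u' := by
  by_contra hne
  obtain ⟨h5, h6⟩ := diff_lt h1 h2 hv hv' hu1 hu2 hu1' hu2'
  exact not_Lat (sub_ne_zero.2 hne) h5 h6 hl

theorem exists_zone (a k : ℕ) (ha : 0 < a) (R : ℤ) {x y : ℤ}
    (hx : -R ≤ x ∧ x < lq a k - R) (hy : -R ≤ y ∧ y < lp a k - R) :
    ∃ κ : Atom (3 * (a + k)), κ.InZone R (lq a k) (lp a k) x y := by
  have h0 : 0 < 3 * (a + k) := by omega
  by_cases h1 : x < R
  · by_cases h2 : y < R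
    · exact ⟨V ⟨0, h0⟩ blankStar, ⟨hx.1, h1⟩, hy.1, h2⟩
    · exact ⟨P ⟨0, h0⟩ blankStar.Pf, ⟨hx.1, h1⟩, by omega, hy.2⟩
  · by_cases h2 : y < R
    · exact ⟨Q ⟨0, h0⟩ blankStar.Pf, ⟨by omega, hx.2⟩, hy.1, h2⟩
    · exact ⟨F ⟨0, h0⟩, ⟨by omega, hx.2⟩, by omega, hy.2⟩

/-- the zone only depends on the kind -/
theorem SameKind.zone {n : ℕ} {R lq lp : ℤ} {κ κ' : Atom n} (h : SameKind κ κ') {x y : ℤ}
    (hz : κ.InZone R lq lp x y) : κ'.InZone R lq lp x y := by
  cases κ <;> cases κ' <;> first | exact hz | exact h.elim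

end Atom

instance (a k : ℕ) (R : ℤ) : Finite (Piece a k R) := by
  have h1 : ((Set.univ : Set (Atom (3 * (a + k)))) ×ˢ
      {v : ℤ × ℤ | (-|R| ≤ Atom.cx k v ∧ Atom.cx k v ≤ |Atom.lq a k| + |R|) ∧
        (-|R| ≤ Atom.cy k v ∧ Atom.cy k v ≤ |Atom.lp a k| + |R|)}).Finite := by
    refine Set.Finite.prod Set.finite_univ ?_
    have h2 : (Set.Icc (-|R|) (|Atom.lq a k| + |R|) ×ˢ
        Set.Icc (-|R|) (|Atom.lp a k| + |R|)).Finite :=
      (Set.finite_Icc _ _).prod (Set.finite_Icc _ _)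
    refine Set.Finite.subset (h2.image fun z => Atom.pt k z.1 z.2) ?_
    rintro v hv
    exact ⟨(Atom.cx k v, Atom.cy k v), hv, Atom.pt_cx_cy k v⟩
  have h3 : {x : Atom (3 * (a + k)) × (ℤ × ℤ) | x.2 ∈ x.1.Zone a k R}.Finite := by
    refine h1.subset ?_
    rintro ⟨κ, v⟩ hv
    exact ⟨trivial, Atom.InZone.bound (κ := κ) hv⟩
  exact h3.to_subtype

section pieces
variable {E : Type*} [ROMP E] [OMPAct (Multiplicative (ℤ × ℤ)) E]
variable {D : E} {a : ℕ} {c : ℕ → E} {St : Star → E}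

/-- the event of a piece -/
noncomputable def pieceE (a : ℕ) (c : ℕ → E) (St : Star → E) (k : ℕ) (R : ℤ) (i : Piece a k R) :
    E := Multiplicative.ofAdd i.vec • atomE a c St k i.atom

namespace LS

theorem piece_orth (h : LS D pZ qZ a c St) (k : ℕ) {R : ℤ} (hR : 0 ≤ R) (h1 : 2 * R ≤ ww a k)
    (h2 : 2 * R ≤ hh a k) {i i' : Piece a k R} (hne : i ≠ i') :
    Orth (pieceE a c St k R i) (pieceE a c St k R i') := by
  obtain ⟨h3, h4⟩ := Atom.le_lq_lp h1 h2
  by_cases hv : i.vec = i'.vec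
  · unfold pieceE
    rw [hv, smul_orth_iff]
    have hm := i.mem
    rw [hv] at hm
    exact Atom.event_orth (h.lvl k) (Atom.SameKind.of_zone hm i'.mem)
      (fun h0 => hne (Piece.ext h0 hv))
  · refine h.atom_orth k _ _ ?_
    intro hl
    apply hv
    rw [Atom.Lat_iff_c, Atom.cx_sub, Atom.cy_sub] at hl
    obtain ⟨b1, b2⟩ := Atom.InZone.box h3 h4 hR i.mem
    obtain ⟨b3, b4⟩ := Atom.InZone.box h3 h4 hR i'.mem
    have e1 : Atom.cx k i.vec - Atom.cx k i'.vec = 0 :=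
      Int.eq_zero_of_abs_lt_dvd hl.1 (by rw [abs_lt]; omega)
    have e2 : Atom.cy k i.vec - Atom.cy k i'.vec = 0 :=
      Int.eq_zero_of_abs_lt_dvd hl.2 (by rw [abs_lt]; omega)
    exact Atom.ext_c (k := k) (by omega) (by omega)

/-- (W3): the pieces form a partition of `⊤` -/
theorem piece_part (h : LS D pZ qZ a c St) (hD1 : D = ⊤) (k : ℕ) {R : ℤ} (hR : 0 ≤ R)
    (h1 : 2 * R ≤ ww a k) (h2 : 2 * R ≤ hh a k) : IsPart (pieceE a c St k R) ⊤ := by
  refine IsPart.of_isLUB (fun hne => h.piece_orth k hR h1 h2 hne) ⟨fun _ _ => le_top, ?_⟩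
  intro y hy
  refine top_le_iff.2 (h.top_of_hD_le hD1 k fun v => ?_)
  obtain ⟨v', hv', hl⟩ := (isRep_box (a := a) h.a_pos k (-R) (-R)).2 v
  rw [h.hD_congr k hl]
  have hb : (-R ≤ Atom.cx k v' ∧ Atom.cx k v' < Atom.lq a k - R) ∧
      (-R ≤ Atom.cy k v' ∧ Atom.cy k v' < Atom.lp a k - R) := by
    obtain ⟨⟨b1, b2⟩, b3, b4⟩ := hv'
    unfold Atom.cx Atom.cy Atom.lq Atom.lp
    split_ifs <;> constructor <;> constructor <;> omega
  obtain ⟨κ, hκ⟩ := Atom.exists_zone a k h.a_pos R hb.1 hb.2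
  refine Atom.le_of_event_le (h.lvl k) κ _ fun κ' hk => ?_
  exact hy ⟨⟨(κ', v'), hk.zone hκ⟩, rfl⟩

omit [OMPAct (Multiplicative (ℤ × ℤ)) E] in
theorem letter_part {G : Type*} [CommGroup G] [OMPAct G E] {p q : G} (h : LS D p q a c St) :
    IsPart (fun x : Fin (3 * a) × Star => letterE c St x) D :=
  h.part_c.prod h.part_St (fun j s => h.comm_all j s)

/-- (W4): every letter is the sum of the pieces with this letter -/
theorem letter_eq_pieces (h : LS D pZ qZ a c St) (hD1 : D = ⊤) (k : ℕ) {R : ℤ} (hR : 0 < R)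
    (h1 : 2 * R ≤ ww a k) (h2 : 2 * R ≤ hh a k) (x : Fin (3 * a) × Star) :
    letterE c St x = ev (pieceE a c St k R) {i | h.ltr k i.atom i.vec = x} := by
  have hP := h.piece_part hD1 k hR.le h1 h2
  have hQ := h.letter_part
  rw [hD1] at hQ
  have hM := hP.map (κ := Fin (3 * a) × Star) (fun i : Piece a k R => h.ltr k i.atom i.vec)
  have e := hM.eq_of_le hQ (by
    intro x
    refine hP.ev_le ?_
    rintro i (rfl : h.ltr k i.atom i.vec = x)
    exact h.le_ltr k i.atom (Atom.Zone_subset_Win hR h1 h2 _ i.mem))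
  exact (congrFun e x).symm

end LS

end pieces

end Crest.Agent.R189
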