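import Mathlib

/-!
# Regular orthomodular posets (event posets) with a group action  (row 189, part E1)

`OMP E`   : orthomodular poset: bounded poset with complement `cpl`, orthogonal pairs have a lub,
            orthomodular law.
`ROMP E`  : moreover regular (Specker).
`OMPAct G E` : group action by automorphisms.

Everything is a *total* function (junk value when not meaningful), and all the smul lemmas are
unconditional:
* `Orth e f := e ≤ cpl f`
* `lub A`, `glb A` (lub / glb of a set if it exists, else `⊥`)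
* `e +ₒ f = add e f = lub {e, f}`, `f -ₒ e = sub f e = cpl (e +ₒ cpl f)` (used for `e ≤ f`)
* `Comm e f` : `e = p +ₒ q`, `p ≤ f`, `q ≤ cpl f`, `Orth p q`
* `e ⊓ₒ f = meet e f = glb {e, f}`
* `IsPart P D` : `P : ι → E` pairwise orthogonal with lub `D`
* `ev P A = lub (P '' A)` for `A : Set ι`.
-/

namespace Crest.Agent.R189

/-- Orthomodular poset. -/
class OMP (E : Type*) extends PartialOrder E, BoundedOrder E where
  /-- complement -/
  cpl : E → E
  cpl_cpl' : ∀ e : E, cpl (cpl e) = e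
  cpl_le_cpl' : ∀ {e f : E}, e ≤ f → cpl f ≤ cpl e
  eq_bot_of_le_cpl' : ∀ {e : E}, e ≤ cpl e → e = ⊥
  exists_lub' : ∀ {e f : E}, e ≤ cpl f → ∃ x, IsLUB {e, f} x
  /-- orthomodular law: if `e ≤ f`, `x = e ∨ f'` then `f = e ∨ x'`. -/
  orthomodular' : ∀ {e f x y : E}, e ≤ f → IsLUB {e, cpl f} x → IsLUB {e, cpl x} y → y = f

namespace Romp

variable {E : Type*} [OMP E]

export OMP (cpl)

/-- orthogonality -/
def Orth (e f : E) : Prop := e ≤ cpl f

open Classical in
/-- the least upper bound, if it exists (else `⊥`) -/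
noncomputable def lub (A : Set E) : E := if h : ∃ x, IsLUB A x then Classical.choose h else ⊥

open Classical in
/-- the greatest lower bound, if it exists (else `⊥`) -/
noncomputable def glb (A : Set E) : E := if h : ∃ x, IsGLB A x then Classical.choose h else ⊥

/-- sum (used for orthogonal elements) -/
noncomputable def add (e f : E) : E := lub {e, f}

/-- difference `f - e` (used for `e ≤ f`) -/
noncomputable def sub (f e : E) : E := cpl (add e (cpl f))

/-- meet (used for commuting elements) -/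
noncomputable def meet (e f : E) : E := glb {e, f}

@[inherit_doc] scoped infixl:65 " +ₒ " => Crest.Agent.R189.Romp.add
@[inherit_doc] scoped infixl:65 " -ₒ " => Crest.Agent.R189.Romp.sub
@[inherit_doc] scoped infixl:70 " ⊓ₒ " => Crest.Agent.R189.Romp.meet

/-- `e` and `f` commute: `e = p +ₒ q` with `p ≤ f`, `q ≤ cpl f`. -/
def Comm (e f : E) : Prop := ∃ p q : E, Orth p q ∧ e = p +ₒ q ∧ p ≤ f ∧ q ≤ cpl f

/-- sum of the `P i`, `i ∈ A` -/
noncomputable def ev {ι : Type*} (P : ι → E) (A : Set ι) : E := lub (P '' A)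

/-- `P` is an orthogonal family with sum `D`. -/
structure IsPart {ι : Type*} (P : ι → E) (D : E) : Prop where
  orth : ∀ {i j : ι}, i ≠ j → Orth (P i) (P j)
  ev_univ : ev P Set.univ = D

end Romp

/-- Regular orthomodular poset: if `x` commutes with `e = p +ₒ q` and with `g`, where `p ≤ g`,
`q ≤ cpl g` (so `p = e ∧ g`), then `x` commutes with `p`. -/
class ROMP (E : Type*) extends OMP E where
  specker' : ∀ {x p q g : E}, Romp.Orth p q → p ≤ g → q ≤ Romp.cpl g →
    Romp.Comm x (Romp.add p q) → Romp.Comm x g → Romp.Comm x p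

/-- Action of a group by automorphisms of an orthomodular poset. -/
class OMPAct (G : Type*) (E : Type*) [Group G] [OMP E] extends MulAction G E where
  smul_le_smul' : ∀ (g : G) {e f : E}, e ≤ f → g • e ≤ g • f
  smul_cpl' : ∀ (g : G) (e : E), g • Romp.cpl e = Romp.cpl (g • e)

namespace Romp

section OMP
variable {E : Type*} [OMP E] {e f g x y z p q r s D : E}

/-! ## complement, order -/

@[simp] theorem cpl_cpl (e : E) : cpl (cpl e) = e := OMP.cpl_cpl' e
theorem cpl_le_cpl (h : e ≤ f) : cpl f ≤ cpl e := OMP.cpl_le_cpl' h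
theorem cpl_le_cpl_iff : cpl f ≤ cpl e ↔ e ≤ f :=
  ⟨fun h => by simpa using cpl_le_cpl h, cpl_le_cpl⟩
theorem cpl_inj : cpl e = cpl f ↔ e = f :=
  ⟨fun h => by rw [← cpl_cpl e, h, cpl_cpl], fun h => by rw [h]⟩
theorem eq_bot_of_le_cpl (h : e ≤ cpl e) : e = ⊥ := OMP.eq_bot_of_le_cpl' h
theorem eq_bot_of_le_of_orth (h : e ≤ f) (h' : Orth e f) : e = ⊥ :=
  eq_bot_of_le_cpl (le_trans h' (cpl_le_cpl h))
@[simp] theorem cpl_bot : cpl (⊥ : E) = ⊤ := by
  have h : (⊥ : E) ≤ cpl ⊤ := bot_le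
  have h2 := cpl_le_cpl h
  rw [cpl_cpl] at h2
  exact top_le_iff.mp h2
@[simp] theorem cpl_top : cpl (⊤ : E) = ⊥ := by rw [← cpl_bot, cpl_cpl]

theorem Orth.symm (h : Orth e f) : Orth f e := by
  have h2 := cpl_le_cpl (show e ≤ cpl f from h)
  rw [cpl_cpl] at h2
  exact h2
theorem orth_comm : Orth e f ↔ Orth f e := ⟨Orth.symm, Orth.symm⟩
theorem Orth.mono_left (h : Orth e f) (h' : x ≤ e) : Orth x f := le_trans h' h
theorem Orth.mono_right (h : Orth e f) (h' : x ≤ f) : Orth e x := le_trans h (cpl_le_cpl h')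
theorem Orth.mono (h : Orth e f) (h' : x ≤ e) (h'' : y ≤ f) : Orth x y :=
  (h.mono_left h').mono_right h''
@[simp] theorem orth_bot_left : Orth (⊥ : E) e := bot_le
@[simp] theorem orth_bot_right : Orth e (⊥ : E) := Orth.symm orth_bot_left
@[simp] theorem orth_self : Orth e e ↔ e = ⊥ :=
  ⟨fun h => eq_bot_of_le_cpl h, fun h => by rw [h]; exact orth_bot_left⟩
@[simp] theorem orth_cpl_self : Orth e (cpl e) := by
  show e ≤ cpl (cpl e)
  rw [cpl_cpl]
@[simp] theorem cpl_orth_self : Orth (cpl e) e := le_refl _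
theorem orth_cpl_iff : Orth e (cpl f) ↔ e ≤ f := by
  show e ≤ cpl (cpl f) ↔ _
  rw [cpl_cpl]

/-! ## lub, glb -/

theorem lub_eq {A : Set E} (h : IsLUB A x) : lub A = x := by
  have h' : ∃ x, IsLUB A x := ⟨x, h⟩
  unfold lub
  rw [dif_pos h']
  exact (Classical.choose_spec h').unique h
theorem glb_eq {A : Set E} (h : IsGLB A x) : glb A = x := by
  have h' : ∃ x, IsGLB A x := ⟨x, h⟩
  unfold glb
  rw [dif_pos h']
  exact (Classical.choose_spec h').unique h

/-! ## add -/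

theorem isLUB_add (h : Orth e f) : IsLUB {e, f} (e +ₒ f) := by
  obtain ⟨x, hx⟩ := OMP.exists_lub' h
  have : e +ₒ f = x := lub_eq hx
  rw [this]; exact hx
theorem le_add_left (h : Orth e f) : e ≤ e +ₒ f := (isLUB_add h).1 (by simp)
theorem le_add_right (h : Orth e f) : f ≤ e +ₒ f := (isLUB_add h).1 (by simp)
theorem add_le (h : Orth e f) (h1 : e ≤ g) (h2 : f ≤ g) : e +ₒ f ≤ g := by
  apply (isLUB_add h).2
  rintro y (rfl | rfl)
  · exact h1
  · exact h2
theorem add_le_iff (h : Orth e f) : e +ₒ f ≤ g ↔ e ≤ g ∧ f ≤ g :=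
  ⟨fun H => ⟨(le_add_left h).trans H, (le_add_right h).trans H⟩, fun H => add_le h H.1 H.2⟩
theorem add_comm' (e f : E) : e +ₒ f = f +ₒ e := by
  unfold add
  rw [Set.pair_comm]
@[simp] theorem add_bot (e : E) : e +ₒ ⊥ = e :=
  le_antisymm (add_le orth_bot_right le_rfl bot_le) (le_add_left orth_bot_right)
@[simp] theorem bot_add (e : E) : ⊥ +ₒ e = e := by rw [add_comm', add_bot]
@[simp] theorem add_cpl (e : E) : e +ₒ cpl e = ⊤ := by
  have h1 : e ≤ e +ₒ cpl e := le_add_left orth_cpl_self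
  have h2 : cpl e ≤ e +ₒ cpl e := le_add_right orth_cpl_self
  have h3 := cpl_le_cpl h2
  rw [cpl_cpl] at h3
  have h4 : cpl (e +ₒ cpl e) = ⊥ := by
    apply eq_bot_of_le_cpl
    rw [cpl_cpl]
    exact h3.trans h1
  rw [← cpl_cpl (e +ₒ cpl e), h4, cpl_bot]
@[simp] theorem cpl_add (e : E) : cpl e +ₒ e = ⊤ := by rw [add_comm', add_cpl]
theorem orth_add_right (h : Orth f g) : Orth e (f +ₒ g) ↔ Orth e f ∧ Orth e g := by
  rw [orth_comm, orth_comm (f := f), orth_comm (f := g)]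
  exact add_le_iff h
theorem orth_add_left (h : Orth e f) : Orth (e +ₒ f) g ↔ Orth e g ∧ Orth f g := add_le_iff h
theorem add_assoc' (h1 : Orth e f) (h2 : Orth e g) (h3 : Orth f g) :
    (e +ₒ f) +ₒ g = e +ₒ (f +ₒ g) := by
  have a : Orth (e +ₒ f) g := (orth_add_left h1).mpr ⟨h2, h3⟩
  have b : Orth e (f +ₒ g) := (orth_add_right h3).mpr ⟨h1, h2⟩
  apply le_antisymm
  · exact add_le a (add_le h1 (le_add_left b) ((le_add_left h3).trans (le_add_right b)))
      ((le_add_right h3).trans (le_add_right b))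
  · exact add_le b ((le_add_left h1).trans (le_add_left a))
      (add_le h3 ((le_add_right h1).trans (le_add_left a)) (le_add_right a))
theorem add_le_add (h : Orth x y) (h1 : e ≤ x) (h2 : f ≤ y) : e +ₒ f ≤ x +ₒ y :=
  add_le (h.mono h1 h2) (h1.trans (le_add_left h)) (h2.trans (le_add_right h))
/-! ## sub -/

theorem orth_sub (h : e ≤ f) : Orth e (f -ₒ e) := by
  show e ≤ cpl (cpl (e +ₒ cpl f))
  rw [cpl_cpl]
  exact le_add_left (orth_cpl_iff.mpr h)
theorem add_sub (h : e ≤ f) : e +ₒ (f -ₒ e) = f :=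
  OMP.orthomodular' h (isLUB_add (orth_cpl_iff.mpr h)) (isLUB_add (orth_sub h))
theorem sub_le (h : e ≤ f) : f -ₒ e ≤ f := by
  have := cpl_le_cpl (le_add_right (orth_cpl_iff.mpr h))
  rw [cpl_cpl] at this
  exact this
theorem le_sub_iff (h : e ≤ f) : x ≤ f -ₒ e ↔ x ≤ f ∧ Orth x e := by
  show Orth x (e +ₒ cpl f) ↔ _
  rw [orth_add_right (orth_cpl_iff.mpr h), orth_cpl_iff, and_comm]
theorem add_sub_cancel' (h : Orth e f) : (e +ₒ f) -ₒ f = e := by
  have hf : f ≤ e +ₒ f := le_add_right h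
  have h1 : e ≤ (e +ₒ f) -ₒ f := (le_sub_iff hf).mpr ⟨le_add_left h, h⟩
  have h2 : ((e +ₒ f) -ₒ f) -ₒ e = ⊥ := by
    apply eq_bot_of_le_of_orth (f := e +ₒ f) ((sub_le h1).trans (sub_le hf))
    rw [orth_add_right h]
    exact ⟨(orth_sub h1).symm, (orth_sub hf).symm.mono_left (sub_le h1)⟩
  have h3 := add_sub h1
  rw [h2, add_bot] at h3
  exact h3.symm
theorem add_sub_cancel (h : Orth e f) : (e +ₒ f) -ₒ e = f := by
  rw [add_comm']; exact add_sub_cancel' h.symm
theorem sub_eq_iff (h : e ≤ f) : f -ₒ e = x ↔ Orth e x ∧ e +ₒ x = f := by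
  constructor
  · rintro rfl; exact ⟨orth_sub h, add_sub h⟩
  · rintro ⟨h1, rfl⟩; exact add_sub_cancel h1
theorem sub_sub_self (h : e ≤ f) : f -ₒ (f -ₒ e) = e := by
  rw [sub_eq_iff (sub_le h)]
  exact ⟨(orth_sub h).symm, by rw [add_comm', add_sub h]⟩
theorem sub_mono (h : e ≤ f) (h' : f ≤ g) : f -ₒ e ≤ g -ₒ e := by
  rw [le_sub_iff (h.trans h')]
  exact ⟨(sub_le h).trans h', (orth_sub h).symm⟩
theorem sub_anti (h : e ≤ f) (h' : f ≤ g) : g -ₒ f ≤ g -ₒ e := by
  rw [le_sub_iff (h.trans h')]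
  exact ⟨sub_le h', (orth_sub h').symm.mono_right h⟩
@[simp] theorem sub_bot (e : E) : e -ₒ ⊥ = e := by
  rw [sub_eq_iff bot_le]; exact ⟨orth_bot_left, bot_add e⟩
@[simp] theorem sub_self' (e : E) : e -ₒ e = ⊥ := by
  rw [sub_eq_iff le_rfl]; exact ⟨orth_bot_right, add_bot e⟩
@[simp] theorem top_sub (e : E) : ⊤ -ₒ e = cpl e := by
  rw [sub_eq_iff le_top]; exact ⟨orth_cpl_self, add_cpl e⟩

/-! ## cancellation -/

/-- `x ≤ e + f`, `x ⊥ f` imply `x ≤ e`. -/
theorem le_of_le_add (h : Orth e f) (hx : x ≤ e +ₒ f) (hxf : Orth x f) : x ≤ e := by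
  have := (le_sub_iff (le_add_right h)).mpr ⟨hx, hxf⟩
  rwa [add_sub_cancel' h] at this
theorem le_of_le_add' (h : Orth e f) (hx : x ≤ e +ₒ f) (hxe : Orth x e) : x ≤ f := by
  rw [add_comm'] at hx
  exact le_of_le_add h.symm hx hxe
/-- cancellation -/
theorem add_right_cancel' (h1 : Orth e g) (h2 : Orth f g) (h : e +ₒ g = f +ₒ g) : e = f := by
  rw [← add_sub_cancel' h1, h, add_sub_cancel' h2]
theorem add_left_cancel' (h1 : Orth g e) (h2 : Orth g f) (h : g +ₒ e = g +ₒ f) : e = f := by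
  rw [← add_sub_cancel h1, h, add_sub_cancel h2]

/-! ## commuting elements, meet -/

theorem Comm.symm (h : Comm e f) : Comm f e := by
  obtain ⟨p, q, hpq, rfl, hp, hq⟩ := h
  have hq : Orth q f := hq
  refine ⟨p, f -ₒ p, orth_sub hp, (add_sub hp).symm, le_add_left hpq, ?_⟩
  exact (orth_add_right hpq).mpr ⟨(orth_sub hp).symm, hq.symm.mono_left (sub_le hp)⟩
theorem comm_comm : Comm e f ↔ Comm f e := ⟨Comm.symm, Comm.symm⟩
theorem comm_of_le (h : e ≤ f) : Comm e f :=
  ⟨e, ⊥, orth_bot_right, (add_bot e).symm, h, bot_le⟩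
theorem comm_of_ge (h : f ≤ e) : Comm e f := (comm_of_le h).symm
theorem comm_of_orth (h : Orth e f) : Comm e f :=
  ⟨⊥, e, orth_bot_left, (bot_add e).symm, bot_le, h⟩
@[simp] theorem comm_self (e : E) : Comm e e := comm_of_le le_rfl
@[simp] theorem comm_bot (e : E) : Comm e ⊥ := comm_of_ge bot_le
@[simp] theorem bot_comm (e : E) : Comm ⊥ e := comm_of_le bot_le
@[simp] theorem comm_top (e : E) : Comm e ⊤ := comm_of_le le_top
@[simp] theorem top_comm (e : E) : Comm ⊤ e := comm_of_ge le_top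
theorem Comm.cpl_right (h : Comm e f) : Comm e (cpl f) := by
  obtain ⟨p, q, hpq, rfl, hp, hq⟩ := h
  exact ⟨q, p, hpq.symm, add_comm' p q, hq, by rw [cpl_cpl]; exact hp⟩
theorem Comm.cpl_left (h : Comm e f) : Comm (cpl e) f := h.symm.cpl_right.symm
@[simp] theorem comm_cpl_right : Comm e (cpl f) ↔ Comm e f :=
  ⟨fun h => by simpa using h.cpl_right, Comm.cpl_right⟩
@[simp] theorem comm_cpl_left : Comm (cpl e) f ↔ Comm e f :=
  ⟨fun h => by simpa using h.cpl_left, Comm.cpl_left⟩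

theorem meet_comm (e f : E) : e ⊓ₒ f = f ⊓ₒ e := by
  unfold meet
  rw [Set.pair_comm]
theorem isGLB_of_decomp (h : Orth p q) (hp : p ≤ f) (hq : Orth q f) : IsGLB {p +ₒ q, f} p := by
  constructor
  · rintro y (rfl | rfl)
    · exact le_add_left h
    · exact hp
  · intro y hy
    have h1 : y ≤ p +ₒ q := hy (by simp)
    have h2 : y ≤ f := hy (by simp)
    exact le_of_le_add h h1 (hq.symm.mono_left h2)
/-- the meet is the `p` in the definition of `Comm`. -/
theorem meet_eq_of_decomp (h : Orth p q) (hp : p ≤ f) (hq : Orth q f) : (p +ₒ q) ⊓ₒ f = p :=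
  glb_eq (isGLB_of_decomp h hp hq)
theorem isGLB_meet (h : Comm e f) : IsGLB {e, f} (e ⊓ₒ f) := by
  obtain ⟨p, q, hpq, rfl, hp, hq⟩ := h
  rw [meet_eq_of_decomp hpq hp hq]
  exact isGLB_of_decomp hpq hp hq
theorem meet_le_left (h : Comm e f) : e ⊓ₒ f ≤ e := (isGLB_meet h).1 (by simp)
theorem meet_le_right (h : Comm e f) : e ⊓ₒ f ≤ f := (isGLB_meet h).1 (by simp)
theorem le_meet (h : Comm e f) (h1 : x ≤ e) (h2 : x ≤ f) : x ≤ e ⊓ₒ f := by
  apply (isGLB_meet h).2
  rintro y (rfl | rfl)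
  · exact h1
  · exact h2
theorem le_meet_iff (h : Comm e f) : x ≤ e ⊓ₒ f ↔ x ≤ e ∧ x ≤ f :=
  ⟨fun H => ⟨H.trans (meet_le_left h), H.trans (meet_le_right h)⟩, fun H => le_meet h H.1 H.2⟩
theorem meet_cpl_eq_sub (h : Comm e f) : e ⊓ₒ cpl f = e -ₒ (e ⊓ₒ f) := by
  obtain ⟨p, q, hpq, rfl, hp, hq⟩ := h
  rw [meet_eq_of_decomp hpq hp hq, add_sub_cancel hpq, add_comm']
  exact meet_eq_of_decomp hpq.symm hq (orth_cpl_iff.mpr hp)
theorem meet_add_meet_cpl (h : Comm e f) : (e ⊓ₒ f) +ₒ (e ⊓ₒ cpl f) = e := by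
  rw [meet_cpl_eq_sub h]
  exact add_sub (meet_le_left h)
theorem orth_meet_cpl (h : Comm e f) : Orth (e ⊓ₒ cpl f) f := meet_le_right h.cpl_right
theorem orth_meet_meet_cpl (h : Comm e f) : Orth (e ⊓ₒ f) (e ⊓ₒ cpl f) :=
  (orth_meet_cpl h).symm.mono_left (meet_le_right h)
theorem meet_eq_left (h : e ≤ f) : e ⊓ₒ f = e :=
  le_antisymm (meet_le_left (comm_of_le h)) (le_meet (comm_of_le h) le_rfl h)
theorem meet_eq_right (h : f ≤ e) : e ⊓ₒ f = f := by rw [meet_comm, meet_eq_left h]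
@[simp] theorem meet_self (e : E) : e ⊓ₒ e = e := meet_eq_left le_rfl
theorem meet_eq_bot_of_orth (h : Orth e f) : e ⊓ₒ f = ⊥ :=
  eq_bot_of_le_of_orth (meet_le_left (comm_of_orth h))
    (h.symm.mono_left (meet_le_right (comm_of_orth h)))
theorem orth_of_meet_eq_bot (hc : Comm e f) (h : e ⊓ₒ f = ⊥) : Orth e f := by
  have := meet_add_meet_cpl hc
  rw [h, bot_add] at this
  rw [← this]
  exact orth_meet_cpl hc
theorem meet_eq_bot_iff (hc : Comm e f) : e ⊓ₒ f = ⊥ ↔ Orth e f :=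
  ⟨orth_of_meet_eq_bot hc, meet_eq_bot_of_orth⟩
@[simp] theorem meet_bot (e : E) : e ⊓ₒ ⊥ = ⊥ := meet_eq_right bot_le
@[simp] theorem bot_meet (e : E) : ⊥ ⊓ₒ e = ⊥ := meet_eq_left bot_le
@[simp] theorem meet_top (e : E) : e ⊓ₒ ⊤ = e := meet_eq_left le_top
@[simp] theorem top_meet (e : E) : ⊤ ⊓ₒ e = e := meet_eq_right le_top
theorem meet_mono (h1 : Comm e f) (h2 : Comm x y) (he : e ≤ x) (hf : f ≤ y) :
    e ⊓ₒ f ≤ x ⊓ₒ y :=
  le_meet h2 ((meet_le_left h1).trans he) ((meet_le_right h1).trans hf)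
/-- associativity, whenever the glb's exist. -/
theorem meet_assoc (h1 : Comm e f) (h2 : Comm (e ⊓ₒ f) g) (h3 : Comm f g) (h4 : Comm e (f ⊓ₒ g)) :
    (e ⊓ₒ f) ⊓ₒ g = e ⊓ₒ (f ⊓ₒ g) := by
  apply le_antisymm
  · exact le_meet h4 ((meet_le_left h2).trans (meet_le_left h1))
      (le_meet h3 ((meet_le_left h2).trans (meet_le_right h1)) (meet_le_right h2))
  · exact le_meet h2 (le_meet h1 (meet_le_left h4) ((meet_le_right h4).trans (meet_le_left h3)))
      ((meet_le_right h4).trans (meet_le_right h3))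

theorem add_decomp (h1 : Comm e f) (h2 : Comm e g) (h : Orth f g) :
    Orth ((e ⊓ₒ f) +ₒ (e ⊓ₒ g)) ((f ⊓ₒ cpl e) +ₒ (g ⊓ₒ cpl e)) ∧
    f +ₒ g = ((e ⊓ₒ f) +ₒ (e ⊓ₒ g)) +ₒ ((f ⊓ₒ cpl e) +ₒ (g ⊓ₒ cpl e)) ∧
    (e ⊓ₒ f) +ₒ (e ⊓ₒ g) ≤ e ∧ Orth ((f ⊓ₒ cpl e) +ₒ (g ⊓ₒ cpl e)) e := by
  have a1 : Orth (e ⊓ₒ f) (e ⊓ₒ g) := h.mono (meet_le_right h1) (meet_le_right h2)
  have a2 : Orth (f ⊓ₒ cpl e) (g ⊓ₒ cpl e) :=
    h.mono (meet_le_left h1.symm.cpl_right) (meet_le_left h2.symm.cpl_right)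
  have b1 : (e ⊓ₒ f) +ₒ (e ⊓ₒ g) ≤ e := add_le a1 (meet_le_left h1) (meet_le_left h2)
  have b2 : Orth ((f ⊓ₒ cpl e) +ₒ (g ⊓ₒ cpl e)) e :=
    add_le a2 (orth_meet_cpl h1.symm) (orth_meet_cpl h2.symm)
  have c := b2.symm.mono_left b1
  refine ⟨c, ?_, b1, b2⟩
  have f1 : (e ⊓ₒ f) +ₒ (f ⊓ₒ cpl e) = f := by
    rw [meet_comm e f]; exact meet_add_meet_cpl h1.symm
  have g1 : (e ⊓ₒ g) +ₒ (g ⊓ₒ cpl e) = g := by
    rw [meet_comm e g]; exact meet_add_meet_cpl h2.symm
  have o1 : Orth (e ⊓ₒ f) (f ⊓ₒ cpl e) := by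
    rw [meet_comm e f]; exact orth_meet_meet_cpl h1.symm
  have o2 : Orth (e ⊓ₒ g) (g ⊓ₒ cpl e) := by
    rw [meet_comm e g]; exact orth_meet_meet_cpl h2.symm
  apply le_antisymm
  · apply add_le h
    · conv_lhs => rw [← f1]
      exact add_le_add c (le_add_left a1) (le_add_left a2)
    · conv_lhs => rw [← g1]
      exact add_le_add c (le_add_right a1) (le_add_right a2)
  · refine add_le c (add_le_add h (meet_le_right h1) (meet_le_right h2))
      (add_le_add h (meet_le_left h1.symm.cpl_right) (meet_le_left h2.symm.cpl_right))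

/-- `e ~ f1`, `e ~ f2`, `f1 ⊥ f2` imply `e ~ f1 + f2` and distributivity. -/
theorem Comm.add_right (h1 : Comm e f) (h2 : Comm e g) (h : Orth f g) : Comm e (f +ₒ g) := by
  obtain ⟨a, b, c, d⟩ := add_decomp h1 h2 h
  exact Comm.symm ⟨_, _, a, b, c, d⟩
theorem Comm.add_left (h1 : Comm e x) (h2 : Comm f x) (h : Orth e f) : Comm (e +ₒ f) x :=
  (Comm.add_right h1.symm h2.symm h).symm
theorem meet_add (h1 : Comm e f) (h2 : Comm e g) (h : Orth f g) :
    e ⊓ₒ (f +ₒ g) = (e ⊓ₒ f) +ₒ (e ⊓ₒ g) := by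
  obtain ⟨a, b, c, d⟩ := add_decomp h1 h2 h
  rw [meet_comm]
  conv_lhs => rw [b]
  exact meet_eq_of_decomp a c d
theorem add_meet (h1 : Comm e x) (h2 : Comm f x) (h : Orth e f) :
    (e +ₒ f) ⊓ₒ x = (e ⊓ₒ x) +ₒ (f ⊓ₒ x) := by
  rw [meet_comm, meet_add h1.symm h2.symm h, meet_comm x e, meet_comm x f]
theorem Comm.sub_right (h1 : Comm e f) (h2 : Comm e g) (h : g ≤ f) : Comm e (f -ₒ g) :=
  (Comm.add_right h2 h1.cpl_right (orth_cpl_iff.mpr h)).cpl_right
theorem Comm.sub_left (h1 : Comm e x) (h2 : Comm f x) (h : f ≤ e) : Comm (e -ₒ f) x :=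
  (Comm.sub_right h1.symm h2.symm h).symm
/-- Commutation can be checked inside `g` for elements `x ≤ g`. -/
theorem comm_of_le_of_le (h : x ≤ g) (h1 : Comm e g) (h2 : Comm (e ⊓ₒ g) x) : Comm e x := by
  rw [← meet_add_meet_cpl h1]
  exact Comm.add_left h2 (comm_of_orth ((orth_meet_cpl h1).mono_right h)) (orth_meet_meet_cpl h1)

/-! ## finite orthogonal families -/

section ev
variable {ι κ : Type*} {P : ι → E} {A B : Set ι}

theorem exists_isLUB_of_finite (h : ∀ {i j : ι}, i ≠ j → Orth (P i) (P j)) (hA : A.Finite) :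
    ∃ x, IsLUB (P '' A) x := by
  induction A, hA using Set.Finite.induction_on with
  | empty => exact ⟨⊥, by simp⟩
  | @insert a A ha _ ih =>
    obtain ⟨x, hx⟩ := ih
    have ho : Orth (P a) x := by
      apply Orth.symm
      apply hx.2
      rintro y ⟨i, hi, rfl⟩
      exact h (by rintro rfl; exact ha hi)
    refine ⟨P a +ₒ x, ?_, ?_⟩
    · rintro y ⟨i, hi, rfl⟩
      rcases hi with rfl | hi
      · exact le_add_left ho
      · exact (hx.1 ⟨i, hi, rfl⟩).trans (le_add_right ho)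
    · intro y hy
      refine add_le ho (hy ⟨a, by simp, rfl⟩) (hx.2 ?_)
      rintro z ⟨i, hi, rfl⟩
      exact hy ⟨i, Set.mem_insert_of_mem _ hi, rfl⟩

theorem isLUB_ev_of_finite (h : ∀ {i j : ι}, i ≠ j → Orth (P i) (P j)) (hA : A.Finite) :
    IsLUB (P '' A) (ev P A) := by
  obtain ⟨x, hx⟩ := exists_isLUB_of_finite h hA
  have : ev P A = x := lub_eq hx
  rw [this]; exact hx

theorem isLUB_ev [Finite ι] (h : ∀ {i j : ι}, i ≠ j → Orth (P i) (P j)) (A : Set ι) :
    IsLUB (P '' A) (ev P A) := isLUB_ev_of_finite h A.toFinite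

theorem ev_eq_of_isLUB (h : IsLUB (P '' A) x) : ev P A = x := lub_eq h

theorem IsPart.of_isLUB (h : ∀ {i j : ι}, i ≠ j → Orth (P i) (P j)) (h' : IsLUB (Set.range P) D) :
    IsPart P D := ⟨h, ev_eq_of_isLUB (by rw [Set.image_univ]; exact h')⟩

@[simp] theorem ev_empty : ev P ∅ = ⊥ := ev_eq_of_isLUB (by simp)
@[simp] theorem ev_singleton (i : ι) : ev P {i} = P i := ev_eq_of_isLUB (by simp)
@[simp] theorem ev_bot (A : Set ι) : ev (fun _ : ι => (⊥ : E)) A = ⊥ := by
  apply ev_eq_of_isLUB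
  refine ⟨?_, fun y _ => bot_le⟩
  rintro y ⟨i, _, rfl⟩
  exact le_rfl

namespace IsPart
variable [Finite ι] (h : IsPart P D)
include h

theorem isLUB (A : Set ι) : IsLUB (P '' A) (ev P A) := isLUB_ev h.orth A
theorem isLUB_range : IsLUB (Set.range P) D := by
  rw [← Set.image_univ, ← h.ev_univ]
  exact h.isLUB _
theorem le_ev {i : ι} (hi : i ∈ A) : P i ≤ ev P A := (h.isLUB A).1 ⟨i, hi, rfl⟩
theorem le_total (i : ι) : P i ≤ D := h.isLUB_range.1 ⟨i, rfl⟩
theorem ev_le (hA : ∀ i ∈ A, P i ≤ x) : ev P A ≤ x := by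
  apply (h.isLUB A).2
  rintro y ⟨i, hi, rfl⟩
  exact hA i hi
theorem ev_le_iff : ev P A ≤ x ↔ ∀ i ∈ A, P i ≤ x :=
  ⟨fun H _ hi => (h.le_ev hi).trans H, fun H => h.ev_le H⟩
theorem ev_le_total (A : Set ι) : ev P A ≤ D := h.ev_le fun i _ => h.le_total i
theorem ev_mono (hAB : A ⊆ B) : ev P A ≤ ev P B := h.ev_le fun _ hi => h.le_ev (hAB hi)
theorem orth_ev_iff : Orth x (ev P A) ↔ ∀ i ∈ A, Orth x (P i) := by
  constructor
  · intro H i hi
    exact H.mono_right (h.le_ev hi)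
  · intro H
    apply Orth.symm
    exact h.ev_le fun i hi => (H i hi).symm
theorem ev_orth (hAB : Disjoint A B) : Orth (ev P A) (ev P B) := by
  rw [h.orth_ev_iff]
  intro j hj
  apply Orth.symm
  rw [h.orth_ev_iff]
  intro i hi
  apply h.orth
  rintro rfl
  exact Set.disjoint_left.mp hAB hi hj
theorem ev_add (hAB : Disjoint A B) : ev P A +ₒ ev P B = ev P (A ∪ B) := by
  apply le_antisymm
  · exact add_le (h.ev_orth hAB) (h.ev_mono Set.subset_union_left) (h.ev_mono Set.subset_union_right)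
  · apply h.ev_le
    rintro i (hi | hi)
    · exact (h.le_ev hi).trans (le_add_left (h.ev_orth hAB))
    · exact (h.le_ev hi).trans (le_add_right (h.ev_orth hAB))
theorem ev_add_compl (A : Set ι) : ev P A +ₒ ev P Aᶜ = D := by
  rw [h.ev_add disjoint_compl_right, Set.union_compl_self, h.ev_univ]
theorem sub_ev (A : Set ι) : D -ₒ ev P A = ev P Aᶜ := by
  rw [sub_eq_iff (h.ev_le_total A)]
  exact ⟨h.ev_orth disjoint_compl_right, h.ev_add_compl A⟩
theorem ev_sub (hAB : B ⊆ A) : ev P A -ₒ ev P B = ev P (A \ B) := by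
  rw [sub_eq_iff (h.ev_mono hAB)]
  refine ⟨h.ev_orth Set.disjoint_sdiff_right, ?_⟩
  rw [h.ev_add Set.disjoint_sdiff_right, Set.union_sdiff_cancel hAB]
theorem ev_decomp (A B : Set ι) : Orth (ev P (A ∩ B)) (ev P (A \ B)) ∧
    ev P A = ev P (A ∩ B) +ₒ ev P (A \ B) ∧ ev P (A ∩ B) ≤ ev P B ∧
    Orth (ev P (A \ B)) (ev P B) := by
  have hd : Disjoint (A ∩ B) (A \ B) :=
    Set.disjoint_left.mpr fun i hi hi' => hi'.2 hi.2
  refine ⟨h.ev_orth hd, ?_, h.ev_mono Set.inter_subset_right, h.ev_orth Set.disjoint_sdiff_left⟩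
  rw [h.ev_add hd, Set.inter_union_sdiff]
theorem comm_ev (A B : Set ι) : Comm (ev P A) (ev P B) := by
  obtain ⟨a, b, c, d⟩ := h.ev_decomp A B
  exact ⟨_, _, a, b, c, d⟩
theorem ev_meet (A B : Set ι) : ev P A ⊓ₒ ev P B = ev P (A ∩ B) := by
  obtain ⟨a, b, c, d⟩ := h.ev_decomp A B
  conv_lhs => rw [b]
  exact meet_eq_of_decomp a c d
theorem comm_total (A : Set ι) : Comm (ev P A) D := comm_of_le (h.ev_le_total A)
theorem comm_atom (i : ι) (A : Set ι) : Comm (P i) (ev P A) := by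
  rw [← ev_singleton (P := P) i]; exact h.comm_ev _ _
theorem meet_total (A : Set ι) : ev P A ⊓ₒ D = ev P A := meet_eq_left (h.ev_le_total A)
theorem total_meet (A : Set ι) : D ⊓ₒ ev P A = ev P A := meet_eq_right (h.ev_le_total A)
/-- null atoms do not matter -/
theorem ev_le_ev_iff : ev P A ≤ ev P B ↔ ∀ i ∈ A, i ∉ B → P i = ⊥ := by
  constructor
  · intro H i hi hi'
    apply eq_bot_of_le_of_orth ((h.le_ev hi).trans H)
    rw [h.orth_ev_iff]
    intro j hj
    exact h.orth (by rintro rfl; exact hi' hj)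
  · intro H
    apply h.ev_le
    intro i hi
    by_cases hB : i ∈ B
    · exact h.le_ev hB
    · rw [H i hi hB]; exact bot_le
theorem ev_eq_ev (h1 : ∀ i ∈ A, i ∉ B → P i = ⊥) (h2 : ∀ i ∈ B, i ∉ A → P i = ⊥) :
    ev P A = ev P B := le_antisymm (h.ev_le_ev_iff.mpr h1) (h.ev_le_ev_iff.mpr h2)
theorem ev_eq_ev_iff : ev P A = ev P B ↔ ∀ i, P i ≠ ⊥ → (i ∈ A ↔ i ∈ B) := by
  constructor
  · intro H i hi
    have h1 := h.ev_le_ev_iff.mp H.le i
    have h2 := h.ev_le_ev_iff.mp H.ge i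
    constructor
    · intro hA; by_contra hB; exact hi (h1 hA hB)
    · intro hB; by_contra hA; exact hi (h2 hB hA)
  · intro H
    apply h.ev_eq_ev
    · intro i hA hB; by_contra hi; exact hB ((H i hi).mp hA)
    · intro i hB hA; by_contra hi; exact hA ((H i hi).mpr hB)
theorem ev_eq_bot_iff : ev P A = ⊥ ↔ ∀ i ∈ A, P i = ⊥ := by
  have h1 := h.ev_eq_ev_iff (A := A) (B := ∅)
  rw [ev_empty] at h1
  rw [h1]
  constructor
  · intro H i hA; by_contra hi; exact (H i hi).mp hA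
  · intro H i hi
    exact ⟨fun hA => hi (H i hA), fun hh => hh.elim⟩
theorem ev_orth_iff : Orth (ev P A) (ev P B) ↔ ∀ i ∈ A, i ∈ B → P i = ⊥ := by
  rw [← meet_eq_bot_iff (h.comm_ev A B), h.ev_meet, h.ev_eq_bot_iff]
  exact ⟨fun H i hA hB => H i ⟨hA, hB⟩, fun H i hi => H i hi.1 hi.2⟩
theorem ev_eq_total_iff : ev P A = D ↔ ∀ i, i ∉ A → P i = ⊥ := by
  rw [← h.ev_univ, h.ev_eq_ev_iff]
  constructor
  · intro H i hA; by_contra hi; exact hA ((H i hi).mpr trivial)
  · intro H i hi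
    refine ⟨fun _ => trivial, fun _ => ?_⟩
    by_contra hA; exact hi (H i hA)

theorem comm_right_of_mem (hx : ∀ i ∈ A, Comm x (P i)) : Comm x (ev P A) := by
  have hA : A.Finite := A.toFinite
  induction A, hA using Set.Finite.induction_on with
  | empty => rw [ev_empty]; exact comm_bot x
  | @insert a A ha _ ih =>
    have hd : Disjoint ({a} : Set ι) A := Set.disjoint_singleton_left.mpr ha
    rw [Set.insert_eq, ← h.ev_add hd]
    apply Comm.add_right
    · rw [ev_singleton]; exact hx a (Set.mem_insert _ _)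
    · exact ih fun i hi => hx i (Set.mem_insert_of_mem _ hi)
    · exact h.ev_orth hd
/-- `x` commutes with every `P i`, hence with `ev P A`. -/
theorem comm_right (hx : ∀ i, Comm x (P i)) (A : Set ι) : Comm x (ev P A) :=
  h.comm_right_of_mem fun i _ => hx i
theorem comm_left (hx : ∀ i, Comm (P i) x) (A : Set ι) : Comm (ev P A) x :=
  (h.comm_right (fun i => (hx i).symm) A).symm
theorem comm_total_of (hx : ∀ i, Comm x (P i)) : Comm x D := by
  rw [← h.ev_univ]; exact h.comm_right hx _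
omit [Finite ι] in
theorem orth_meet (hx : ∀ i, Comm x (P i)) {i j : ι} (hij : i ≠ j) :
    Orth (x ⊓ₒ P i) (x ⊓ₒ P j) :=
  (h.orth hij).mono (meet_le_right (hx i)) (meet_le_right (hx j))
theorem meet_ev (hx : ∀ i, Comm x (P i)) (A : Set ι) :
    x ⊓ₒ ev P A = ev (fun i => x ⊓ₒ P i) A := by
  have hl1 : IsLUB ((fun i => x ⊓ₒ P i) '' A) (ev (fun i => x ⊓ₒ P i) A) :=
    isLUB_ev (fun hij => h.orth_meet hx hij) A
  have hl2 : IsLUB ((fun i => P i ⊓ₒ cpl x) '' A) (ev (fun i => P i ⊓ₒ cpl x) A) :=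
    isLUB_ev (fun {i j} hij => by
      have := h.orth_meet (x := cpl x) (fun i => (hx i).cpl_left) hij
      rw [meet_comm (P i), meet_comm (P j)]
      exact this) A
  have b1 : ev (fun i => x ⊓ₒ P i) A ≤ x := by
    apply hl1.2
    rintro y ⟨i, _, rfl⟩
    exact meet_le_left (hx i)
  have b2 : Orth (ev (fun i => P i ⊓ₒ cpl x) A) x := by
    apply hl2.2
    rintro y ⟨i, _, rfl⟩
    exact orth_meet_cpl (hx i).symm
  have b3 : ev P A = ev (fun i => x ⊓ₒ P i) A +ₒ ev (fun i => P i ⊓ₒ cpl x) A := by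
    have ho := b2.symm.mono_left b1
    apply le_antisymm
    · apply h.ev_le
      intro i hi
      rw [← meet_add_meet_cpl (hx i).symm]
      apply add_le_add ho
      · rw [meet_comm]
        exact hl1.1 ⟨i, hi, rfl⟩
      · exact hl2.1 ⟨i, hi, rfl⟩
    · apply add_le ho
      · apply hl1.2
        rintro y ⟨i, hi, rfl⟩
        exact (meet_le_right (hx i)).trans (h.le_ev hi)
      · apply hl2.2
        rintro y ⟨i, hi, rfl⟩
        exact (meet_le_left (hx i).symm.cpl_right).trans (h.le_ev hi)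
  rw [b3, meet_comm]
  exact meet_eq_of_decomp (b2.symm.mono_left b1) b1 b2
/-- restriction of a partition to a commuting element -/
theorem restrict (hx : ∀ i, Comm x (P i)) : IsPart (fun i => x ⊓ₒ P i) (x ⊓ₒ D) :=
  ⟨fun hij => h.orth_meet hx hij, by rw [← h.meet_ev hx, h.ev_univ]⟩
/-- coarsening of a partition along a map of index sets -/
theorem map [Finite κ] (φ : ι → κ) : IsPart (fun k => ev P (φ ⁻¹' {k})) D := by
  apply IsPart.of_isLUB
  · intro i j hij
    apply h.ev_orth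
    rw [Set.disjoint_left]
    rintro a rfl ha
    exact hij ha
  · constructor
    · rintro y ⟨k, rfl⟩
      exact h.ev_le_total _
    · intro y hy
      apply h.isLUB_range.2
      rintro z ⟨i, rfl⟩
      exact (h.le_ev (A := φ ⁻¹' {φ i}) rfl).trans (hy ⟨φ i, rfl⟩)
theorem ev_map [Finite κ] (φ : ι → κ) (B : Set κ) :
    ev (fun k => ev P (φ ⁻¹' {k})) B = ev P (φ ⁻¹' B) := by
  apply le_antisymm
  · apply (h.map φ).ev_le
    intro k hk
    apply h.ev_mono
    rintro i rfl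
    exact hk
  · apply h.ev_le
    intro i hi
    exact (h.le_ev (A := φ ⁻¹' {φ i}) rfl).trans ((h.map φ).le_ev (i := φ i) hi)
/-- reindexing -/
theorem reindex (φ : κ ≃ ι) : IsPart (fun k => P (φ k)) D := by
  apply IsPart.of_isLUB
  · intro i j hij
    exact h.orth fun H => hij (φ.injective H)
  · have : Set.range (fun k => P (φ k)) = Set.range P := by
      ext y; constructor
      · rintro ⟨k, rfl⟩; exact ⟨φ k, rfl⟩
      · rintro ⟨i, rfl⟩; exact ⟨φ.symm i, by simp⟩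
    rw [this]; exact h.isLUB_range
/-- two partitions with the same sum, one finer than the other blockwise -/
theorem eq_of_le {Q : ι → E} (hQ : IsPart Q D) (hle : ∀ i, P i ≤ Q i) : P = Q := by
  funext i
  apply le_antisymm (hle i)
  have h1 : Q i ≤ D := hQ.le_total i
  rw [← h.ev_add_compl {i}, ev_singleton] at h1
  refine le_of_le_add ?_ h1 ?_
  · rw [← ev_singleton (P := P) i]
    simpa using h.ev_orth (A := {i}) disjoint_compl_right
  · rw [h.orth_ev_iff]
    intro j hj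
    exact (hQ.orth (by rintro rfl; exact hj rfl)).mono_right (hle j)
end IsPart

theorem ev_reindex (φ : κ ≃ ι) (B : Set ι) : ev (fun k => P (φ k)) (φ ⁻¹' B) = ev P B := by
  unfold ev
  congr 1
  ext y; constructor
  · rintro ⟨k, hk, rfl⟩; exact ⟨φ k, hk, rfl⟩
  · rintro ⟨i, hi, rfl⟩; exact ⟨φ.symm i, by simpa using hi, by simp⟩

/-- two-element partition -/
theorem isPart_bool (h : e ≤ f) : IsPart (fun b : Bool => if b then e else f -ₒ e) f := by
  apply IsPart.of_isLUB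
  · intro i j hij
    cases i <;> cases j
    · exact absurd rfl hij
    · exact (orth_sub h).symm
    · exact orth_sub h
    · exact absurd rfl hij
  · constructor
    · rintro y ⟨b, rfl⟩
      cases b
      · exact sub_le h
      · exact h
    · intro y hy
      conv_lhs => rw [← add_sub h]
      exact add_le (orth_sub h) (hy ⟨true, rfl⟩) (hy ⟨false, rfl⟩)

section prod
variable [Finite ι] [Finite κ] {P : ι → E} {Q : κ → E}

omit [Finite ι] [Finite κ] in
theorem IsPart.prod_orth (hP : IsPart P D) (hQ : IsPart Q D) (hc : ∀ i j, Comm (P i) (Q j))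
    {a b : ι × κ} (hab : a ≠ b) : Orth (P a.1 ⊓ₒ Q a.2) (P b.1 ⊓ₒ Q b.2) := by
  by_cases h1 : a.1 = b.1
  · have h2 : a.2 ≠ b.2 := fun h2 => hab (Prod.ext h1 h2)
    exact (hQ.orth h2).mono (meet_le_right (hc _ _)) (meet_le_right (hc _ _))
  · exact (hP.orth h1).mono (meet_le_left (hc _ _)) (meet_le_left (hc _ _))

theorem IsPart.prod_fst (hP : IsPart P D) (hQ : IsPart Q D) (hc : ∀ i j, Comm (P i) (Q j))
    (A : Set ι) : ev P A = ev (fun ij : ι × κ => P ij.1 ⊓ₒ Q ij.2) (Prod.fst ⁻¹' A) := by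
  have hl := isLUB_ev (P := fun ij : ι × κ => P ij.1 ⊓ₒ Q ij.2)
    (fun hab => hP.prod_orth hQ hc hab) (Prod.fst ⁻¹' A)
  apply le_antisymm
  · apply hP.ev_le
    intro i hi
    have h1 : P i = P i ⊓ₒ ev Q Set.univ := by rw [hQ.ev_univ, meet_eq_left (hP.le_total i)]
    rw [h1, hQ.meet_ev (hc i)]
    apply (hQ.restrict (hc i)).ev_le
    intro j _
    exact hl.1 ⟨(i, j), hi, rfl⟩
  · apply hl.2
    rintro y ⟨⟨i, j⟩, hi, rfl⟩
    exact (meet_le_left (hc i j)).trans (hP.le_ev hi)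

/-- common refinement of two commuting partitions -/
theorem IsPart.prod (hP : IsPart P D) (hQ : IsPart Q D) (hc : ∀ i j, Comm (P i) (Q j)) :
    IsPart (fun ij : ι × κ => P ij.1 ⊓ₒ Q ij.2) D :=
  ⟨fun hab => hP.prod_orth hQ hc hab, by
    rw [← hP.ev_univ, hP.prod_fst hQ hc Set.univ, Set.preimage_univ]⟩

theorem IsPart.prod_snd (hP : IsPart P D) (hQ : IsPart Q D) (hc : ∀ i j, Comm (P i) (Q j))
    (B : Set κ) : ev Q B = ev (fun ij : ι × κ => P ij.1 ⊓ₒ Q ij.2) (Prod.snd ⁻¹' B) := by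
  have h1 := hQ.prod_fst hP (fun j i => (hc i j).symm) B
  rw [h1]
  have h2 := ev_reindex (P := fun ij : ι × κ => P ij.1 ⊓ₒ Q ij.2) (Equiv.prodComm κ ι)
    (Prod.snd ⁻¹' B)
  rw [← h2]
  congr 1
  funext ji
  exact meet_comm _ _
end prod

end ev
end OMP

section ROMP
variable {E : Type*} [ROMP E] {e f g x y z p q r s D : E}

theorem Comm.meet_right (h1 : Comm x e) (h2 : Comm x f) (h : Comm e f) : Comm x (e ⊓ₒ f) := by
  apply ROMP.specker' (orth_meet_meet_cpl h) (meet_le_right h) (orth_meet_cpl h) _ h2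
  rw [meet_add_meet_cpl h]
  exact h1
theorem Comm.meet_left (h1 : Comm e x) (h2 : Comm f x) (h : Comm e f) : Comm (e ⊓ₒ f) x :=
  (Comm.meet_right h1.symm h2.symm h).symm
theorem meet_assoc' (h1 : Comm e f) (h2 : Comm e g) (h3 : Comm f g) :
    (e ⊓ₒ f) ⊓ₒ g = e ⊓ₒ (f ⊓ₒ g) :=
  meet_assoc h1 (Comm.meet_left h2 h3 h1) h3 (Comm.meet_right h1 h2 h3)
theorem meet_left_comm (h1 : Comm e f) (h2 : Comm e g) (h3 : Comm f g) :
    e ⊓ₒ (f ⊓ₒ g) = f ⊓ₒ (e ⊓ₒ g) := by
  rw [← meet_assoc' h1 h2 h3, meet_comm e f, meet_assoc' h1.symm h3 h2]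
theorem meet_right_comm (h1 : Comm e f) (h2 : Comm e g) (h3 : Comm f g) :
    (e ⊓ₒ f) ⊓ₒ g = (e ⊓ₒ g) ⊓ₒ f := by
  rw [meet_assoc' h1 h2 h3, meet_comm f g, ← meet_assoc' h2 h1 h3.symm]

theorem exists_atoms_fin (n : ℕ) (x : Fin n → E) (hx : ∀ i j, Comm (x i) (x j)) :
    ∃ P : (Fin n → Bool) → E, IsPart P ⊤ ∧ (∀ i, x i = ev P {b | b i = true}) ∧
      ∀ y, (∀ i, Comm y (x i)) → ∀ b, Comm y (P b) := by
  induction n with
  | zero =>
    refine ⟨fun _ => ⊤, ?_, fun i => i.elim0, fun y _ b => comm_top y⟩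
    apply IsPart.of_isLUB
    · intro i j hij
      exact absurd (Subsingleton.elim i j) hij
    · constructor
      · rintro y ⟨k, rfl⟩; exact le_rfl
      · intro y hy; exact hy ⟨fun i => i.elim0, rfl⟩
  | succ n ih =>
    obtain ⟨P, hP, hPx, hPc⟩ := ih (fun i => x i.succ) (fun i j => hx _ _)
    have hB := isPart_bool (e := x 0) (f := ⊤) le_top
    have hc0 : ∀ b, Comm (x 0) (P b) := hPc _ fun i => hx _ _
    have hc : ∀ (c : Bool) (b : Fin n → Bool), Comm (if c then x 0 else ⊤ -ₒ x 0) (P b) := by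
      intro c b
      cases c
      · simpa using hc0 b
      · exact hc0 b
    let φ : (Fin (n + 1) → Bool) ≃ Bool × (Fin n → Bool) :=
      (Fin.consEquiv (fun _ => Bool)).symm
    have h1 := hB.prod hP hc
    refine ⟨fun b => (if b 0 then x 0 else ⊤ -ₒ x 0) ⊓ₒ P (fun i => b i.succ), ?_, ?_, ?_⟩
    · exact h1.reindex φ
    · intro i
      have key : ∀ A : Set (Bool × (Fin n → Bool)),
          ev (fun ij : Bool × (Fin n → Bool) => (if ij.1 then x 0 else ⊤ -ₒ x 0) ⊓ₒ P ij.2) A =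
          ev (fun b : Fin (n + 1) → Bool =>
            (if b 0 then x 0 else ⊤ -ₒ x 0) ⊓ₒ P (fun i => b i.succ)) (φ ⁻¹' A) := by
        intro A
        exact (ev_reindex φ A).symm
      refine Fin.cases ?_ (fun i => ?_) i
      · have h2 := hB.prod_fst hP hc {true}
        rw [ev_singleton, key] at h2
        have h3 : {b : Fin (n + 1) → Bool | b 0 = true} = φ ⁻¹' (Prod.fst ⁻¹' {true}) := by
          ext b
          rfl
        rw [h3]
        exact h2
      · have h2 := hB.prod_snd hP hc {b | b i = true}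
        rw [key, ← hPx] at h2
        exact h2
    · intro y hy b
      apply Comm.meet_right _ _ (hc _ _)
      · cases b 0
        · simpa using hy 0
        · exact hy 0
      · exact hPc y (fun i => hy _) _

/-- A finite pairwise commuting family `x` is given by a partition of `⊤` into the atoms
indexed by `ι → Bool`. Everything commuting with all `x i` commutes with the atoms. -/
theorem exists_atoms {ι : Type*} [Finite ι] (x : ι → E) (hx : ∀ i j, Comm (x i) (x j)) :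
    ∃ P : (ι → Bool) → E, IsPart P ⊤ ∧ (∀ i, x i = ev P {b | b i = true}) ∧
      ∀ y, (∀ i, Comm y (x i)) → ∀ b, Comm y (P b) := by
  obtain ⟨n, ⟨ψ⟩⟩ := Finite.exists_equiv_fin ι
  obtain ⟨P, hP, hPx, hPc⟩ := exists_atoms_fin n (fun i => x (ψ.symm i)) (fun i j => hx _ _)
  let φ : (ι → Bool) ≃ (Fin n → Bool) := Equiv.arrowCongr ψ (Equiv.refl _)
  refine ⟨fun b => P (φ b), hP.reindex φ, ?_, ?_⟩
  · intro i
    have h := hPx (ψ i)
    simp only [Equiv.symm_apply_apply] at h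
    rw [h, ← ev_reindex φ]
    congr 1
    ext b
    simp [φ, Equiv.arrowCongr]
  · intro y hy b
    exact hPc y (fun i => hy _) _

/-- Boolean representation: an injective Boolean homomorphism from the power set of `Ω`. -/
structure BoolRep (E : Type*) [OMP E] (Ω : Type*) where
  /-- the homomorphism -/
  φ : Set Ω → E
  le_iff : ∀ {A B : Set Ω}, φ A ≤ φ B ↔ A ⊆ B
  univ : φ Set.univ = ⊤
  cpl : ∀ A : Set Ω, Romp.cpl (φ A) = φ Aᶜ
  add : ∀ {A B : Set Ω}, Disjoint A B → φ A +ₒ φ B = φ (A ∪ B)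
  comm : ∀ A B : Set Ω, Comm (φ A) (φ B)
  meet : ∀ A B : Set Ω, φ A ⊓ₒ φ B = φ (A ∩ B)
  empty : φ ∅ = ⊥
  orth_iff : ∀ {A B : Set Ω}, Orth (φ A) (φ B) ↔ Disjoint A B
  inj : Function.Injective φ
  sub : ∀ {A B : Set Ω}, B ⊆ A → φ A -ₒ φ B = φ (A \ B)
  ev : ∀ {ι : Type} (P : ι → Set Ω) (A : Set ι),
    Romp.ev (fun i => φ (P i)) A = φ (⋃ i ∈ A, P i)

/-- a partition of `⊤` into non-zero elements gives a Boolean representation -/
noncomputable def IsPart.boolRep {Ω : Type*} [Finite Ω] {P : Ω → E} (hP : IsPart P ⊤)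
    (h0 : ∀ ω, P ω ≠ ⊥) : BoolRep E Ω where
  φ A := Romp.ev P A
  le_iff := by
    intro A B
    rw [hP.ev_le_ev_iff]
    constructor
    · intro H i hi
      by_contra hB
      exact h0 i (H i hi hB)
    · intro H i hi hB
      exact absurd (H hi) hB
  univ := hP.ev_univ
  cpl := by
    intro A
    rw [← top_sub, hP.sub_ev]
  add := fun h => hP.ev_add h
  comm := hP.comm_ev
  meet := hP.ev_meet
  empty := ev_empty
  orth_iff := by
    intro A B
    rw [hP.ev_orth_iff, Set.disjoint_left]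
    exact ⟨fun H i hA hB => h0 i (H i hA hB), fun H i hA hB => absurd hB (H hA)⟩
  inj := by
    intro A B hAB
    ext i
    exact hP.ev_eq_ev_iff.mp hAB i (h0 i)
  sub := fun h => hP.ev_sub h
  ev := by
    intro ι Q A
    apply ev_eq_of_isLUB
    constructor
    · rintro y ⟨i, hi, rfl⟩
      exact hP.ev_mono (Set.subset_biUnion_of_mem (u := Q) hi)
    · intro y hy
      apply hP.ev_le
      intro ω hω
      simp only [Set.mem_iUnion] at hω
      obtain ⟨i, hi, hω⟩ := hω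
      exact (hP.le_ev hω).trans (hy ⟨i, hi, rfl⟩)

/-- removing the null atoms of a partition -/
theorem IsPart.nonzero {ι : Type*} [Finite ι] {P : ι → E} (hP : IsPart P D) :
    IsPart (fun ω : {i : ι // P i ≠ ⊥} => P ω) D := by
  apply IsPart.of_isLUB
  · intro i j hij
    exact hP.orth fun H => hij (Subtype.ext H)
  · constructor
    · rintro y ⟨i, rfl⟩
      exact hP.le_total i
    · intro y hy
      apply hP.isLUB_range.2
      rintro z ⟨i, rfl⟩
      by_cases hi : P i = ⊥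
      · rw [hi]; exact bot_le
      · exact hy ⟨⟨i, hi⟩, rfl⟩

theorem IsPart.ev_nonzero {ι : Type*} [Finite ι] {P : ι → E} (hP : IsPart P D) (A : Set ι) :
    Romp.ev P A = Romp.ev (fun ω : {i : ι // P i ≠ ⊥} => P ω) {ω | (ω : ι) ∈ A} := by
  apply le_antisymm
  · apply hP.ev_le
    intro i hi
    by_cases h0 : P i = ⊥
    · rw [h0]; exact bot_le
    · exact hP.nonzero.le_ev (i := ⟨i, h0⟩) hi
  · apply hP.nonzero.ev_le
    intro i hi
    exact hP.le_ev hi

/-- **Boolean transfer**: a finite pairwise commuting family lives in a (power set) Boolean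
algebra: order, complement, orthogonality, sums, meets can be computed in `Set Ω`. -/
theorem exists_boolRep {ι : Type} [Finite ι] (x : ι → E) (hx : ∀ i j, Comm (x i) (x j)) :
    ∃ (Ω : Type) (R : BoolRep E Ω) (X : ι → Set Ω), (∀ i, x i = R.φ (X i)) ∧
      ∀ y, (∀ i, Comm y (x i)) → ∀ A, Comm y (R.φ A) := by
  obtain ⟨P, hP, hPx, hPc⟩ := exists_atoms x hx
  refine ⟨{b : ι → Bool // P b ≠ ⊥}, hP.nonzero.boolRep fun ω => ω.2,
    fun i => {ω | (ω : ι → Bool) i = true}, ?_, ?_⟩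
  · intro i
    rw [hPx i]
    exact hP.ev_nonzero _
  · intro y hy A
    exact hP.nonzero.comm_right (fun ω => hPc y hy ω) A

end ROMP

section Act
variable {E : Type*} [OMP E] {G : Type*} [Group G] [OMPAct G E] {e f x D : E}

theorem smul_le_smul (a : G) (h : e ≤ f) : a • e ≤ a • f := OMPAct.smul_le_smul' a h
@[simp] theorem smul_le_smul_iff (a : G) : a • e ≤ a • f ↔ e ≤ f := by
  constructor
  · intro h
    have := smul_le_smul a⁻¹ h
    rwa [inv_smul_smul, inv_smul_smul] at this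
  · exact smul_le_smul a
theorem smul_cpl (a : G) (e : E) : a • cpl e = cpl (a • e) := OMPAct.smul_cpl' a e
@[simp] theorem smul_bot (a : G) : a • (⊥ : E) = ⊥ := by
  apply le_bot_iff.mp
  have h : (⊥ : E) ≤ a⁻¹ • ⊥ := bot_le
  have := smul_le_smul a h
  rwa [smul_inv_smul] at this
@[simp] theorem smul_top (a : G) : a • (⊤ : E) = ⊤ := by
  rw [← cpl_bot, smul_cpl, smul_bot]
@[simp] theorem smul_orth_iff (a : G) : Orth (a • e) (a • f) ↔ Orth e f := by
  unfold Orth
  rw [← smul_cpl, smul_le_smul_iff]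
theorem smul_isLUB (a : G) {A : Set E} (h : IsLUB A x) :
    IsLUB ((fun e => a • e) '' A) (a • x) := by
  constructor
  · rintro y ⟨e, he, rfl⟩
    exact smul_le_smul a (h.1 he)
  · intro y hy
    have : x ≤ a⁻¹ • y := by
      apply h.2
      intro e he
      rw [← smul_le_smul_iff a, smul_inv_smul]
      exact hy ⟨e, he, rfl⟩
    rwa [← smul_le_smul_iff a, smul_inv_smul] at this
theorem smul_isGLB (a : G) {A : Set E} (h : IsGLB A x) :
    IsGLB ((fun e => a • e) '' A) (a • x) := by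
  constructor
  · rintro y ⟨e, he, rfl⟩
    exact smul_le_smul a (h.1 he)
  · intro y hy
    have : a⁻¹ • y ≤ x := by
      apply h.2
      intro e he
      rw [← smul_le_smul_iff a, smul_inv_smul]
      exact hy ⟨e, he, rfl⟩
    rwa [← smul_le_smul_iff a, smul_inv_smul] at this
theorem image_smul_smul_inv (a : G) (A : Set E) :
    (fun e => a⁻¹ • e) '' ((fun e => a • e) '' A) = A := by
  rw [Set.image_image]
  simp
theorem smul_lub (a : G) (A : Set E) : a • lub A = lub ((fun e => a • e) '' A) := by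
  by_cases h : ∃ x, IsLUB A x
  · obtain ⟨x, hx⟩ := h
    rw [lub_eq hx, lub_eq (smul_isLUB a hx)]
  · have h' : ¬ ∃ x, IsLUB ((fun e => a • e) '' A) x := by
      rintro ⟨x, hx⟩
      apply h
      have := smul_isLUB a⁻¹ hx
      rw [image_smul_smul_inv] at this
      exact ⟨_, this⟩
    unfold lub
    rw [dif_neg h, dif_neg h', smul_bot]
theorem smul_glb (a : G) (A : Set E) : a • glb A = glb ((fun e => a • e) '' A) := by
  by_cases h : ∃ x, IsGLB A x
  · obtain ⟨x, hx⟩ := h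
    rw [glb_eq hx, glb_eq (smul_isGLB a hx)]
  · have h' : ¬ ∃ x, IsGLB ((fun e => a • e) '' A) x := by
      rintro ⟨x, hx⟩
      apply h
      have := smul_isGLB a⁻¹ hx
      rw [image_smul_smul_inv] at this
      exact ⟨_, this⟩
    unfold glb
    rw [dif_neg h, dif_neg h', smul_bot]
theorem smul_add (a : G) (e f : E) : a • (e +ₒ f) = a • e +ₒ a • f := by
  unfold add
  rw [smul_lub, Set.image_pair]
theorem smul_sub (a : G) (e f : E) : a • (e -ₒ f) = a • e -ₒ a • f := by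
  unfold sub
  rw [smul_cpl, smul_add, smul_cpl]
theorem smul_meet (a : G) (e f : E) : a • (e ⊓ₒ f) = a • e ⊓ₒ a • f := by
  unfold meet
  rw [smul_glb, Set.image_pair]
theorem Comm.smul (h : Comm e f) (a : G) : Comm (a • e) (a • f) := by
  obtain ⟨p, q, hpq, rfl, hp, hq⟩ := h
  refine ⟨a • p, a • q, (smul_orth_iff a).mpr hpq, smul_add a p q, smul_le_smul a hp, ?_⟩
  rw [← smul_cpl]
  exact smul_le_smul a hq
@[simp] theorem smul_comm_iff (a : G) : Comm (a • e) (a • f) ↔ Comm e f := by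
  constructor
  · intro h
    have := h.smul a⁻¹
    rwa [inv_smul_smul, inv_smul_smul] at this
  · exact fun h => h.smul a
theorem smul_ev {ι : Type*} (a : G) (P : ι → E) (A : Set ι) :
    a • ev P A = ev (fun i => a • P i) A := by
  unfold ev
  rw [smul_lub, Set.image_image]
theorem IsPart.smul {ι : Type*} {P : ι → E} (h : IsPart P D) (a : G) :
    IsPart (fun i => a • P i) (a • D) :=
  ⟨fun hij => (smul_orth_iff a).mpr (h.orth hij), by rw [← smul_ev, h.ev_univ]⟩
theorem eq_bot_of_smul (a : G) (h : a • e = ⊥) : e = ⊥ := by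
  rw [← inv_smul_smul a e, h, smul_bot]
@[simp] theorem smul_eq_bot_iff (a : G) : a • e = ⊥ ↔ e = ⊥ :=
  ⟨eq_bot_of_smul a, fun h => by rw [h, smul_bot]⟩
theorem comm_inv_smul_iff (a : G) : Comm (a⁻¹ • e) f ↔ Comm e (a • f) := by
  rw [← smul_comm_iff a, smul_inv_smul]

end Act

/-! ## the power set instance -/

section SetInst
variable {X : Type*}

instance instOMPSet : OMP (Set X) where
  cpl A := Aᶜ
  cpl_cpl' A := compl_compl A
  cpl_le_cpl' h := Set.compl_subset_compl.mpr h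
  eq_bot_of_le_cpl' := by
    intro A h
    ext x
    simp only [Set.bot_eq_empty, Set.mem_empty_iff_false, iff_false]
    exact fun hx => h hx hx
  exists_lub' := fun {e f} _ => ⟨e ⊔ f, isLUB_pair⟩
  orthomodular' := by
    intro e f x y h hx hy
    have h1 := hx.unique isLUB_pair
    have h2 := hy.unique isLUB_pair
    subst h1
    subst h2
    ext a
    simp only [Set.sup_eq_union, Set.mem_union, Set.mem_compl_iff, not_or, not_not]
    constructor
    · rintro (ha | ha)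
      · exact h ha
      · exact ha.2
    · intro ha
      by_cases hae : a ∈ e
      · exact Or.inl hae
      · exact Or.inr ⟨hae, ha⟩

theorem set_cpl (A : Set X) : cpl A = Aᶜ := rfl
theorem set_orth {A B : Set X} : Orth A B ↔ Disjoint A B := by
  rw [Set.disjoint_left]
  exact Iff.rfl
theorem set_add (A B : Set X) : A +ₒ B = A ∪ B := lub_eq isLUB_pair
theorem set_meet (A B : Set X) : A ⊓ₒ B = A ∩ B := glb_eq isGLB_pair
theorem set_sub {A B : Set X} : A -ₒ B = A \ B := by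
  show (cpl (B +ₒ cpl A) : Set X) = _
  rw [set_add]
  ext a
  simp only [set_cpl, Set.mem_compl_iff, Set.mem_union, not_or, not_not, Set.mem_sdiff]
  exact and_comm
theorem set_comm (A B : Set X) : Comm A B := by
  refine ⟨A ∩ B, A \ B, ?_, ?_, Set.inter_subset_right, ?_⟩
  · rw [set_orth, Set.disjoint_left]
    exact fun a ha hb => hb.2 ha.2
  · rw [set_add, Set.inter_union_sdiff]
  · exact fun a ha => ha.2
theorem set_ev {ι : Type*} (P : ι → Set X) (A : Set ι) : ev P A = ⋃ i ∈ A, P i := by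
  apply lub_eq
  constructor
  · rintro y ⟨i, hi, rfl⟩
    exact Set.subset_biUnion_of_mem (u := P) hi
  · intro y hy
    exact Set.iUnion₂_subset fun i hi => hy ⟨i, hi, rfl⟩
theorem set_isPart {ι : Type*} {P : ι → Set X} {D : Set X} :
    IsPart P D ↔ (∀ i j, i ≠ j → Disjoint (P i) (P j)) ∧ (⋃ i, P i) = D := by
  constructor
  · intro h
    refine ⟨fun i j hij => set_orth.mp (h.orth hij), ?_⟩
    have := h.ev_univ
    rw [set_ev] at this
    simpa using this
  · rintro ⟨h1, h2⟩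
    refine ⟨fun {i j} hij => set_orth.mpr (h1 i j hij), ?_⟩
    rw [set_ev]
    simpa using h2

instance instROMPSet : ROMP (Set X) where
  specker' := fun _ _ _ _ _ => set_comm _ _

end SetInst

end Romp
end Crest.Agent.R189
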