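import Crest.Agent.R189.EvSpecker
import Crest.Agent.R189.Romp

/-!
Row 189: the events of a coloured group form an orthomodular poset (`OMP`), a regular one (`ROMP`)
if the group is centreless (helper418).
-/

set_option autoImplicit false

namespace Crest.Agent.R189

open Equiv Equiv.Perm
open scoped commutatorElement

variable {C : Type} [Fintype C] [DecidableEq C] {V : Type} [AddCommGroup V] {T : Type} [Group T]

namespace Ev

variable {S : ColGrp C V T}

theorem isLUB_add {e f : Ev S} (h : Orth e f) : IsLUB {e, f} (add e f h) := by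
  constructor
  · rintro x hx
    rcases hx with rfl | hx
    · exact le_add_left h
    · rw [Set.mem_singleton_iff] at hx; subst hx; exact le_add_right h
  · intro x hx
    exact add_le h (hx (by simp)) (hx (by simp))

instance instOMP : OMP (Ev S) where
  top := unit S
  le_top := le_unit
  bot := zero S
  bot_le := zero_le
  cpl := compl
  cpl_cpl' := compl_compl'
  cpl_le_cpl' := compl_anti
  eq_bot_of_le_cpl' := fun h => eq_zero_of_orth_self (orth_iff_le_compl.2 h)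
  exists_lub' := fun h => ⟨_, isLUB_add (orth_iff_le_compl.2 h)⟩
  orthomodular' := by
    intro e f x y h hx hy
    obtain ⟨h', hd⟩ := diff_eq_compl h
    have hx' : x = add e (compl f) h' := hx.unique (isLUB_add h')
    subst hx'
    rw [← hd] at hy
    rw [hy.unique (isLUB_add (orth_diff h)), add_diff]

theorem romp_orth {e f : Ev S} : Romp.Orth e f ↔ Orth e f := orth_iff_le_compl.symm

theorem romp_cpl (e : Ev S) : Romp.cpl e = compl e := rfl

theorem romp_bot : (⊥ : Ev S) = zero S := rfl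

theorem romp_top : (⊤ : Ev S) = unit S := rfl

theorem romp_add {e f : Ev S} (h : Orth e f) : Romp.add e f = add e f h :=
  Romp.lub_eq (isLUB_add h)

/-- value of the sum -/
theorem romp_add_hom {e f : Ev S} (h : Romp.Orth e f) (σ) :
    (Romp.add e f).hom σ = e.hom σ * f.hom σ := by
  rw [romp_add (romp_orth.1 h)]; rfl

theorem romp_sub {e f : Ev S} (h : e ≤ f) : Romp.sub f e = diff f e h := by
  obtain ⟨h', hd⟩ := diff_eq_compl h
  rw [hd, Romp.sub, romp_cpl f, romp_add h', romp_cpl]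

theorem romp_sub_hom {e f : Ev S} (h : e ≤ f) (σ) :
    (Romp.sub f e).hom σ = f.hom σ * (e.hom σ)⁻¹ := by
  rw [romp_sub h]; rfl

/-- `a ⊥ v`, `x = u + v` (as homs) then `⁅a s, x t⁆ = ⁅a s, u t⁆`. -/
theorem comm_add {a x u v : Ev S} (hx : ∀ σ, x.hom σ = u.hom σ * v.hom σ) (h : Orth a v) (s t) :
    ⁅a.hom s, x.hom t⁆ = ⁅a.hom s, u.hom t⁆ := by
  have h1 := h s t
  rw [hx]
  simp only [commutatorElement_def]
  calc a.hom s * (u.hom t * v.hom t) * (a.hom s)⁻¹ * (u.hom t * v.hom t)⁻¹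
      = a.hom s * u.hom t * (v.hom t * (a.hom s)⁻¹) * (v.hom t)⁻¹ * (u.hom t)⁻¹ := by group
    _ = a.hom s * u.hom t * (a.hom s)⁻¹ * (u.hom t)⁻¹ := by
        have h2 : v.hom t * (a.hom s)⁻¹ = (a.hom s)⁻¹ * v.hom t := by
          rw [eq_inv_mul_iff_mul_eq, ← mul_assoc, h1]; group
        rw [h2]; group

theorem comm_diff {a x u : Ev S} (hu : u ≤ x) (h : Orth a (diff x u hu)) (s t) :
    ⁅a.hom s, x.hom t⁆ = ⁅a.hom s, u.hom t⁆ :=
  comm_add (hom_eq_of_le hu) h s t

/-- commuting events satisfy the commutator identity with the meet -/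
theorem comm_of_le {a x k : Ev S} (hka : k ≤ a) (hkx : k ≤ x) (h : Orth a (diff x k hkx)) (s t) :
    ⁅a.hom s, x.hom t⁆ = k.hom ⁅s, t⁆ := by
  rw [comm_diff hkx h]
  have h2 := hka t s
  simp only [commutatorElement_def]
  rw [h2]
  simp only [map_mul, map_inv]

/-- the criterion gives `Comm`. -/
theorem romp_comm_of_crit {a x : Ev S} (hZ : Subgroup.center T = ⊥)
    (h : ∀ s t, ⁅a.hom s, x.hom t⁆ = ⁅x.hom s, a.hom t⁆) : Romp.Comm x a := by
  obtain ⟨k, hka, hkx, hk⟩ := crit a x h hZ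
  refine ⟨k, diff x k hkx, ?_, ?_, hka, ?_⟩
  · rw [romp_orth]; exact orth_diff hkx
  · rw [romp_add (orth_diff hkx), add_diff]
  · rw [romp_cpl]
    refine le_compl_of_orth (Orth.symm ?_)
    intro s t
    rw [diff_hom]
    have h1 := hk s t
    have h2 := hka t s
    have h3 := (orth_diff hkx) ⁅s, t⁆ t
    rw [diff_hom] at h3
    -- a s * x t = k⁅s,t⁆ * x t * a s
    have h4 : a.hom s * x.hom t = k.hom ⁅s, t⁆ * x.hom t * a.hom s := by
      rw [← h1]; simp only [commutatorElement_def]; group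
    have h5 : a.hom s * (k.hom t)⁻¹ = (k.hom (s * t * s⁻¹))⁻¹ * a.hom s := by
      rw [← h2]; group
    have h6 : (k.hom ⁅s, t⁆) * k.hom t = k.hom (s * t * s⁻¹) := by
      rw [← map_mul, commutatorElement_def]; congr 1; group
    calc a.hom s * (x.hom t * (k.hom t)⁻¹)
        = (a.hom s * x.hom t) * (k.hom t)⁻¹ := by group
      _ = k.hom ⁅s, t⁆ * x.hom t * (a.hom s * (k.hom t)⁻¹) := by rw [h4]; group
      _ = k.hom ⁅s, t⁆ * x.hom t * (k.hom ⁅s, t⁆ * k.hom t)⁻¹ * a.hom s := by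
          rw [h5, ← h6]; group
      _ = (k.hom ⁅s, t⁆ * (x.hom t * (k.hom t)⁻¹)) * (k.hom ⁅s, t⁆)⁻¹ * a.hom s := by group
      _ = x.hom t * (k.hom t)⁻¹ * a.hom s := by rw [h3]; group

/-- unfolding of `Comm` -/
theorem romp_comm_iff {x a : Ev S} : Romp.Comm x a ↔
    ∃ k : Ev S, k ≤ a ∧ ∃ hkx : k ≤ x, Orth a (diff x k hkx) := by
  constructor
  · rintro ⟨P, Q, h1, h2, h3, h4⟩
    have h1' := romp_orth.1 h1
    rw [romp_add h1'] at h2
    have hPx : P ≤ x := by rw [h2]; exact le_add_left h1'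
    refine ⟨P, h3, hPx, ?_⟩
    have : diff x P hPx = Q := by
      ext σ
      rw [diff_hom, h2, add_hom, h1' σ σ]; group
    rw [this]
    exact (orth_iff_le_compl.2 h4).symm
  · rintro ⟨k, hka, hkx, h⟩
    refine ⟨k, diff x k hkx, romp_orth.2 (orth_diff hkx), ?_, hka, ?_⟩
    · rw [romp_add (orth_diff hkx), add_diff]
    · exact orth_iff_le_compl.1 h.symm

theorem specker_aux (hZ : Subgroup.center T = ⊥) {x p q g : Ev S} (hpq : Romp.Orth p q)
    (hpg : p ≤ g) (hqg : q ≤ Romp.cpl g) (h1 : Romp.Comm x (Romp.add p q)) (h2 : Romp.Comm x g) :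
    Romp.Comm x p := by
  have hpq' := romp_orth.1 hpq
  have hqg' : Orth q g := orth_iff_le_compl.2 hqg
  rw [romp_add hpq'] at h1
  obtain ⟨c, hce, hcx, hd⟩ := romp_comm_iff.1 h1
  obtain ⟨b, hbg, hbx, hd'⟩ := romp_comm_iff.1 h2
  set e := add p q hpq' with he
  -- ⁅p s, x t⁆ = ⁅p s, c t⁆ = ⁅p s, b t⁆
  have hpe : p ≤ e := le_add_left hpq'
  have i1 : ∀ s t, ⁅p.hom s, x.hom t⁆ = ⁅p.hom s, c.hom t⁆ :=
    comm_diff hcx (Orth.mono hd hpe le_rfl)
  have i2 : ∀ s t, ⁅p.hom s, x.hom t⁆ = ⁅p.hom s, b.hom t⁆ :=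
    comm_diff hbx (Orth.mono hd' hpg le_rfl)
  -- ⁅b s, p t⁆ = ⁅b s, e t⁆ = ⁅b s, c t⁆
  have i3 : ∀ s t, ⁅b.hom s, e.hom t⁆ = ⁅b.hom s, p.hom t⁆ :=
    comm_add (fun σ => rfl) (Orth.mono hqg'.symm hbg le_rfl)
  have o1 : Orth (diff e c hce) x := by
    have : x = add c (diff x c hcx) (orth_diff hcx) := (add_diff hcx).symm
    rw [this]
    exact orth_add _ (orth_diff hce).symm (Orth.mono hd (diff_le hce) le_rfl)
  have i4 : ∀ s t, ⁅b.hom s, e.hom t⁆ = ⁅b.hom s, c.hom t⁆ :=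
    comm_diff hce (Orth.mono o1.symm hbx le_rfl)
  -- ⁅c s, p t⁆ = ⁅c s, g t⁆ = ⁅c s, b t⁆
  have o2 : Orth e (diff g p hpg) := by
    refine (orth_add _ (orth_diff hpg).symm ?_).symm
    exact Orth.mono hqg'.symm (diff_le hpg) le_rfl
  have i5 : ∀ s t, ⁅c.hom s, g.hom t⁆ = ⁅c.hom s, p.hom t⁆ :=
    comm_diff hpg (Orth.mono o2 hce le_rfl)
  have o3 : Orth (diff g b hbg) x := by
    have : x = add b (diff x b hbx) (orth_diff hbx) := (add_diff hbx).symm
    rw [this]
    exact orth_add _ (orth_diff hbg).symm (Orth.mono hd' (diff_le hbg) le_rfl)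
  have i6 : ∀ s t, ⁅c.hom s, g.hom t⁆ = ⁅c.hom s, b.hom t⁆ :=
    comm_diff hbg (Orth.mono o3.symm hcx le_rfl)
  -- chain
  have key : ∀ s t, ⁅p.hom s, x.hom t⁆ = ⁅b.hom s, p.hom t⁆ := by
    intro s t
    rw [i1, ← commutatorElement_inv, ← i5, i6, commutatorElement_inv, ← i4, i3]
  refine romp_comm_of_crit hZ ?_
  intro s t
  calc ⁅p.hom s, x.hom t⁆ = ⁅b.hom s, p.hom t⁆ := key s t
    _ = ⁅p.hom t, b.hom s⁆⁻¹ := (commutatorElement_inv _ _).symm
    _ = ⁅p.hom t, x.hom s⁆⁻¹ := by rw [i2]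
    _ = ⁅x.hom s, p.hom t⁆ := commutatorElement_inv _ _

end Ev

/-- the class of centreless groups -/
class Centreless (T : Type) [Group T] : Prop where
  center_eq : Subgroup.center T = ⊥

instance Ev.instROMP [Centreless T] {S : ColGrp C V T} : ROMP (Ev S) where
  toOMP := Ev.instOMP
  specker' := fun h1 h2 h3 h4 h5 => Ev.specker_aux Centreless.center_eq h1 h2 h3 h4 h5

end Crest.Agent.R189
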