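import Crest.Agent.R189.EvRomp

/-!
Row 189: translation `v.e` of the events of a coloured group, action of `V` by automorphisms of the
event poset (helper418).
-/

set_option autoImplicit false

namespace Crest.Agent.R189

open Equiv Equiv.Perm
open scoped commutatorElement

variable {C : Type} [Fintype C] [DecidableEq C] {V : Type} [AddCommGroup V] {T : Type} [Group T]

/-- the function equal to `v` on `D`, to `-|D| v` at `c0`, zero elsewhere -/
def lamD (v : V) (D : Finset C) (c0 : C) : C → V :=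
  fun c => if c ∈ D then v else if c = c0 then -(D.card • v) else 0

theorem lamD_sum (v : V) (D : Finset C) {c0 : C} (h : c0 ∉ D) : ∑ c, lamD v D c0 c = 0 := by
  have h1 : ∀ c, lamD v D c0 c = (if c ∈ D then v else 0) + (if c = c0 then -(D.card • v) else 0) := by
    intro c
    unfold lamD
    by_cases hc : c ∈ D
    · have : c ≠ c0 := fun h' => h (h' ▸ hc)
      simp [hc, this]
    · simp [hc]
  simp only [h1]
  rw [Finset.sum_add_distrib, Finset.sum_ite_mem, Finset.univ_inter, Finset.sum_const,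
    Finset.sum_ite_eq' Finset.univ c0]
  simp

theorem lamD_mem (v : V) {D : Finset C} {c0 : C} {c : C} (h : c ∈ D) : lamD v D c0 c = v := by
  simp [lamD, h]

theorem lamD_off (v : V) {D : Finset C} {c0 : C} {c : C} (h : c ∉ D) (h' : c ≠ c0) :
    lamD v D c0 c = 0 := by
  simp [lamD, h, h']

namespace ColGrp

variable (S : ColGrp C V T)

theorem H_zero : S.H 0 = 1 := by
  have h1 := S.H_add 0 0 (by simp) (by simp)
  rw [add_zero] at h1
  exact (mul_eq_left.1 h1.symm)

theorem H_neg {l : C → V} (h : ∑ c, l c = 0) : S.H (-l) = (S.H l)⁻¹ := by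
  rw [eq_inv_iff_mul_eq_one, ← S.H_add _ _ (by simp [h]) h, neg_add_cancel, H_zero]

theorem H_sub {l m : C → V} (h : ∑ c, l c = 0) (h' : ∑ c, m c = 0) :
    S.H (l - m) = S.H l * (S.H m)⁻¹ := by
  rw [sub_eq_add_neg, S.H_add _ _ h (by simp [h']), S.H_neg h']

theorem H_comm {l m : C → V} (h : ∑ c, l c = 0) (h' : ∑ c, m c = 0) :
    S.H l * S.H m = S.H m * S.H l := by
  rw [← S.H_add _ _ h h', ← S.H_add _ _ h' h, add_comm]

include S in
theorem exists_off {D : Finset C} (hD : D.card < 30) : ∃ c0, c0 ∉ D := by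
  by_contra hc
  push Not at hc
  have h1 : D = Finset.univ := Finset.eq_univ_iff_forall.2 hc
  have := S.card_C
  rw [h1, Finset.card_univ] at hD
  omega

/-- `H(λ)` commutes with `one(σ)` if `λ` is constant on the support of `σ` -/
theorem H_one {l : C → V} (hl : ∑ c, l c = 0) {v : V} {σ : alternatingGroup C}
    (h : ∀ c ∈ (σ : Perm C).support, l c = v) : S.H l * S.one σ * (S.H l)⁻¹ = S.one σ := by
  have h1 := S.one_H σ l hl
  have h2 : (fun c => l ((σ : Perm C)⁻¹ c)) = l := by
    funext c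
    by_cases hc : c ∈ (σ : Perm C).support
    · rw [h c hc, h _ ?_]
      rw [← Perm.support_inv] at hc ⊢
      exact Perm.apply_mem_support.2 hc
    · have : (σ : Perm C)⁻¹ c = c := by
        rw [← Perm.support_inv, Perm.notMem_support] at hc; exact hc
      rw [this]
  rw [h2] at h1
  rw [mul_inv_eq_iff_eq_mul] at h1 ⊢
  exact h1.symm

end ColGrp

namespace Ev

variable {S : ColGrp C V T}

/-- closure induction for even permutations supported in a set -/
theorem altOn_induction {A : Finset C} {P : alternatingGroup C → Prop}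
    (h3 : ∀ σ : alternatingGroup C, (σ : Perm C).IsThreeCycle → (σ : Perm C).support ⊆ A → P σ)
    (h1 : P 1) (hmul : ∀ σ τ, P σ → P τ → P (σ * τ)) (hinv : ∀ σ, P σ → P σ⁻¹)
    (σ : alternatingGroup C) (hσ : (σ : Perm C).support ⊆ A) : P σ := by
  have h : (σ : Perm C) ∈ Subgroup.closure {z : Perm C | z.IsThreeCycle ∧ z.support ⊆ A} := by
    rw [AltPres.closure_threeCycles_altOn]; exact ⟨σ.2, hσ⟩
  have h2 : ∀ π ∈ Subgroup.closure {z : Perm C | z.IsThreeCycle ∧ z.support ⊆ A},
      ∃ hπ : π ∈ alternatingGroup C, P ⟨π, hπ⟩ := by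
    intro π hπ
    induction hπ using Subgroup.closure_induction with
    | mem z hz => exact ⟨hz.1.mem_alternatingGroup, h3 _ hz.1 hz.2⟩
    | one => exact ⟨one_mem _, h1⟩
    | mul x y _ _ ihx ihy =>
      obtain ⟨hx, hx'⟩ := ihx
      obtain ⟨hy, hy'⟩ := ihy
      exact ⟨mul_mem hx hy, hmul _ _ hx' hy'⟩
    | inv x _ ih =>
      obtain ⟨hx, hx'⟩ := ih
      exact ⟨inv_mem hx, hinv _ hx'⟩
  obtain ⟨_, h⟩ := h2 _ h
  exact h

theorem ext3 {e f : Ev S} (h : ∀ σ : alternatingGroup C, (σ : Perm C).IsThreeCycle →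
    e.hom σ = f.hom σ) : e = f := by
  ext σ
  refine alt_induction (P := fun σ => e.hom σ = f.hom σ) h ?_ ?_ ?_ σ
  · simp
  · intro a b ha hb; simp [ha, hb]
  · intro a ha; simp [ha]

/-- conjugation by `H(λ)` of `e(σ)` depends only on `λ` on the support of `σ` -/
theorem conj_H_eq (e : Ev S) {σ : alternatingGroup C} (hσ : (σ : Perm C).support.card ≤ 20)
    {l m : C → V} (hl : ∑ c, l c = 0) (hm : ∑ c, m c = 0)
    (h : ∀ c ∈ (σ : Perm C).support, l c = m c) :
    S.H l * e.hom σ * (S.H l)⁻¹ = S.H m * e.hom σ * (S.H m)⁻¹ := by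
  have h1 : S.H (l - m) ∈ S.sub (Finset.univ \ (σ : Perm C).support) := by
    refine S.H_mem _ _ (by simp [hl, hm]) ?_
    intro c hc
    have : c ∈ (σ : Perm C).support := by simpa using hc
    simp [h c this]
  have h2 := e.comm_sub σ hσ (Finset.disjoint_sdiff) h1
  rw [S.H_sub hl hm] at h2
  have h3 := S.H_comm hl hm
  have h4 : S.H l * (S.H m)⁻¹ = (S.H m)⁻¹ * S.H l := by
    rw [mul_inv_eq_iff_eq_mul, mul_assoc, h3, inv_mul_cancel_left]
  rw [h4] at h2
  calc S.H l * e.hom σ * (S.H l)⁻¹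
      = S.H m * (((S.H m)⁻¹ * S.H l) * e.hom σ) * (S.H l)⁻¹ := by group
    _ = S.H m * e.hom σ * (S.H m)⁻¹ := by rw [← h2]; group

/-- a translated event, from its values on 3-cycles -/
theorem exists_trans (v : V) (e : Ev S) : ∃ e' : Ev S, IsTrans v e e' := by
  classical
  have hC := S.card_C
  -- a point off a small set
  have hoff : ∀ D : Finset C, ∃ c0, D.card < 30 → c0 ∉ D := by
    intro D
    by_cases hD : D.card < 30
    · obtain ⟨c0, h⟩ := S.exists_off hD; exact ⟨c0, fun _ => h⟩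
    · have : Nonempty C := Fintype.card_pos_iff.1 (by omega)
      exact ⟨Classical.arbitrary C, fun h => absurd h hD⟩
  choose c0 hc0 using hoff
  let φ : Perm C → T := fun z => if hz : z ∈ alternatingGroup C then
    S.H (lamD v z.support (c0 z.support)) * e.hom ⟨z, hz⟩ * (S.H (lamD v z.support (c0 z.support)))⁻¹
    else 1
  have hφ : ∀ (σ : alternatingGroup C), (σ : Perm C).support.card ≤ 20 → ∀ l : C → V, ∑ c, l c = 0 →
      (∀ c ∈ (σ : Perm C).support, l c = v) → φ σ = S.H l * e.hom σ * (S.H l)⁻¹ := by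
    intro σ hσ l hl hlv
    have h1 : φ (σ : Perm C) = S.H (lamD v (σ : Perm C).support (c0 (σ : Perm C).support)) * e.hom σ *
        (S.H (lamD v (σ : Perm C).support (c0 (σ : Perm C).support)))⁻¹ := by
      simp only [φ]
      rw [dif_pos σ.2]
    rw [h1]
    refine e.conj_H_eq hσ (lamD_sum v _ (hc0 _ (by omega))) hl ?_
    intro c hc
    rw [lamD_mem v hc, hlv c hc]
  have hloc : ∀ B : Finset C, B.card = 5 → ∃ θ : AltPres.altOn B →* T, AltPres.Agrees φ θ := by
    intro B hB
    set l := lamD v B (c0 B) with hl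
    have hl0 : ∑ c, l c = 0 := lamD_sum v B (hc0 B (by omega))
    refine ⟨(MulAut.conj (S.H l)).toMonoidHom.comp (e.hom.comp
      (Subgroup.inclusion (fun _ h => h.1 : AltPres.altOn B ≤ alternatingGroup C))), ?_⟩
    intro z hz hzB
    have h1 := hφ ⟨z, hz.mem_alternatingGroup⟩ (by
      have := IsThreeCycle.card_supp hz
      show z.support.card ≤ 20
      omega) l hl0 (fun c hc => lamD_mem v (hzB hc))
    rw [show φ z = _ from h1]
    rfl
  obtain ⟨k, hk⟩ := AltPres.exists_alt_hom' (by omega) hloc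
  have hk3 : ∀ (σ : alternatingGroup C), (σ : Perm C).IsThreeCycle → ∀ l : C → V, ∑ c, l c = 0 →
      (∀ c ∈ (σ : Perm C).support, l c = v) → k σ = S.H l * e.hom σ * (S.H l)⁻¹ := by
    intro σ hσ l hl hlv
    have h1 := hk σ hσ
    have h2 : (⟨(σ : Perm C), hσ.mem_alternatingGroup⟩ : alternatingGroup C) = σ := rfl
    rw [h2] at h1
    rw [h1]
    exact hφ σ (by rw [IsThreeCycle.card_supp hσ]; omega) l hl hlv
  refine ⟨⟨k, ?_, ?_⟩, ?_⟩
  · intro σ A hσ hA
    refine altOn_induction (P := fun σ => k σ ∈ S.sub A) ?_ ?_ ?_ ?_ σ hσ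
    · intro z hz hzA
      have h3 := IsThreeCycle.card_supp hz
      obtain ⟨c, hc, hc'⟩ : ∃ c ∈ A, c ∉ (z : Perm C).support := by
        by_contra hcon
        push Not at hcon
        have := Finset.card_le_card (show A ⊆ (z : Perm C).support from hcon)
        omega
      have hl0 := lamD_sum v _ hc'
      rw [hk3 z hz (lamD v (z : Perm C).support c) hl0 (fun c hc => lamD_mem v hc)]
      have h4 : S.H (lamD v (z : Perm C).support c) ∈ S.sub A := by
        refine S.H_mem _ _ hl0 ?_
        intro d hd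
        exact lamD_off v (fun h => hd (hzA h)) (fun h => hd (h ▸ hc))
      exact mul_mem (mul_mem h4 (e.mem z A hzA hA)) (inv_mem h4)
    · rw [map_one]; exact one_mem _
    · intro x y hx hy; rw [map_mul]; exact mul_mem hx hy
    · intro x hx; rw [map_inv]; exact inv_mem hx
  · intro σ τ
    refine alt_induction (P := fun σ => S.one τ * k σ * (S.one τ)⁻¹ = k (τ * σ * τ⁻¹)) ?_ ?_ ?_ ?_ σ
    · intro z hz
      have h3 := IsThreeCycle.card_supp hz
      obtain ⟨c, hc⟩ := S.exists_off (D := (z : Perm C).support) (by omega)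
      have hl0 := lamD_sum v _ hc
      rw [hk3 z hz (lamD v (z : Perm C).support c) hl0 (fun c hc => lamD_mem v hc)]
      set l := lamD v (z : Perm C).support c with hl
      have h4 : ∑ d, l ((τ : Perm C)⁻¹ d) = 0 := by
        rw [← hl0]
        exact Equiv.sum_comp ((τ : Perm C)⁻¹) l
      have h5 : ((τ * z * τ⁻¹ : alternatingGroup C) : Perm C) = (τ : Perm C) * z * (τ : Perm C)⁻¹ := rfl
      have h6 : ((τ * z * τ⁻¹ : alternatingGroup C) : Perm C).IsThreeCycle := by
        rw [h5, IsThreeCycle, Perm.cycleType_conj]; exact hz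
      rw [hk3 (τ * z * τ⁻¹) h6 (fun d => l ((τ : Perm C)⁻¹ d)) h4]
      · rw [← S.one_H τ l hl0, ← e.equivar]; group
      · intro d hd
        rw [h5, Perm.support_conj, Finset.mem_map] at hd
        obtain ⟨d', hd', rfl⟩ := hd
        have h7 : (τ : Perm C)⁻¹ ((τ : Perm C) d') = d' := by simp
        show l ((τ : Perm C)⁻¹ ((τ : Perm C) d')) = v
        rw [h7]
        exact lamD_mem v hd'
    · simp
    · intro x y hx hy
      have : τ * (x * y) * τ⁻¹ = (τ * x * τ⁻¹) * (τ * y * τ⁻¹) := by group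
      rw [this, map_mul, map_mul, ← hx, ← hy]; group
    · intro x hx
      have : τ * x⁻¹ * τ⁻¹ = (τ * x * τ⁻¹)⁻¹ := by group
      rw [this, map_inv, map_inv, ← hx]; group
  · intro σ l hl hlv
    refine altOn_induction (A := (σ : Perm C).support)
      (P := fun σ => k σ = S.H l * e.hom σ * (S.H l)⁻¹) ?_ ?_ ?_ ?_ σ (Finset.Subset.refl _)
    · intro z hz hzσ
      exact hk3 z hz l hl (fun c hc => hlv c (hzσ hc))
    · simp
    · intro x y hx hy; rw [map_mul, map_mul, hx, hy]; group
    · intro x hx; rw [map_inv, map_inv, hx]; group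

/-- the translate `v.e` -/
noncomputable def trans (v : V) (e : Ev S) : Ev S := Classical.choose (exists_trans v e)

theorem isTrans_trans (v : V) (e : Ev S) : IsTrans v e (trans v e) :=
  Classical.choose_spec (exists_trans v e)

/-- the defining formula -/
theorem trans_hom (v : V) (e : Ev S) {σ : alternatingGroup C} {l : C → V} (hl : ∑ c, l c = 0)
    (h : ∀ c ∈ (σ : Perm C).support, l c = v) :
    (trans v e).hom σ = S.H l * e.hom σ * (S.H l)⁻¹ := isTrans_trans v e σ l hl h

include S in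
theorem exists_lam (v : V) {D : Finset C} (hD : D.card < 30) :
    ∃ l : C → V, ∑ c, l c = 0 ∧ ∀ c ∈ D, l c = v := by
  obtain ⟨c0, hc0⟩ := S.exists_off hD
  exact ⟨lamD v D c0, lamD_sum v D hc0, fun c hc => lamD_mem v hc⟩

theorem eq_trans {v : V} {e e' : Ev S}
    (h : ∀ σ : alternatingGroup C, (σ : Perm C).IsThreeCycle → ∃ l : C → V, ∑ c, l c = 0 ∧
      (∀ c ∈ (σ : Perm C).support, l c = v) ∧ e'.hom σ = S.H l * e.hom σ * (S.H l)⁻¹) :
    e' = trans v e := by
  refine ext3 ?_
  intro σ hσ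
  obtain ⟨l, hl, hlv, h1⟩ := h σ hσ
  rw [h1, trans_hom v e hl hlv]

theorem IsTrans.eq {v : V} {e e' : Ev S} (h : IsTrans v e e') : e' = trans v e := by
  refine eq_trans ?_
  intro σ hσ
  obtain ⟨l, hl, hlv⟩ := exists_lam (S := S) v (D := (σ : Perm C).support)
    (by rw [IsThreeCycle.card_supp hσ]; omega)
  exact ⟨l, hl, hlv, h σ l hl hlv⟩

theorem trans_zero (e : Ev S) : trans 0 e = e := by
  refine (eq_trans ?_).symm
  intro σ _
  exact ⟨0, by simp, by simp, by rw [S.H_zero]; group⟩

theorem trans_add (v w : V) (e : Ev S) : trans (v + w) e = trans v (trans w e) := by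
  refine (eq_trans ?_).symm
  intro σ hσ
  have hc : (σ : Perm C).support.card < 30 := by rw [IsThreeCycle.card_supp hσ]; omega
  obtain ⟨l, hl, hlv⟩ := exists_lam (S := S) v hc
  obtain ⟨m, hm, hmw⟩ := exists_lam (S := S) w hc
  refine ⟨l + m, by simp [Finset.sum_add_distrib, hl, hm], fun c hc => by simp [hlv c hc, hmw c hc], ?_⟩
  rw [trans_hom v _ hl hlv, trans_hom w _ hm hmw, S.H_add _ _ hl hm]; group

theorem le_of_threeCycle {e f : Ev S} (h : ∀ σ τ : alternatingGroup C, (σ : Perm C).IsThreeCycle →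
    (τ : Perm C).IsThreeCycle → f.hom τ * e.hom σ * (f.hom τ)⁻¹ = e.hom (τ * σ * τ⁻¹)) : e ≤ f := by
  have h1 : ∀ τ : alternatingGroup C, (τ : Perm C).IsThreeCycle → ∀ σ,
      f.hom τ * e.hom σ * (f.hom τ)⁻¹ = e.hom (τ * σ * τ⁻¹) := by
    intro τ hτ σ
    refine alt_induction (P := fun σ => f.hom τ * e.hom σ * (f.hom τ)⁻¹ = e.hom (τ * σ * τ⁻¹))
      ?_ ?_ ?_ ?_ σ
    · intro σ hσ; exact h σ τ hσ hτ
    · simp
    · intro x y hx hy
      have : τ * (x * y) * τ⁻¹ = (τ * x * τ⁻¹) * (τ * y * τ⁻¹) := by group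
      rw [this, map_mul, map_mul, ← hx, ← hy]; group
    · intro x hx
      have : τ * x⁻¹ * τ⁻¹ = (τ * x * τ⁻¹)⁻¹ := by group
      rw [this, map_inv, map_inv, ← hx]; group
  intro σ τ
  have h2 : ∀ σ, f.hom τ * e.hom σ * (f.hom τ)⁻¹ = e.hom (τ * σ * τ⁻¹) := by
    refine alt_induction (P := fun τ => ∀ σ, f.hom τ * e.hom σ * (f.hom τ)⁻¹ = e.hom (τ * σ * τ⁻¹))
      ?_ ?_ ?_ ?_ τ
    · exact h1
    · intro σ; simp
    · intro x y hx hy σ
      have : x * y * σ * (x * y)⁻¹ = x * (y * σ * y⁻¹) * x⁻¹ := by group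
      rw [this, ← hx, ← hy, map_mul]; group
    · intro x hx σ
      have h3 := hx (x⁻¹ * σ * x)
      have h4 : x * (x⁻¹ * σ * x) * x⁻¹ = σ := by group
      rw [h4] at h3
      have h5 : x⁻¹ * σ * x⁻¹⁻¹ = x⁻¹ * σ * x := by group
      rw [h5, map_inv, ← h3]; group
  exact h2 σ

theorem trans_le {v : V} {e f : Ev S} (h : e ≤ f) : trans v e ≤ trans v f := by
  refine le_of_threeCycle ?_
  intro σ τ hσ hτ
  have hc : ((σ : Perm C).support ∪ (τ : Perm C).support).card < 30 := by
    have := Finset.card_union_le (σ : Perm C).support (τ : Perm C).support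
    rw [IsThreeCycle.card_supp hσ, IsThreeCycle.card_supp hτ] at this
    omega
  obtain ⟨l, hl, hlv⟩ := exists_lam (S := S) v hc
  rw [trans_hom v e hl (fun c hc => hlv c (Finset.mem_union_left _ hc)),
    trans_hom v f hl (fun c hc => hlv c (Finset.mem_union_right _ hc)),
    trans_hom v e (σ := τ * σ * τ⁻¹) hl, ← h σ τ]
  · group
  · intro c hc
    refine hlv c ?_
    have h5 : ((τ * σ * τ⁻¹ : alternatingGroup C) : Perm C) = (τ : Perm C) * σ * (τ : Perm C)⁻¹ := rfl
    rw [h5, Perm.support_conj, Finset.mem_map] at hc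
    obtain ⟨d, hd, rfl⟩ := hc
    by_cases h6 : (τ : Perm C) d = d
    · refine Finset.mem_union_left _ ?_
      simpa [h6] using hd
    · refine Finset.mem_union_right _ ?_
      simp only [Equiv.coe_toEmbedding, Perm.mem_support]
      exact fun h7 => h6 ((τ : Perm C).injective h7)

theorem trans_compl (v : V) (e : Ev S) : trans v (compl e) = compl (trans v e) := by
  refine ext3 ?_
  intro σ hσ
  have hc : (σ : Perm C).support.card < 30 := by rw [IsThreeCycle.card_supp hσ]; omega
  obtain ⟨l, hl, hlv⟩ := exists_lam (S := S) v hc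
  have h1 := S.H_one hl hlv
  rw [trans_hom v _ hl hlv, compl_hom, compl_hom, trans_hom v e hl hlv]
  nth_rewrite 2 [← h1]
  group

theorem trans_orth {v : V} {e f : Ev S} (h : Orth e f) : Orth (trans v e) (trans v f) := by
  rw [orth_iff_le_compl] at h ⊢
  rw [← trans_compl]
  exact trans_le h

theorem trans_add_ev {v : V} {e f : Ev S} (h : Orth e f) :
    trans v (add e f h) = add (trans v e) (trans v f) (trans_orth h) := by
  refine ext3 ?_
  intro σ hσ
  have hc : (σ : Perm C).support.card < 30 := by rw [IsThreeCycle.card_supp hσ]; omega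
  obtain ⟨l, hl, hlv⟩ := exists_lam (S := S) v hc
  rw [trans_hom v _ hl hlv, add_hom, add_hom, trans_hom v e hl hlv, trans_hom v f hl hlv]
  group

theorem trans_unit (v : V) : trans v (unit S) = unit S := by
  refine ext3 ?_
  intro σ hσ
  have hc : (σ : Perm C).support.card < 30 := by rw [IsThreeCycle.card_supp hσ]; omega
  obtain ⟨l, hl, hlv⟩ := exists_lam (S := S) v hc
  rw [trans_hom v _ hl hlv]
  exact S.H_one hl hlv

theorem trans_zero_ev (v : V) : trans v (zero S) = zero S := by
  refine ext3 ?_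
  intro σ hσ
  have hc : (σ : Perm C).support.card < 30 := by rw [IsThreeCycle.card_supp hσ]; omega
  obtain ⟨l, hl, hlv⟩ := exists_lam (S := S) v hc
  rw [trans_hom v _ hl hlv]
  simp [zero]

noncomputable instance : MulAction (Multiplicative V) (Ev S) where
  smul v e := trans v.toAdd e
  one_smul e := trans_zero e
  mul_smul v w e := trans_add v.toAdd w.toAdd e

theorem smul_def (v : Multiplicative V) (e : Ev S) : v • e = trans v.toAdd e := rfl

theorem ofAdd_smul (v : V) (e : Ev S) : Multiplicative.ofAdd v • e = trans v e := rfl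

noncomputable instance instOMPAct : OMPAct (Multiplicative V) (Ev S) where
  smul_le_smul' := fun _ _ _ h => trans_le h
  smul_cpl' := fun v e => trans_compl v.toAdd e

end Ev

end Crest.Agent.R189
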