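import Mathlib

/-!
Row 189, module M1 (task 1383): labels, relative stars, the star rule, stage functions, finite facts.

Source: helper750, notes 7707 (section 0), 7931 (E2) and 7879 (`sft.py`, `chk.py`).
* `S` stage value, `Rel` sign, `Mem` memory, `Tau` line type, `Label = (tau, st, u)`.
* `coreList` = all allowed `(tau dom, u, u', tau sub, st sub before, st sub after)`.
* `RStar` = allowed relative stars `(domP, Pb, Pf, Qb, Qf)`.
-/

set_option autoImplicit false

namespace Crest.Agent.R189

/-- stage values `f,0,1,2,l` -/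
inductive S | f | s0 | s1 | s2 | l
  deriving DecidableEq, Inhabited

instance : Fintype S := ⟨{.f, .s0, .s1, .s2, .l}, by intro y; cases y <;> decide⟩

/-- signs `-,0,+` -/
inductive Rel | m | z | p
  deriving DecidableEq, Inhabited

instance : Fintype Rel := ⟨{.m, .z, .p}, by intro y; cases y <;> decide⟩

/-- memory `A,x,B` -/
inductive Mem | A | x | B
  deriving DecidableEq, Inhabited

instance : Fintype Mem := ⟨{.A, .x, .B}, by intro y; cases y <;> decide⟩

/-- line types -/
inductive Tau | f0 | t00 | t01 | t11 | t12 | t22 | t2l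
  deriving DecidableEq, Inhabited

instance : Fintype Tau :=
  ⟨{.f0, .t00, .t01, .t11, .t12, .t22, .t2l}, by intro y; cases y <;> decide⟩

/-- classes of active lines -/
inductive Cls | alpha | mu | beta
  deriving DecidableEq, Inhabited

instance : Fintype Cls := ⟨{.alpha, .mu, .beta}, by intro y; cases y <;> decide⟩

namespace Tau

def fst : Tau → S
  | f0 => .f | t00 => .s0 | t01 => .s0 | t11 => .s1 | t12 => .s1 | t22 => .s2 | t2l => .s2

def snd : Tau → S
  | f0 => .s0 | t00 => .s0 | t01 => .s1 | t11 => .s1 | t12 => .s2 | t22 => .s2 | t2l => .l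

def cls : Tau → Option Cls
  | t01 => some .alpha | t11 => some .mu | t12 => some .beta | _ => none

/-- reset types are `01` and `12`; the other five are move types -/
def reset : Tau → Bool
  | t01 => true | t12 => true | _ => false

def active (t : Tau) : Bool := t.cls.isSome

theorem ext_pair : ∀ t t' : Tau, t.fst = t'.fst → t.snd = t'.snd → t = t' := by decide

end Tau

def Cls.tau : Cls → Tau
  | .alpha => .t01 | .mu => .t11 | .beta => .t12

/-- valid states of an active line of class `c` -/
def VAL : Cls → S → Rel → Bool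
  | .alpha, .f, .z => true
  | .alpha, .s0, .p => true
  | .alpha, .s1, .z => true
  | .alpha, .s1, .p => true
  | .alpha, .s2, .z => true
  | .alpha, .s2, .p => true
  | .alpha, .l, .p => true
  | .mu, .f, .m => true
  | .mu, .s0, _ => true
  | .mu, .s1, _ => true
  | .mu, .s2, _ => true
  | .mu, .l, .p => true
  | .beta, .f, .m => true
  | .beta, .s0, .m => true
  | .beta, .s0, .z => true
  | .beta, .s1, .m => true
  | .beta, .s1, .z => true
  | .beta, .s2, .m => true
  | .beta, .l, .z => true
  | _, _, _ => false

/-- `st` is a valid state value for a line of type `t` -/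
def validSt (t : Tau) (st : Option (S × Rel)) : Bool :=
  match t.cls, st with
  | none, none => true
  | some c, some (s, r) => VAL c s r
  | _, _ => false

/-- memory values allowed for type `t` -/
def validU (t : Tau) (u : Mem) : Bool := !(t.reset && u == .x)

/-- line labels -/
structure Label where
  tau : Tau
  st : Option (S × Rel)
  u : Mem
  deriving DecidableEq, Fintype, Inhabited

namespace Label

/-- the 73 valid labels -/
def Valid (L : Label) : Bool := validSt L.tau L.st && validU L.tau L.u

def s (L : Label) : Option S := L.st.map Prod.fst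
def r (L : Label) : Option Rel := L.st.map Prod.snd

end Label

/-- data of a crossing: dominating type, its memory before/after, dominated type, its state before/after -/
structure Core where
  t : Tau
  u : Mem
  u' : Mem
  ts : Tau
  b : Option (S × Rel)
  b' : Option (S × Rel)
  deriving DecidableEq, Inhabited

def allTau : List Tau := [.f0, .t00, .t01, .t11, .t12, .t22, .t2l]
def allMem : List Mem := [.A, .x, .B]
def allCls : List Cls := [.alpha, .mu, .beta]

/-- R-type transition of class `c` -/
def Rtrans : Cls → (S × Rel) × (S × Rel)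
  | .alpha => ((.l, .p), (.f, .z))
  | .mu => ((.l, .p), (.f, .m))
  | .beta => ((.l, .z), (.f, .m))

/-- crossings over blank lines and R-type crossings: the dominating line is unchanged -/
def quietList : List Core :=
  allTau.flatMap fun t => (allMem.filter (validU t)).flatMap fun u =>
    (allTau.filter (fun ts => !ts.active)).map (fun ts => (⟨t, u, u, ts, none, none⟩ : Core)) ++
    allCls.map (fun c => ⟨t, u, u, c.tau, some (Rtrans c).1, some (Rtrans c).2⟩)

/-- I-type crossings, dominating type a reset type -/
def resetList : List Core :=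
  ([.t01, .t12] : List Tau).flatMap fun t =>
    [⟨t, .A, .A, .t01, some (t.fst, .p), some (t.snd, .z)⟩,
     ⟨t, .A, .A, .t11, some (t.fst, .p), some (t.snd, .m)⟩,
     ⟨t, .A, .B, .t12, some (t.fst, .z), some (t.snd, .m)⟩]

/-- the four move transitions `(r, r', u, u')` -/
def moves : List (Rel × Rel × Mem × Mem) :=
  [(.p, .p, .A, .A), (.z, .p, .A, .x), (.m, .z, .x, .B), (.m, .m, .B, .B)]

/-- I-type crossings, dominating type a move type -/
def moveList : List Core :=
  (allTau.filter (fun t => !t.reset)).flatMap fun t => allCls.flatMap fun c =>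
    (moves.filter fun m =>
      VAL c t.fst m.1 && VAL c t.snd m.2.1 &&
      !(t == .f0 && c == .beta && m.2.2.1 == .x) &&
      !(t == .t2l && c == .alpha && m.2.2.2 == .x)).map fun m =>
        ⟨t, m.2.2.1, m.2.2.2, c.tau, some (t.fst, m.1), some (t.snd, m.2.1)⟩

def coreList : List Core := quietList ++ (resetList ++ moveList)

/-- raw relative stars `(domP, Pb, Pf, Qb, Qf)`; the allowed ones are those with `OK` -/
structure RStar where
  domP : Bool
  Pb : Label
  Pf : Label
  Qb : Label
  Qf : Label
  deriving DecidableEq, Fintype, Inhabited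

/-- the two crossings (for each orientation) which satisfy all other rules but never occur
(helper869): dominating type `11` with state `(0,-)`, memory `A → x`, dominated `alpha`;
dominating type `11` with state `(2,+)`, memory `x → B`, dominated `beta` -/
def BadX (D L L' : Label) : Prop :=
  (D.tau = .t11 ∧ D.st = some (.s0, .m) ∧ L.tau = .t01 ∧ L.st = some (.s1, .z)) ∨
  (D.tau = .t11 ∧ D.st = some (.s2, .p) ∧ L.tau = .t12 ∧ L'.st = some (.s1, .z))

instance (D L L' : Label) : Decidable (BadX D L L') := by
  unfold BadX; infer_instance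

/-- star rule: dominating line label before/after, dominated line label before/after -/
def Rule (D D' L L' : Label) : Prop :=
  D.tau = D'.tau ∧ D.st = D'.st ∧ (validSt D.tau D.st = true ∧ ¬ BadX D L L') ∧
    L.tau = L'.tau ∧ L.u = .B ∧ L'.u = .A ∧
    (⟨D.tau, D.u, D'.u, L.tau, L.st, L'.st⟩ : Core) ∈ coreList

instance (D D' L L' : Label) : Decidable (Rule D D' L L') := by
  unfold Rule; infer_instance

def RStar.OK (σ : RStar) : Prop :=
  if σ.domP then Rule σ.Pb σ.Pf σ.Qb σ.Qf else Rule σ.Qb σ.Qf σ.Pb σ.Pf

instance : DecidablePred RStar.OK := fun σ => by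
  unfold RStar.OK; infer_instance

/-- swap the two lines -/
def RStar.flip (σ : RStar) : RStar := ⟨!σ.domP, σ.Qb, σ.Qf, σ.Pb, σ.Pf⟩

theorem RStar.OK_flip {σ : RStar} (h : σ.OK) : σ.flip.OK := by
  obtain ⟨d, b, c, e, g⟩ := σ
  cases d <;> simpa [RStar.OK, RStar.flip] using h

/-- allowed relative stars -/
def Star := {σ : RStar // σ.OK}

namespace Star

instance : DecidableEq Star := inferInstanceAs (DecidableEq {σ : RStar // σ.OK})

noncomputable instance : Fintype Star := by
  haveI : Finite Star := inferInstanceAs (Finite {σ : RStar // σ.OK})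
  exact Fintype.ofFinite _

def domP (σ : Star) : Bool := σ.1.domP
def Pb (σ : Star) : Label := σ.1.Pb
def Pf (σ : Star) : Label := σ.1.Pf
def Qb (σ : Star) : Label := σ.1.Qb
def Qf (σ : Star) : Label := σ.1.Qf

@[ext] theorem ext {σ τ : Star} (h0 : σ.domP = τ.domP) (h1 : σ.Pb = τ.Pb) (h2 : σ.Pf = τ.Pf)
    (h3 : σ.Qb = τ.Qb) (h4 : σ.Qf = τ.Qf) : σ = τ := by
  obtain ⟨⟨a, b, c, d, e⟩, h⟩ := σ
  obtain ⟨⟨a', b', c', d', e'⟩, h'⟩ := τ
  simp only [domP, Pb, Pf, Qb, Qf] at h0 h1 h2 h3 h4
  subst h0 h1 h2 h3 h4
  rfl

/-- swap the two lines -/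
def flip (σ : Star) : Star := ⟨σ.1.flip, RStar.OK_flip σ.2⟩

@[simp] theorem flip_domP (σ : Star) : σ.flip.domP = !σ.domP := rfl
@[simp] theorem flip_Pb (σ : Star) : σ.flip.Pb = σ.Qb := rfl
@[simp] theorem flip_Pf (σ : Star) : σ.flip.Pf = σ.Qf := rfl
@[simp] theorem flip_Qb (σ : Star) : σ.flip.Qb = σ.Pb := rfl
@[simp] theorem flip_Qf (σ : Star) : σ.flip.Qf = σ.Pf := rfl
@[simp] theorem flip_flip (σ : Star) : σ.flip.flip = σ := by
  apply Star.ext <;> simp

/-- `flip` as an equivalence -/
def flipEquiv : Star ≃ Star := ⟨flip, flip, flip_flip, flip_flip⟩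

end Star

/-! ### stage functions (natural number arguments) -/

/-- stage value of `j`, `0 ≤ j < 3a` -/
def sv (a j : ℕ) : S :=
  if j = 0 then .f else if j = 3 * a - 1 then .l else
    if j < a then .s0 else if j < 2 * a then .s1 else .s2

/-- type of the wire `i`, `1 ≤ i < 3a` : the pair `(sv a (i-1), sv a i)` -/
def tauOf (a i : ℕ) : Tau :=
  if i = 1 then .f0 else if i < a then .t00 else if i = a then .t01 else
    if i < 2 * a then .t11 else if i = 2 * a then .t12 else
      if i < 3 * a - 1 then .t22 else .t2l

/-- marker position at stage `j'`, in `[a, 2a]` -/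
def pos (a j' : ℕ) : ℕ := a + j' % (a + 1)

/-- sign of `m - i` -/
def sgn (m i : ℕ) : Rel := if i < m then .p else if i = m then .z else .m

/-- state of the wire `i` at stage `j'` (`none` for blank wires) -/
def state (a i j' : ℕ) : Option (S × Rel) :=
  if a ≤ i ∧ i ≤ 2 * a then some (sv (a + 1) j', sgn (pos a j') i) else none

/-- memory of a line of index `j' ≠ 0` (next level) after the wire `j` -/
def umem (a j j' : ℕ) : Mem :=
  if j' % (a + 1) = 0 then (if j < 2 * a then .A else .B) else
    if j < pos a (j' - 1) then .A else if j = pos a (j' - 1) then .x else .B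

/-- index of the previous stage, cyclically in `[0, 3(a+1))` -/
def prev (a j' : ℕ) : ℕ := if j' = 0 then 3 * (a + 1) - 1 else j' - 1

set_option linter.unusedVariables false in
/-- generates the equation lemmas of the definitions of this file (needed by the joint check) -/
theorem star_touch : True := by
  have := @Tau.fst.eq_1
  have := @Tau.fst.eq_2
  have := @Tau.fst.eq_3
  have := @Tau.fst.eq_4
  have := @Tau.fst.eq_5
  have := @Tau.fst.eq_6
  have := @Tau.fst.eq_7
  have := @Tau.fst.eq_def
  have := @Tau.snd.eq_1
  have := @Tau.snd.eq_2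
  have := @Tau.snd.eq_3
  have := @Tau.snd.eq_4
  have := @Tau.snd.eq_5
  have := @Tau.snd.eq_6
  have := @Tau.snd.eq_7
  have := @Tau.snd.eq_def
  have := @Tau.cls.eq_1
  have := @Tau.cls.eq_2
  have := @Tau.cls.eq_3
  have := @Tau.cls.eq_4
  have := @Tau.cls.eq_def
  have := @Tau.reset.eq_1
  have := @Tau.reset.eq_2
  have := @Tau.reset.eq_3
  have := @Tau.reset.eq_def
  have := @Tau.active.eq_1
  have := @Tau.active.eq_def
  have := @Cls.tau.eq_1
  have := @Cls.tau.eq_2
  have := @Cls.tau.eq_3
  have := @Cls.tau.eq_def
  have := @VAL.eq_1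
  have := @VAL.eq_2
  have := @VAL.eq_3
  have := @VAL.eq_4
  have := @VAL.eq_5
  have := @VAL.eq_6
  have := @VAL.eq_7
  have := @VAL.eq_8
  have := @VAL.eq_9
  have := @VAL.eq_10
  have := @VAL.eq_11
  have := @VAL.eq_12
  have := @VAL.eq_13
  have := @VAL.eq_14
  have := @VAL.eq_15
  have := @VAL.eq_16
  have := @VAL.eq_17
  have := @VAL.eq_18
  have := @VAL.eq_19
  have := @VAL.eq_20
  have := @VAL.eq_def
  have := @validSt.eq_1
  have := @validSt.eq_2
  have := @validSt.eq_3
  have := @validSt.eq_def
  have := @validU.eq_1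
  have := @validU.eq_def
  have := @Label.Valid.eq_1
  have := @Label.Valid.eq_def
  have := @Label.s.eq_1
  have := @Label.s.eq_def
  have := @Label.r.eq_1
  have := @Label.r.eq_def
  have := @allTau.eq_1
  have := @allTau.eq_def
  have := @allMem.eq_1
  have := @allMem.eq_def
  have := @allCls.eq_1
  have := @allCls.eq_def
  have := @Rtrans.eq_1
  have := @Rtrans.eq_2
  have := @Rtrans.eq_3
  have := @Rtrans.eq_def
  have := @quietList.eq_1
  have := @quietList.eq_def
  have := @resetList.eq_1
  have := @resetList.eq_def
  have := @moves.eq_1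
  have := @moves.eq_def
  have := @moveList.eq_1
  have := @moveList.eq_def
  have := @coreList.eq_1
  have := @coreList.eq_def
  have := @BadX.eq_1
  have := @BadX.eq_def
  have := @Rule.eq_1
  have := @Rule.eq_def
  have := @RStar.OK.eq_1
  have := @RStar.OK.eq_def
  have := @RStar.flip.eq_1
  have := @RStar.flip.eq_def
  have := @Star.eq_1
  have := @Star.eq_def
  have := @Star.domP.eq_1
  have := @Star.domP.eq_def
  have := @Star.Pb.eq_1
  have := @Star.Pb.eq_def
  have := @Star.Pf.eq_1
  have := @Star.Pf.eq_def
  have := @Star.Qb.eq_1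
  have := @Star.Qb.eq_def
  have := @Star.Qf.eq_1
  have := @Star.Qf.eq_def
  have := @Star.flip.eq_1
  have := @Star.flip.eq_def
  have := @Star.flipEquiv.eq_1
  have := @Star.flipEquiv.eq_def
  have := @sv.eq_1
  have := @sv.eq_def
  have := @tauOf.eq_1
  have := @tauOf.eq_def
  have := @pos.eq_1
  have := @pos.eq_def
  have := @sgn.eq_1
  have := @sgn.eq_def
  have := @state.eq_1
  have := @state.eq_def
  have := @umem.eq_1
  have := @umem.eq_def
  have := @prev.eq_1
  have := @prev.eq_def
  trivial

end Crest.Agent.R189
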