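import Crest.Agent.R189.Romp
import Crest.Agent.R189.Star

/-!
# Row 189, part E2: level structures `LS` and the next level (FROZEN INTERFACE)

`LS D p q a c St` is `LS(D;p,q;a;c,St)` of note 7931 in an arbitrary regular orthomodular poset `E`
with an action of a commutative group `G` by automorphisms (for `Z²`: `G = Multiplicative (ℤ × ℤ)`).

* `c : ℕ → E`, `c j` = digit event (`j < n = 3a`; all `c j` are defined, `p • c j = c (j+1)`,
  `c n = c 0`), `St s` = star event.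
* `[φ] := ev St {s | φ s}`, `c j ∧ [φ] := c j ⊓ₒ ev St {s | φ s}`.
* the next level is explicit: `nextC q c St j' = q ^ j' • modeEv q (c 0) St`, `nextSt c St s = c 0 ∧ St s.flip`.
* `Lab p c St j A = p^{-j} • (c j ∧ [Pf ∈ A])`: label of the `P` line between rows `j` and `j+1`.

THEOREM RN and (X1), (X2) are stated in `RN.lean`.
-/

set_option autoImplicit false

namespace Crest.Agent.R189

open Romp

variable {G E : Type*} [CommGroup G] [ROMP E] [OMPAct G E]

/-- Level structure `LS(D;p,q;a;c,St)`, `n = 3a`. -/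
structure LS (D : E) (p q : G) (a : ℕ) (c : ℕ → E) (St : Star → E) : Prop where
  three_le : 3 ≤ a
  /-- (L1) -/
  part_c : IsPart (fun j : Fin (3 * a) => c j) D
  /-- (L2) -/
  p_c : ∀ j, p • c j = c (j + 1)
  per : c (3 * a) = c 0
  q_c : ∀ j, q • c j = c j
  /-- (L3) -/
  part_St : IsPart St D
  /-- (L4) -/
  comm : ∀ j, j < 3 * a → ∀ s, Comm (c j) (St s)
  /-- (L5) -/
  dom : ∀ j, 0 < j → j < 3 * a → ∀ s : Star, ¬ (s.domP = true ∧ s.Qb.tau = tauOf a j) →
    c j ⊓ₒ St s = ⊥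
  /-- (L6) -/
  P_shift : ∀ L : Label, p • ev St {s | s.Pf = L} = ev St {s | s.Pb = L}
  /-- (L7) -/
  Q_shift0 : ∀ L : Label, q • (c 0 ⊓ₒ ev St {s | s.Qf = L}) = c 0 ⊓ₒ ev St {s | s.Qb = L}
  /-- (L8) -/
  Q_shift : ∀ j, 0 < j → j < 3 * a → ∀ th : Option (S × Rel),
    q • (c j ⊓ₒ ev St {s | s.Qf.st = th}) = c j ⊓ₒ ev St {s | s.Qb.st = th}

/-- the mode event `m = A_0 ∧ B_0`, `A_0 = q.(c_0 ∧ [P.tau = 2l])`, `B_0 = q⁻¹.(c_0 ∧ [P.tau = f0])` -/
noncomputable def modeEv (q : G) (c0 : E) (St : Star → E) : E :=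
  (q • (c0 ⊓ₒ ev St {s | s.Pf.tau = .t2l})) ⊓ₒ (q⁻¹ • (c0 ⊓ₒ ev St {s | s.Pf.tau = .f0}))

/-- next level digits `c'_j' = q^j'.m` -/
noncomputable def nextC (q : G) (c : ℕ → E) (St : Star → E) : ℕ → E :=
  fun j' => q ^ j' • modeEv q (c 0) St

/-- next level stars `St'_s = c_0 ∧ St_{flip s}` -/
noncomputable def nextSt (c : ℕ → E) (St : Star → E) : Star → E :=
  fun s => c 0 ⊓ₒ St s.flip

/-- label of the `P` line between the rows `j` and `j+1`, pulled back to `c 0` -/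
noncomputable def Lab (p : G) (c : ℕ → E) (St : Star → E) (j : ℕ) (A : Set Label) : E :=
  (p ^ j)⁻¹ • (c j ⊓ₒ ev St {s | s.Pf ∈ A})

/-- boolean algebra of row `j`, pulled back to `c 0`: `p^{-j}.(c_j ∧ [A])`, `A` a set of stars -/
noncomputable def Row (p : G) (c : ℕ → E) (St : Star → E) (j : ℕ) (A : Set Star) : E :=
  (p ^ j)⁻¹ • (c j ⊓ₒ ev St A)

theorem Lab_eq_Row (p : G) (c : ℕ → E) (St : Star → E) (j : ℕ) (A : Set Label) :
    Lab p c St j A = Row p c St j {s | s.Pf ∈ A} := rfl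

end Crest.Agent.R189
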