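import Crest.Agent.R189.XHierOcc
import Crest.Agent.R189.HierMap
import Crest.Agent.R189.LETW
import Crest.Agent.R189.TBase
import Crest.Agent.R189.XOK
import Crest.Agent.R189.Glue

/-!
# Row 189: the dictionary between the hierarchy in `Ev(T / Z(T))` and the one in `X` (helper516)

For a model `m : TModel MD C G` (`G` centreless) and a concrete representation
`hφ : Conc m letter φ`, `R := hφ.rep hC`:

* `set_hc`, `set_hSt`, `set_hD` : `R.set` of the level `k` events = the explicit sets `XH.xc`, ..;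
* `set_cell : R.set (hc k j ⊓ₒ ev (hSt k) A) = {x ∈ xc 3 k j | xst 3 k x ∈ A}`;
* `atom_occ` : an atom is `⊥` or occurs in `X`, with the right letters on its window.
-/

set_option autoImplicit false

namespace Crest.Agent.R189

open Romp Equiv Equiv.Perm

namespace AtomOcc

variable {C : Type} [Fintype C] [DecidableEq C] {G : Type} [Group G]
variable {m : TModel MD C G} {φ : G →* Perm (X × C)} (hC : 30 ≤ Fintype.card C)
  (hφ : Conc m letter φ)

theorem set_cEv (j : ℕ) : (hφ.rep hC).set (cEv m hC j) = XH.xc 3 0 j := by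
  rw [cEv, hφ.set_setEv hC]
  ext x
  rw [XH.mem_xc]
  show letter x ∈ lset _ ↔ _
  rw [mem_lset, XH.xD_zero, XH.xQ_zero]
  exact ⟨fun h => ⟨trivial, h⟩, fun h => h.2⟩

theorem set_StEv (s : Star) : (hφ.rep hC).set (StEv m hC s) = XH.xSt 3 0 s := by
  rw [StEv, hφ.set_setEv hC]
  ext x
  rw [XH.mem_xSt]
  show letter x ∈ lset _ ↔ _
  rw [mem_lset, XH.xD_zero, XH.xr_zero, ← star_val le_rfl x.s x.p.1 x.p.2]
  exact ⟨fun h => ⟨trivial, congrArg Subtype.val h⟩, fun h => Subtype.ext h.2⟩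

variable [Centreless G]

theorem set_hc (k j : ℕ) :
    (hφ.rep hC).set (hc pZ qZ 3 (cEv m hC) (StEv m hC) k j) = XH.xc 3 k j := by
  have h := (TBase.base m hC).map_hc (hφ.rep hC).ompHom (hφ.rep hC).ompHom_equiv k j
  rw [Rep.ompHom_apply] at h
  have e1 : (fun j => (hφ.rep hC).ompHom (cEv m hC j)) = XH.xc 3 0 :=
    funext fun j => set_cEv hC hφ j
  have e2 : (fun s => (hφ.rep hC).ompHom (StEv m hC s)) = XH.xSt 3 0 :=
    funext fun s => set_StEv hC hφ s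
  rw [e1, e2] at h
  rw [← XH.hc_xc le_rfl k]
  exact h

theorem set_hSt (k : ℕ) (s : Star) :
    (hφ.rep hC).set (hSt pZ qZ 3 (cEv m hC) (StEv m hC) k s) = XH.xSt 3 k s := by
  have h := (TBase.base m hC).map_hSt (hφ.rep hC).ompHom (hφ.rep hC).ompHom_equiv k s
  rw [Rep.ompHom_apply] at h
  have e1 : (fun j => (hφ.rep hC).ompHom (cEv m hC j)) = XH.xc 3 0 :=
    funext fun j => set_cEv hC hφ j
  have e2 : (fun s => (hφ.rep hC).ompHom (StEv m hC s)) = XH.xSt 3 0 :=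
    funext fun s => set_StEv hC hφ s
  rw [e1, e2] at h
  rw [← XH.hSt_xSt le_rfl k]
  exact h

theorem set_hD (k : ℕ) :
    (hφ.rep hC).set (hD ⊤ pZ qZ 3 (cEv m hC) (StEv m hC) k) = XH.xD 3 k := by
  cases k with
  | zero =>
    rw [hD_zero, XH.xD_zero]
    exact (hφ.rep hC).set_unit
  | succ k => rw [hD_succ, set_hc, XH.xD_succ (by norm_num)]

/-- cells `c_j ∧ [A]` of level `k` -/
theorem set_cell' (k : ℕ) {j : ℕ} (hj : j < 3 * (3 + k)) (A : Set Star) :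
    (hφ.rep hC).set (hc pZ qZ 3 (cEv m hC) (StEv m hC) k j ⊓ₒ
      Romp.ev (hSt pZ qZ 3 (cEv m hC) (StEv m hC) k) A) = XH.xc 3 k j ⊓ₒ Romp.ev (XH.xSt 3 k) A := by
  have h := (TBase.base m hC).map_atom (hφ.rep hC).ompHom (hφ.rep hC).ompHom_equiv k hj A
  rw [Rep.ompHom_apply] at h
  have e1 : (fun j => (hφ.rep hC).ompHom (cEv m hC j)) = XH.xc 3 0 :=
    funext fun j => set_cEv hC hφ j
  have e2 : (fun s => (hφ.rep hC).ompHom (StEv m hC s)) = XH.xSt 3 0 :=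
    funext fun s => set_StEv hC hφ s
  rw [e1, e2] at h
  rw [← XH.hc_xc le_rfl k, ← XH.hSt_xSt le_rfl k]
  exact h

theorem set_cell (k : ℕ) {j : ℕ} (hj : j < 3 * (3 + k)) (A : Set Star) :
    (hφ.rep hC).set (hc pZ qZ 3 (cEv m hC) (StEv m hC) k j ⊓ₒ
      Romp.ev (hSt pZ qZ 3 (cEv m hC) (StEv m hC) k) A) = {x | x ∈ XH.xc 3 k j ∧ XH.xst 3 k x ∈ A} := by
  rw [set_cell' hC hφ k hj A, set_meet]
  ext x
  rw [Set.mem_inter_iff, XH.mem_ev_xSt le_rfl]
  exact ⟨fun h => ⟨h.1, h.2.2⟩, fun h => ⟨h.1, (XH.mem_xc.1 h.1).1, h.2⟩⟩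

omit [Centreless G] in
/-- the letters are the level `0` atoms -/
theorem letterE_eq (x : Fin (3 * 3) × Star) :
    letterE (a := 3) (cEv m hC) (StEv m hC) x = m.letterEv hC x := by
  unfold letterE
  exact TBase.atom m hC x.1.2 x.2

/-- a point of an atom has the right letters on the window -/
theorem letter_of_mem (k : ℕ) (κ : Atom (3 * (3 + k))) {y : X}
    (hy : y ∈ (hφ.rep hC).set (atomE 3 (cEv m hC) (StEv m hC) k κ)) {v : ℤ × ℤ}
    (hv : v ∈ κ.Win 3 k) : letter (v +ᵥ y) = (TBase.base m hC).ltr k κ v := by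
  have h1 := (hφ.rep hC).set_mono ((TBase.base m hC).le_ltr k κ hv)
  rw [letterE_eq, hφ.set_letterEv, (hφ.rep hC).set_smul] at h1
  exact h1 (vadd_mem_set_smul.2 hy)

/-- an atom which is `≠ ⊥` occurs in `X` -/
theorem atom_nonempty (k : ℕ) (κ : Atom (3 * (3 + k)))
    (h : atomE 3 (cEv m hC) (StEv m hC) k κ ≠ ⊥) :
    ((hφ.rep hC).set (atomE 3 (cEv m hC) (StEv m hC) k κ)).Nonempty := by
  have hb := TBase.base m hC
  unfold atomE at h ⊢
  cases κ with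
  | F j =>
    show ((hφ.rep hC).set (hc pZ qZ 3 (cEv m hC) (StEv m hC) k j)).Nonempty
    rw [set_hc]
    exact XH.xc_nonempty le_rfl k j
  | P j L =>
    change hc pZ qZ 3 (cEv m hC) (StEv m hC) k j ⊓ₒ
      Romp.ev (hSt pZ qZ 3 (cEv m hC) (StEv m hC) k) {s | s.Pf = L} ≠ ⊥ at h
    show ((hφ.rep hC).set (hc pZ qZ 3 (cEv m hC) (StEv m hC) k j ⊓ₒ
      Romp.ev (hSt pZ qZ 3 (cEv m hC) (StEv m hC) k) {s | s.Pf = L})).Nonempty
    rw [set_cell' hC hφ k j.2]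
    exact XH.occ_transfer_ev hb k j.2 h
  | Q j L =>
    change hc pZ qZ 3 (cEv m hC) (StEv m hC) k j ⊓ₒ
      Romp.ev (hSt pZ qZ 3 (cEv m hC) (StEv m hC) k) {s | s.Qf = L} ≠ ⊥ at h
    show ((hφ.rep hC).set (hc pZ qZ 3 (cEv m hC) (StEv m hC) k j ⊓ₒ
      Romp.ev (hSt pZ qZ 3 (cEv m hC) (StEv m hC) k) {s | s.Qf = L})).Nonempty
    rw [set_cell' hC hφ k j.2]
    exact XH.occ_transfer_ev hb k j.2 h
  | V j s =>
    change hc pZ qZ 3 (cEv m hC) (StEv m hC) k j ⊓ₒ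
      hSt pZ qZ 3 (cEv m hC) (StEv m hC) k s ≠ ⊥ at h
    show ((hφ.rep hC).set (hc pZ qZ 3 (cEv m hC) (StEv m hC) k j ⊓ₒ
      hSt pZ qZ 3 (cEv m hC) (StEv m hC) k s)).Nonempty
    have e : hSt pZ qZ 3 (cEv m hC) (StEv m hC) k s =
        Romp.ev (hSt pZ qZ 3 (cEv m hC) (StEv m hC) k) {s} := (Romp.ev_singleton _).symm
    rw [e] at h ⊢
    rw [set_cell' hC hφ k j.2]
    exact XH.occ_transfer_ev hb k j.2 h

include hφ in
/-- **occurrence** (field `occ` of the window atlas) -/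
theorem atom_occ (k : ℕ) (κ : Atom (3 * (3 + k))) :
    atomE 3 (cEv m hC) (StEv m hC) k κ = ⊥ ∨
      ∃ y : X, ∀ v ∈ κ.Win 3 k, letter (v +ᵥ y) = (TBase.base m hC).ltr k κ v := by
  by_cases h : atomE 3 (cEv m hC) (StEv m hC) k κ = ⊥
  · exact Or.inl h
  · obtain ⟨y, hy⟩ := atom_nonempty hC hφ k κ h
    exact Or.inr ⟨y, fun v hv => letter_of_mem hC hφ k κ hy hv⟩

end AtomOcc

end Crest.Agent.R189
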