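import Crest.Agent.R189.XOK
import Crest.Agent.R189.TBase

/-!
Row 189 (S0289), helper474.  The letters of the concrete system `X` satisfy the matching
relations `MD` of the presented group.
-/

set_option autoImplicit false

namespace Crest.Agent.R189

theorem letter_fst (x : X) : ((letter x).1 : ℕ) = dg 9 x.p.2 := rfl

theorem letter_snd_val (x : X) : (letter x).2.1 = rstar 3 x.s x.p.1 x.p.2 := star_val le_rfl _ _ _

theorem letter_Pf (x : X) : (letter x).2.Pf = V 3 x.s x.p.1 x.p.2 := by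
  show (letter x).2.1.Pf = _
  rw [letter_snd_val]
  rfl

theorem letter_Pb (x : X) : (letter x).2.Pb = V 3 x.s x.p.1 (x.p.2 - 1) := by
  show (letter x).2.1.Pb = _
  rw [letter_snd_val]
  rfl

theorem letter_Qf (x : X) : (letter x).2.Qf = Hf 3 x.s x.p.1 x.p.2 := by
  show (letter x).2.1.Qf = _
  rw [letter_snd_val]
  rfl

theorem letter_Qb (x : X) : (letter x).2.Qb = Hb 3 x.s x.p.1 x.p.2 := by
  show (letter x).2.1.Qb = _
  rw [letter_snd_val]
  rfl

theorem letter_domP (x : X) : (letter x).2.domP = dom 3 x.s x.p.1 x.p.2 := by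
  show (letter x).2.1.domP = _
  rw [letter_snd_val]
  rfl

theorem lettOK_letter (x : X) : LettOK (letter x) := by
  by_cases h : dg 9 x.p.2 = 0
  · exact Or.inl h
  · right
    rw [letter_domP, letter_Qb, letter_fst]
    refine ⟨dom_of_ne (a := 3) _ _ h, ?_⟩
    unfold Hb
    rw [if_neg h]

theorem dg_nine_sub_one (y : ℤ) (j : Fin 9) :
    dg 9 (-1 + y) = (j : ℕ) ↔ dg 9 y = ((j + 1 : Fin 9) : ℕ) := by
  have h1 := dg_cast (n := 9) (by norm_num) (-1 + y)
  have h2 := dg_cast (n := 9) (by norm_num) y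
  have h3 : ((j + 1 : Fin 9) : ℕ) = ((j : ℕ) + 1) % 9 := by
    rw [Fin.val_add]; rfl
  have h4 := j.2
  rw [h3]
  push_cast at h1 h2
  constructor
  · intro h
    rw [h] at h1
    omega
  · intro h
    rw [h] at h2
    omega

/-- **(T4) holds in `X`.** -/
theorem letter_match (k : MD.ι) (x : X) :
    letter (-(MD.vec k) +ᵥ x) ∈ MD.src k ↔ letter x ∈ MD.dst k := by
  change MIx at k
  show letter (-k.v +ᵥ x) ∈ lset k.S ↔ letter x ∈ lset k.D
  rw [mem_lset, mem_lset]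
  rcases k with j | j | L | L | ⟨j, th⟩ | _
  · show (letter (-((0 : ℤ), (1 : ℤ)) +ᵥ x)).1 = j ↔ (letter x).1 = j + 1
    rw [Fin.ext_iff, Fin.ext_iff, letter_fst, letter_fst]
    simp only [X.vadd_p, Prod.neg_mk, Prod.snd_add]
    exact dg_nine_sub_one _ _
  · show (letter (-((1 : ℤ), (0 : ℤ)) +ᵥ x)).1 = j ↔ (letter x).1 = j
    rw [Fin.ext_iff, Fin.ext_iff, letter_fst, letter_fst]
    simp only [X.vadd_p, Prod.neg_mk, Prod.snd_add, neg_zero, zero_add]
  · show (letter (-((0 : ℤ), (1 : ℤ)) +ᵥ x)).2.Pf = L ↔ (letter x).2.Pb = L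
    rw [letter_Pf, letter_Pb]
    simp only [X.vadd_p, X.vadd_s, Prod.neg_mk, Prod.snd_add, Prod.fst_add, neg_zero, zero_add]
    rw [neg_add_eq_sub]
  · show (((letter (-((1 : ℤ), (0 : ℤ)) +ᵥ x)).1 : ℕ) = 0 ∧
      (letter (-((1 : ℤ), (0 : ℤ)) +ᵥ x)).2.Qf = L) ↔
      (((letter x).1 : ℕ) = 0 ∧ (letter x).2.Qb = L)
    rw [letter_fst, letter_fst, letter_Qf, letter_Qb]
    simp only [X.vadd_p, X.vadd_s, Prod.neg_mk, Prod.snd_add, Prod.fst_add, neg_zero, zero_add]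
    refine and_congr_right (fun h => ?_)
    have := Hb_succ_of_zero (a := 3) x.s (-1 + x.p.1) (y := x.p.2) h
    rw [← this, neg_add_eq_sub, sub_add_cancel]
  · show ((letter (-((1 : ℤ), (0 : ℤ)) +ᵥ x)).1 = j ∧ (j : ℕ) ≠ 0 ∧
      (letter (-((1 : ℤ), (0 : ℤ)) +ᵥ x)).2.Qf.st = th) ↔
      ((letter x).1 = j ∧ (j : ℕ) ≠ 0 ∧ (letter x).2.Qb.st = th)
    rw [Fin.ext_iff, Fin.ext_iff, letter_fst, letter_fst, letter_Qf, letter_Qb]
    simp only [X.vadd_p, X.vadd_s, Prod.neg_mk, Prod.snd_add, Prod.fst_add, neg_zero, zero_add]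
    have := Hb_succ_st 3 x.s (-1 + x.p.1) x.p.2
    rw [← this, neg_add_eq_sub, sub_add_cancel]
  · show ¬ LettOK (letter (-(0 : ℤ × ℤ) +ᵥ x)) ↔ False
    simp [lettOK_letter]

end Crest.Agent.R189
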