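import Crest.Agent.R189.CentLS
import Crest.Agent.R189.TBase
import Crest.Agent.R189.Glue
import Crest.Agent.R189.XMatch

/-!
# Row 189 (S0289): C1: the kernel of `T / Z(T) → Perm (X × C)` is central   (helper254)

* `cent_conc`: for a model `m : TModel MD C G` of a centreless group with concrete values, given the
  occurrence of the nonzero atoms.
-/

set_option autoImplicit false
set_option linter.unusedSectionVars false

open Equiv Equiv.Perm

namespace Crest.Agent.R189.Cent

variable {C : Type} [Fintype C] [DecidableEq C] {G : Type} [Group G]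

section gens

variable {A : Type} [Fintype A] {M : MatchData A} (m : TModel M C G) (hC : 30 ≤ Fintype.card C)

theorem one_mem_of (σ : alternatingGroup C) (K : Subgroup G)
    (h : ∀ x, (m.letterEv hC x).hom σ ∈ K) : (m.colGrp hC).one σ ∈ K := by
  show m.one σ ∈ K
  rw [← m.e_prod σ]
  exact lprod_mem (fun x _ => h x)

theorem gn_gen : Subgroup.closure (Set.range (gn (C := C) (fun x => m.letterEv hC x))) = ⊤ := by
  rw [← top_le_iff, ← m.gen, Subgroup.closure_le]
  rintro _ ((⟨s, rfl⟩ | ⟨i, a, b, rfl⟩) | ⟨x, s, rfl⟩)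
  · exact one_mem_of m hC s _ (fun x => Subgroup.subset_closure ⟨Sum.inl (x, s), rfl⟩)
  · refine Subgroup.subset_closure ⟨Sum.inr (i, a, b), ?_⟩
    show (m.colGrp hC).H (dl (uv i) a b) = _
    rw [m.colGrp_H_dl hC, m.hpow_uv]
  · exact Subgroup.subset_closure ⟨Sum.inl (x, s), rfl⟩

end gens

section conc

variable (m : TModel MD C G) (hC : 30 ≤ Fintype.card C)

theorem lev_eq (x : Fin (3 * 3) × Star) :
    m.letterEv hC x = letterE (cEv m hC) (StEv m hC) x :=
  (TBase.atom m hC (j := (x.1 : ℕ)) x.1.2 x.2).symm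

/-- **C1**: the kernel of a concrete representation of a centreless model is central. -/
theorem cent_conc [Centreless G] {φ : G →* Perm (X × C)} (hφ : Conc m letter φ)
    (hocc : ∀ (n : ℕ) (κ : Atom (3 * (3 + 2 * n))),
      atomE 3 (cEv m hC) (StEv m hC) (2 * n) κ = ⊥ ∨
      ∃ y : X, ∀ v ∈ κ.Win 3 (2 * n), letter (v +ᵥ y) = (TBase.base m hC).ltr (2 * n) κ v)
    (w : G) (hw : φ w = 1) : w ∈ Subgroup.center G := by
  refine cent_of_win (S := m.colGrp hC) (letter := letter) (lev := fun x => m.letterEv hC x)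
    (fun x y h => m.letterEv_orth hC h) (one_mem_of m hC) (gn_gen m hC) φ (fun a σ => hφ.e a σ)
    ?_ ?_ ?_ w hw
  · intro b p r
    exact (hφ.rep hC).H _ (dl_sum _ _ _)
  · intro v v' y h
    have h1 := congrArg X.p h
    rw [X.vadd_p, X.vadd_p] at h1
    exact add_right_cancel h1
  · exact exists_winAtlas (TBase.base m hC) (lev_eq m hC) hocc

/-- a nonzero centreless model acts faithfully -/
theorem injective_conc [Centreless G] {φ : G →* Perm (X × C)} (hφ : Conc m letter φ)
    (hocc : ∀ (n : ℕ) (κ : Atom (3 * (3 + 2 * n))),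
      atomE 3 (cEv m hC) (StEv m hC) (2 * n) κ = ⊥ ∨
      ∃ y : X, ∀ v ∈ κ.Win 3 (2 * n), letter (v +ᵥ y) = (TBase.base m hC).ltr (2 * n) κ v) :
    Function.Injective φ := by
  rw [injective_iff_map_eq_one]
  intro w hw
  have h1 := cent_conc m hC hφ hocc w hw
  rw [Centreless.center_eq] at h1
  exact Subgroup.mem_bot.1 h1

end conc

/-! ### the group `T / Z(T)` -/

theorem centreless_Tbar (hC : 30 ≤ Fintype.card C) :
    Centreless (TGrp MD C ⧸ Subgroup.center (TGrp MD C)) :=
  ⟨(tModel MD C).modCenter_center hC⟩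

section T

variable [Nonempty C] (hC : 30 ≤ Fintype.card C)
  (hZ : Subgroup.center (Gp (ℤ × ℤ) letter C) = ⊥)
  [Centreless (TGrp MD C ⧸ Subgroup.center (TGrp MD C))]
  (hocc : ∀ (n : ℕ) (κ : Atom (3 * (3 + 2 * n))),
      atomE 3 (cEv (tModel MD C).modCenter hC) (StEv (tModel MD C).modCenter hC) (2 * n) κ = ⊥ ∨
      ∃ y : X, ∀ v ∈ κ.Win 3 (2 * n),
        letter (v +ᵥ y) = (TBase.base (tModel MD C).modCenter hC).ltr (2 * n) κ v)

include hZ hocc

/-- `T / Z(T)` acts faithfully on `X × C` -/
theorem injective_qTbar_of_occ :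
    Function.Injective (qTbar (C := C) letter MD letter_match hZ) :=
  injective_conc (tModel MD C).modCenter hC (conc_qTbar letter MD letter_match hZ) hocc

/-- **C1**: the kernel of `T → Gp` is the centre of `T` -/
theorem ker_qT_of_occ :
    (qT (C := C) letter MD letter_match).ker = Subgroup.center (TGrp MD C) :=
  ker_qT_eq_center letter MD letter_match hZ (injective_qTbar_of_occ hC hZ hocc)

end T

end Crest.Agent.R189.Cent
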