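import Mathlib

/-!
# Row 189 (S0289): C1 (core): elements acting trivially are central

`T` is a group generated by `gn : I → T`, `q : T →* Perm (X × C)`.
An *atlas of depth `M`*: a family (`ι`) of

* `t i a b c : T` (`a b c : V × C`), the 3-cycle `(a b c)` of the tower over the atom `i`,
* `π i g : V × C → V × C` the partial action of the generator `g : I` over the atom `i`,
* `dep i : V → ℕ` the depth of a position in the window of the atom `i`,

such that a generator conjugates `t i a b c` into `t i (π a) (π b) (π c)` at positive depth, lowers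
the depth by at most `1`, the `t i a b c` at depth `≥ M` generate `T`, and every atom with nontrivial
`t` occurs at a point `y` of `X`, around which the generators act by `π i`.

`cent_core`: if there is an atlas for every `M` then `q w = 1` implies `w ∈ center T`.
-/

set_option autoImplicit false

namespace Crest.Agent.R189.Cent

variable {T X C V I : Type*} [Group T] [AddCommGroup V] [AddAction V X]

/-- an atlas of depth `M` -/
structure Atlas (q : T →* Equiv.Perm (X × C)) (gn : I → T) (M : ℕ) where
  ι : Type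
  t : ι → V × C → V × C → V × C → T
  π : ι → I → V × C → V × C
  dep : ι → V → ℕ
  π_inj : ∀ i, ∀ g, ∀ a b, π i g a = π i g b → a = b
  dep_π : ∀ i, ∀ g, ∀ a : V × C, dep i a.1 ≤ dep i (π i g a).1 + 1
  conj : ∀ i, ∀ g, ∀ a b c : V × C, a ≠ b → a ≠ c → b ≠ c →
    1 ≤ dep i a.1 → 1 ≤ dep i b.1 → 1 ≤ dep i c.1 →
      gn g * t i a b c * (gn g)⁻¹ = t i (π i g a) (π i g b) (π i g c)
  occ : ∀ i, (∀ a b c, a ≠ b → a ≠ c → b ≠ c → 1 ≤ dep i a.1 → 1 ≤ dep i b.1 → 1 ≤ dep i c.1 →
      t i a b c = 1) ∨
    ∃ y : X, (∀ v v' : V, 1 ≤ dep i v → 1 ≤ dep i v' → v +ᵥ y = v' +ᵥ y → v = v') ∧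
      ∀ g, ∀ a : V × C, 1 ≤ dep i a.1 →
        q (gn g) (a.1 +ᵥ y, a.2) = ((π i g a).1 +ᵥ y, (π i g a).2)
  gen : ∀ K : Subgroup T, (∀ i, ∀ a b c : V × C, a ≠ b → a ≠ c → b ≠ c →
      M ≤ dep i a.1 → M ≤ dep i b.1 → M ≤ dep i c.1 → t i a b c ∈ K) → K = ⊤

namespace Atlas

variable {q : T →* Equiv.Perm (X × C)} {gn : I → T} {M : ℕ} (A : Atlas (V := V) q gn M)

/-- action of a word over the atom `i` -/
def word (i : A.ι) (l : List I) (a : V × C) : V × C := l.foldr (fun g b => A.π i g b) a

@[simp] theorem word_nil (i : A.ι) (a : V × C) : A.word i [] a = a := rfl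

@[simp] theorem word_cons (i : A.ι) (g : I) (l : List I) (a : V × C) :
    A.word i (g :: l) a = A.π i g (A.word i l a) := rfl

theorem dep_word (i : A.ι) (l : List I) (a : V × C) :
    A.dep i a.1 ≤ A.dep i (A.word i l a).1 + l.length := by
  induction l with
  | nil => simp
  | cons g l ih =>
    have h2 := A.dep_π i g (A.word i l a)
    rw [word_cons, List.length_cons]
    omega

theorem word_inj (i : A.ι) (l : List I) (a b : V × C)
    (h : A.word i l a = A.word i l b) : a = b := by
  induction l with
  | nil => exact h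
  | cons g l ih => exact ih (A.π_inj i g _ _ h)

theorem conj_word (i : A.ι) (l : List I) (a b c : V × C)
    (hab : a ≠ b) (hac : a ≠ c) (hbc : b ≠ c) (ha : l.length ≤ A.dep i a.1)
    (hb : l.length ≤ A.dep i b.1) (hc : l.length ≤ A.dep i c.1) :
    (l.map gn).prod * A.t i a b c * (l.map gn).prod⁻¹ =
      A.t i (A.word i l a) (A.word i l b) (A.word i l c) := by
  induction l with
  | nil => simp
  | cons g l ih =>
    rw [List.length_cons] at ha hb hc
    have h1 := ih (by omega) (by omega) (by omega)
    have h2 := A.conj i g (A.word i l a) (A.word i l b) (A.word i l c)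
      (fun h => hab (A.word_inj i l _ _ h)) (fun h => hac (A.word_inj i l _ _ h))
      (fun h => hbc (A.word_inj i l _ _ h))
      (by have := A.dep_word i l a; omega) (by have := A.dep_word i l b; omega)
      (by have := A.dep_word i l c; omega)
    rw [word_cons, word_cons, word_cons, ← h2, ← h1, List.map_cons, List.prod_cons]
    group

theorem q_word (i : A.ι) (l : List I) (y : X)
    (hy : ∀ g, ∀ a : V × C, 1 ≤ A.dep i a.1 →
        q (gn g) (a.1 +ᵥ y, a.2) = ((A.π i g a).1 +ᵥ y, (A.π i g a).2))
    (a : V × C) (ha : l.length ≤ A.dep i a.1) :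
    q (l.map gn).prod (a.1 +ᵥ y, a.2) = ((A.word i l a).1 +ᵥ y, (A.word i l a).2) := by
  induction l with
  | nil => simp
  | cons g l ih =>
    rw [List.length_cons] at ha
    rw [List.map_cons, List.prod_cons, map_mul, Equiv.Perm.mul_apply, ih (by omega),
      hy g _ (by have := A.dep_word i l a; omega), word_cons]

end Atlas

/-- **C1, core.** -/
theorem cent_core (q : T →* Equiv.Perm (X × C)) (gn : I → T)
    (hGen : ∀ w : T, ∃ l : List I, (l.map gn).prod = w)
    (hA : ∀ M : ℕ, ∃ M', M ≤ M' ∧ Nonempty (Atlas (V := V) q gn M')) (w : T) (hw : q w = 1) :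
    w ∈ Subgroup.center T := by
  obtain ⟨l, rfl⟩ := hGen w
  obtain ⟨M', hM', ⟨A⟩⟩ := hA (l.length + 1)
  have h1 : Subgroup.centralizer {(l.map gn).prod} = ⊤ := by
    apply A.gen
    intro i a b c hab hac hbc ha hb hc
    rw [Subgroup.mem_centralizer_singleton_iff]
    rcases A.occ i with h | ⟨y, hfree, hy⟩
    · rw [h a b c hab hac hbc (by omega) (by omega) (by omega)]; simp
    · have hfix : ∀ d : V × C, M' ≤ A.dep i d.1 → A.word i l d = d := by
        intro d hd
        have e1 := A.q_word i l y hy d (by omega)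
        rw [hw, Equiv.Perm.one_apply] at e1
        have e2 := Prod.ext_iff.1 e1
        refine Prod.ext ?_ ?_
        · refine (hfree _ _ (by omega) ?_ e2.1).symm
          have := A.dep_word i l d
          omega
        · exact e2.2.symm
      have e := A.conj_word i l a b c hab hac hbc (by omega) (by omega) (by omega)
      rw [hfix a ha, hfix b hb, hfix c hc] at e
      rw [mul_inv_eq_iff_eq_mul] at e
      exact e.symm
  rw [Subgroup.mem_center_iff]
  intro g
  have hg : g ∈ Subgroup.centralizer {(l.map gn).prod} := by rw [h1]; trivial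
  rw [Subgroup.mem_centralizer_singleton_iff] at hg
  exact hg

end Crest.Agent.R189.Cent
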