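import Crest.Agent.R189.Cent
import Crest.Agent.R189.AtomOcc
import Crest.Agent.R189.Asm

/-!
# Row 189: C1 complete: the kernel of `T → Gp` is the centre of `T` (helper516 + helper254)
-/

set_option autoImplicit false

namespace Crest.Agent.R189.Cent

open Equiv Equiv.Perm

variable {C : Type} [Fintype C] [DecidableEq C]

theorem center_GpC (hC : 30 ≤ Fintype.card C) :
    Subgroup.center (Gp (ℤ × ℤ) letter C) = ⊥ := by
  have : Nonempty C := Fintype.card_pos_iff.1 (by omega)
  exact center_Gp (by omega) letter_sep letter_minl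

/-- **C1**: `ker (T → Gp) = Z(T)` -/
theorem ker_qT_fin [Nonempty C] (hC : 30 ≤ Fintype.card C) :
    (qT (C := C) letter MD letter_match).ker = Subgroup.center (TGrp MD C) := by
  have := centreless_Tbar (C := C) hC
  exact ker_qT_of_occ hC (center_GpC hC) fun n κ =>
    AtomOcc.atom_occ hC (conc_qTbar letter MD letter_match (center_GpC hC)) (2 * n) κ

/-- **C1** -/
theorem ker_qT_le_center [Nonempty C] (hC : 30 ≤ Fintype.card C) :
    (qT (C := C) letter MD letter_match).ker ≤ Subgroup.center (TGrp MD C) :=
  (ker_qT_fin hC).le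

end Crest.Agent.R189.Cent
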