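import Crest.Agent.R189.TowConj
import Crest.Agent.R189.EvTrans
import Crest.Agent.R189.KGen

/-!
Row 189 (helper769): `T` is generated by the 3-cycles of the towers over the atoms, at large depth
(field `gen` of the atlas of `CentCore.lean`).
-/

set_option autoImplicit false
set_option linter.unusedSectionVars false

open Equiv Equiv.Perm Finset

namespace Crest.Agent.R189.Cent

open Tower

section colgrp

variable {C : Type} [Fintype C] [DecidableEq C] {V : Type} [AddCommGroup V] [DecidableEq V]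
  {T : Type} [Group T] {S : ColGrp C V T}

/-- conjugate of a translate on a 3-cycle -/
theorem conj_trans (e : Ev S) (v : V) {l : C → V} (hl : ∑ c, l c = 0) {a b c : C} (hab : a ≠ b)
    (hac : a ≠ c) (hbc : b ≠ c) :
    S.H l * (Ev.trans v e).hom (acyc a b c) * (S.H l)⁻¹ =
      tv e (v + l a, a) (v + l b, b) (v + l c, c) := by
  rw [tv_section e hab hac hbc, ← H_conj_M3 e hl v v v hab hac hbc,
    M3_trans (Ev.isTrans_trans v e) hab hac hbc]

/-- conjugate of an element of a closure -/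
theorem conj_mem_closure {G : Type*} [Group G] {s : Set G} {K : Subgroup G} {x g : G}
    (hx : x ∈ Subgroup.closure s) (h : ∀ y ∈ s, g * y * g⁻¹ ∈ K) : g * x * g⁻¹ ∈ K := by
  induction hx using Subgroup.closure_induction with
  | mem y hy => exact h y hy
  | one => simp
  | mul a b _ _ ha hb =>
    have : g * (a * b) * g⁻¹ = (g * a * g⁻¹) * (g * b * g⁻¹) := by group
    rw [this]; exact K.mul_mem ha hb
  | inv a _ ha =>
    have : g * a⁻¹ * g⁻¹ = (g * a * g⁻¹)⁻¹ := by group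
    rw [this]; exact K.inv_mem ha

/-- the conjugates of an event covered by translates of the atoms lie in `K` -/
theorem conj_ev_mem {ι : Type*} (κ : ι → Ev S) (I : Set (ι × V)) (f : Ev S) (K : Subgroup T)
    (hf : ∀ a b c : C, a ≠ b → a ≠ c → b ≠ c → f.hom (acyc a b c) ∈
      Subgroup.closure {g | ∃ p ∈ I, g = (Ev.trans p.2 (κ p.1)).hom (acyc a b c)})
    {l : C → V} (hl : ∑ c, l c = 0)
    (hK : ∀ p ∈ I, ∀ a b c : C, a ≠ b → a ≠ c → b ≠ c →
      tv (κ p.1) (p.2 + l a, a) (p.2 + l b, b) (p.2 + l c, c) ∈ K) (z : alternatingGroup C) :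
    S.H l * f.hom z * (S.H l)⁻¹ ∈ K := by
  refine alt_ind (P := fun z => S.H l * f.hom z * (S.H l)⁻¹ ∈ K) ?_ ?_ ?_ ?_ z
  · intro a b c hab hac hbc
    refine conj_mem_closure (hf a b c hab hac hbc) ?_
    rintro _ ⟨p, hp, rfl⟩
    rw [conj_trans _ _ hl hab hac hbc]
    exact hK p hp a b c hab hac hbc
  · simp
  · intro x y hx hy
    have : S.H l * f.hom (x * y) * (S.H l)⁻¹ =
        (S.H l * f.hom x * (S.H l)⁻¹) * (S.H l * f.hom y * (S.H l)⁻¹) := by
      rw [map_mul]; group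
    rw [this]; exact K.mul_mem hx hy
  · intro x hx
    have : S.H l * f.hom x⁻¹ * (S.H l)⁻¹ = (S.H l * f.hom x * (S.H l)⁻¹)⁻¹ := by
      rw [map_inv]; group
    rw [this]; exact K.inv_mem hx

end colgrp

variable {A : Type} [Fintype A] {C : Type} [Fintype C] [DecidableEq C] {M : MatchData A}
  {T : Type} [Group T] (m : TModel M C T)

/-- **field `gen` of the atlas** -/
theorem gen_of_cover (hC : 30 ≤ Fintype.card C) {ι : Type*} (κ : ι → Ev (m.colGrp hC))
    (dep : ι → ℤ × ℤ → ℕ) (N : ℕ)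
    (hdep : ∀ i v w, |w.1| ≤ 1 → |w.2| ≤ 1 → dep i v ≤ dep i (v + w) + 1)
    (hcov : ∀ (x : A) (a b c : C), a ≠ b → a ≠ c → b ≠ c → (m.letterEv hC x).hom (acyc a b c) ∈
      Subgroup.closure {g | ∃ p : ι × (ℤ × ℤ), N + 1 ≤ dep p.1 p.2 ∧
        g = (Ev.trans p.2 (κ p.1)).hom (acyc a b c)})
    (K : Subgroup T) (hK : ∀ i, ∀ a b c : (ℤ × ℤ) × C, a ≠ b → a ≠ c → b ≠ c →
      N ≤ dep i a.1 → N ≤ dep i b.1 → N ≤ dep i c.1 → tv (κ i) a b c ∈ K) : K = ⊤ := by
  have h1 : ∀ (x : A) (lam : C → ℤ × ℤ), ∑ c, lam c = 0 →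
      (∀ c, |(lam c).1| ≤ 1 ∧ |(lam c).2| ≤ 1) → ∀ z,
      (m.colGrp hC).H lam * m.e x z * ((m.colGrp hC).H lam)⁻¹ ∈ K := by
    intro x lam hl hs z
    refine conj_ev_mem κ {p | N + 1 ≤ dep p.1 p.2} (m.letterEv hC x) K (hcov x) hl ?_ z
    intro p hp a b c hab hac hbc
    have hd : ∀ c, N ≤ dep p.1 (p.2 + lam c) := by
      intro c
      have := hdep p.1 p.2 (lam c) (hs c).1 (hs c).2
      have hp' : N + 1 ≤ dep p.1 p.2 := hp
      omega
    refine hK p.1 _ _ _ (fun h => hab (congrArg Prod.snd h)) (fun h => hac (congrArg Prod.snd h))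
      (fun h => hbc (congrArg Prod.snd h)) (hd a) (hd b) (hd c)
  rw [← top_le_iff, ← m.closure_small hC, Subgroup.closure_le]
  rintro _ ⟨E, lam, z, hE, rfl⟩
  rw [TModel.sgen_apply]
  have h2 : ∀ L : List A, (m.colGrp hC).H lam * (L.map (fun x => m.e x z)).prod *
      ((m.colGrp hC).H lam)⁻¹ ∈ K := by
    intro L
    induction L with
    | nil => simp
    | cons x L ih =>
      rw [List.map_cons, List.prod_cons]
      have : (m.colGrp hC).H lam * (m.e x z * (L.map (fun x => m.e x z)).prod) *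
          ((m.colGrp hC).H lam)⁻¹ = ((m.colGrp hC).H lam * m.e x z * ((m.colGrp hC).H lam)⁻¹) *
          ((m.colGrp hC).H lam * (L.map (fun x => m.e x z)).prod * ((m.colGrp hC).H lam)⁻¹) := by
        group
      rw [this]
      exact K.mul_mem (h1 x lam hE.sum hE.small z) ih
  exact h2 E.toList

end Crest.Agent.R189.Cent
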