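import Crest.Agent.R189.CentGen
import Crest.Agent.R189.EvRomp
import Crest.Agent.R189.LETW

/-!
Row 189 (helper769): the depth function of the atoms of level `k` and the concrete field `gen` of the
atlas (`T` centreless).
-/

set_option autoImplicit false
set_option linter.unusedSectionVars false

open Equiv Equiv.Perm Finset

namespace Crest.Agent.R189.Cent

open Tower

section ev

variable {C : Type} [Fintype C] [DecidableEq C] {V : Type} [AddCommGroup V]
  {T : Type} [Group T] {S : ColGrp C V T}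

/-- the value of a finite orthogonal sum is a product of the values -/
theorem ev_hom_mem [Centreless T] {ι : Type*} [Finite ι] {P : ι → Ev S}
    (hP : ∀ {i j : ι}, i ≠ j → Romp.Orth (P i) (P j)) (A : Set ι) (σ : alternatingGroup C) :
    (Romp.ev P A).hom σ ∈ Subgroup.closure {g | ∃ i ∈ A, g = (P i).hom σ} := by
  have hD : Romp.IsPart P (Romp.ev P Set.univ) := by
    refine Romp.IsPart.of_isLUB hP ?_
    have := Romp.isLUB_ev hP Set.univ
    rwa [Set.image_univ] at this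
  have hA : A.Finite := Set.toFinite A
  induction A, hA using Set.Finite.induction_on with
  | empty =>
    rw [Romp.ev_empty]
    exact Subgroup.one_mem _
  | @insert i A hi _ ih =>
    have h1 : Romp.ev P (insert i A) = Romp.add (P i) (Romp.ev P A) := by
      rw [Set.insert_eq, ← hD.ev_add (Set.disjoint_singleton_left.2 hi), Romp.ev_singleton]
    have h2 : Romp.Orth (P i) (Romp.ev P A) := by
      rw [hD.orth_ev_iff]
      rintro j hj
      exact hP (fun h => hi (h ▸ hj))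
    rw [h1, Ev.romp_add_hom h2]
    refine Subgroup.mul_mem _ (Subgroup.subset_closure ⟨i, Set.mem_insert _ _, rfl⟩) ?_
    refine Subgroup.closure_mono ?_ ih
    rintro g ⟨j, hj, rfl⟩
    exact ⟨j, Set.mem_insert_of_mem _ hj, rfl⟩

end ev

/-! ### the depth function -/

section depth

open Classical in
/-- depth of the position `v` in the window of the atom `κ`: `R` minus the distance to the zone -/
noncomputable def depZ (a k : ℕ) (R : ℕ) (κ : Atom (3 * (a + k))) (v : ℤ × ℤ) : ℕ :=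
  Nat.findGreatest (fun d => ∃ u ∈ κ.Zone a k R, |v.1 - u.1| + d ≤ R ∧ |v.2 - u.2| + d ≤ R) R

variable {a k R : ℕ} {κ : Atom (3 * (a + k))} {v : ℤ × ℤ}

theorem le_depZ {d : ℕ} (hd : ∃ u ∈ κ.Zone a k R, |v.1 - u.1| + d ≤ R ∧ |v.2 - u.2| + d ≤ R) :
    d ≤ depZ a k R κ v := by
  classical
  have h : d ≤ R := by
    obtain ⟨u, _, h1, _⟩ := hd
    have := abs_nonneg (v.1 - u.1)
    omega
  exact Nat.le_findGreatest h hd

theorem of_le_depZ {d : ℕ} (h0 : 0 < d) (hd : d ≤ depZ a k R κ v) :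
    ∃ u ∈ κ.Zone a k R, |v.1 - u.1| + d ≤ R ∧ |v.2 - u.2| + d ≤ R := by
  classical
  have h1 : depZ a k R κ v ≠ 0 := by omega
  obtain ⟨u, hu, h2, h3⟩ := Nat.findGreatest_of_ne_zero (P := fun d : ℕ =>
    ∃ u ∈ κ.Zone a k R, |v.1 - u.1| + d ≤ R ∧ |v.2 - u.2| + d ≤ R) (n := R) rfl h1
  have h4 : (d : ℤ) ≤ (depZ a k R κ v : ℤ) := by exact_mod_cast hd
  exact ⟨u, hu, by unfold depZ at h4; omega, by unfold depZ at h4; omega⟩

theorem depZ_zone (hv : v ∈ κ.Zone a k R) : depZ a k R κ v = R := by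
  classical
  refine le_antisymm (Nat.findGreatest_le R) (le_depZ ⟨v, hv, ?_, ?_⟩) <;> simp

theorem depZ_le : depZ a k R κ v ≤ R := by
  classical
  exact Nat.findGreatest_le R

/-- the depth is Lipschitz -/
theorem depZ_lip (w : ℤ × ℤ) (h1 : |w.1| ≤ 1) (h2 : |w.2| ≤ 1) :
    depZ a k R κ v ≤ depZ a k R κ (v + w) + 1 := by
  by_cases h0 : depZ a k R κ v ≤ 1
  · omega
  · push Not at h0
    obtain ⟨u, hu, h3, h4⟩ := of_le_depZ (by omega) (le_refl (depZ a k R κ v))
    have h5 : depZ a k R κ v - 1 ≤ depZ a k R κ (v + w) := by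
      refine le_depZ ⟨u, hu, ?_, ?_⟩
      · have e1 : |(v + w).1 - u.1| ≤ |v.1 - u.1| + |w.1| := by
          have : (v + w).1 - u.1 = (v.1 - u.1) + w.1 := by simp; ring
          rw [this]; exact abs_add_le _ _
        have e2 : ((depZ a k R κ v - 1 : ℕ) : ℤ) = (depZ a k R κ v : ℤ) - 1 := by
          push_cast [Nat.cast_sub (show 1 ≤ depZ a k R κ v by omega)]; ring
        omega
      · have e1 : |(v + w).2 - u.2| ≤ |v.2 - u.2| + |w.2| := by
          have : (v + w).2 - u.2 = (v.2 - u.2) + w.2 := by simp; ring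
          rw [this]; exact abs_add_le _ _
        have e2 : ((depZ a k R κ v - 1 : ℕ) : ℤ) = (depZ a k R κ v : ℤ) - 1 := by
          push_cast [Nat.cast_sub (show 1 ≤ depZ a k R κ v by omega)]; ring
        omega
    omega

/-- positions of positive depth: zone + ball of radius `< R` -/
theorem depZ_pos (h : 1 ≤ depZ a k R κ v) :
    ∃ u ∈ κ.Zone a k R, ∃ w : ℤ × ℤ, v = u + w ∧ |w.1| < R ∧ |w.2| < R := by
  obtain ⟨u, hu, h1, h2⟩ := of_le_depZ Nat.one_pos h
  refine ⟨u, hu, v - u, by abel, ?_, ?_⟩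
  · push_cast at h1; simp only [Prod.fst_sub]; omega
  · push_cast at h2; simp only [Prod.snd_sub]; omega

/-- positions of positive depth lie in the window -/
theorem mem_Win_of_depZ (h1 : 4 * (R : ℤ) ≤ ww a k) (h2 : 4 * (R : ℤ) ≤ hh a k)
    (h : 1 ≤ depZ a k R κ v) : v ∈ κ.Win a k := by
  obtain ⟨u, hu, w, rfl, hw1, hw2⟩ := depZ_pos h
  exact Atom.add_mem_Win h1 h2 hu hw1 hw2

/-- positions of positive depth are short vectors apart -/
theorem diff_lt_of_depZ (h1 : 4 * (R : ℤ) ≤ ww a k) (h2 : 4 * (R : ℤ) ≤ hh a k) {v' : ℤ × ℤ}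
    (h : 1 ≤ depZ a k R κ v) (h' : 1 ≤ depZ a k R κ v') :
    |v.1 - v'.1| < ww a k ∧ |v.2 - v'.2| < hh a k := by
  obtain ⟨u, hu, w, rfl, hw1, hw2⟩ := depZ_pos h
  obtain ⟨u', hu', w', rfl, hw1', hw2'⟩ := depZ_pos h'
  exact Atom.diff_lt h1 h2 hu hu' hw1 hw2 hw1' hw2'

end depth

variable {A : Type} [Fintype A] {C : Type} [Fintype C] [DecidableEq C] {M : MatchData A}
  {T : Type} [Group T] (m : TModel M C T)

/-- the translates of an atom at positions of positive depth are pairwise orthogonal -/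
theorem orthOn_depZ [Centreless T] {S : ColGrp C (ℤ × ℤ) T} {a k R : ℕ} {D : Ev S} {c : ℕ → Ev S}
    {St : Star → Ev S} (h : LS D pZ qZ a c St) (h1 : 4 * (R : ℤ) ≤ ww a k)
    (h2 : 4 * (R : ℤ) ≤ hh a k) (κ : Atom (3 * (a + k))) :
    OrthOn (atomE a c St k κ) {v | 1 ≤ depZ a k R κ v} := by
  intro v hv w hw hne
  rw [tOrth_iff (Ev.isTrans_trans v _) (Ev.isTrans_trans w _)]
  obtain ⟨h3, h4⟩ := diff_lt_of_depZ h1 h2 hv hw
  exact Ev.romp_orth.1 (h.atom_orth' k κ κ hne h3 h4)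

/-- **field `gen` of the atlas**, concrete form: atoms of level `k`, depth `depZ` -/
theorem gen_depZ [Centreless T] (hC : 30 ≤ Fintype.card C) {a k R N : ℕ}
    {c : ℕ → Ev (m.colGrp hC)} {St : Star → Ev (m.colGrp hC)} (h : LS ⊤ pZ qZ a c St)
    (hlet : ∀ x : A, ∃ y : Fin (3 * a) × Star, m.letterEv hC x = letterE c St y)
    (hN : N + 1 ≤ R) (h1 : 4 * (R : ℤ) ≤ ww a k) (h2 : 4 * (R : ℤ) ≤ hh a k)
    (K : Subgroup T) (hK : ∀ κ : Atom (3 * (a + k)), ∀ p q r : (ℤ × ℤ) × C, p ≠ q → p ≠ r →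
      q ≠ r → N ≤ depZ a k R κ p.1 → N ≤ depZ a k R κ q.1 → N ≤ depZ a k R κ r.1 →
      tv (atomE a c St k κ) p q r ∈ K) : K = ⊤ := by
  refine gen_of_cover m hC (fun κ => atomE a c St k κ) (depZ a k R) N
    (fun κ v w hw1 hw2 => depZ_lip w hw1 hw2) ?_ K hK
  intro x p q r hpq hpr hqr
  obtain ⟨y, hy⟩ := hlet x
  have hR : (0 : ℤ) < R := by omega
  rw [hy, h.letter_eq_pieces rfl k hR (by omega) (by omega) y]
  refine Subgroup.closure_mono ?_ (ev_hom_mem (P := pieceE a c St k R)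
    (fun hne => h.piece_orth k hR.le (by omega) (by omega) hne) _ _)
  rintro g ⟨i, _, rfl⟩
  refine ⟨(i.atom, i.vec), ?_, rfl⟩
  rw [depZ_zone i.mem]
  exact hN

end Crest.Agent.R189.Cent
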