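import Crest.Agent.R189.CentWin
import Crest.Agent.R189.LETW

/-!
# Row 189 (S0289): window atlases from a level structure   (helper254)

`winAtlas`: `h : LS ⊤ pZ qZ a c St` in `Ev S` (`S` centreless) and occurrence of the nonzero atoms
give window atlases of every depth; `cent_of_LS`: the kernel of `q` is central.
-/

set_option autoImplicit false
set_option linter.unusedSectionVars false

open Equiv Equiv.Perm

namespace Crest.Agent.R189.Cent

/-! ### depth in the neighbourhood of a zone -/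

/-- distance at most `r` from `Z` -/
def near (Z : Set (ℤ × ℤ)) (r : ℕ) (v : ℤ × ℤ) : Prop :=
  ∃ z ∈ Z, |v.1 - z.1| ≤ r ∧ |v.2 - z.2| ≤ r

theorem near.mono {Z : Set (ℤ × ℤ)} {r r' : ℕ} (h : r ≤ r') {v : ℤ × ℤ} (hv : near Z r v) :
    near Z r' v := by
  obtain ⟨z, hz, h1, h2⟩ := hv
  exact ⟨z, hz, h1.trans (by exact_mod_cast h), h2.trans (by exact_mod_cast h)⟩

theorem near.step {Z : Set (ℤ × ℤ)} {r : ℕ} {v : ℤ × ℤ} (hv : near Z r v) {u : ℤ × ℤ}
    (h1 : |u.1| ≤ 1) (h2 : |u.2| ≤ 1) : near Z (r + 1) (u + v) := by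
  obtain ⟨z, hz, h3, h4⟩ := hv
  refine ⟨z, hz, ?_, ?_⟩
  · rw [abs_le] at *
    rw [Prod.fst_add]
    push_cast
    constructor <;> linarith [h1.1, h1.2, h3.1, h3.2]
  · rw [abs_le] at *
    rw [Prod.snd_add]
    push_cast
    constructor <;> linarith [h2.1, h2.2, h4.1, h4.2]

theorem near_finite {Z : Set (ℤ × ℤ)} (hZ : Z.Finite) (r : ℕ) : {v | near Z r v}.Finite := by
  have h1 : ∀ z : ℤ × ℤ, {v : ℤ × ℤ | |v.1 - z.1| ≤ r ∧ |v.2 - z.2| ≤ r}.Finite := by
    intro z
    refine ((Set.finite_Icc (z.1 - r) (z.1 + r)).prod (Set.finite_Icc (z.2 - r) (z.2 + r))).subset ?_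
    rintro v ⟨h1, h2⟩
    rw [abs_le] at h1 h2
    exact ⟨⟨by linarith [h1.1], by linarith [h1.2]⟩, ⟨by linarith [h2.1], by linarith [h2.2]⟩⟩
  refine (hZ.biUnion (fun z _ => h1 z)).subset ?_
  rintro v ⟨z, hz, h2⟩
  exact Set.mem_biUnion hz h2

open Classical in
/-- depth -/
noncomputable def depth (Z : Set (ℤ × ℤ)) (M : ℕ) (v : ℤ × ℤ) : ℕ :=
  ((Finset.range (M + 1)).filter (fun r => near Z r v)).card

theorem near_of_depth {Z : Set (ℤ × ℤ)} {M : ℕ} {v : ℤ × ℤ} (h : 1 ≤ depth Z M v) : near Z M v := by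
  classical
  unfold depth at h
  obtain ⟨r, hr⟩ := Finset.card_pos.1 (show 0 < _ from h)
  rw [Finset.mem_filter, Finset.mem_range] at hr
  exact hr.2.mono (by omega)

theorem depth_zone {Z : Set (ℤ × ℤ)} {M : ℕ} {v : ℤ × ℤ} (h : v ∈ Z) : M + 1 ≤ depth Z M v := by
  classical
  unfold depth
  have h1 : near Z 0 v := ⟨v, h, by simp, by simp⟩
  rw [Finset.filter_true_of_mem (fun r _ => h1.mono (Nat.zero_le r)), Finset.card_range]

theorem depth_step {Z : Set (ℤ × ℤ)} {M : ℕ} (v : ℤ × ℤ) {u : ℤ × ℤ}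
    (h1 : |u.1| ≤ 1) (h2 : |u.2| ≤ 1) : depth Z M v ≤ depth Z M (u + v) + 1 := by
  classical
  unfold depth
  have h3 : ((Finset.range (M + 1)).filter (fun r => near Z r v)).card ≤
      ((Finset.range (M + 2)).filter (fun r => near Z r (u + v))).card := by
    refine Finset.card_le_card_of_injOn (fun r => r + 1) ?_ (fun a _ b _ h => Nat.succ_injective h)
    intro r hr
    rw [Finset.mem_coe, Finset.mem_filter, Finset.mem_range] at hr
    rw [Finset.mem_coe, Finset.mem_filter, Finset.mem_range]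
    exact ⟨by show r + 1 < M + 2; omega, hr.2.step h1 h2⟩
  refine h3.trans ?_
  rw [Finset.range_add_one, Finset.filter_insert]
  split
  · exact (Finset.card_insert_le _ _)
  · exact Nat.le_succ _

/-! ### values of sums -/

section hom

variable {C : Type} [Fintype C] [DecidableEq C] {T : Type} [Group T] {V : Type} [AddCommGroup V]
  {S : ColGrp C V T}

theorem ev_hom_mem [Centreless T] {ι : Type*} [Finite ι] {P : ι → Ev S} {D : Ev S} (hP : Romp.IsPart P D)
    {A : Set ι} (hA : A.Finite) (K : Subgroup T) (σ : alternatingGroup C)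
    (h : ∀ i ∈ A, (P i).hom σ ∈ K) : (Romp.ev P A).hom σ ∈ K := by
  classical
  induction A, hA using Set.Finite.induction_on with
  | empty =>
    rw [Romp.ev_empty, Ev.romp_bot]
    simp [Ev.zero]
  | @insert a B haB hB ih =>
    have h1 : Disjoint ({a} : Set ι) B := by simpa using haB
    have h2 := hP.ev_add h1
    have h3 := hP.ev_orth h1
    rw [Set.insert_eq, ← h2, Ev.romp_add_hom h3, Romp.ev_singleton]
    exact K.mul_mem (h a (Set.mem_insert _ _)) (ih (fun i hi => h i (Set.mem_insert_of_mem _ hi)))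

end hom

/-! ### growth of the boxes -/

theorem ww_hh_ge {a : ℕ} (ha : 3 ≤ a) (m : ℕ) : m + 1 ≤ ww a (2 * m) ∧ m + 1 ≤ hh a (2 * m) := by
  induction m with
  | zero => simp
  | succ m ih =>
    have e1 : 2 * (m + 1) = 2 * m + 1 + 1 := by ring
    have h1 : Even (2 * m) := even_two_mul m
    have h2 : ¬ Even (2 * m + 1) := by
      rw [Nat.not_even_iff_odd]; exact odd_two_mul_add_one m
    rw [e1, ww_succ_odd h2, ww_succ_even h1, hh_succ_odd h2, hh_succ_even h1]
    unfold nn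
    constructor
    · nlinarith [ih.1, Nat.zero_le (a + (2 * m + 1))]
    · nlinarith [ih.2, Nat.zero_le (a + (2 * m))]

/-! ### the atlas -/

section

variable {C : Type} [Fintype C] [DecidableEq C] {T : Type} [Group T] [Centreless T]
  {S : ColGrp C (ℤ × ℤ) T} {X : Type} [AddAction (ℤ × ℤ) X]
  {a : ℕ} {c : ℕ → Ev S} {St : Star → Ev S}

theorem zone_finite (a k : ℕ) (R : ℤ) (κ : Atom (3 * (a + k))) : (κ.Zone a k R).Finite := by
  have h1 : Finite (κ.Zone a k R) :=
    Finite.of_injective (β := Piece a k R) (fun v => ⟨(κ, v.1), v.2⟩) (by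
      intro v v' h
      have h2 := congrArg (fun i : Piece a k R => i.vec) h
      exact Subtype.ext h2)
  exact h1

/-- window atlases from a level structure -/
theorem exists_winAtlas (h : LS (⊤ : Ev S) pZ qZ a c St) {letter : X → Fin (3 * a) × Star}
    {lev : Fin (3 * a) × Star → Ev S} (hlev : ∀ x, lev x = letterE c St x)
    (hocc : ∀ (n : ℕ) (κ : Atom (3 * (a + 2 * n))), atomE a c St (2 * n) κ = ⊥ ∨
      ∃ y : X, ∀ v ∈ κ.Win a (2 * n), letter (v +ᵥ y) = h.ltr (2 * n) κ v) (M : ℕ) :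
    Nonempty (WinAtlas S letter lev M) := by
  classical
  set n : ℕ := 4 * (M + 2) with hn
  set k : ℕ := 2 * n with hk
  have hwh := ww_hh_ge h.three_le n
  rw [← hk] at hwh
  obtain ⟨hw0, hh0⟩ := hwh
  set R : ℤ := (M : ℤ) + 2 with hR
  have hw : 4 * R ≤ (ww a k : ℤ) := by
    have : (4 * (M + 2) : ℕ) ≤ ww a k := by omega
    have h2 : ((4 * (M + 2) : ℕ) : ℤ) ≤ (ww a k : ℤ) := by exact_mod_cast this
    push_cast at h2
    linarith
  have hh : 4 * R ≤ (hh a k : ℤ) := by
    have : (4 * (M + 2) : ℕ) ≤ Crest.Agent.R189.hh a k := by omega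
    have h2 : ((4 * (M + 2) : ℕ) : ℤ) ≤ (Crest.Agent.R189.hh a k : ℤ) := by exact_mod_cast this
    push_cast at h2
    linarith
  have hR0 : 0 < R := by positivity
  have hfin : ∀ κ : Atom (3 * (a + k)), {v | near (κ.Zone a k R) (M + 1) v}.Finite :=
    fun κ => near_finite (zone_finite a k R κ) _
  have hdec : ∀ (κ : Atom (3 * (a + k))) (v : ℤ × ℤ), v ∈ (hfin κ).toFinset →
      ∃ z ∈ κ.Zone a k R, ∃ u : ℤ × ℤ, |u.1| < R ∧ |u.2| < R ∧ v = z + u := by
    intro κ v hv
    rw [Set.Finite.mem_toFinset] at hv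
    obtain ⟨z, hz, h1, h2⟩ := hv
    refine ⟨z, hz, v - z, ?_, ?_, by simp⟩
    · rw [Prod.fst_sub]; push_cast at h1; linarith
    · rw [Prod.snd_sub]; push_cast at h2; linarith
  have hwin : ∀ (κ : Atom (3 * (a + k))) (v : ℤ × ℤ), v ∈ (hfin κ).toFinset → v ∈ κ.Win a k := by
    intro κ v hv
    obtain ⟨z, hz, u, h1, h2, rfl⟩ := hdec κ v hv
    exact Atom.add_mem_Win hw hh hz h1 h2
  refine ⟨{
    κ := Atom (3 * (a + k))
    e := fun κ => atomE a c St k κ
    W := fun κ => (hfin κ).toFinset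
    dep := fun κ v => depth (κ.Zone a k R) M v
    ltr := fun κ v => h.ltr k κ v
    dep_W := ?_
    dep_step := ?_
    le := ?_
    orth := ?_
    sum := ?_
    occ := ?_ }⟩
  · intro κ v u h1 h2 h3
    rw [Set.Finite.mem_toFinset]
    exact (near_of_depth h3).step h1 h2
  · intro κ v u h1 h2
    exact depth_step v h1 h2
  · intro κ v hv
    rw [hlev]
    exact h.le_ltr k κ (hwin κ v hv)
  · intro κ v v' hv hv' hne
    obtain ⟨z, hz, u, h1, h2, rfl⟩ := hdec κ v hv
    obtain ⟨z', hz', u', h1', h2', rfl⟩ := hdec κ v' hv'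
    refine Ev.romp_orth.1 (h.atom_orth k κ κ ?_)
    intro hl
    exact hne (Atom.eq_of_Lat hw hh hz hz' h1 h2 h1' h2' hl)
  · intro x K σ hK
    rw [hlev, h.letter_eq_pieces rfl k hR0 (by linarith) (by linarith) x]
    refine ev_hom_mem (h.piece_part rfl k hR0.le (by linarith) (by linarith)) (Set.toFinite _) K σ ?_
    intro i _
    exact hK i.atom i.vec (depth_zone i.mem)
  · intro κ
    rcases hocc n κ with h1 | ⟨y, hy⟩
    · exact Or.inl h1
    · exact Or.inr ⟨y, fun v hv => hy v (hwin κ v hv)⟩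

end

end Crest.Agent.R189.Cent
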