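import Crest.Agent.R189.XHier
import Crest.Agent.R189.XOK

/-!
Row 189 (S0289), helper787.  The explicit system satisfies the level structure axioms
(`LS_X`), and the iterates `hc`, `hSt`, `hD` are the explicit sets `xc`, `xSt`, `xD`
(`hc_xc`, `hSt_xSt`, `hD_xD`, hence `LS_level`).
-/

set_option autoImplicit false

namespace Crest.Agent.R189.XH

open Romp

theorem dg_add_one {n : ℕ} (hn : 2 ≤ n) (x : ℤ) (h : dg n x + 1 < n) : dg n (x + 1) = dg n x + 1 := by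
  have h1 := div_mul_add_dg (show 0 < n by omega) x
  have h2 : x + 1 = (n : ℤ) * (x / n) + ((dg n x + 1 : ℕ) : ℤ) := by push_cast; linarith
  rw [h2, dg_add_mul', dg_natCast h]

theorem mod_sub_iff {n j : ℕ} (hn : 0 < n) (x : ℤ) : dg n (x - j) = 0 ↔ dg n x = j % n := by
  rw [dg_eq_zero hn]
  have h1 := dg_cast hn x
  constructor
  · intro h
    have h2 : (j : ℤ) % (n : ℤ) = x % (n : ℤ) := Int.modEq_iff_dvd.2 h
    have h3 : ((dg n x : ℕ) : ℤ) = ((j % n : ℕ) : ℤ) := by rw [h1, ← h2]; push_cast; rfl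
    exact_mod_cast h3
  · intro h
    have h3 : (j : ℤ) % (n : ℤ) = x % (n : ℤ) := by rw [← h1, h]; push_cast; rfl
    exact Int.modEq_iff_dvd.1 h3

theorem neg_one_zsmul_vadd (v : ℤ × ℤ) (x : X) : -v +ᵥ x = ((-1 : ℤ) • v) +ᵥ x := by
  rw [neg_one_zsmul]

theorem mem_q_smul {a k : ℕ} {A : Set X} {x : X} :
    x ∈ Multiplicative.ofAdd (qq a k) • A ↔ ((-1 : ℤ) • qq a k) +ᵥ x ∈ A := by
  rw [mem_ofAdd_smul, neg_one_zsmul_vadd]

theorem mem_q_inv_smul {a k : ℕ} {A : Set X} {x : X} :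
    x ∈ (Multiplicative.ofAdd (qq a k))⁻¹ • A ↔ ((1 : ℤ) • qq a k) +ᵥ x ∈ A := by
  rw [mem_ofAdd_inv_smul, one_zsmul]

theorem mem_p_smul {a k : ℕ} {A : Set X} {x : X} :
    x ∈ Multiplicative.ofAdd (pp a k) • A ↔ ((-1 : ℤ) • pp a k) +ᵥ x ∈ A := by
  rw [mem_ofAdd_smul, neg_one_zsmul_vadd]

open XOccAux

/-- the raw stars of all levels are allowed -/
theorem xr_ok {a : ℕ} (ha : 3 ≤ a) (k : ℕ) (x : X) : (xr a k x).OK :=
  rstar_ok (by omega) _ _ _

/-- the star of level `k` at `x` -/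
def xst (a k : ℕ) (x : X) : Star := star (a + k) (xs k x) (xP a k x) (xQ a k x)

theorem xst_val {a : ℕ} (ha : 3 ≤ a) (k : ℕ) (x : X) : (xst a k x).1 = xr a k x :=
  star_val (by omega) _ _ _

theorem mem_xSt_iff {a k : ℕ} (ha : 3 ≤ a) {s : Star} {x : X} :
    x ∈ xSt a k s ↔ x ∈ xD a k ∧ xst a k x = s := by
  rw [mem_xSt, ← xst_val ha]
  exact ⟨fun h => ⟨h.1, Subtype.ext h.2⟩, fun h => ⟨h.1, by rw [h.2]⟩⟩

/-- events `ev (xSt a k) A` -/
theorem mem_ev_xSt {a k : ℕ} (ha : 3 ≤ a) {A : Set Star} {x : X} :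
    x ∈ ev (xSt a k) A ↔ x ∈ xD a k ∧ xst a k x ∈ A := by
  rw [set_ev]
  simp only [Set.mem_iUnion, mem_xSt_iff ha, exists_prop]
  constructor
  · rintro ⟨s, hs, h1, rfl⟩; exact ⟨h1, hs⟩
  · rintro ⟨h1, h2⟩; exact ⟨_, h2, h1, rfl⟩

/-- events given by a predicate on raw stars -/
theorem mem_ev_xSt' {a k : ℕ} (ha : 3 ≤ a) {P : RStar → Prop} {x : X} :
    x ∈ ev (xSt a k) {s | P s.1} ↔ x ∈ xD a k ∧ P (xr a k x) := by
  rw [mem_ev_xSt ha, ← xst_val ha]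
  rfl

theorem mem_Pf {a k : ℕ} (ha : 3 ≤ a) {L : Label} {x : X} :
    x ∈ ev (xSt a k) {s : Star | s.Pf = L} ↔ x ∈ xD a k ∧ (xr a k x).Pf = L :=
  mem_ev_xSt' ha (P := fun r => r.Pf = L)

theorem mem_Pb {a k : ℕ} (ha : 3 ≤ a) {L : Label} {x : X} :
    x ∈ ev (xSt a k) {s : Star | s.Pb = L} ↔ x ∈ xD a k ∧ (xr a k x).Pb = L :=
  mem_ev_xSt' ha (P := fun r => r.Pb = L)

theorem mem_Qf {a k : ℕ} (ha : 3 ≤ a) {L : Label} {x : X} :
    x ∈ ev (xSt a k) {s : Star | s.Qf = L} ↔ x ∈ xD a k ∧ (xr a k x).Qf = L :=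
  mem_ev_xSt' ha (P := fun r => r.Qf = L)

theorem mem_Qb {a k : ℕ} (ha : 3 ≤ a) {L : Label} {x : X} :
    x ∈ ev (xSt a k) {s : Star | s.Qb = L} ↔ x ∈ xD a k ∧ (xr a k x).Qb = L :=
  mem_ev_xSt' ha (P := fun r => r.Qb = L)

theorem mem_Pftau {a k : ℕ} (ha : 3 ≤ a) {t : Tau} {x : X} :
    x ∈ ev (xSt a k) {s : Star | s.Pf.tau = t} ↔ x ∈ xD a k ∧ (xr a k x).Pf.tau = t :=
  mem_ev_xSt' ha (P := fun r => r.Pf.tau = t)

theorem mem_Qfst {a k : ℕ} (ha : 3 ≤ a) {t : Option (S × Rel)} {x : X} :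
    x ∈ ev (xSt a k) {s : Star | s.Qf.st = t} ↔ x ∈ xD a k ∧ (xr a k x).Qf.st = t :=
  mem_ev_xSt' ha (P := fun r => r.Qf.st = t)

theorem mem_Qbst {a k : ℕ} (ha : 3 ≤ a) {t : Option (S × Rel)} {x : X} :
    x ∈ ev (xSt a k) {s : Star | s.Qb.st = t} ↔ x ∈ xD a k ∧ (xr a k x).Qb.st = t :=
  mem_ev_xSt' ha (P := fun r => r.Qb.st = t)

/-- the mode is readable from the types of the two neighbours -/
theorem mode_iff {a : ℕ} (ha : 2 ≤ a) (s : Star) (x y : ℤ) :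
    ((V a s (x - 1) y).tau = .t2l ∧ (V a s (x + 1) y).tau = .f0) ↔ dg (3 * (a + 1)) x = 0 := by
  have hn : 0 < 3 * (a + 1) := by omega
  have hd := dg_lt hn x
  constructor
  · rintro ⟨h1, h2⟩
    by_contra h0
    have hpred : dg (3 * (a + 1)) (x - 1) = dg (3 * (a + 1)) x - 1 := by
      rw [XOccAux.dg_sub_one]; simp [prev, h0]
    by_cases h3 : dg (3 * (a + 1)) x = 1
    · have h4 : dg (3 * (a + 1)) (x + 1) = 2 := by
        rw [dg_add_one (by omega) _ (by omega), h3]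
      rw [V_of_ne _ _ (by omega), h4] at h2
      have := (tauOf_eq_f0 (a := a + 1) (i := 2) (by omega)).1 h2
      omega
    · rw [V_of_ne _ _ (by omega), hpred] at h1
      have := (tauOf_eq_t2l (a := a + 1) (by omega)).1 h1
      omega
  · intro h0
    have h1 : dg (3 * (a + 1)) (x - 1) = 3 * (a + 1) - 1 := by
      rw [XOccAux.dg_sub_one]; simp [prev, h0]
    have h2 : dg (3 * (a + 1)) (x + 1) = 1 := by
      rw [dg_add_one (by omega) _ (by omega), h0]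
    rw [V_of_ne _ _ (by omega), V_of_ne _ _ (by omega), h1, h2]
    exact ⟨(tauOf_eq_t2l (a := a + 1) (by omega)).2 le_rfl, (tauOf_eq_f0 (a := a + 1) (by omega)).2 rfl⟩

/-! ### the iterates -/

/-- the mode event of level `k` is the next lattice -/
theorem mem_modeEv {a k : ℕ} (ha : 3 ≤ a) {x : X} :
    x ∈ modeEv (Multiplicative.ofAdd (qq a k)) (xc a k 0) (xSt a k) ↔
      x ∈ xc a k 0 ∧ dg (3 * (a + k + 1)) (xP a k x) = 0 := by
  have h1 : (1 : ℤ) • qq a k +ᵥ x ∈ xD a k ↔ x ∈ xD a k := vadd_q_mem_xD 1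
  have h2 : (-1 : ℤ) • qq a k +ᵥ x ∈ xD a k ↔ x ∈ xD a k := vadd_q_mem_xD (-1)
  have e1 : ((rstar (a + k) (xs k x) (-1 + xP a k x) (xQ a k x)).Pf) =
      V (a + k) (xs k x) (xP a k x - 1) (xQ a k x) := by
    rw [rstar, neg_add_eq_sub]
  have e2 : ((rstar (a + k) (xs k x) (1 + xP a k x) (xQ a k x)).Pf) =
      V (a + k) (xs k x) (xP a k x + 1) (xQ a k x) := by
    rw [rstar, add_comm 1 (xP a k x)]
  rw [modeEv, set_meet, set_meet, set_meet, Set.mem_inter_iff, mem_q_smul, mem_q_inv_smul,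
    Set.mem_inter_iff, Set.mem_inter_iff, mem_Pftau ha, mem_Pftau ha, mem_xc, mem_xc, mem_xc,
    h1, h2, xQ_vadd_q, xQ_vadd_q, xr_vadd_q (by omega), xr_vadd_q (by omega), e1, e2,
    ← mode_iff (by omega : 2 ≤ a + k) (xs k x) (xP a k x) (xQ a k x)]
  tauto

/-- `c^(k+1)` -/
theorem nextC_xc {a k : ℕ} (ha : 3 ≤ a) :
    nextC (Multiplicative.ofAdd (qq a k)) (xc a k) (xSt a k) = xc a (k + 1) := by
  funext j'
  ext x
  have e0 : -(j' • qq a k) +ᵥ x = ((-(j' : ℤ)) • qq a k) +ᵥ x := by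
    rw [neg_zsmul, natCast_zsmul]
  rw [nextC, mem_ofAdd_pow_smul, mem_modeEv ha, e0, mem_xc, vadd_q_mem_xD, xQ_vadd_q,
    xP_vadd_q (by omega), mem_xc, mem_xD_succ (by omega), xQ_succ, Nat.zero_mod,
    neg_add_eq_sub, mod_sub_iff (by omega)]
  rfl

/-- `St^(k+1)` -/
theorem nextSt_xSt {a k : ℕ} (ha : 3 ≤ a) :
    nextSt (xc a k) (xSt a k) = xSt a (k + 1) := by
  funext s
  ext x
  rw [nextSt, set_meet, Set.mem_inter_iff, ← xD_succ (by omega), mem_xSt, mem_xSt]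
  constructor
  · rintro ⟨h1, h2, h3⟩
    refine ⟨h1, ?_⟩
    rw [xr_succ (by omega) h1] at h3
    have := congrArg RStar.flip h3
    rw [RStar.flip_flip] at this
    rw [this]
    exact RStar.flip_flip s.1
  · rintro ⟨h1, h2⟩
    refine ⟨h1, ((mem_xD_succ (by omega) k x).1 h1).1, ?_⟩
    rw [xr_succ (by omega) h1, h2]
    rfl

/-- all levels are explicit -/
theorem hlvl_xc {a : ℕ} (ha : 3 ≤ a) (k : ℕ) :
    hlvl pZ qZ a (xc a 0) (xSt a 0) k = (xc a k, xSt a k) := by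
  induction k with
  | zero => rfl
  | succ k ih =>
    rw [hlvl, ih]
    show (nextC (hQ pZ qZ a k) (xc a k) (xSt a k), nextSt (xc a k) (xSt a k)) = _
    rw [hQ_eq, nextC_xc ha, nextSt_xSt ha]

theorem hc_xc {a : ℕ} (ha : 3 ≤ a) (k : ℕ) :
    hc pZ qZ a (xc a 0) (xSt a 0) k = xc a k := by
  rw [hc, hlvl_xc ha]

theorem hSt_xSt {a : ℕ} (ha : 3 ≤ a) (k : ℕ) :
    hSt pZ qZ a (xc a 0) (xSt a 0) k = xSt a k := by
  rw [hSt, hlvl_xc ha]

theorem hD_xD {a : ℕ} (ha : 3 ≤ a) (k : ℕ) :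
    hD (Set.univ : Set X) pZ qZ a (xc a 0) (xSt a 0) k = xD a k := by
  cases k with
  | zero => rw [hD_zero, xD_zero]
  | succ k => rw [hD_succ, hc_xc ha, xD_succ (by omega)]

/-! ### the level structure -/

theorem isPart_xSt {a : ℕ} (ha : 3 ≤ a) (k : ℕ) : IsPart (xSt a k) (xD a k) := by
  rw [set_isPart]
  constructor
  · intro s t hst
    rw [Set.disjoint_left]
    intro x h1 h2
    exact hst ((((mem_xSt_iff ha).1 h1).2).symm.trans (((mem_xSt_iff ha).1 h2).2))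
  · ext x
    simp only [Set.mem_iUnion, mem_xSt_iff ha]
    exact ⟨fun ⟨_, h⟩ => h.1, fun h => ⟨_, h, rfl⟩⟩

theorem isPart_xc {a : ℕ} (ha : 1 ≤ a) (k : ℕ) :
    IsPart (fun j : Fin (3 * (a + k)) => xc a k j) (xD a k) := by
  rw [set_isPart]
  constructor
  · intro i j hij
    rw [Set.disjoint_left]
    intro x h1 h2
    apply hij
    have e1 := h1.2
    have e2 := h2.2
    rw [Nat.mod_eq_of_lt i.2] at e1
    rw [Nat.mod_eq_of_lt j.2] at e2
    exact Fin.ext (e1.symm.trans e2)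
  · ext x
    simp only [Set.mem_iUnion, mem_xc]
    constructor
    · rintro ⟨_, h⟩; exact h.1
    · intro h
      have hlt := dg_lt (show 0 < 3 * (a + k) by omega) (xQ a k x)
      exact ⟨⟨_, hlt⟩, h, (Nat.mod_eq_of_lt hlt).symm⟩

/-- **the explicit system is a level structure** -/
theorem LS_X {a : ℕ} (ha : 3 ≤ a) : LS (Set.univ : Set X) pZ qZ a (xc a 0) (xSt a 0) := by
  have hn : 0 < 3 * a := by omega
  have vq : ∀ x : X, (-1 : ℤ) • qq a 0 +ᵥ x ∈ xD a 0 ↔ x ∈ xD a 0 := fun x => vadd_q_mem_xD (-1)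
  have vp : ∀ x : X, (-1 : ℤ) • pp a 0 +ᵥ x ∈ xD a 0 ↔ x ∈ xD a 0 := fun x => vadd_p_mem_xD (-1)
  have hp : pZ = Multiplicative.ofAdd (pp a 0) := rfl
  have hq : qZ = Multiplicative.ofAdd (qq a 0) := rfl
  refine
    { three_le := ha
      part_c := ?_
      p_c := ?_
      per := ?_
      q_c := ?_
      part_St := ?_
      comm := fun _ _ _ => set_comm _ _
      dom := ?_
      P_shift := ?_
      Q_shift0 := ?_
      Q_shift := ?_ }
  · have := isPart_xc (a := a) (by omega) 0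
    rwa [xD_zero] at this
  · intro j
    ext x
    rw [hp, mem_p_smul, mem_xc, vp, xQ_vadd_p (by omega), mem_xc]
    have h1 : (-1 : ℤ) + xQ a 0 x = (xQ a 0 x - (j + 1 : ℕ)) + j := by push_cast; ring
    have h2 : dg (3 * (a + 0)) (-1 + xQ a 0 x) = j % (3 * (a + 0)) ↔
        dg (3 * (a + 0)) (xQ a 0 x) = (j + 1) % (3 * (a + 0)) := by
      rw [← mod_sub_iff (by omega), ← mod_sub_iff (by omega), h1, add_sub_cancel_right]
    rw [h2]
  · ext x
    rw [mem_xc, mem_xc, add_zero, Nat.mod_self, Nat.zero_mod]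
  · intro j
    ext x
    rw [hq, mem_q_smul, mem_xc, vq, xQ_vadd_q, mem_xc]
  · have := isPart_xSt ha 0
    rwa [xD_zero] at this
  · intro j hj0 hj s hs
    rw [set_meet]
    apply Set.eq_empty_of_forall_notMem
    rintro x ⟨h1, h2⟩
    apply hs
    have e1 := h1.2
    rw [add_zero, Nat.mod_eq_of_lt hj, xQ_zero] at e1
    have e2 := h2.2
    have e3 : dg (3 * a) x.p.2 ≠ 0 := by rw [e1]; omega
    constructor
    · show s.1.domP = true
      rw [← e2, xr_zero]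
      exact dom_of_ne _ _ e3
    · show s.1.Qb.tau = _
      rw [← e2, xr_zero]
      show (Hb a x.s x.p.1 x.p.2).tau = _
      rw [XOccAux.Hb_of_ne _ _ e3, e1]
  · intro L
    ext x
    rw [hp, mem_p_smul, mem_Pf ha, mem_Pb ha, vp, xr_vadd_p (by omega), xr]
    simp only [rstar]
    rw [neg_add_eq_sub]
  · intro L
    ext x
    rw [hq, mem_q_smul, set_meet, set_meet, Set.mem_inter_iff, Set.mem_inter_iff, mem_Qf ha,
      mem_Qb ha, vq, mem_xc, mem_xc, vq, xQ_vadd_q, xr_vadd_q (by omega), xr]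
    constructor
    · rintro ⟨⟨h1, h2⟩, -, h3⟩
      refine ⟨⟨h1, h2⟩, h1, ?_⟩
      rw [Nat.zero_mod] at h2
      rw [← h3]
      simp only [rstar]
      rw [neg_add_eq_sub, ← Hb_succ_of_zero _ _ h2, sub_add_cancel]
    · rintro ⟨⟨h1, h2⟩, -, h3⟩
      refine ⟨⟨h1, h2⟩, h1, ?_⟩
      rw [Nat.zero_mod] at h2
      rw [← h3]
      simp only [rstar]
      rw [neg_add_eq_sub, ← Hb_succ_of_zero _ _ h2, sub_add_cancel]
  · intro j hj0 hj th
    ext x
    have key : (rstar (a + 0) (xs 0 x) (-1 + xP a 0 x) (xQ a 0 x)).Qf.st =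
        (rstar (a + 0) (xs 0 x) (xP a 0 x) (xQ a 0 x)).Qb.st := by
      simp only [rstar]
      rw [neg_add_eq_sub, ← Hb_succ_st, sub_add_cancel]
    rw [hq, mem_q_smul, set_meet, set_meet, Set.mem_inter_iff, Set.mem_inter_iff, mem_Qfst ha,
      mem_Qbst ha, vq, mem_xc, mem_xc, vq, xQ_vadd_q, xr_vadd_q (by omega), xr, key]

/-- level `k` of the explicit system -/
theorem LS_level {a : ℕ} (ha : 3 ≤ a) (k : ℕ) :
    LS (xD a k) (Multiplicative.ofAdd (pp a k)) (Multiplicative.ofAdd (qq a k)) (a + k)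
      (xc a k) (xSt a k) := by
  have := (LS_X ha).lvl k
  rwa [hD_xD ha, hP_eq, hQ_eq, hc_xc ha, hSt_xSt ha] at this

end Crest.Agent.R189.XH
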