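import Crest.Agent.R189.FPGeo
import Crest.Agent.R189.XHierLS

/-!
# Row 189 (S0289), assembly of section 3 (helper396): the even levels of the hierarchy of `X`
(`XH.xc`, `XH.xSt`, helper787) in terms of the level data `xLev` (helper260)
-/

set_option autoImplicit false

namespace Crest.Agent.R189.FPMain

/-- base digits in `X` -/
def cX (j : ℕ) : Set X := {y | ((letter y).1 : ℕ) = j % 9}

/-- base stars in `X` -/
def StX (s : Star) : Set X := {y | (letter y).2 = s}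

theorem cX_eq : cX = XH.xc 3 0 := by
  funext j
  ext y
  rw [XH.mem_xc, XH.xD_zero, XH.xQ_zero]
  exact ⟨fun h => ⟨trivial, h⟩, fun h => h.2⟩

theorem StX_eq : StX = XH.xSt 3 0 := by
  funext s
  ext y
  rw [XH.mem_xSt, XH.xD_zero, XH.xr_zero, ← star_val le_rfl]
  constructor
  · intro h
    refine ⟨trivial, ?_⟩
    have h' : star 3 y.s y.p.1 y.p.2 = s := h
    rw [h']
  · intro h
    exact Subtype.ext h.2

/-- the even level `2m` as a level of the kernel part -/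
def LX (m : ℕ) : K.Lev X Label Star := xLev (a := 3) le_rfl (allOK le_rfl) m

theorem LX_n (m : ℕ) : (LX m).n = 3 * (3 + 2 * m) := rfl

theorem mem_xD_iff (m : ℕ) (x : X) : x ∈ XH.xD 3 (2 * m) ↔ x ∈ (LX m).D := by
  show ((ww 3 (2 * m) : ℤ) ∣ x.p.1 ∧ (hh 3 (2 * m) : ℤ) ∣ x.p.2) ↔ _
  rw [ww_two_mul, hh_two_mul]
  rfl

theorem mem_xc_iff (m j : ℕ) (x : X) :
    x ∈ XH.xc 3 (2 * m) j ↔ x ∈ (LX m).D ∧ (LX m).dig x = (j : ZMod (LX m).n) := by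
  rw [XH.mem_xc, mem_xD_iff]
  refine and_congr_right fun _ => ?_
  have h1 : XH.xQ 3 (2 * m) x = x.p.2 / ((xh 3 m : ℕ) : ℤ) := by
    rw [XH.xQ, if_pos (even_two_mul m), hh_two_mul]
  rw [h1]
  exact (natCast_eq_intCast_iff_dg (by omega) _ _).symm

theorem mem_xSt_iff (m : ℕ) (s : Star) (x : X) :
    x ∈ XH.xSt 3 (2 * m) s ↔ x ∈ (LX m).D ∧ (LX m).st x = s := by
  rw [XH.mem_xSt, mem_xD_iff]
  refine and_congr_right fun _ => ?_
  have h1 : XH.xr 3 (2 * m) x = ((LX m).st x).1 := by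
    show rstar (3 + 2 * m) (XH.xs (2 * m) x) (XH.xP 3 (2 * m) x) (XH.xQ 3 (2 * m) x) =
      rstar (3 + 2 * m) x.s (x.p.1 / ((xh 4 m : ℕ) : ℤ)) (x.p.2 / ((xh 3 m : ℕ) : ℤ))
    rw [XH.xs, if_pos (even_two_mul m), XH.xP, if_pos (even_two_mul m), XH.xQ,
      if_pos (even_two_mul m), hh_two_mul, ww_two_mul]
  rw [h1]
  exact ⟨fun h => Subtype.ext h, fun h => by rw [h]⟩

/-- the cells of level `2m` in `X` -/
theorem cell_eq (m j : ℕ) (A : Set Star) :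
    Romp.meet (hc pZ qZ 3 cX StX (2 * m) j) (Romp.ev (hSt pZ qZ 3 cX StX (2 * m)) A) =
      {x | x ∈ (LX m).D ∧ (LX m).dig x = (j : ZMod (LX m).n) ∧ (LX m).st x ∈ A} := by
  rw [cX_eq, StX_eq, XH.hc_xc le_rfl, XH.hSt_xSt le_rfl]
  ext x
  have h1 : x ∈ Romp.ev (XH.xSt 3 (2 * m)) A ↔ x ∈ (LX m).D ∧ (LX m).st x ∈ A := by
    rw [XH.mem_ev_xSt le_rfl, mem_xD_iff]
    refine and_congr_right fun hx => ?_
    have h2 : XH.xst 3 (2 * m) x = (LX m).st x := by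
      have h3 := (XH.mem_xSt_iff (a := 3) (k := 2 * m) le_rfl (s := (LX m).st x) (x := x)).1
        ((mem_xSt_iff m _ x).2 ⟨hx, rfl⟩)
      exact h3.2
    rw [h2]
  have h4 : x ∈ Romp.meet (XH.xc 3 (2 * m) j) (Romp.ev (XH.xSt 3 (2 * m)) A) ↔
      x ∈ XH.xc 3 (2 * m) j ∧ x ∈ Romp.ev (XH.xSt 3 (2 * m)) A := by
    rw [Romp.set_meet]
    rfl
  rw [h4, h1, mem_xc_iff]
  constructor
  · rintro ⟨⟨h1, h2⟩, h3, h4⟩
    exact ⟨h1, h2, h4⟩
  · rintro ⟨h1, h2, h3⟩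
    exact ⟨⟨h1, h2⟩, h1, h3⟩

end Crest.Agent.R189.FPMain
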