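import Mathlib

/-!
# Row 189, part F (F1): zones of a cell `[0,w) × [0,h)` (helper781)

`ZF w h rs rt` (face), `ZP`, `ZQ` (edges), `ZV` (corner): they tile `ℤ²` modulo `wℤ × hℤ`.
`far w r x` / `near w r x`: distance of `x` to `wℤ` is `≥ r` / `< r`.
-/

set_option autoImplicit false

namespace Crest.Agent.R189.K

/-- distance of `x` to `wℤ` is at least `r` -/
def far (w r x : ℤ) : Prop := ∀ k : ℤ, r ≤ |x - w * k|

/-- distance of `x` to `wℤ` is less than `r` -/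
def near (w r x : ℤ) : Prop := ∃ k : ℤ, |x - w * k| < r

theorem not_far_of_near {w r r' x : ℤ} (h : near w r x) (hr : r ≤ r') : ¬ far w r' x := by
  obtain ⟨k, hk⟩ := h
  intro hf
  have := hf k
  omega

theorem far.add {w r x : ℤ} (h : far w r x) {a : ℤ} (ha : |a| ≤ 1) : far w (r - 1) (x + a) := by
  intro k
  have h1 := h k
  have h2 := abs_sub_abs_le_abs_sub (x - w * k) (-a)
  have h3 : x + a - w * k = (x - w * k) - (-a) := by ring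
  rw [h3]
  rw [abs_neg] at h2
  omega

theorem near.add {w r x : ℤ} (h : near w r x) {a : ℤ} (ha : |a| ≤ 1) : near w (r + 1) (x + a) := by
  obtain ⟨k, hk⟩ := h
  refine ⟨k, ?_⟩
  have h3 : x + a - w * k = (x - w * k) + a := by ring
  have h2 := abs_add_le (x - w * k) a
  rw [h3]
  omega

theorem far.congr {w r x x' : ℤ} (h : far w r x) (hd : w ∣ x - x') : far w r x' := by
  obtain ⟨m, hm⟩ := hd
  intro k
  have := h (k + m)
  have e : x - w * (k + m) = x' - w * k := by linarith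
  rwa [e] at this

theorem near.congr {w r x x' : ℤ} (h : near w r x) (hd : w ∣ x - x') : near w r x' := by
  obtain ⟨m, hm⟩ := hd
  obtain ⟨k, hk⟩ := h
  refine ⟨k - m, ?_⟩
  have e : x' - w * (k - m) = x - w * k := by linarith
  rwa [e]

theorem far.mono {w r r' x : ℤ} (h : far w r x) (hr : r' ≤ r) : far w r' x :=
  fun k => hr.trans (h k)

theorem near.mono {w r r' x : ℤ} (h : near w r x) (hr : r ≤ r') : near w r' x := by
  obtain ⟨k, hk⟩ := h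
  exact ⟨k, lt_of_lt_of_le hk hr⟩

theorem far_of_mem {w r x : ℤ} (hw : 0 < w) (h1 : r ≤ x) (h2 : x ≤ w - r) (h0 : 0 ≤ x)
    (h3 : x ≤ w) : far w r x := by
  intro k
  rcases le_or_gt k 0 with hk | hk
  · have : w * k ≤ 0 := mul_nonpos_of_nonneg_of_nonpos hw.le hk
    rw [abs_of_nonneg (by linarith)]
    linarith
  · have : w * 1 ≤ w * k := mul_le_mul_of_nonneg_left (by omega) hw.le
    rw [abs_of_nonpos (by linarith)]
    linarith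

theorem near_of_mem {w r x : ℤ} (h1 : -r < x) (h2 : x < r) : near w r x :=
  ⟨0, by rw [mul_zero, sub_zero, abs_lt]; exact ⟨h1, h2⟩⟩

/-- face zone -/
def ZF (w h rs rt : ℤ) : Set (ℤ × ℤ) :=
  {v | rs ≤ v.1 ∧ v.1 ≤ w - rs ∧ rs ≤ v.2 ∧ v.2 ≤ h - rs ∧
    ((rt ≤ v.1 ∧ v.1 ≤ w - rt) ∨ (rt ≤ v.2 ∧ v.2 ≤ h - rt))}

/-- P edge zone (around the left side of the cell) -/
def ZP (h rs rt : ℤ) : Set (ℤ × ℤ) :=
  {v | -rs < v.1 ∧ v.1 < rs ∧ rt ≤ v.2 ∧ v.2 ≤ h - rt}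

/-- Q edge zone (around the bottom side of the cell) -/
def ZQ (w rs rt : ℤ) : Set (ℤ × ℤ) :=
  {v | rt ≤ v.1 ∧ v.1 ≤ w - rt ∧ -rs < v.2 ∧ v.2 < rs}

/-- corner zone -/
def ZV (rt : ℤ) : Set (ℤ × ℤ) :=
  {v | -rt < v.1 ∧ v.1 < rt ∧ -rt < v.2 ∧ v.2 < rt}

section

variable {w h rs rt : ℤ}

theorem ZF_far (hw : 0 < w) (hh : 0 < h) (h0 : 0 ≤ rs) (hr : rs ≤ rt) {v : ℤ × ℤ}
    (hv : v ∈ ZF w h rs rt) :
    far w rs v.1 ∧ far h rs v.2 ∧ (far w rt v.1 ∨ far h rt v.2) := by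
  obtain ⟨h1, h2, h3, h4, h5⟩ := hv
  refine ⟨far_of_mem hw h1 h2 (by omega) (by omega), far_of_mem hh h3 h4 (by omega) (by omega), ?_⟩
  rcases h5 with ⟨h5, h6⟩ | ⟨h5, h6⟩
  · exact Or.inl (far_of_mem hw h5 h6 (by omega) (by omega))
  · exact Or.inr (far_of_mem hh h5 h6 (by omega) (by omega))

theorem ZP_far (hh : 0 < h) (h0 : 0 ≤ rt) {v : ℤ × ℤ} (hv : v ∈ ZP h rs rt) (w : ℤ) :
    near w rs v.1 ∧ far h rt v.2 := by
  obtain ⟨h1, h2, h3, h4⟩ := hv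
  exact ⟨near_of_mem h1 h2, far_of_mem hh h3 h4 (by omega) (by omega)⟩

theorem ZQ_far (hw : 0 < w) (h0 : 0 ≤ rt) {v : ℤ × ℤ} (hv : v ∈ ZQ w rs rt) (h : ℤ) :
    far w rt v.1 ∧ near h rs v.2 := by
  obtain ⟨h1, h2, h3, h4⟩ := hv
  exact ⟨far_of_mem hw h1 h2 (by omega) (by omega), near_of_mem h3 h4⟩

theorem ZV_near {v : ℤ × ℤ} (hv : v ∈ ZV rt) (w h : ℤ) :
    near w rt v.1 ∧ near h rt v.2 := by
  obtain ⟨h1, h2, h3, h4⟩ := hv
  exact ⟨near_of_mem h1 h2, near_of_mem h3 h4⟩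

/-- the zones cover `[0,w) × [0,h)` modulo the lattice -/
theorem zone_cover (hr : rs ≤ rt) {v : ℤ × ℤ} (h1 : 0 ≤ v.1) (h2 : v.1 < w)
    (h3 : 0 ≤ v.2) (h4 : v.2 < h) (h0 : 0 < rs) :
    v ∈ ZF w h rs rt ∨ (v ∈ ZP h rs rt ∨ v - (w, 0) ∈ ZP h rs rt) ∨
      (v ∈ ZQ w rs rt ∨ v - (0, h) ∈ ZQ w rs rt) ∨
      (v ∈ ZV rt ∨ v - (w, 0) ∈ ZV rt ∨ v - (0, h) ∈ ZV rt ∨ v - (w, h) ∈ ZV rt) := by
  obtain ⟨x, y⟩ := v
  simp only [ZF, ZP, ZQ, ZV, Set.mem_ofPred_eq, Prod.mk_sub_mk] at *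
  omega

end

end Crest.Agent.R189.K
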