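import Crest.Agent.R189.KLay
import Crest.Agent.R189.KZone
import Crest.Agent.R189.GpTower

/-!
# Row 189, part F (F1, real level): a generator is the product of its four zone parts (helper781)

`greal letter z lam E = H lam * ev {x | letter x ∈ E} z * (H lam)⁻¹`.
`gpart`: the same with the event restricted to `Z + D`.
-/

set_option autoImplicit false
set_option linter.unusedSectionVars false

namespace Crest.Agent.R189.K

open Equiv Equiv.Perm

section lay

variable {C : Type*} [Fintype C] [DecidableEq C]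

theorem lay_mem_PermOn {z : Perm C} {lam : C → ℤ × ℤ} {F : Set (ℤ × ℤ)} {W : Finset (ℤ × ℤ)}
    (hF : ∀ v ∈ F, ∀ c, v + lam c ∈ W) : lay z lam F ∈ PermOn (win C W) := by
  rintro ⟨p, c⟩ hp
  apply lay_not_mem
  intro h
  apply hp
  have := hF _ h c
  rw [mem_win]
  simpa using this

/-- the sign of a layer, as a homomorphism -/
noncomputable def laySgn (lam : C → ℤ × ℤ) (F : Set (ℤ × ℤ)) (W : Finset (ℤ × ℤ))
    (hF : ∀ v ∈ F, ∀ c, v + lam c ∈ W) : alternatingGroup C →* ℤˣ where
  toFun z := sgn (lay (z : Perm C) lam F)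
  map_one' := by rw [Subgroup.coe_one, lay_one, sgn_one]
  map_mul' a b := by
    rw [Subgroup.coe_mul, lay_mul]
    exact sgn_mul_on (lay_mem_PermOn hF) (lay_mem_PermOn hF)

/-- even layers -/
theorem lay_mem_AltOn (hC : 5 ≤ Fintype.card C) {z : Perm C} (hz : z ∈ alternatingGroup C)
    {lam : C → ℤ × ℤ} {F : Set (ℤ × ℤ)} {W : Finset (ℤ × ℤ)}
    (hF : ∀ v ∈ F, ∀ c, v + lam c ∈ W) : lay z lam F ∈ AltOn (win C W) := by
  rw [mem_AltOn]
  refine ⟨lay_mem_PermOn hF, ?_⟩
  have h5 : commutator (alternatingGroup C) = ⊤ := by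
    apply commutator_alternatingGroup_eq_top
    rw [Nat.card_eq_fintype_card]
    exact hC
  have hφ := Abelianization.commutator_subset_ker (laySgn lam F W hF)
  rw [h5] at hφ
  have h6 : laySgn lam F W hF ⟨z, hz⟩ = 1 := MonoidHom.mem_ker.1 (hφ (Subgroup.mem_top _))
  exact h6

end lay

section real

variable {X A C ι : Type*} [AddAction (ℤ × ℤ) X] [Fintype C] [DecidableEq C]

/-- the union of the translates `v + D`, `v ∈ Z` -/
def zoneSet (D : Set X) (Z : Set (ℤ × ℤ)) : Set X := {x | ∃ v ∈ Z, ∃ y ∈ D, x = v +ᵥ y}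

/-- the generator `(E, z, lam)` in `Perm (X × C)` -/
noncomputable def gev (E : Set X) (z : Perm C) (lam : C → ℤ × ℤ) : Perm (X × C) :=
  H lam * ev E z * (H lam)⁻¹

theorem vadd_shift {l v' : ℤ × ℤ} {x y' : X} (h : -l +ᵥ x = v' +ᵥ y') : x = (v' + l) +ᵥ y' := by
  have h1 : l +ᵥ (-l +ᵥ x) = l +ᵥ (v' +ᵥ y') := by rw [h]
  rw [vadd_neg_vadd, vadd_vadd, add_comm l v'] at h1
  exact h1

theorem gev_apply_mem {E : Set X} {z : Perm C} {lam : C → ℤ × ℤ} {x : X} {c : C}
    (h : -lam c +ᵥ x ∈ E) : gev E z lam (x, c) = (lam (z c) +ᵥ (-lam c +ᵥ x), z c) := by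
  rw [gev, Perm.mul_apply, Perm.mul_apply, H_inv_apply, ev_apply_mem h, H_apply]

theorem gev_apply_notMem {E : Set X} {z : Perm C} {lam : C → ℤ × ℤ} {x : X} {c : C}
    (h : -lam c +ᵥ x ∉ E) : gev E z lam (x, c) = (x, c) := by
  rw [gev, Perm.mul_apply, Perm.mul_apply, H_inv_apply, ev_apply_notMem h, H_apply]
  simp

theorem gev_mul (E : Set X) (z z' : Perm C) (lam : C → ℤ × ℤ) :
    gev E (z * z') lam = gev E z lam * gev E z' lam := by
  simp only [gev, map_mul]; group

theorem gev_one (E : Set X) (lam : C → ℤ × ℤ) : gev E (1 : Perm C) lam = 1 := by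
  simp [gev]

theorem gev_union {E F : Set X} (h : Disjoint E F) (z : Perm C) (lam : C → ℤ × ℤ) :
    gev (E ∪ F) z lam = gev E z lam * gev F z lam := by
  simp only [gev, ev_union h]; group

theorem gev_disjoint_commute {E F : Set X} (h : Disjoint E F) (z z' : Perm C)
    (lam : C → ℤ × ℤ) : Commute (gev E z lam) (gev F z' lam) := by
  have := ev_disjoint_commute h z z'
  unfold gev Commute SemiconjBy
  have e := this.eq
  calc _ = H lam * (ev E z * ev F z') * (H lam)⁻¹ := by group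
    _ = H lam * (ev F z' * ev E z) * (H lam)⁻¹ := by rw [e]
    _ = _ := by group

/-- commutation from disjointness of the displaced supports -/
theorem gev_commute {E F : Set X} {z z' : Perm C} {lam mu : C → ℤ × ℤ}
    (h : ∀ x c, -lam c +ᵥ x ∈ E → -mu c +ᵥ x ∉ F) :
    Commute (gev E z lam) (gev F z' mu) := by
  apply Perm.Disjoint.commute
  rintro ⟨x, c⟩
  by_cases hx : -lam c +ᵥ x ∈ E
  · exact Or.inr (gev_apply_notMem (h x c hx))
  · exact Or.inl (gev_apply_notMem hx)

/-- **the zone part of a generator is a family of layers** -/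
theorem realFam_lay {D : Set X} {W : Finset (ℤ × ℤ)} (hc : Cell D W) (κ : X → ι)
    {letter : X → A} {Z : Set (ℤ × ℤ)} {a : ι → ℤ × ℤ → A} {E : Set A} (z : Perm C)
    {lam : C → ℤ × ℤ} (hZ : ∀ v ∈ Z, ∀ c, v + lam c ∈ W)
    (ha : ∀ y ∈ D, ∀ v ∈ Z, letter (v +ᵥ y) = a (κ y) v)
    (F : ι → PermOn (win C W)) (hF : ∀ i, (F i : Perm (Om C)) = lay z lam (Z ∩ {v | a i v ∈ E})) :
    realFam hc κ F = gev ({x | letter x ∈ E} ∩ zoneSet D Z) z lam := by
  apply Equiv.ext
  intro p
  rcases real_cases D W p with ⟨v, hv, y, hy, hp⟩ | h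
  · obtain ⟨x, c⟩ := p
    simp only [Prod.mk.injEq, and_true] at hp
    subst hp
    rw [realFam_apply hc κ F hv hy, hF]
    by_cases hm : v - lam c ∈ Z ∩ {v | a (κ y) v ∈ E}
    · rw [lay_mem hm, gev_apply_mem]
      · simp only [Prod.mk.injEq, and_true, vadd_vadd]
        congr 1
        abel
      · have e : -lam c +ᵥ (v +ᵥ y) = (v - lam c) +ᵥ y := by
          rw [vadd_vadd]; congr 1; abel
        rw [e]
        refine ⟨?_, v - lam c, hm.1, y, hy, rfl⟩
        change letter _ ∈ E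
        rw [ha y hy _ hm.1]
        exact hm.2
    · rw [lay_not_mem hm, gev_apply_notMem]
      rintro ⟨h1, v', hv', y', hy', he⟩
      have he' : v +ᵥ y = (v' + lam c) +ᵥ y' := vadd_shift he
      have hvv := hc v hv _ (hZ v' hv' c) y hy y' hy' he'
      rw [← hvv] at he'
      have hyy : y = y' := (vadd_left_cancel_iff _).1 he'
      apply hm
      have hv2 : v - lam c = v' := by rw [hvv]; abel
      refine ⟨by rw [hv2]; exact hv', ?_⟩
      change a (κ y) (v - lam c) ∈ E
      rw [hv2, hyy, ← ha y' hy' v' hv', ← he]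
      exact h1
  · obtain ⟨x, c⟩ := p
    rw [realFam_off hc κ F h, gev_apply_notMem]
    rintro ⟨-, v', hv', y', hy', he⟩
    apply h _ (hZ v' hv' c)
    have : x = (v' + lam c) +ᵥ y' := vadd_shift he
    change -(v' + lam c) +ᵥ x ∈ D
    rw [this, neg_vadd_vadd]
    exact hy'

end real

end Crest.Agent.R189.K
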