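import Crest.Agent.R189.KGen
import Crest.Agent.R189.KGenReal
import Crest.Agent.R189.Glue
import Crest.Agent.R189.TBase
import Crest.Agent.R189.XMatch

/-!
# Row 189 (S0289), assembly of section 3 (helper396): the small generators of `T`
-/

set_option autoImplicit false

namespace Crest.Agent.R189.FPMain

open Equiv Equiv.Perm

section

variable (C : Type) [Fintype C] [DecidableEq C]

/-- index set of the small generators: a finset of letters and a displacement function -/
def Gam : Type := {p : Finset Lett × (C → ℤ × ℤ) // TModel.SmallGen p.1 p.2}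

instance : Nonempty (Gam C) :=
  ⟨⟨(Finset.univ, 0), ⟨Or.inl rfl, by simp, fun _ => by simp⟩⟩⟩

variable {C}

/-- letters of a generator -/
def Gam.E (g : Gam C) : Set Lett := (g.1.1 : Set Lett)

/-- displacements of a generator -/
def Gam.lam (g : Gam C) : C → ℤ × ℤ := g.1.2

theorem Gam.lam_le (g : Gam C) (c : C) : |(g.lam c).1| ≤ 1 ∧ |(g.lam c).2| ≤ 1 := g.2.small c

variable (hC : 30 ≤ Fintype.card C)

/-- the generator as a homomorphism -/
noncomputable def Gam.phi (g : Gam C) : alternatingGroup C →* TGrp MD C :=
  (tModel MD C).sgen hC g.1.1 g.1.2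

theorem Gam.q_phi [Nonempty C] (g : Gam C) (z : alternatingGroup C) :
    qT (C := C) letter MD letter_match (g.phi hC z) =
      K.gev {x | letter x ∈ g.E} (z : Perm C) g.lam := by
  have h := conc_qT (C := C) letter MD letter_match
  have := (tModel MD C).map_sgen letter (qT (C := C) letter MD letter_match) hC h.h h.e
    g.1.1 g.1.2 g.2.sum z
  exact this

/-- the small generators generate `T` -/
theorem tau_surjective :
    Function.Surjective (FreeGroup.lift
      (fun g : Gam C × alternatingGroup C => g.1.phi hC g.2)) := by
  intro w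
  obtain ⟨L, hL, hw⟩ := (tModel MD C).exists_list_sgen hC w
  clear hL
  suffices h : ∀ L : List (Finset Lett × (C → ℤ × ℤ) × alternatingGroup C),
      (∀ g ∈ L, TModel.SmallGen g.1 g.2.1) →
      (L.map fun g => (tModel MD C).sgen hC g.1 g.2.1 g.2.2).prod ∈
        (FreeGroup.lift (fun g : Gam C × alternatingGroup C => g.1.phi hC g.2)).range by
    obtain ⟨L, hL, hw⟩ := (tModel MD C).exists_list_sgen hC w
    have := h L hL
    rw [hw] at this
    exact this
  intro L
  induction L with
  | nil => intro _; simp [Subgroup.one_mem]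
  | cons g L ih =>
    intro hL
    rw [List.map_cons, List.prod_cons]
    refine Subgroup.mul_mem _ ?_ (ih fun g hg => hL g (List.mem_cons_of_mem _ hg))
    refine ⟨FreeGroup.of (⟨(g.1, g.2.1), hL g List.mem_cons_self⟩, g.2.2), ?_⟩
    rw [FreeGroup.lift_apply_of]
    rfl

end

end Crest.Agent.R189.FPMain
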