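import Crest.Agent.R189.GpTower

/-!
Row 189 (S0289), helper474.  `Gp` is infinite and simple when the system is separated (`Sep`) and
minimal (`Minl`).
-/

set_option autoImplicit false
set_option linter.unusedSectionVars false

namespace Crest.Agent.R189

open Equiv
open scoped commutatorElement

variable {V X A C : Type*} [AddCommGroup V] [AddAction V X] [Fintype C] [DecidableEq C]
  {letter : X → A}

/-- `K` is normalised by `Gp` -/
def NormBy (V : Type*) {X A : Type*} [AddCommGroup V] [AddAction V X] (letter : X → A)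
    {C : Type*} [Fintype C] [DecidableEq C] (K : Subgroup (Perm (X × C))) : Prop :=
  ∀ g ∈ Gp V letter C, ∀ k ∈ K, g * k * g⁻¹ ∈ K

theorem NormBy.comm {K : Subgroup (Perm (X × C))} (hK : NormBy V letter K) :
    ∀ k ∈ K, ∀ g ∈ Gp V letter C, ⁅k, g⁆ ∈ K := by
  intro k hk g hg
  have h := hK g hg k⁻¹ (K.inv_mem hk)
  have : ⁅k, g⁆ = k * (g * k⁻¹ * g⁻¹) := by rw [commutatorElement_def]; group
  rw [this]
  exact K.mul_mem hk h

theorem NormBy.conj' {K : Subgroup (Perm (X × C))} (hK : NormBy V letter K) :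
    ∀ g ∈ Gp V letter C, ∀ k, g * k * g⁻¹ ∈ K → k ∈ K := by
  intro g hg k hk
  have h := hK g⁻¹ (Subgroup.inv_mem _ hg) _ hk
  have e : g⁻¹ * (g * k * g⁻¹) * g⁻¹⁻¹ = k := by group
  rwa [e] at h

/-- Step 1: a displaced clopen piece -/
theorem exists_displaced [Finite A] (hS : Sep V letter) {n : Perm (X × C)}
    (hn : n ∈ Gp V letter C) (h1 : n ≠ 1) :
    ∃ (E : Set X) (c : C), Clo V letter E ∧ E.Nonempty ∧
      ∀ x ∈ E, ∀ y ∈ E, n (x, c) ≠ (y, c) := by
  obtain ⟨W, d, k, hdk, hg⟩ := isLoc_of_mem_Gp hn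
  obtain ⟨⟨x, c⟩, hx⟩ : ∃ p, n p ≠ p := by
    by_contra h
    push Not at h
    exact h1 (Equiv.ext h)
  have hE0 : Clo V letter {y | (d y c, k y c) = (d x c, k x c)} :=
    Clo.fibre (W := W) (f := fun y => (d y c, k y c))
      (fun y z hyz => by rw [(hdk y z hyz c).1, (hdk y z hyz c).2]) _
  by_cases hc : k x c = c
  · have hv : d x c ≠ 0 := by
      intro hv
      apply hx
      rw [hg, hv, hc, zero_vadd]
    obtain ⟨E1, hE1, hxE1, hd1⟩ := hS.exists_clo hv x
    refine ⟨_, c, hE0.inter hE1, ⟨x, rfl, hxE1⟩, ?_⟩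
    rintro y ⟨hy, hy1⟩ z ⟨-, hz1⟩ he
    have hy' : (d y c, k y c) = (d x c, k x c) := hy
    rw [hg] at he
    have h2 := congrArg Prod.fst he
    simp only at h2
    rw [(Prod.mk.inj hy').1] at h2
    exact hd1 y hy1 (by rw [h2]; exact hz1)
  · refine ⟨_, c, hE0, ⟨x, rfl⟩, ?_⟩
    intro y hy z _ he
    have hy' : (d y c, k y c) = (d x c, k x c) := hy
    rw [hg] at he
    have h2 := congrArg Prod.snd he
    simp only at h2
    exact hc ((Prod.mk.inj hy').2.symm.trans h2)

/-- Step 2: the double commutator trick -/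
theorem comm_mem_of_displaced {K : Subgroup (Perm (X × C))} (hK : NormBy V letter K)
    {n : Perm (X × C)} (hn : n ∈ K) {P : Set (X × C)} (hP : ∀ p ∈ P, n p ∉ P)
    {h k : Perm (X × C)} (hh : h ∈ Gp V letter C) (hk : k ∈ Gp V letter C)
    (hhP : ∀ p, h p ≠ p → p ∈ P) (hkP : ∀ p, k p ≠ p → p ∈ P) : ⁅h, k⁆ ∈ K := by
  set m : Perm (X × C) := n * h⁻¹ * n⁻¹ with hm
  have hmP : ∀ p, m p ≠ p → p ∉ P := by
    intro p hp hpP
    have h1 : h⁻¹ (n⁻¹ p) ≠ n⁻¹ p := by
      intro h2
      apply hp
      rw [hm, Perm.mul_apply, Perm.mul_apply, h2, ← Perm.mul_apply, mul_inv_cancel,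
        Perm.one_apply]
    have h2 : h (n⁻¹ p) ≠ n⁻¹ p := by
      intro h3
      apply h1
      conv_lhs => rw [← h3]
      rw [← Perm.mul_apply, inv_mul_cancel, Perm.one_apply]
    have h3 := hP _ (hhP _ h2)
    rw [← Perm.mul_apply, mul_inv_cancel, Perm.one_apply] at h3
    exact h3 hpP
  have c1 : Commute m h := by
    apply Perm.Disjoint.commute
    intro p
    by_contra hcon
    push Not at hcon
    exact hmP p hcon.1 (hhP p hcon.2)
  have c2 : Commute m k := by
    apply Perm.Disjoint.commute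
    intro p
    by_contra hcon
    push Not at hcon
    exact hmP p hcon.1 (hkP p hcon.2)
  -- `m * h ∈ K`
  have e1 : m * h ∈ K := by
    have := hK.comm n hn h⁻¹ (Subgroup.inv_mem _ hh)
    rwa [commutatorElement_def, inv_inv] at this
  have e2 := hK.comm _ e1 k hk
  have e3 : ⁅m * h, k⁆ = ⁅h, k⁆ := by
    rw [commutatorElement_def, commutatorElement_def, mul_inv_rev]
    have c3 : m * (h * k * h⁻¹) = (h * k * h⁻¹) * m :=
      ((c1.mul_right c2).mul_right c1.inv_right).eq
    calc m * h * k * (h⁻¹ * m⁻¹) * k⁻¹ = m * (h * k * h⁻¹) * m⁻¹ * k⁻¹ := by group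
      _ = (h * k * h⁻¹) * m * m⁻¹ * k⁻¹ := by rw [c3]
      _ = h * k * h⁻¹ * k⁻¹ := by group
  rwa [e3] at e2

/-- Step 3: many disjoint copies of a clopen set inside a given one -/
theorem exists_copies [Infinite V] (hS : Sep V letter) (hM : Minl V letter) {E : Set X}
    (hE : Clo V letter E) (hne : E.Nonempty) (m : ℕ) :
    ∃ (F : Set X) (u : Fin m → V), Clo V letter F ∧ F.Nonempty ∧
      (∀ i, ∀ x ∈ F, u i +ᵥ x ∈ E) ∧
      ∀ i j, i ≠ j → ∀ x ∈ F, ∀ y ∈ F, u i +ᵥ x ≠ u j +ᵥ y := by
  classical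
  obtain ⟨x0, hx0⟩ := hne
  obtain ⟨W, hW⟩ := hM E hE ⟨x0, hx0⟩
  have hR : {u : V | u +ᵥ x0 ∈ E}.Infinite := by
    intro hfin
    have hsub : (Set.univ : Set V) ⊆ ⋃ w ∈ W, (fun u => u - w) '' {u : V | u +ᵥ x0 ∈ E} := by
      intro v _
      obtain ⟨w, hw, hwv⟩ := hW (v +ᵥ x0)
      simp only [Set.mem_iUnion]
      refine ⟨w, hw, w + v, ?_, by simp⟩
      show (w + v) +ᵥ x0 ∈ E
      rwa [add_vadd]
    have : (Set.univ : Set V).Finite :=
      (W.finite_toSet.biUnion (fun w _ => hfin.image _)).subset (by simpa using hsub)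
    exact Set.infinite_univ this
  let e : ℕ ↪ V := (Set.Infinite.natEmbedding _ hR).trans (Function.Embedding.subtype _)
  have he : ∀ i, e i +ᵥ x0 ∈ E := fun i => ((Set.Infinite.natEmbedding _ hR) i).2
  let u : Fin m → V := fun i => e i
  have hu : Function.Injective u := fun i j h => Fin.ext (e.injective h)
  have hsep : ∀ p : Fin m × Fin m, p.1 ≠ p.2 → ∃ F : Set X, Clo V letter F ∧ x0 ∈ F ∧
      ∀ y ∈ F, (u p.1 - u p.2) +ᵥ y ∉ F := by
    intro p hp
    exact hS.exists_clo (sub_ne_zero.2 (fun h => hp (hu h))) x0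
  have hsep' : ∀ p : Fin m × Fin m, ∃ F : Set X, Clo V letter F ∧ x0 ∈ F ∧
      (p.1 ≠ p.2 → ∀ y ∈ F, (u p.1 - u p.2) +ᵥ y ∉ F) := by
    intro p
    by_cases hp : p.1 ≠ p.2
    · obtain ⟨F, h1, h2, h3⟩ := hsep p hp
      exact ⟨F, h1, h2, fun _ => h3⟩
    · exact ⟨Set.univ, Clo.univ, trivial, fun h => absurd h hp⟩
  choose G hG1 hG2 hG3 using hsep'
  refine ⟨(⋂ i ∈ (Finset.univ : Finset (Fin m)), {x | u i +ᵥ x ∈ E}) ∩
    ⋂ p ∈ (Finset.univ : Finset (Fin m × Fin m)), G p, u,
    (Clo.biInter _ (fun i _ => hE.preimage (u i))).inter (Clo.biInter _ (fun p _ => hG1 p)),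
    ⟨x0, ?_, ?_⟩, ?_, ?_⟩
  · simp only [Finset.mem_univ, Set.iInter_true, Set.mem_iInter]
    exact fun i => he i
  · simp only [Finset.mem_univ, Set.iInter_true, Set.mem_iInter]
    exact fun p => hG2 p
  · rintro i x ⟨hx, -⟩
    simp only [Finset.mem_univ, Set.iInter_true, Set.mem_iInter] at hx
    exact hx i
  · rintro i j hij x ⟨-, hx⟩ y ⟨-, hy⟩ hxy
    simp only [Finset.mem_univ, Set.iInter_true, Set.mem_iInter] at hx hy
    apply hG3 (i, j) hij x (hx (i, j))
    have : (u i - u j) +ᵥ x = y := by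
      rw [sub_eq_neg_add, add_vadd, hxy, neg_vadd_vadd]
    rw [this]
    exact hy (i, j)

/-- Step 4: the tower of five pieces of one colour -/
theorem exists_tower_mem [Finite A] [Infinite V] (hC : 5 ≤ Fintype.card C) (hS : Sep V letter)
    (hM : Minl V letter) {K : Subgroup (Perm (X × C))} (hK : NormBy V letter K)
    (hKG : K ≤ Gp V letter C) (hne : K ≠ ⊥) :
    ∃ (F : Set X) (M : Fin 3 → V × C) (h : MS F M), Clo V letter F ∧ F.Nonempty ∧
      tw h (finRotate 3) ∈ K := by
  obtain ⟨n, hn, hn1⟩ : ∃ n ∈ K, n ≠ 1 := by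
    by_contra h
    push Not at h
    exact hne ((Subgroup.eq_bot_iff_forall K).2 h)
  obtain ⟨E, c, hE, hEne, hdis⟩ := exists_displaced hS (hKG hn) hn1
  obtain ⟨F, u, hF, hFne, hFE, hFd⟩ := exists_copies hS hM hE hEne 5
  have hMS : MS F (fun i : Fin 5 => (u i, c)) := fun i j hij x hx y hy _ => hFd i j hij x hx y hy
  have hsupp : ∀ σ : Perm (Fin 5), ∀ p, tw hMS σ p ≠ p → p ∈ {p : X × C | p.1 ∈ E ∧ p.2 = c} := by
    intro σ p hp
    obtain ⟨x, hx, i, -, rfl⟩ := tw_apply_ne hp
    exact ⟨hFE i x hx, rfl⟩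
  have hP : ∀ p ∈ {p : X × C | p.1 ∈ E ∧ p.2 = c}, n p ∉ {p : X × C | p.1 ∈ E ∧ p.2 = c} := by
    rintro ⟨x, d⟩ ⟨hx, hd⟩ ⟨hx', hd'⟩
    simp only at hx hd hx' hd'
    subst hd
    apply hdis x hx _ hx'
    ext1
    · rfl
    · exact hd'
  have hall : alternatingGroup (Fin 5) ≤ K.comap (tw hMS) := by
    rw [← commutator_alternatingGroup_eq_self (α := Fin 5) (by simp), Subgroup.commutator_le]
    intro s hs t ht
    rw [Subgroup.mem_comap]
    have := comm_mem_of_displaced hK hn hP (tw_mem_Gp hC hF hMS s hs) (tw_mem_Gp hC hF hMS t ht)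
      (hsupp s) (hsupp t)
    rwa [commutatorElement_def, ← map_inv, ← map_inv, ← map_mul, ← map_mul, ← map_mul,
      ← commutatorElement_def] at this
  let e : Fin 3 ↪ Fin 5 := Fin.castLEEmb (by norm_num)
  refine ⟨F, (fun i : Fin 5 => (u i, c)) ∘ e, hMS.comp e, hF, hFne, ?_⟩
  rw [← tw_viaEmbedding]
  exact hall (viaEmbedding_finRotate_mem e)

/-- Step 5a: from a three-cycle of pieces of distinct colours to an event -/
theorem ev_mem_of_tower_distinct {K : Subgroup (Perm (X × C))}
    (hC : 5 ≤ Fintype.card C) (hK : NormBy V letter K) {F : Set X} {M : Fin 3 → V × C}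
    (h : MS F M) (hM : Function.Injective (fun i => (M i).2)) (hmem : tw h (finRotate 3) ∈ K) :
    ∃ c : Fin 3 ↪ C, ev F ((finRotate 3).viaEmbedding c) ∈ K := by
  classical
  let c : Fin 3 ↪ C := ⟨fun i => (M i).2, hM⟩
  obtain ⟨d, hd⟩ := exists_notMem_of_card_lt (S := Finset.univ.map c)
    (by rw [Finset.card_map, Finset.card_univ, Fintype.card_fin]; omega)
  have hd' : ∀ i, (M i).2 ≠ d := fun i hi => hd (by
    rw [Finset.mem_map]; exact ⟨i, Finset.mem_univ _, hi⟩)
  let lam : C → V := fun a => (∑ i, if (M i).2 = a then (M i).1 else 0) -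
    (if a = d then ∑ i, (M i).1 else 0)
  have hlam : ∑ a, lam a = 0 := by
    simp only [lam, Finset.sum_sub_distrib, Finset.sum_ite_eq', Finset.mem_univ, if_true]
    rw [Finset.sum_comm]
    simp
  have hlam' : ∀ i, lam (M i).2 = (M i).1 := by
    intro i
    have h1 : ∀ j, (M j).2 = (M i).2 ↔ j = i := fun j =>
      ⟨fun h => hM h, fun h => by rw [h]⟩
    simp [lam, h1, hd' i]
  have key := tw_conj (MS.colors (V := V) c F) h (H lam) (by
    intro x _ i
    simp only [zero_vadd, H_apply, c, Function.Embedding.coeFn_mk]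
    rw [hlam' i]) (finRotate 3)
  refine ⟨c, hK.conj' (H lam) (H_mem_Gp hlam) _ ?_⟩
  rw [← tw_colors (V := V), key]
  exact hmem

/-- Step 5b: from a three-cycle of pieces to an event -/
theorem ev_mem_of_tower [Finite A] {K : Subgroup (Perm (X × C))}
    (hC : 5 ≤ Fintype.card C) (hK : NormBy V letter K) {F : Set X} (hF : Clo V letter F)
    {M : Fin 3 → V × C} (h : MS F M) (hmem : tw h (finRotate 3) ∈ K) :
    ∃ c : Fin 3 ↪ C, ev F ((finRotate 3).viaEmbedding c) ∈ K := by
  obtain ⟨g, hg, f, hf, hgM⟩ := recolor hC hF h 0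
  have h1 := h.image g hgM
  obtain ⟨g', hg', f', hf', hgM'⟩ := recolor hC hF h1 1
  have h2 := h1.image g' hgM'
  have hinj : Function.Injective
      (fun i => (Function.update (Function.update M 0 ((M 0).1, f)) 1
        ((Function.update M 0 ((M 0).1, f) 1).1, f') i).2) := by
    have e0 := hf' 0
    have e1 := hf' 1
    have e2 := hf' 2
    have g2 := hf 2
    intro i j hij
    fin_cases i <;> fin_cases j <;> simp [Function.update] at hij e0 e1 e2 ⊢ <;>
      first
        | exact absurd hij e0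
        | exact absurd hij.symm e0
        | exact absurd hij e2
        | exact absurd hij.symm e2
        | exact absurd hij g2
        | exact absurd hij.symm g2
  have c1 := tw_conj h h1 g hgM (finRotate 3)
  have c2 := tw_conj h1 h2 g' hgM' (finRotate 3)
  apply ev_mem_of_tower_distinct hC hK h2 hinj
  rw [← c2, ← c1]
  exact hK g' hg' _ (hK g hg _ hmem)

/-- Step 5c: all even events over `F` -/
theorem EvIn_of_ev_mem {K : Subgroup (Perm (X × C))}
    (hC : 5 ≤ Fintype.card C) (hK : NormBy V letter K) {F : Set X}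
    {s : Perm C} (hs : s ∈ alternatingGroup C) (hs1 : s ≠ 1) (h : ev F s ∈ K) : EvIn K F := by
  let N : Subgroup (alternatingGroup C) := (K.comap (ev F)).subgroupOf (alternatingGroup C)
  have hN : N.Normal := by
    refine ⟨fun a ha b => ?_⟩
    rw [Subgroup.mem_subgroupOf, Subgroup.mem_comap] at ha ⊢
    have := hK _ (ev_univ_mem_Gp (V := V) (letter := letter) b.2) _ ha
    rw [ev_univ_conj] at this
    exact this
  have hsimple : IsSimpleGroup (alternatingGroup C) :=
    alternatingGroup.isSimpleGroup (by simpa using hC)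
  have htop : N = ⊤ := by
    refine (hsimple.eq_bot_or_eq_top_of_normal N hN).resolve_left ?_
    intro hbot
    have hmem : (⟨s, hs⟩ : alternatingGroup C) ∈ N := h
    rw [hbot, Subgroup.mem_bot] at hmem
    exact hs1 (congrArg Subtype.val hmem)
  intro t ht
  have h2 : (⟨t, ht⟩ : alternatingGroup C) ∈ N := by rw [htop]; exact Subgroup.mem_top _
  exact h2

theorem viaEmbedding_finRotate_ne_one {α : Type*} (e : Fin 3 ↪ α) :
    (finRotate 3).viaEmbedding e ≠ 1 := by
  intro h
  have h1 : Perm.viaEmbeddingHom e (finRotate 3) = Perm.viaEmbeddingHom e 1 := by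
    rw [Perm.viaEmbeddingHom_apply, h, map_one]
  have h2 := Perm.viaEmbeddingHom_injective e h1
  revert h2
  decide

/-- Step 6: smaller sets -/
theorem EvIn.of_subset [Finite A] {K : Subgroup (Perm (X × C))} (hC : 5 ≤ Fintype.card C)
    (hK : NormBy V letter K) {F F' : Set X} (hF : EvIn K F) (hF' : Clo V letter F')
    (hsub : F' ⊆ F) : EvIn K F' := by
  have := hF.inter hC (EvIn_Gp hC hF') hK.comm
  rwa [Set.inter_eq_self_of_subset_right hsub] at this

theorem EvIn.union' [Finite A] {K : Subgroup (Perm (X × C))} (hC : 5 ≤ Fintype.card C)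
    (hK : NormBy V letter K) {E F : Set X} (hE : EvIn K E) (hF : EvIn K F)
    (hEc : Clo V letter E) (hFc : Clo V letter F) : EvIn K (E ∪ F) := by
  rw [← Set.union_sdiff_self]
  exact hE.union_disjoint (hF.of_subset hC hK (hFc.diff hEc) Set.sdiff_subset)
    Set.disjoint_sdiff_right

/-- Step 7: all clopen events -/
theorem EvIn.all [Finite A] {K : Subgroup (Perm (X × C))} (hC : 5 ≤ Fintype.card C)
    (hM : Minl V letter) (hK : NormBy V letter K) {F : Set X} (hF : EvIn K F)
    (hFc : Clo V letter F) (hne : F.Nonempty) {E : Set X} (hE : Clo V letter E) : EvIn K E := by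
  classical
  obtain ⟨W, hW⟩ := hM F hFc hne
  have h1 : ∀ w : V, EvIn K {x | w +ᵥ x ∈ F} := by
    intro w
    have := ev_translate_mem (K := K) (by omega) (fun lam hlam g hg => hK _ (H_mem_Gp hlam) g hg)
      hF (-w)
    intro s hs
    have h2 := this s hs
    simpa using h2
  have h2 : ∀ S : Finset V, EvIn K (⋃ w ∈ S, {x | w +ᵥ x ∈ F}) := by
    intro S
    induction S using Finset.induction_on with
    | empty => simpa using EvIn.empty K
    | insert a S ha ih =>
      rw [Finset.set_biUnion_insert]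
      exact (h1 a).union' hC hK ih (hFc.preimage a) (Clo.biUnion _ (fun w _ => hFc.preimage w))
  have h3 := h2 W
  refine h3.of_subset hC hK hE ?_
  intro x _
  obtain ⟨w, hw, hwx⟩ := hW x
  simp only [Set.mem_iUnion]
  exact ⟨w, hw, hwx⟩

/-- Step 8a: elementary translations -/
theorem H_single_mem {K : Subgroup (Perm (X × C))} (hC : 5 ≤ Fintype.card C)
    (hK : NormBy V letter K) (hu : EvIn K (Set.univ : Set X)) {c c' : C} (hc : c ≠ c') (v : V) :
    (H (Pi.single c v - Pi.single c' v : C → V) : Perm (X × C)) ∈ K := by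
  obtain ⟨c3, h3⟩ := exists_notMem_of_card_lt (S := {c, c'})
    (lt_of_le_of_lt (Finset.card_le_two) (by omega))
  obtain ⟨c4, h4⟩ := exists_notMem_of_card_lt (S := {c, c', c3})
    (lt_of_le_of_lt (Finset.card_le_three) (by omega))
  obtain ⟨c5, h5⟩ := exists_notMem_of_card_lt (S := {c, c', c3, c4})
    (lt_of_le_of_lt (Finset.card_le_four) (by omega))
  simp only [Finset.mem_insert, Finset.mem_singleton, not_or] at h3 h4 h5
  let s : Perm C := swap c c' * swap c3 c4
  have hs : s ∈ alternatingGroup C := by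
    rw [Perm.mem_alternatingGroup, Perm.sign_mul, Perm.sign_swap hc,
      Perm.sign_swap (Ne.symm h4.2.2)]
    rfl
  let mu : C → V := Pi.single c v - Pi.single c5 v
  have hmu : ∑ a, mu a = 0 := by
    simp [mu, Finset.sum_sub_distrib, Finset.sum_pi_single']
  have e1 : (H mu : Perm (X × C)) * ev Set.univ s * (H mu)⁻¹ * (ev Set.univ s)⁻¹ ∈ K :=
    K.mul_mem (hK _ (H_mem_Gp hmu) _ (hu s hs)) (K.inv_mem (hu s hs))
  have e2 : (H mu : Perm (X × C)) * ev Set.univ s * (H mu)⁻¹ * (ev Set.univ s)⁻¹ =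
      H (Pi.single c v - Pi.single c' v : C → V) := by
    have e3 : (H mu : Perm (X × C)) * ev Set.univ s * (H mu)⁻¹ * (ev Set.univ s)⁻¹ =
        H mu * (ev Set.univ s * (H mu)⁻¹ * (ev Set.univ s)⁻¹) := by group
    rw [e3, ← H_neg, ev_univ_conj_H, ← H_add]
    congr 1
    ext a
    have hsc : s⁻¹ = swap c3 c4 * swap c c' := by
      simp [s, mul_inv_rev]
    simp only [Pi.add_apply, Function.comp_apply, Pi.neg_apply, Pi.sub_apply, mu, hsc,
      Perm.mul_apply]
    have a1 : swap c3 c4 (swap c c' a) = c ↔ a = c' := by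
      constructor
      · intro h
        have h' : swap c c' a = c := by
          have := congrArg (swap c3 c4) h
          rw [swap_apply_self, swap_apply_of_ne_of_ne (Ne.symm h3.1) (Ne.symm h4.1)] at this
          exact this
        have := congrArg (swap c c') h'
        rw [swap_apply_self, swap_apply_left] at this
        exact this
      · rintro rfl
        rw [swap_apply_right, swap_apply_of_ne_of_ne (Ne.symm h3.1) (Ne.symm h4.1)]
    have a2 : swap c3 c4 (swap c c' a) = c5 ↔ a = c5 := by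
      constructor
      · intro h
        have h' : swap c c' a = c5 := by
          have := congrArg (swap c3 c4) h
          rw [swap_apply_self, swap_apply_of_ne_of_ne h5.2.2.1 h5.2.2.2] at this
          exact this
        have := congrArg (swap c c') h'
        rw [swap_apply_self, swap_apply_of_ne_of_ne h5.1 h5.2.1] at this
        exact this
      · rintro rfl
        rw [swap_apply_of_ne_of_ne h5.1 h5.2.1, swap_apply_of_ne_of_ne h5.2.2.1 h5.2.2.2]
    simp only [Pi.single_apply, a1, a2]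
    abel
  rwa [e2] at e1

/-- Step 8b: all translations of displacement zero -/
theorem H_mem_of_univ {K : Subgroup (Perm (X × C))} (hC : 5 ≤ Fintype.card C)
    (hK : NormBy V letter K) (hu : EvIn K (Set.univ : Set X)) {lam : C → V}
    (hlam : ∑ c, lam c = 0) : (H lam : Perm (X × C)) ∈ K := by
  classical
  have : Nonempty C := Fintype.card_pos_iff.1 (by omega)
  obtain ⟨c0⟩ := this
  have key : ∀ S : Finset C,
      (H (∑ c ∈ S, (Pi.single c (lam c) - Pi.single c0 (lam c) : C → V)) :
        Perm (X × C)) ∈ K := by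
    intro S
    induction S using Finset.induction_on with
    | empty => simp
    | insert a S ha ih =>
      rw [Finset.sum_insert ha, H_add]
      refine K.mul_mem ?_ ih
      by_cases hac : a = c0
      · subst hac
        simp
      · exact H_single_mem hC hK hu hac _
  have h1 := key Finset.univ
  have h2 : ∑ c ∈ (Finset.univ : Finset C),
      (Pi.single c (lam c) - Pi.single c0 (lam c) : C → V) = lam := by
    rw [Finset.sum_sub_distrib, Finset.univ_sum_single]
    have : ∑ c, (Pi.single c0 (lam c) : C → V) = Pi.single c0 (∑ c, lam c) := by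
      ext a
      rw [Finset.sum_apply, Pi.single_apply]
      by_cases ha : a = c0
      · subst ha
        simp
      · simp [ha]
    rw [this, hlam, Pi.single_zero, sub_zero]
  rwa [h2] at h1

/-- A nontrivial subgroup of `Gp` normalised by `Gp` is everything. -/
theorem NormBy.eq_Gp [Finite A] [Infinite V] (hC : 5 ≤ Fintype.card C) (hS : Sep V letter)
    (hM : Minl V letter) {K : Subgroup (Perm (X × C))} (hK : NormBy V letter K)
    (hKG : K ≤ Gp V letter C) (hne : K ≠ ⊥) : K = Gp V letter C := by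
  refine le_antisymm hKG ?_
  obtain ⟨F, M, h, hF, hFne, hmem⟩ := exists_tower_mem hC hS hM hK hKG hne
  obtain ⟨c, hc⟩ := ev_mem_of_tower hC hK hF h hmem
  have hEF : EvIn K F := EvIn_of_ev_mem hC hK (viaEmbedding_finRotate_mem c)
    (viaEmbedding_finRotate_ne_one c) hc
  have hall : ∀ {E : Set X}, Clo V letter E → EvIn K E :=
    fun hE => hEF.all hC hM hK hF hFne hE
  rw [Gp, Subgroup.closure_le]
  rintro g ((⟨lam, hlam, rfl⟩ | ⟨s, hs, rfl⟩) | ⟨a, s, hs, rfl⟩)
  · exact H_mem_of_univ hC hK (hall Clo.univ) hlam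
  · exact hall Clo.univ s hs
  · exact hall (Clo.letter0 a) s hs

/-- `Gp` is infinite. -/
theorem infinite_Gp [Infinite V] [Nonempty X] (hC : 5 ≤ Fintype.card C) (hS : Sep V letter) :
    Infinite (Gp V letter C) := by
  obtain ⟨c⟩ : Nonempty C := Fintype.card_pos_iff.1 (by omega)
  obtain ⟨c', hc'⟩ := exists_notMem_of_card_lt (S := {c}) (by simp; omega)
  rw [Finset.mem_singleton] at hc'
  obtain ⟨x⟩ := ‹Nonempty X›
  have hsum : ∀ v : V, ∑ a, (Pi.single c v - Pi.single c' v : C → V) a = 0 := by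
    intro v
    simp [Finset.sum_sub_distrib, Finset.sum_pi_single']
  refine Infinite.of_injective
    (fun v : V => (⟨H (Pi.single c v - Pi.single c' v : C → V), H_mem_Gp (hsum v)⟩ :
      Gp V letter C)) ?_
  intro v w hvw
  have h1 := congrArg Subtype.val hvw
  simp only at h1
  have h2 := congrArg (fun g : Perm (X × C) => (g (x, c)).1) h1
  simp only [H_apply, Pi.sub_apply, Pi.single_eq_same,
    Pi.single_eq_of_ne (Ne.symm hc'), sub_zero] at h2
  exact hS.vadd_inj h2

/-- THEOREM.  `Gp` is a simple group. -/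
theorem isSimpleGroup_Gp [Finite A] [Infinite V] [Nonempty X] (hC : 5 ≤ Fintype.card C)
    (hS : Sep V letter) (hM : Minl V letter) : IsSimpleGroup (Gp V letter C) := by
  have hinf := infinite_Gp (C := C) hC hS
  refine { exists_pair_ne := exists_pair_ne _, eq_bot_or_eq_top_of_normal := ?_ }
  intro N hN
  by_cases hbot : N = ⊥
  · exact Or.inl hbot
  right
  have hKG : N.map (Gp V letter C).subtype ≤ Gp V letter C := by
    rintro _ ⟨g, -, rfl⟩
    exact g.2
  have hK : NormBy V letter (N.map (Gp V letter C).subtype) := by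
    rintro g hg _ ⟨k, hk, rfl⟩
    exact ⟨⟨g, hg⟩ * k * ⟨g, hg⟩⁻¹, hN.conj_mem k hk ⟨g, hg⟩, rfl⟩
  have hne : N.map (Gp V letter C).subtype ≠ ⊥ := by
    intro h
    rw [Subgroup.map_eq_bot_iff_of_injective _ (Subgroup.subtype_injective _)] at h
    exact hbot h
  have heq := hK.eq_Gp hC hS hM hKG hne
  rw [eq_top_iff]
  intro g _
  have hg : (g : Perm (X × C)) ∈ N.map (Gp V letter C).subtype := by
    rw [heq]; exact g.2
  obtain ⟨k, hk, hkg⟩ := hg
  have : k = g := Subtype.ext hkg
  rwa [← this]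

/-- `Gp` has trivial centre. -/
theorem center_Gp [Finite A] [Infinite V] [Nonempty X] (hC : 5 ≤ Fintype.card C)
    (hS : Sep V letter) (hM : Minl V letter) : Subgroup.center (Gp V letter C) = ⊥ := by
  have hs := isSimpleGroup_Gp (C := C) hC hS hM
  rcases hs.eq_bot_or_eq_top_of_normal _
    (inferInstance : (Subgroup.center (Gp V letter C)).Normal) with h | h
  · exact h
  exfalso
  -- all even events commute, contradiction with `A_5` nonabelian
  have hcomm : ∀ a b : Gp V letter C, a * b = b * a := by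
    intro a b
    have := Subgroup.mem_center_iff.1 (h ▸ Subgroup.mem_top b : b ∈ Subgroup.center _) a
    exact this
  have hev : ∀ s ∈ alternatingGroup C, ∀ t ∈ alternatingGroup C, s * t = t * s := by
    intro s hs t ht
    have h1 := hcomm ⟨_, ev_univ_mem_Gp (V := V) (letter := letter) hs⟩
      ⟨_, ev_univ_mem_Gp (V := V) (letter := letter) ht⟩
    have h2 := congrArg Subtype.val h1
    simp only [Subgroup.coe_mul] at h2
    obtain ⟨x⟩ := ‹Nonempty X›
    apply Equiv.ext
    intro c
    have h3 := congrArg (fun g : Perm (X × C) => (g (x, c)).2) h2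
    simpa only [Perm.mul_apply, ev_univ_apply] using h3
  have hle : alternatingGroup C ≤ ⊥ := by
    rw [← commutator_alternatingGroup_eq_self (α := C) (by simpa using hC),
      Subgroup.commutator_le]
    intro s hs t ht
    rw [Subgroup.mem_bot, commutatorElement_eq_one_iff_mul_comm]
    exact hev s hs t ht
  obtain ⟨c⟩ : Nonempty C := Fintype.card_pos_iff.1 (by omega)
  obtain ⟨c', hc'⟩ := exists_notMem_of_card_lt (S := {c}) (by simp; omega)
  obtain ⟨c'', hc''⟩ := exists_notMem_of_card_lt (S := {c, c'})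
    (lt_of_le_of_lt (Finset.card_le_two) (by omega))
  simp only [Finset.mem_insert, Finset.mem_singleton, not_or] at hc' hc''
  have h3 : (swap c c' * swap c c'').IsThreeCycle :=
    Perm.isThreeCycle_swap_mul_swap_same (Ne.symm hc') (Ne.symm hc''.1) (Ne.symm hc''.2)
  have h4 := hle h3.mem_alternatingGroup
  rw [Subgroup.mem_bot] at h4
  rw [h4] at h3
  have := h3.card_support
  simp at this

end Crest.Agent.R189
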