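import Crest.Agent.R189.KDefs

/-!
# Row 189, part F (K1): rules for `realFam` / `realAlt` over a level (helper461)

* `realFun_change` : general change of data (window, index function, base point shifted by `u`).
* `realFam_change`, `realAlt_change` : typed versions; `realFam_window`, `realAlt_window`.
* `realFam_commute_of`, `realAlt_commute_of` : disjoint supports commute.
* `realFam_inj`, `realAlt_inj` : injectivity over the occurring indices.
* `Lev.kP`, `Lev.kQ`, `Lev.kV` : the kinds; refinements `F → P, Q, V` (with shifts `0,q,p,p+q`),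
  `P → V` (`0`, `p`), `Q → V` (`0`, `q`), `F → F` (`q`, `p`), `P → P` (`q`) ...
-/

set_option autoImplicit false
set_option linter.unusedSectionVars false

namespace Crest.Agent.R189.K

open Equiv Equiv.Perm

section gen

variable {X C ι ι' : Type*} [AddAction (ℤ × ℤ) X] [Fintype C] [DecidableEq C]
variable {D D' : Set X} {W W' : Finset (ℤ × ℤ)}

lemma permOn_win_mem {π : Equiv.Perm (Om C)} (h : π ∈ PermOn (win C W)) {v : ℤ × ℤ} (hv : v ∈ W)
    (c : C) : (π (v, c)).1 ∈ W := by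
  have h1 := (on_mem_iff h (v, c)).2 (by simpa using hv)
  simpa using h1

lemma permOn_win_fix {π : Equiv.Perm (Om C)} (h : π ∈ PermOn (win C W)) {v : ℤ × ℤ} (hv : v ∉ W)
    (c : C) : π (v, c) = (v, c) := h _ (by simpa using hv)

/-- general change of data: window, index function, base point shifted by `u` -/
theorem realFun_change {κ : X → ι} {κ' : X → ι'} {z : ι → Equiv.Perm (Om C)}
    {z' : ι' → Equiv.Perm (Om C)} (u : ℤ × ℤ) (hW : Cell D W) (hW' : Cell D' W')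
    (hz : ∀ i, z i ∈ PermOn (win C W)) (hz' : ∀ i, z' i ∈ PermOn (win C W'))
    (hD : ∀ y, y ∈ D ↔ u +ᵥ y ∈ D')
    (hzz : ∀ y ∈ D, z' (κ' (u +ᵥ y)) = sh (-u) (z (κ y))) (p : X × C) :
    realFun D W κ z p = realFun D' W' κ' z' p := by
  have hsym : ∀ y ∈ D, ∀ v c, z' (κ' (u +ᵥ y)) (v - u, c) =
      ((z (κ y) (v, c)).1 - u, (z (κ y) (v, c)).2) := by
    intro y hy v c
    rw [hzz y hy, sh_apply]
    simp [sub_eq_add_neg]
  have hpt : ∀ (v : ℤ × ℤ) (y : X), v +ᵥ y = (v - u) +ᵥ (u +ᵥ y) := by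
    intro v y; rw [vadd_vadd]; simp
  rcases real_cases D W p with ⟨v, hv, y, hy, hp⟩ | hoff
  · obtain ⟨x, c⟩ := p
    simp only [Prod.mk.injEq, and_true] at hp
    subst hp
    rw [realFun_apply hW _ _ hv hy]
    by_cases hv' : v - u ∈ W'
    · rw [hpt v y, realFun_apply hW' _ _ hv' ((hD y).1 hy), hsym y hy, ← hpt]
    · have h1 : z' (κ' (u +ᵥ y)) (v - u, c) = (v - u, c) := permOn_win_fix (hz' _) hv' c
      rw [hsym y hy] at h1
      have h2 : z (κ y) (v, c) = (v, c) := by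
        simp only [Prod.mk.injEq, sub_left_inj] at h1
        exact Prod.ext h1.1 h1.2
      rw [h2]
      rcases real_cases D' W' ((v +ᵥ y, c) : X × C) with ⟨v', hv'', y', hy', he⟩ | hoff'
      · simp only [Prod.mk.injEq, and_true] at he
        obtain ⟨y1, rfl⟩ : ∃ y1, y' = u +ᵥ y1 := ⟨-u +ᵥ y', by simp⟩
        have hy1 : y1 ∈ D := (hD y1).2 hy'
        have he' : v +ᵥ y = (v' + u) +ᵥ y1 := by rw [he, vadd_vadd]
        by_cases hv3 : v' + u ∈ W
        · have := hW v hv _ hv3 y hy y1 hy1 he'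
          exact absurd (by rw [this]; simpa using hv'') hv'
        · rw [he, realFun_apply hW' _ _ hv'' hy']
          have h3 : z (κ y1) (v' + u, c) = (v' + u, c) := permOn_win_fix (hz _) hv3 c
          have h4 := hsym y1 hy1 (v' + u) c
          rw [h3] at h4
          simp only [add_sub_cancel_right] at h4
          rw [h4]
      · rw [realFun_off _ _ hoff']
  · obtain ⟨x, c⟩ := p
    rw [realFun_off _ _ hoff]
    rcases real_cases D' W' ((x, c) : X × C) with ⟨v', hv', y', hy', he⟩ | hoff'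
    · simp only [Prod.mk.injEq, and_true] at he
      subst he
      obtain ⟨y1, rfl⟩ : ∃ y1, y' = u +ᵥ y1 := ⟨-u +ᵥ y', by simp⟩
      have hy1 : y1 ∈ D := (hD y1).2 hy'
      have hv3 : v' + u ∉ W := by
        intro h
        refine hoff _ h ?_
        have e : -(v' + u) +ᵥ (v' +ᵥ (u +ᵥ y1)) = y1 := by
          rw [← add_vadd v' u y1, neg_vadd_vadd]
        simpa only [e] using hy1
      rw [realFun_apply hW' _ _ hv' hy']
      have h3 : z (κ y1) (v' + u, c) = (v' + u, c) := permOn_win_fix (hz _) hv3 c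
      have h4 := hsym y1 hy1 (v' + u) c
      rw [h3] at h4
      simp only [add_sub_cancel_right] at h4
      rw [h4]
    · rw [realFun_off _ _ hoff']

theorem realFam_change {κ : X → ι} {κ' : X → ι'} (u : ℤ × ℤ) (hW : Cell D W) (hW' : Cell D' W')
    (z : ι → PermOn (win C W)) (z' : ι' → PermOn (win C W'))
    (hD : ∀ y, y ∈ D ↔ u +ᵥ y ∈ D')
    (hzz : ∀ y ∈ D, (z' (κ' (u +ᵥ y)) : Equiv.Perm (Om C)) = sh (-u) (z (κ y))) :
    realFam hW κ z = realFam hW' κ' z' := by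
  ext1 p
  exact realFun_change u hW hW' (fun i => (z i).2) (fun i => (z' i).2) hD hzz p

theorem realAlt_change {κ : X → ι} {κ' : X → ι'} (u : ℤ × ℤ) (hW : Cell D W) (hW' : Cell D' W')
    (z : ι → AltOn (win C W)) (z' : ι' → AltOn (win C W'))
    (hD : ∀ y, y ∈ D ↔ u +ᵥ y ∈ D')
    (hzz : ∀ y ∈ D, (z' (κ' (u +ᵥ y)) : Equiv.Perm (Om C)) = sh (-u) (z (κ y))) :
    realAlt hW κ z = realAlt hW' κ' z' := by
  ext1 p
  exact realFun_change u hW hW' (fun i => (z i).2.1) (fun i => (z' i).2.1) hD hzz p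

/-- window independence and refinement of the index function -/
theorem realFam_window {κ : X → ι} {κ' : X → ι'} (hW : Cell D W) (hW' : Cell D W')
    (z : ι → PermOn (win C W)) (z' : ι' → PermOn (win C W'))
    (hzz : ∀ y ∈ D, (z' (κ' y) : Equiv.Perm (Om C)) = z (κ y)) :
    realFam hW κ z = realFam hW' κ' z' :=
  realFam_change 0 hW hW' z z' (by simp) (by simpa using hzz)

theorem realAlt_window {κ : X → ι} {κ' : X → ι'} (hW : Cell D W) (hW' : Cell D W')
    (z : ι → AltOn (win C W)) (z' : ι' → AltOn (win C W'))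
    (hzz : ∀ y ∈ D, (z' (κ' y) : Equiv.Perm (Om C)) = z (κ y)) :
    realAlt hW κ z = realAlt hW' κ' z' :=
  realAlt_change 0 hW hW' z z' (by simp) (by simpa using hzz)

/-- a family depends only on the occurring indices -/
theorem realFam_congr {κ : X → ι} (hW : Cell D W) (z z' : ι → PermOn (win C W))
    (h : ∀ y ∈ D, z (κ y) = z' (κ y)) : realFam hW κ z = realFam hW κ z' :=
  realFam_window hW hW z z' (fun y hy => by rw [h y hy])

theorem realAlt_congr {κ : X → ι} (hW : Cell D W) (z z' : ι → AltOn (win C W))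
    (h : ∀ y ∈ D, z (κ y) = z' (κ y)) : realAlt hW κ z = realAlt hW κ z' :=
  realAlt_window hW hW z z' (fun y hy => by rw [h y hy])

/-- `realAlt` and `realFam` agree -/
theorem realAlt_eq_realFam {κ : X → ι} {κ' : X → ι'} (hW : Cell D W) (hW' : Cell D W')
    (z : ι → AltOn (win C W)) (z' : ι' → PermOn (win C W'))
    (hzz : ∀ y ∈ D, (z' (κ' y) : Equiv.Perm (Om C)) = z (κ y)) :
    realAlt hW κ z = realFam hW' κ' z' := by
  ext1 p
  refine realFun_change 0 hW hW' (fun i => (z i).2.1) (fun i => (z' i).2) (by simp) ?_ p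
  simpa using hzz

/-- a moved point comes from a moved position -/
lemma realFun_ne (hW : Cell D W) {κ : X → ι} {z : ι → Equiv.Perm (Om C)} {p : X × C}
    (h : realFun D W κ z p ≠ p) :
    ∃ v ∈ W, ∃ x ∈ D, p = (v +ᵥ x, p.2) ∧ z (κ x) (v, p.2) ≠ (v, p.2) := by
  rcases real_cases D W p with ⟨v, hv, x, hx, hp⟩ | hoff
  · refine ⟨v, hv, x, hx, hp, fun e => h ?_⟩
    rw [hp, realFun_apply hW _ _ hv hx, e]
  · exact absurd (realFun_off _ _ hoff) h

/-- families with disjoint supports commute -/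
theorem realFam_commute_of {κ : X → ι} {κ' : X → ι'} (hW : Cell D W) (hW' : Cell D' W')
    (z : ι → PermOn (win C W)) (z' : ι' → PermOn (win C W'))
    (hd : ∀ v ∈ W, ∀ v' ∈ W', ∀ y ∈ D, ∀ y' ∈ D', ∀ c,
      (z (κ y) : Equiv.Perm (Om C)) (v, c) ≠ (v, c) →
      (z' (κ' y') : Equiv.Perm (Om C)) (v', c) ≠ (v', c) → v +ᵥ y ≠ v' +ᵥ y') :
    Commute (realFam hW κ z) (realFam hW' κ' z') := by
  apply Equiv.Perm.Disjoint.commute
  intro p
  by_contra hcon
  push Not at hcon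
  obtain ⟨h1, h2⟩ := hcon
  obtain ⟨v, hv, y, hy, hp, hm⟩ :=
    realFun_ne hW (κ := κ) (z := fun i => (z i : Equiv.Perm (Om C))) h1
  obtain ⟨v', hv', y', hy', hp', hm'⟩ :=
    realFun_ne hW' (κ := κ') (z := fun i => (z' i : Equiv.Perm (Om C))) h2
  refine hd v hv v' hv' y hy y' hy' p.2 hm hm' ?_
  have := hp.symm.trans hp'
  simpa using this

theorem realAlt_commute_of {κ : X → ι} {κ' : X → ι'} (hW : Cell D W) (hW' : Cell D' W')
    (z : ι → AltOn (win C W)) (z' : ι' → AltOn (win C W'))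
    (hd : ∀ v ∈ W, ∀ v' ∈ W', ∀ y ∈ D, ∀ y' ∈ D', ∀ c,
      (z (κ y) : Equiv.Perm (Om C)) (v, c) ≠ (v, c) →
      (z' (κ' y') : Equiv.Perm (Om C)) (v', c) ≠ (v', c) → v +ᵥ y ≠ v' +ᵥ y') :
    Commute (realAlt hW κ z) (realAlt hW' κ' z') :=
  realFam_commute_of hW hW' (altIncl ι W z) (altIncl ι' W' z') hd

/-- same kind, commuting components -/
theorem realFam_commute_comp {κ : X → ι} (hW : Cell D W) (z z' : ι → PermOn (win C W))
    (h : ∀ i, Commute (z i) (z' i)) : Commute (realFam hW κ z) (realFam hW κ z') := by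
  have e : Commute z z' := by
    funext i; exact h i
  exact e.map (realFam hW κ)

/-- injectivity over the occurring indices -/
theorem realFun_inj (hfree : ∀ (v : ℤ × ℤ) (x : X), v +ᵥ x = x → v = 0) (hW : Cell D W)
    {κ : X → ι} {z z' : ι → Equiv.Perm (Om C)}
    (hz : ∀ i, z i ∈ PermOn (win C W)) (hz' : ∀ i, z' i ∈ PermOn (win C W))
    (h : ∀ p, realFun D W κ z p = realFun D W κ z' p) {y : X} (hy : y ∈ D) :
    z (κ y) = z' (κ y) := by
  ext1 ⟨v, c⟩
  by_cases hv : v ∈ W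
  · have h1 := realFun_apply hW κ z hv hy c
    rw [h, realFun_apply hW κ z' hv hy c] at h1
    simp only [Prod.mk.injEq] at h1
    have h2 : ((z' (κ y) (v, c)).1 - (z (κ y) (v, c)).1) +ᵥ y = y := by
      have h3 := congrArg (fun t => (-(z (κ y) (v, c)).1) +ᵥ t) h1.1
      simp only [vadd_vadd] at h3
      rw [neg_add_cancel, zero_vadd] at h3
      rw [sub_eq_neg_add]; exact h3
    have h4 := hfree _ _ h2
    exact (Prod.ext (sub_eq_zero.1 h4) h1.2).symm
  · rw [permOn_win_fix (hz _) hv c, permOn_win_fix (hz' _) hv c]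

theorem realFam_inj (hfree : ∀ (v : ℤ × ℤ) (x : X), v +ᵥ x = x → v = 0) (hW : Cell D W)
    {κ : X → ι} {z z' : ι → PermOn (win C W)} (h : realFam hW κ z = realFam hW κ z') {y : X}
    (hy : y ∈ D) : z (κ y) = z' (κ y) :=
  Subtype.ext (realFun_inj hfree hW (z := fun i => (z i : Equiv.Perm (Om C)))
    (z' := fun i => (z' i : Equiv.Perm (Om C))) (fun i => (z i).2) (fun i => (z' i).2)
    (fun p => Equiv.congr_fun h p) hy)

theorem realAlt_inj (hfree : ∀ (v : ℤ × ℤ) (x : X), v +ᵥ x = x → v = 0) (hW : Cell D W)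
    {κ : X → ι} {z z' : ι → AltOn (win C W)} (h : realAlt hW κ z = realAlt hW κ z') {y : X}
    (hy : y ∈ D) : z (κ y) = z' (κ y) :=
  Subtype.ext (realFun_inj hfree hW (z := fun i => (z i : Equiv.Perm (Om C)))
    (z' := fun i => (z' i : Equiv.Perm (Om C))) (fun i => (z i).2.1) (fun i => (z' i).2.1)
    (fun p => Equiv.congr_fun h p) hy)

/-- general comparison (two windows, two kinds): if the concrete permutations agree, then so do
the components at every base point, provided the windows lie in a common window -/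
theorem real_inj_window (hfree : ∀ (v : ℤ × ℤ) (x : X), v +ᵥ x = x → v = 0)
    {κ : X → ι} {κ' : X → ι'} {W₀ : Finset (ℤ × ℤ)} (h0 : Cell D W₀) (h1 : W ⊆ W₀) (h2 : W' ⊆ W₀)
    {z : ι → PermOn (win C W)} {z' : ι' → PermOn (win C W')}
    (h : realFam (h0.mono h1) κ z = realFam (h0.mono h2) κ' z') {y : X} (hy : y ∈ D) :
    (z (κ y) : Equiv.Perm (Om C)) = z' (κ' y) := by
  let a : X → PermOn (win C W₀) := fun x => ⟨z (κ x), PermOn_mono (win_mono h1) (z (κ x)).2⟩
  let b : X → PermOn (win C W₀) := fun x => ⟨z' (κ' x), PermOn_mono (win_mono h2) (z' (κ' x)).2⟩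
  have ea : realFam (h0.mono h1) κ z = realFam h0 (fun x => x) a :=
    realFam_window _ _ z a (fun _ _ => rfl)
  have eb : realFam (h0.mono h2) κ' z' = realFam h0 (fun x => x) b :=
    realFam_window _ _ z' b (fun _ _ => rfl)
  rw [ea, eb] at h
  exact congrArg Subtype.val (realFam_inj hfree h0 h hy)

end gen

/-! ### shifted windows -/

section shift

variable {C : Type*} [Fintype C] [DecidableEq C]

lemma sh_mem_permOn {u : ℤ × ℤ} {W W' : Finset (ℤ × ℤ)} {z : Equiv.Perm (Om C)}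
    (hz : z ∈ PermOn (win C W)) (h : ∀ v ∈ W, v + u ∈ W') : sh u z ∈ PermOn (win C W') := by
  rintro ⟨v, c⟩ hv
  have hv' : v ∉ W' := by simpa using hv
  have h1 : v - u ∉ W := fun h' => hv' (by simpa using h _ h')
  rw [sh_apply, permOn_win_fix hz h1]
  simp

lemma sgn_sh (u : ℤ × ℤ) {S : Finset (Om C)} {z : Equiv.Perm (Om C)} (hz : z ∈ PermOn S) :
    sgn (sh u z) = sgn z := sgn_conj hz _

lemma sh_mem_altOn {u : ℤ × ℤ} {W W' : Finset (ℤ × ℤ)} {z : Equiv.Perm (Om C)}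
    (hz : z ∈ AltOn (win C W)) (h : ∀ v ∈ W, v + u ∈ W') : sh u z ∈ AltOn (win C W') :=
  ⟨sh_mem_permOn hz.1 h, by rw [sgn_sh u hz.1]; exact hz.2⟩

end shift

/-! ### the four kinds over a level -/

namespace Lev

variable {X Lab Sta C : Type*} [AddAction (ℤ × ℤ) X] [Fintype C] [DecidableEq C]

section kinds
variable (L : Lev X Lab Sta)

/-- kind `P` -/
def kP (x : X) : ZMod L.n × Lab := (L.dig x, L.Pf x)
/-- kind `Q` -/
def kQ (x : X) : ZMod L.n × Lab := (L.dig x, L.Qf x)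
/-- kind `V` -/
def kV (x : X) : ZMod L.n × Sta := (L.dig x, L.st x)

/-- the horizontal period -/
abbrev q : ℤ × ℤ := (L.w, 0)
/-- the vertical period -/
abbrev p : ℤ × ℤ := (0, L.h)

end kinds

variable {L : Lev X Lab Sta} {W W' : Finset (ℤ × ℤ)}

lemma D_vadd_iff {u : ℤ × ℤ} (h1 : L.w ∣ u.1) (h2 : L.h ∣ u.2) (y : X) :
    y ∈ L.D ↔ u +ᵥ y ∈ L.D := by
  constructor
  · intro hy
    exact (L.D_iff y hy u).2 ⟨h1, h2⟩
  · intro hy
    have h3 := (L.D_iff _ hy (-u)).2 ⟨(dvd_neg (b := u.1)).2 h1, (dvd_neg (b := u.2)).2 h2⟩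
    rwa [neg_vadd_vadd] at h3

lemma q_iff (y : X) : y ∈ L.D ↔ L.q +ᵥ y ∈ L.D := D_vadd_iff (dvd_refl _) (dvd_zero _) y
lemma p_iff (y : X) : y ∈ L.D ↔ L.p +ᵥ y ∈ L.D := D_vadd_iff (dvd_zero _) (dvd_refl _) y
lemma pq_iff (y : X) : y ∈ L.D ↔ (L.p + L.q) +ᵥ y ∈ L.D := by
  rw [add_vadd, ← p_iff, ← q_iff]

lemma neg_q_mem {y : X} (hy : y ∈ L.D) : -L.q +ᵥ y ∈ L.D :=
  (q_iff _).2 (by rwa [vadd_neg_vadd])
lemma neg_p_mem {y : X} (hy : y ∈ L.D) : -L.p +ᵥ y ∈ L.D :=
  (p_iff _).2 (by rwa [vadd_neg_vadd])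

lemma dig_neg_p {y : X} (hy : y ∈ L.D) : L.dig (-L.p +ᵥ y) = L.dig y - 1 := by
  have h := L.dig_p _ (neg_p_mem hy)
  have e : ((0, L.h) : ℤ × ℤ) +ᵥ (-L.p +ᵥ y) = y := vadd_neg_vadd _ _
  rw [e] at h
  rw [h]; simp

lemma dig_neg_q {y : X} (hy : y ∈ L.D) : L.dig (-L.q +ᵥ y) = L.dig y := by
  have h := L.dig_q _ (neg_q_mem hy)
  have e : ((L.w, 0) : ℤ × ℤ) +ᵥ (-L.q +ᵥ y) = y := vadd_neg_vadd _ _
  rw [e] at h
  exact h.symm

lemma Pf_neg_p {y : X} (hy : y ∈ L.D) : L.Pf (-L.p +ᵥ y) = L.sPb (L.st y) := by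
  have h := L.Pb_st y hy
  have e : -L.p = ((0, -L.h) : ℤ × ℤ) := by simp [p]
  rw [e]; exact h

lemma Qf_neg_q {y : X} (hy : y ∈ L.D) : L.Qf (-L.q +ᵥ y) = L.lft (L.dig y) (L.st y) := by
  have h := L.lft_st y hy
  have e : -L.q = ((-L.w, 0) : ℤ × ℤ) := by simp [q]
  rw [e]; exact h

/-- the shifted base point as the reference: `z'` at `y` against `z` at `-u + y` -/
lemma shift_aux {ι ι' : Type*} {κ : X → ι} {κ' : X → ι'} {u : ℤ × ℤ}
    (hD : ∀ y, y ∈ L.D ↔ u +ᵥ y ∈ L.D)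
    {z : ι → Equiv.Perm (Om C)} {z' : ι' → Equiv.Perm (Om C)}
    (h : ∀ y ∈ L.D, z' (κ' y) = sh (-u) (z (κ (-u +ᵥ y)))) :
    ∀ y ∈ L.D, z' (κ' (u +ᵥ y)) = sh (-u) (z (κ y)) := by
  intro y hy
  rw [h _ ((hD y).1 hy), neg_vadd_vadd]

variable (hc : Cell L.D W) (hc' : Cell L.D W')

/-! #### refinements of `F` -/

/-- `F → P`, left side -/
theorem real_FP (z : ZMod L.n → PermOn (win C W)) (z' : ZMod L.n × Lab → PermOn (win C W'))
    (h : ∀ y ∈ L.D, (z' (L.dig y, L.Pf y) : Equiv.Perm (Om C)) = z (L.dig y)) :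
    realFam hc L.dig z = realFam hc' L.kP z' := realFam_window hc hc' z z' h

/-- `F → P`, right side of the cell: the `P` line of `y + q` -/
theorem real_FPq (z : ZMod L.n → PermOn (win C W)) (z' : ZMod L.n × Lab → PermOn (win C W'))
    (h : ∀ y ∈ L.D, (z' (L.dig y, L.Pf y) : Equiv.Perm (Om C)) = sh (-L.q) (z (L.dig y))) :
    realFam hc L.dig z = realFam hc' L.kP z' :=
  realFam_change L.q hc hc' z z' q_iff
    (shift_aux (z := fun i => (z i : Equiv.Perm (Om C))) (z' := fun i => (z' i : Equiv.Perm (Om C)))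
      q_iff (fun y hy => by rw [dig_neg_q hy]; exact h y hy))

/-- `F → Q`, bottom side -/
theorem real_FQ (z : ZMod L.n → PermOn (win C W)) (z' : ZMod L.n × Lab → PermOn (win C W'))
    (h : ∀ y ∈ L.D, (z' (L.dig y, L.Qf y) : Equiv.Perm (Om C)) = z (L.dig y)) :
    realFam hc L.dig z = realFam hc' L.kQ z' := realFam_window hc hc' z z' h

/-- `F → Q`, top side of the cell `j`: the `Q` line of index `j + 1` -/
theorem real_FQp (z : ZMod L.n → PermOn (win C W)) (z' : ZMod L.n × Lab → PermOn (win C W'))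
    (h : ∀ y ∈ L.D, (z' (L.dig y, L.Qf y) : Equiv.Perm (Om C)) = sh (-L.p) (z (L.dig y - 1))) :
    realFam hc L.dig z = realFam hc' L.kQ z' :=
  realFam_change L.p hc hc' z z' p_iff
    (shift_aux (z := fun i => (z i : Equiv.Perm (Om C))) (z' := fun i => (z' i : Equiv.Perm (Om C)))
      p_iff (fun y hy => by rw [dig_neg_p hy]; exact h y hy))

/-- `F → V`, corner `(0,0)` -/
theorem real_FV (z : ZMod L.n → PermOn (win C W)) (z' : ZMod L.n × Sta → PermOn (win C W'))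
    (h : ∀ y ∈ L.D, (z' (L.dig y, L.st y) : Equiv.Perm (Om C)) = z (L.dig y)) :
    realFam hc L.dig z = realFam hc' L.kV z' := realFam_window hc hc' z z' h

/-- `F → V`, corner `(w,0)` -/
theorem real_FVq (z : ZMod L.n → PermOn (win C W)) (z' : ZMod L.n × Sta → PermOn (win C W'))
    (h : ∀ y ∈ L.D, (z' (L.dig y, L.st y) : Equiv.Perm (Om C)) = sh (-L.q) (z (L.dig y))) :
    realFam hc L.dig z = realFam hc' L.kV z' :=
  realFam_change L.q hc hc' z z' q_iff
    (shift_aux (z := fun i => (z i : Equiv.Perm (Om C))) (z' := fun i => (z' i : Equiv.Perm (Om C)))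
      q_iff (fun y hy => by rw [dig_neg_q hy]; exact h y hy))

/-- `F → V`, corner `(0,h)` -/
theorem real_FVp (z : ZMod L.n → PermOn (win C W)) (z' : ZMod L.n × Sta → PermOn (win C W'))
    (h : ∀ y ∈ L.D, (z' (L.dig y, L.st y) : Equiv.Perm (Om C)) = sh (-L.p) (z (L.dig y - 1))) :
    realFam hc L.dig z = realFam hc' L.kV z' :=
  realFam_change L.p hc hc' z z' p_iff
    (shift_aux (z := fun i => (z i : Equiv.Perm (Om C))) (z' := fun i => (z' i : Equiv.Perm (Om C)))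
      p_iff (fun y hy => by rw [dig_neg_p hy]; exact h y hy))

/-- `F → V`, corner `(w,h)` -/
theorem real_FVpq (z : ZMod L.n → PermOn (win C W)) (z' : ZMod L.n × Sta → PermOn (win C W'))
    (h : ∀ y ∈ L.D, (z' (L.dig y, L.st y) : Equiv.Perm (Om C)) =
      sh (-(L.p + L.q)) (z (L.dig y - 1))) :
    realFam hc L.dig z = realFam hc' L.kV z' :=
  realFam_change (L.p + L.q) hc hc' z z' pq_iff
    (shift_aux (z := fun i => (z i : Equiv.Perm (Om C))) (z' := fun i => (z' i : Equiv.Perm (Om C)))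
      pq_iff (fun y hy => by
        have e : L.dig (-(L.p + L.q) +ᵥ y) = L.dig y - 1 := by
          rw [neg_add, add_comm, add_vadd, dig_neg_q (neg_p_mem hy), dig_neg_p hy]
        rw [e]; exact h y hy))

/-- `F → F`, shifted by `q` -/
theorem real_FFq (z : ZMod L.n → PermOn (win C W)) (z' : ZMod L.n → PermOn (win C W'))
    (h : ∀ y ∈ L.D, (z' (L.dig y) : Equiv.Perm (Om C)) = sh (-L.q) (z (L.dig y))) :
    realFam hc L.dig z = realFam hc' L.dig z' :=
  realFam_change L.q hc hc' z z' q_iff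
    (shift_aux (z := fun i => (z i : Equiv.Perm (Om C))) (z' := fun i => (z' i : Equiv.Perm (Om C)))
      q_iff (fun y hy => by rw [dig_neg_q hy]; exact h y hy))

/-- `F → F`, shifted by `p` -/
theorem real_FFp (z : ZMod L.n → PermOn (win C W)) (z' : ZMod L.n → PermOn (win C W'))
    (h : ∀ y ∈ L.D, (z' (L.dig y) : Equiv.Perm (Om C)) = sh (-L.p) (z (L.dig y - 1))) :
    realFam hc L.dig z = realFam hc' L.dig z' :=
  realFam_change L.p hc hc' z z' p_iff
    (shift_aux (z := fun i => (z i : Equiv.Perm (Om C))) (z' := fun i => (z' i : Equiv.Perm (Om C)))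
      p_iff (fun y hy => by rw [dig_neg_p hy]; exact h y hy))

/-! #### refinements of `P` -/

/-- `P → V`, lower end -/
theorem real_PV (z : ZMod L.n × Lab → PermOn (win C W)) (z' : ZMod L.n × Sta → PermOn (win C W'))
    (h : ∀ y ∈ L.D, (z' (L.dig y, L.st y) : Equiv.Perm (Om C)) = z (L.dig y, L.sPf (L.st y))) :
    realFam hc L.kP z = realFam hc' L.kV z' :=
  realFam_window hc hc' z z' (fun y hy => by
    have e : L.kP y = (L.dig y, L.sPf (L.st y)) := by rw [← L.Pf_st y hy]; rfl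
    rw [e]; exact h y hy)

/-- `P → V`, upper end -/
theorem real_PVp (z : ZMod L.n × Lab → PermOn (win C W)) (z' : ZMod L.n × Sta → PermOn (win C W'))
    (h : ∀ y ∈ L.D, (z' (L.dig y, L.st y) : Equiv.Perm (Om C)) =
      sh (-L.p) (z (L.dig y - 1, L.sPb (L.st y)))) :
    realFam hc L.kP z = realFam hc' L.kV z' :=
  realFam_change L.p hc hc' z z' p_iff
    (shift_aux (z := fun i => (z i : Equiv.Perm (Om C))) (z' := fun i => (z' i : Equiv.Perm (Om C)))
      p_iff (fun y hy => by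
        have e : L.kP (-L.p +ᵥ y) = (L.dig y - 1, L.sPb (L.st y)) := by
          rw [← Pf_neg_p hy, ← dig_neg_p hy]; rfl
        rw [e]; exact h y hy))

/-! #### refinements of `Q` -/

/-- `Q → V`, left end -/
theorem real_QV (z : ZMod L.n × Lab → PermOn (win C W)) (z' : ZMod L.n × Sta → PermOn (win C W'))
    (h : ∀ y ∈ L.D, (z' (L.dig y, L.st y) : Equiv.Perm (Om C)) = z (L.dig y, L.sQf (L.st y))) :
    realFam hc L.kQ z = realFam hc' L.kV z' :=
  realFam_window hc hc' z z' (fun y hy => by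
    have e : L.kQ y = (L.dig y, L.sQf (L.st y)) := by rw [← L.Qf_st y hy]; rfl
    rw [e]; exact h y hy)

/-- `Q → V`, right end -/
theorem real_QVq (z : ZMod L.n × Lab → PermOn (win C W)) (z' : ZMod L.n × Sta → PermOn (win C W'))
    (h : ∀ y ∈ L.D, (z' (L.dig y, L.st y) : Equiv.Perm (Om C)) =
      sh (-L.q) (z (L.dig y, L.lft (L.dig y) (L.st y)))) :
    realFam hc L.kQ z = realFam hc' L.kV z' :=
  realFam_change L.q hc hc' z z' q_iff
    (shift_aux (z := fun i => (z i : Equiv.Perm (Om C))) (z' := fun i => (z' i : Equiv.Perm (Om C)))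
      q_iff (fun y hy => by
        have e : L.kQ (-L.q +ᵥ y) = (L.dig y, L.lft (L.dig y) (L.st y)) := by
          rw [← Qf_neg_q hy]
          change (L.dig (-L.q +ᵥ y), L.Qf (-L.q +ᵥ y)) = _
          rw [dig_neg_q hy]
        rw [e]; exact h y hy))


/-! #### the same rules for even permutations -/

theorem alt_FP (z : ZMod L.n → AltOn (win C W)) (z' : ZMod L.n × Lab → AltOn (win C W'))
    (h : ∀ y ∈ L.D, (z' (L.dig y, L.Pf y) : Equiv.Perm (Om C)) = z (L.dig y)) :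
    realAlt hc L.dig z = realAlt hc' L.kP z' :=
  real_FP hc hc' (altIncl _ _ z) (altIncl _ _ z') h

theorem alt_FPq (z : ZMod L.n → AltOn (win C W)) (z' : ZMod L.n × Lab → AltOn (win C W'))
    (h : ∀ y ∈ L.D, (z' (L.dig y, L.Pf y) : Equiv.Perm (Om C)) = sh (-L.q) (z (L.dig y))) :
    realAlt hc L.dig z = realAlt hc' L.kP z' :=
  real_FPq hc hc' (altIncl _ _ z) (altIncl _ _ z') h

theorem alt_FQ (z : ZMod L.n → AltOn (win C W)) (z' : ZMod L.n × Lab → AltOn (win C W'))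
    (h : ∀ y ∈ L.D, (z' (L.dig y, L.Qf y) : Equiv.Perm (Om C)) = z (L.dig y)) :
    realAlt hc L.dig z = realAlt hc' L.kQ z' :=
  real_FQ hc hc' (altIncl _ _ z) (altIncl _ _ z') h

theorem alt_FQp (z : ZMod L.n → AltOn (win C W)) (z' : ZMod L.n × Lab → AltOn (win C W'))
    (h : ∀ y ∈ L.D, (z' (L.dig y, L.Qf y) : Equiv.Perm (Om C)) =
      sh (-L.p) (z (L.dig y - 1))) :
    realAlt hc L.dig z = realAlt hc' L.kQ z' :=
  real_FQp hc hc' (altIncl _ _ z) (altIncl _ _ z') h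

theorem alt_FV (z : ZMod L.n → AltOn (win C W)) (z' : ZMod L.n × Sta → AltOn (win C W'))
    (h : ∀ y ∈ L.D, (z' (L.dig y, L.st y) : Equiv.Perm (Om C)) = z (L.dig y)) :
    realAlt hc L.dig z = realAlt hc' L.kV z' :=
  real_FV hc hc' (altIncl _ _ z) (altIncl _ _ z') h

theorem alt_FVq (z : ZMod L.n → AltOn (win C W)) (z' : ZMod L.n × Sta → AltOn (win C W'))
    (h : ∀ y ∈ L.D, (z' (L.dig y, L.st y) : Equiv.Perm (Om C)) = sh (-L.q) (z (L.dig y))) :
    realAlt hc L.dig z = realAlt hc' L.kV z' :=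
  real_FVq hc hc' (altIncl _ _ z) (altIncl _ _ z') h

theorem alt_FVp (z : ZMod L.n → AltOn (win C W)) (z' : ZMod L.n × Sta → AltOn (win C W'))
    (h : ∀ y ∈ L.D, (z' (L.dig y, L.st y) : Equiv.Perm (Om C)) =
      sh (-L.p) (z (L.dig y - 1))) :
    realAlt hc L.dig z = realAlt hc' L.kV z' :=
  real_FVp hc hc' (altIncl _ _ z) (altIncl _ _ z') h

theorem alt_FVpq (z : ZMod L.n → AltOn (win C W)) (z' : ZMod L.n × Sta → AltOn (win C W'))
    (h : ∀ y ∈ L.D, (z' (L.dig y, L.st y) : Equiv.Perm (Om C)) =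
      sh (-(L.p + L.q)) (z (L.dig y - 1))) :
    realAlt hc L.dig z = realAlt hc' L.kV z' :=
  real_FVpq hc hc' (altIncl _ _ z) (altIncl _ _ z') h

theorem alt_FFq (z : ZMod L.n → AltOn (win C W)) (z' : ZMod L.n → AltOn (win C W'))
    (h : ∀ y ∈ L.D, (z' (L.dig y) : Equiv.Perm (Om C)) = sh (-L.q) (z (L.dig y))) :
    realAlt hc L.dig z = realAlt hc' L.dig z' :=
  real_FFq hc hc' (altIncl _ _ z) (altIncl _ _ z') h

theorem alt_FFp (z : ZMod L.n → AltOn (win C W)) (z' : ZMod L.n → AltOn (win C W'))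
    (h : ∀ y ∈ L.D, (z' (L.dig y) : Equiv.Perm (Om C)) = sh (-L.p) (z (L.dig y - 1))) :
    realAlt hc L.dig z = realAlt hc' L.dig z' :=
  real_FFp hc hc' (altIncl _ _ z) (altIncl _ _ z') h

theorem alt_PV (z : ZMod L.n × Lab → AltOn (win C W)) (z' : ZMod L.n × Sta → AltOn (win C W'))
    (h : ∀ y ∈ L.D, (z' (L.dig y, L.st y) : Equiv.Perm (Om C)) =
      z (L.dig y, L.sPf (L.st y))) :
    realAlt hc L.kP z = realAlt hc' L.kV z' :=
  real_PV hc hc' (altIncl _ _ z) (altIncl _ _ z') h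

theorem alt_PVp (z : ZMod L.n × Lab → AltOn (win C W)) (z' : ZMod L.n × Sta → AltOn (win C W'))
    (h : ∀ y ∈ L.D, (z' (L.dig y, L.st y) : Equiv.Perm (Om C)) =
      sh (-L.p) (z (L.dig y - 1, L.sPb (L.st y)))) :
    realAlt hc L.kP z = realAlt hc' L.kV z' :=
  real_PVp hc hc' (altIncl _ _ z) (altIncl _ _ z') h

theorem alt_QV (z : ZMod L.n × Lab → AltOn (win C W)) (z' : ZMod L.n × Sta → AltOn (win C W'))
    (h : ∀ y ∈ L.D, (z' (L.dig y, L.st y) : Equiv.Perm (Om C)) =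
      z (L.dig y, L.sQf (L.st y))) :
    realAlt hc L.kQ z = realAlt hc' L.kV z' :=
  real_QV hc hc' (altIncl _ _ z) (altIncl _ _ z') h

theorem alt_QVq (z : ZMod L.n × Lab → AltOn (win C W)) (z' : ZMod L.n × Sta → AltOn (win C W'))
    (h : ∀ y ∈ L.D, (z' (L.dig y, L.st y) : Equiv.Perm (Om C)) =
      sh (-L.q) (z (L.dig y, L.lft (L.dig y) (L.st y)))) :
    realAlt hc L.kQ z = realAlt hc' L.kV z' :=
  real_QVq hc hc' (altIncl _ _ z) (altIncl _ _ z') h

/-! #### commutation over a level -/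

lemma dvd_of_vadd_eq {v v' : ℤ × ℤ} {y y' : X} (hy : y ∈ L.D) (hy' : y' ∈ L.D)
    (e : v +ᵥ y = v' +ᵥ y') : L.w ∣ v.1 - v'.1 ∧ L.h ∣ v.2 - v'.2 := by
  have e1 : (v - v') +ᵥ y ∈ L.D := by
    have : (v - v') +ᵥ y = y' := by
      rw [sub_eq_neg_add, ← vadd_vadd, e, neg_vadd_vadd]
    rw [this]; exact hy'
  exact (L.D_iff y hy _).1 e1

/-- positions of the moved points distinct modulo the lattice: the permutations commute -/
theorem real_commute_of {ι ι' : Type*} {κ : X → ι} {κ' : X → ι'}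
    (z : ι → PermOn (win C W)) (z' : ι' → PermOn (win C W'))
    (hd : ∀ v ∈ W, ∀ v' ∈ W', ∀ i i' c,
      (z i : Equiv.Perm (Om C)) (v, c) ≠ (v, c) → (z' i' : Equiv.Perm (Om C)) (v', c) ≠ (v', c) →
      ¬ (L.w ∣ v.1 - v'.1 ∧ L.h ∣ v.2 - v'.2)) :
    Commute (realFam hc κ z) (realFam hc' κ' z') :=
  realFam_commute_of hc hc' z z' (fun v hv v' hv' y hy y' hy' c h1 h2 e =>
    hd v hv v' hv' _ _ c h1 h2 (dvd_of_vadd_eq hy hy' e))

/-- windows disjoint modulo the lattice: the permutations commute (any kinds) -/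
theorem real_commute {ι ι' : Type*} {κ : X → ι} {κ' : X → ι'}
    (z : ι → PermOn (win C W)) (z' : ι' → PermOn (win C W'))
    (hd : ∀ v ∈ W, ∀ v' ∈ W', ¬ (L.w ∣ v.1 - v'.1 ∧ L.h ∣ v.2 - v'.2)) :
    Commute (realFam hc κ z) (realFam hc' κ' z') :=
  real_commute_of hc hc' z z' (fun v hv v' hv' _ _ _ _ _ => hd v hv v' hv')

theorem alt_commute_of {ι ι' : Type*} {κ : X → ι} {κ' : X → ι'}
    (z : ι → AltOn (win C W)) (z' : ι' → AltOn (win C W'))
    (hd : ∀ v ∈ W, ∀ v' ∈ W', ∀ i i' c,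
      (z i : Equiv.Perm (Om C)) (v, c) ≠ (v, c) → (z' i' : Equiv.Perm (Om C)) (v', c) ≠ (v', c) →
      ¬ (L.w ∣ v.1 - v'.1 ∧ L.h ∣ v.2 - v'.2)) :
    Commute (realAlt hc κ z) (realAlt hc' κ' z') :=
  real_commute_of hc hc' (altIncl _ _ z) (altIncl _ _ z') hd

theorem alt_commute {ι ι' : Type*} {κ : X → ι} {κ' : X → ι'}
    (z : ι → AltOn (win C W)) (z' : ι' → AltOn (win C W'))
    (hd : ∀ v ∈ W, ∀ v' ∈ W', ¬ (L.w ∣ v.1 - v'.1 ∧ L.h ∣ v.2 - v'.2)) :
    Commute (realAlt hc κ z) (realAlt hc' κ' z') :=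
  real_commute hc hc' (altIncl _ _ z) (altIncl _ _ z') hd

/-! #### injectivity over a level -/

theorem real_inj {ι : Type*} {κ : X → ι} {z z' : ι → PermOn (win C W)}
    (h : realFam hc κ z = realFam hc κ z') {y : X} (hy : y ∈ L.D) : z (κ y) = z' (κ y) :=
  realFam_inj L.free hc h hy

theorem alt_inj {ι : Type*} {κ : X → ι} {z z' : ι → AltOn (win C W)}
    (h : realAlt hc κ z = realAlt hc κ z') {y : X} (hy : y ∈ L.D) : z (κ y) = z' (κ y) :=
  realAlt_inj L.free hc h hy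

end Lev

end Crest.Agent.R189.K
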