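import Crest.Agent.R189.KSgn

/-!
# Row 189, part F: perfectness and generation of `AltOn S`, parity algebra
-/

set_option autoImplicit false

namespace Crest.Agent.R189.K

open Equiv Equiv.Perm

section perfect

theorem commutator_eq_top_of_mulEquiv {G H : Type*} [Group G] [Group H] (e : G ≃* H)
    (h : commutator H = ⊤) : commutator G = ⊤ := by
  have h1 : (commutator H).map e.symm.toMonoidHom = commutator G := by
    rw [commutator_def, Subgroup.map_commutator, commutator_def]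
    have : (⊤ : Subgroup H).map e.symm.toMonoidHom = ⊤ :=
      Subgroup.map_top_of_surjective _ e.symm.surjective
    rw [this]
  rw [← h1, h]
  exact Subgroup.map_top_of_surjective _ e.symm.surjective

/-- a finite product of perfect groups is perfect -/
theorem pi_perfect {ι : Type*} [Finite ι] {G : ι → Type*} [∀ i, Group (G i)]
    (h : ∀ i, commutator (G i) = ⊤) : commutator (∀ i, G i) = ⊤ := by
  have h1 := Subgroup.commutator_pi_pi_of_finite (Gs := G) (fun _ => ⊤) (fun _ => ⊤)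
  have h2 : Subgroup.pi Set.univ (fun i => (⊤ : Subgroup (G i))) = ⊤ := by
    ext x; simp [Subgroup.mem_pi]
  rw [h2] at h1
  rw [commutator_def, h1]
  ext x
  simp only [Subgroup.mem_pi, Set.mem_univ, forall_true_left, Subgroup.mem_top, iff_true]
  intro i
  have := h i
  rw [commutator_def] at this
  rw [this]
  trivial

theorem prod_perfect {G H : Type*} [Group G] [Group H] (hG : commutator G = ⊤)
    (hH : commutator H = ⊤) : commutator (G × H) = ⊤ := by
  have h1 := Subgroup.commutator_prod_prod (⊤ : Subgroup G) ⊤ (⊤ : Subgroup H) ⊤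
  rw [Subgroup.top_prod_top] at h1
  rw [commutator_def, h1]
  rw [commutator_def] at hG hH
  rw [hG, hH, Subgroup.top_prod_top]

variable {Ω : Type*} [DecidableEq Ω]

theorem AltOn_perfect {S : Finset Ω} (h : 5 ≤ S.card) : commutator (AltOn S) = ⊤ := by
  apply commutator_eq_top_of_mulEquiv (altEquiv S)
  apply commutator_alternatingGroup_eq_top
  rw [Nat.card_eq_fintype_card, Fintype.card_coe]
  exact h

theorem pi_AltOn_perfect {ι : Type*} [Finite ι] {S : ι → Finset Ω} (h : ∀ i, 5 ≤ (S i).card) :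
    commutator (∀ i, AltOn (S i)) = ⊤ := pi_perfect fun i => AltOn_perfect (h i)

/-- subgroup version: `⁅AltOn S, AltOn S⁆ = AltOn S` -/
theorem AltOn_commutator_self {S : Finset Ω} (h : 5 ≤ S.card) : ⁅AltOn S, AltOn S⁆ = AltOn S := by
  rw [← Subgroup.map_subtype_commutator, AltOn_perfect h, ← MonoidHom.range_eq_map,
    Subgroup.range_subtype]

end perfect

variable {Ω : Type*} [DecidableEq Ω]

/-! ## three cycles -/

/-- the 3-cycle `x → y → z → x` -/
def tc (x y z : Ω) : Equiv.Perm Ω := swap x y * swap y z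

theorem tc_apply_fst {x y z : Ω} (h1 : x ≠ y) (h2 : x ≠ z) : tc x y z x = y := by
  simp [tc, swap_apply_of_ne_of_ne h1 h2]
theorem tc_apply_snd {x y z : Ω} (h2 : x ≠ z) (h3 : y ≠ z) : tc x y z y = z := by
  simp [tc, swap_apply_of_ne_of_ne h2.symm h3.symm]
theorem tc_apply_thd {x y z : Ω} : tc x y z z = x := by
  simp [tc]
theorem tc_apply_of_ne {x y z w : Ω} (h1 : w ≠ x) (h2 : w ≠ y) (h3 : w ≠ z) : tc x y z w = w := by
  simp [tc, swap_apply_of_ne_of_ne h2 h3, swap_apply_of_ne_of_ne h1 h2]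

theorem tc_mem_PermOn {S : Finset Ω} {x y z : Ω} (hx : x ∈ S) (hy : y ∈ S) (hz : z ∈ S) :
    tc x y z ∈ PermOn S :=
  (PermOn S).mul_mem (swap_mem_PermOn hx hy) (swap_mem_PermOn hy hz)

theorem sgn_tc {x y z : Ω} (h1 : x ≠ y) (h3 : y ≠ z) : sgn (tc x y z) = 1 := by
  unfold tc
  rw [sgn_mul (S := {x, y}) (T := {y, z}) (swap_mem_PermOn (by simp) (by simp))
    (swap_mem_PermOn (by simp) (by simp)), sgn_swap h1, sgn_swap h3]
  rfl

theorem tc_mem_AltOn {S : Finset Ω} {x y z : Ω} (hx : x ∈ S) (hy : y ∈ S) (hz : z ∈ S)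
    (h1 : x ≠ y) (h3 : y ≠ z) : tc x y z ∈ AltOn S :=
  ⟨tc_mem_PermOn hx hy hz, sgn_tc h1 h3⟩

theorem conj_tc (σ : Equiv.Perm Ω) (x y z : Ω) : conj σ (tc x y z) = tc (σ x) (σ y) (σ z) := by
  unfold tc
  rw [conj_mul]
  have h : ∀ a b : Ω, conj σ (swap a b) = swap (σ a) (σ b) := by
    intro a b
    unfold conj
    rw [mul_swap_eq_swap_mul, mul_inv_cancel_right]
  rw [h, h]

/-- the set of 3-cycles on points of `S` -/
def tcSet (S : Finset Ω) : Set (Equiv.Perm Ω) :=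
  {π | ∃ x ∈ S, ∃ y ∈ S, ∃ z ∈ S, x ≠ y ∧ x ≠ z ∧ y ≠ z ∧ π = tc x y z}

theorem ofSubtype_swap' {p : Ω → Prop} [DecidablePred p] (a b : {x // p x}) :
    (Equiv.Perm.ofSubtype (swap a b) : Equiv.Perm Ω) = swap (a : Ω) (b : Ω) := by
  ext x
  by_cases hx : p x
  · rw [Equiv.Perm.ofSubtype_apply_of_mem _ hx, swap_apply_def, swap_apply_def]
    split_ifs with h1 h2 h3 h4 h5 <;> simp_all [Subtype.ext_iff]
  · rw [Equiv.Perm.ofSubtype_apply_of_not_mem _ hx, swap_apply_of_ne_of_ne]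
    · rintro rfl; exact hx a.2
    · rintro rfl; exact hx b.2

/-- `AltOn S` is generated by 3-cycles -/
theorem closure_tcSet (S : Finset Ω) : Subgroup.closure (tcSet S) = AltOn S := by
  apply le_antisymm
  · rw [Subgroup.closure_le]
    rintro _ ⟨x, hx, y, hy, z, hz, h1, h2, h3, rfl⟩
    exact tc_mem_AltOn hx hy hz h1 h3
  · intro π hπ
    have h1 : (altEquiv S ⟨π, hπ⟩ : Equiv.Perm {x // x ∈ S}) ∈
        Subgroup.closure {σ : Equiv.Perm {x // x ∈ S} | IsThreeCycle σ} := by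
      have h0 : (altEquiv S ⟨π, hπ⟩ : Equiv.Perm {x // x ∈ S}) ∈
        alternatingGroup {x // x ∈ S} := (altEquiv S ⟨π, hπ⟩).2
      generalize (altEquiv S ⟨π, hπ⟩ : Equiv.Perm {x // x ∈ S}) = ρ at h0
      rw [closure_three_cycles_eq_alternating]
      exact h0
    have h2 := Subgroup.mem_map_of_mem
      (Equiv.Perm.ofSubtype (p := fun x => x ∈ S)) h1
    rw [MonoidHom.map_closure] at h2
    have h3 : (Equiv.Perm.ofSubtype (p := fun x => x ∈ S))
        (altEquiv S ⟨π, hπ⟩ : Equiv.Perm {x // x ∈ S}) = π := by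
      have := congrArg Subtype.val ((altEquiv S).symm_apply_apply ⟨π, hπ⟩)
      exact this
    rw [h3] at h2
    refine Subgroup.closure_mono ?_ h2
    rintro _ ⟨σ, hσ, rfl⟩
    have hσ : σ.IsThreeCycle := hσ
    obtain ⟨a, ha⟩ : ∃ a, a ∈ σ.support := by
      by_contra hn
      push Not at hn
      have : σ.support = ∅ := Finset.eq_empty_of_forall_notMem hn
      have h5 := hσ.card_support
      rw [this] at h5
      simp at h5
    have h4 := hσ.eq_swap_mul_swap_iff_mem_support.mpr ha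
    have h5 := hσ.nodup_iff_mem_support.mpr ha
    simp only [List.nodup_cons, List.mem_cons, List.not_mem_nil, or_false, not_or,
      not_false_eq_true, List.nodup_nil, and_true] at h5
    refine ⟨a, a.2, σ a, (σ a).2, σ (σ a), (σ (σ a)).2, ?_, ?_, ?_, ?_⟩
    · exact fun h => h5.1.1 (Subtype.ext h)
    · exact fun h => h5.1.2 (Subtype.ext h)
    · exact fun h => h5.2 (Subtype.ext h)
    · conv_lhs => rw [h4]
      rw [map_mul, ofSubtype_swap', ofSubtype_swap']
      rfl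

/-- `AltOn S` is contained in `K` if `AltOn T ≤ K` for all `T ⊆ S` with at most 5 points -/
theorem AltOn_le_of_small {S : Finset Ω} {K : Subgroup (Equiv.Perm Ω)}
    (h : ∀ T ⊆ S, T.card ≤ 5 → AltOn T ≤ K) : AltOn S ≤ K := by
  rw [← closure_tcSet, Subgroup.closure_le]
  rintro _ ⟨x, hx, y, hy, z, hz, h1, h2, h3, rfl⟩
  refine h {x, y, z} ?_ ?_ (tc_mem_AltOn (by simp) (by simp) (by simp) h1 h3)
  · intro w hw
    simp only [Finset.mem_insert, Finset.mem_singleton] at hw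
    rcases hw with rfl | rfl | rfl
    · exact hx
    · exact hy
    · exact hz
  · exact (Finset.card_le_three).trans (by norm_num)

theorem AltOn_le_iff_tc {S : Finset Ω} {K : Subgroup (Equiv.Perm Ω)} :
    AltOn S ≤ K ↔ ∀ x ∈ S, ∀ y ∈ S, ∀ z ∈ S, x ≠ y → x ≠ z → y ≠ z → tc x y z ∈ K := by
  rw [← closure_tcSet, Subgroup.closure_le]
  constructor
  · intro h x hx y hy z hz h1 h2 h3
    exact h ⟨x, hx, y, hy, z, hz, h1, h2, h3, rfl⟩
  · rintro h _ ⟨x, hx, y, hy, z, hz, h1, h2, h3, rfl⟩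
    exact h x hx y hy z hz h1 h2 h3

/-- homomorphisms out of `AltOn S` are determined by the 3-cycles -/
theorem AltOn_hom_ext {S : Finset Ω} {H : Type*} [Group H] {f g : AltOn S →* H}
    (h : ∀ (x y z : Ω) (hx : x ∈ S) (hy : y ∈ S) (hz : z ∈ S) (h1 : x ≠ y) (_ : x ≠ z)
      (h3 : y ≠ z), f ⟨tc x y z, tc_mem_AltOn hx hy hz h1 h3⟩ =
        g ⟨tc x y z, tc_mem_AltOn hx hy hz h1 h3⟩) : f = g := by
  have h1 : AltOn S ≤ (f.eqLocus g).map (AltOn S).subtype := by
    rw [AltOn_le_iff_tc]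
    intro x hx y hy z hz h1 h2 h3
    exact ⟨⟨tc x y z, tc_mem_AltOn hx hy hz h1 h3⟩, h x y z hx hy hz h1 h2 h3, rfl⟩
  ext π
  obtain ⟨ρ, hρ, he⟩ := h1 π.2
  have : ρ = π := Subtype.ext he
  rw [← this]
  exact hρ

/-- induction principle for `AltOn S` -/
theorem AltOn_induction {S : Finset Ω} {P : Equiv.Perm Ω → Prop}
    (h1 : P 1) (hm : ∀ π ρ, π ∈ AltOn S → ρ ∈ AltOn S → P π → P ρ → P (π * ρ))
    (hi : ∀ π, π ∈ AltOn S → P π → P π⁻¹)
    (ht : ∀ x ∈ S, ∀ y ∈ S, ∀ z ∈ S, x ≠ y → x ≠ z → y ≠ z → P (tc x y z)) :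
    ∀ π ∈ AltOn S, P π := by
  let K : Subgroup (Equiv.Perm Ω) :=
    { carrier := {π | π ∈ AltOn S ∧ P π}
      one_mem' := ⟨(AltOn S).one_mem, h1⟩
      mul_mem' := fun ha hb => ⟨(AltOn S).mul_mem ha.1 hb.1, hm _ _ ha.1 hb.1 ha.2 hb.2⟩
      inv_mem' := fun ha => ⟨(AltOn S).inv_mem ha.1, hi _ ha.1 ha.2⟩ }
  have hK : AltOn S ≤ K := by
    rw [AltOn_le_iff_tc]
    intro x hx y hy z hz h1 h2 h3
    exact ⟨tc_mem_AltOn hx hy hz h1 h3, ht x hx y hy z hz h1 h2 h3⟩
  exact fun π hπ => (hK hπ).2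

/-! ## parity algebra -/

theorem sgn_eq_one_or (π : Equiv.Perm Ω) : sgn π = 1 ∨ sgn π = -1 := Int.units_eq_one_or _

/-- parity of a finitely supported permutation as a natural number `0` or `1` -/
noncomputable def parN (π : Equiv.Perm Ω) : ℕ := if sgn π = 1 then 0 else 1

theorem sgn_eq_pow_parN (π : Equiv.Perm Ω) : sgn π = (-1) ^ parN π := by
  unfold parN
  rcases sgn_eq_one_or π with h | h
  · rw [if_pos h, h, pow_zero]
  · rw [if_neg, h, pow_one]
    rw [h]; decide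

theorem parN_eq_iff {π ρ : Equiv.Perm Ω} : parN π = parN ρ ↔ sgn π = sgn ρ := by
  constructor
  · intro h; rw [sgn_eq_pow_parN, h, ← sgn_eq_pow_parN]
  · intro h; unfold parN; rw [h]

theorem sgn_pow {S : Finset Ω} {π : Equiv.Perm Ω} (h : π ∈ PermOn S) (n : ℕ) :
    sgn (π ^ n) = sgn π ^ n := by
  induction n with
  | zero => simp
  | succ n ih => rw [pow_succ, sgn_mul_on ((PermOn S).pow_mem h n) h, ih, pow_succ]

theorem sgn_eq_of_mul {A B : Finset Ω} {l u : Equiv.Perm Ω} (hl : l ∈ PermOn A)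
    (hu : u ∈ PermOn B) (h : sgn (l * u) = 1) : sgn l = sgn u := by
  rw [sgn_mul hl hu] at h
  rcases sgn_eq_one_or l with h1 | h1 <;> rcases sgn_eq_one_or u with h2 | h2 <;>
    rw [h1, h2] at h ⊢ <;> simp at h

theorem sgn_eq_of_mul_mem_AltOn {A B S : Finset Ω} {l u : Equiv.Perm Ω} (hl : l ∈ PermOn A)
    (hu : u ∈ PermOn B) (h : l * u ∈ AltOn S) : sgn l = sgn u := sgn_eq_of_mul hl hu h.2

/-- correcting the parity by a power of a swap -/
theorem mul_swap_pow_mem_AltOn {A : Finset Ω} {l : Equiv.Perm Ω} (hl : l ∈ PermOn A) {x y : Ω}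
    (hx : x ∈ A) (hy : y ∈ A) (hxy : x ≠ y) {s : ℕ} (hs : sgn l = (-1) ^ s) :
    l * swap x y ^ s ∈ AltOn A := by
  have ht := swap_mem_PermOn hx hy
  refine ⟨(PermOn A).mul_mem hl ((PermOn A).pow_mem ht s), ?_⟩
  rw [sgn_mul_on hl ((PermOn A).pow_mem ht s), sgn_pow ht, sgn_swap hxy, hs, ← pow_add,
    ← two_mul, pow_mul]
  simp

theorem mul_pow_mem_AltOn {A : Finset Ω} {l t : Equiv.Perm Ω} (hl : l ∈ PermOn A)
    (ht : t ∈ PermOn A) (htt : sgn t = -1) {s : ℕ} (hs : sgn l = (-1) ^ s) :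
    l * t ^ s ∈ AltOn A := by
  refine ⟨(PermOn A).mul_mem hl ((PermOn A).pow_mem ht s), ?_⟩
  rw [sgn_mul_on hl ((PermOn A).pow_mem ht s), sgn_pow ht, htt, hs, ← pow_add,
    ← two_mul, pow_mul]
  simp

omit [DecidableEq Ω] in
theorem mul_pow_mul_pow_self {l t : Equiv.Perm Ω} (h2 : t * t = 1) (s : ℕ) :
    l * t ^ s * t ^ s = l := by
  rw [mul_assoc, ← pow_add, ← two_mul, pow_mul, pow_two, h2, one_pow, mul_one]

/-- `l u = (l t^s) (u t'^s) (t t')^s` for `l, t` on `A`, `u, t'` on `B`, `A`, `B` disjoint -/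
theorem split_parity {A B : Finset Ω} (hd : Disjoint A B) {l u t t' : Equiv.Perm Ω}
    (hu : u ∈ PermOn B) (ht : t ∈ PermOn A) (ht' : t' ∈ PermOn B)
    (h2 : t * t = 1) (h2' : t' * t' = 1) (s : ℕ) :
    l * u = (l * t ^ s) * (u * t' ^ s) * (t * t') ^ s := by
  have c1 : Commute t u := commute_of_disjoint hd ht hu
  have c2 : Commute t t' := commute_of_disjoint hd ht ht'
  have c3 : Commute (t ^ s) (u * t' ^ s) := (c1.pow_left s).mul_right (c2.pow_pow s s)
  calc l * u = (l * t ^ s * t ^ s) * (u * t' ^ s * t' ^ s) := by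
        rw [mul_pow_mul_pow_self h2, mul_pow_mul_pow_self h2']
    _ = (l * t ^ s) * (t ^ s * (u * t' ^ s)) * t' ^ s := by simp only [mul_assoc]
    _ = (l * t ^ s) * ((u * t' ^ s) * t ^ s) * t' ^ s := by rw [c3.eq]
    _ = (l * t ^ s) * (u * t' ^ s) * (t * t') ^ s := by
        rw [c2.mul_pow]; simp only [mul_assoc]

/-- the product of two disjoint swaps, to the power `s`, is even -/
theorem swap_mul_swap_pow_mem {S : Finset Ω} {x y x' y' : Ω} (hx : x ∈ S) (hy : y ∈ S)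
    (hx' : x' ∈ S) (hy' : y' ∈ S) (h : x ≠ y) (h' : x' ≠ y') (s : ℕ) :
    (swap x y * swap x' y') ^ s ∈ AltOn S := by
  apply (AltOn S).pow_mem
  refine ⟨(PermOn S).mul_mem (swap_mem_PermOn hx hy) (swap_mem_PermOn hx' hy'), ?_⟩
  rw [sgn_mul_on (swap_mem_PermOn hx hy) (swap_mem_PermOn hx' hy'), sgn_swap h, sgn_swap h']
  rfl

/-! ## supports -/

theorem PermOn_inter {S T : Finset Ω} {π : Equiv.Perm Ω} (h : π ∈ PermOn S) (h' : π ∈ PermOn T) :
    π ∈ PermOn (S ∩ T) := by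
  intro x hx
  rw [Finset.mem_inter, not_and_or] at hx
  rcases hx with hx | hx
  · exact h x hx
  · exact h' x hx

omit [DecidableEq Ω] in
theorem PermOn_empty {π : Equiv.Perm Ω} : π ∈ PermOn (∅ : Finset Ω) ↔ π = 1 := by
  constructor
  · intro h
    ext x
    exact h x (by simp)
  · rintro rfl
    exact (PermOn _).one_mem

theorem AltOn_inter {S T : Finset Ω} {π : Equiv.Perm Ω} (h : π ∈ AltOn S) (h' : π ∈ PermOn T) :
    π ∈ AltOn (S ∩ T) := ⟨PermOn_inter h.1 h', h.2⟩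

theorem mem_AltOn_of {S : Finset Ω} {π : Equiv.Perm Ω} (h : π ∈ PermOn S) (h' : sgn π = 1) :
    π ∈ AltOn S := ⟨h, h'⟩

/-- a permutation of `A ∪ B` (disjoint) preserving `A` is a product of its two parts -/
theorem part_mul_part {A B : Finset Ω} (hd : Disjoint A B) {π : Equiv.Perm Ω}
    (hπ : π ∈ PermOn (A ∪ B)) (hA : ∀ x ∈ A, π x ∈ A) :
    part A π ∈ PermOn A ∧ part B π ∈ PermOn B ∧ part A π * part B π = π := by
  have hA' := inv_of_maps hA
  have hB : ∀ x ∈ B, π x ∈ B := by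
    intro x hx
    have h1 : π x ∈ A ∪ B := (on_mem_iff hπ x).2 (Finset.mem_union_right _ hx)
    rcases Finset.mem_union.1 h1 with h2 | h2
    · exact absurd ((hA' x).1 h2) (Finset.disjoint_right.1 hd hx)
    · exact h2
  have hB' := inv_of_maps hB
  refine ⟨part_mem _ _, part_mem _ _, ?_⟩
  ext x
  rw [Equiv.Perm.coe_mul, Function.comp_apply]
  by_cases hxB : x ∈ B
  · rw [part_apply hB' hxB, part_mem A π _ (Finset.disjoint_right.1 hd (hB x hxB))]
  · rw [part_mem B π x hxB]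
    by_cases hxA : x ∈ A
    · rw [part_apply hA' hxA]
    · rw [part_mem A π x hxA, hπ x]
      simp [hxA, hxB]

end Crest.Agent.R189.K
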