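import Crest.Agent.R189.KDefs
import Crest.Agent.R189.KSwap
import Crest.Agent.R189.UP

/-!
# Row 189, part F (kernel): sections (helper503)

* `rv L κ z`: concrete permutation of `X × C` of a RAW family `z : ι → Perm (Om C)` (total; meaningful
  when all `z i ∈ PermOn (win C W)` for one `W` with `L.Dist W`).
* `SecSys L C q κ`: a system of homs `s W hW : (ι → AltOn (win C W)) →* T` lifting `realAlt`.
* `S.val z : T` of a raw family (total; meaningful when all `z i ∈ AltOn (win C W)`).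
Rules: `val_eq, val_mul, val_inv, q_val, val_congr, val_inj, val_move, val_commute`.
-/

set_option autoImplicit false
set_option linter.unusedSectionVars false

namespace Crest.Agent.R189.K

open Equiv Equiv.Perm

variable {X Lab Sta C : Type*} [AddAction (ℤ × ℤ) X] [Fintype C] [DecidableEq C]
variable {ι ι' : Type*}

section misc

/-- `Dist` is translation invariant -/
lemma Lev.Dist.map {L : Lev X Lab Sta} {W : Finset (ℤ × ℤ)} (h : L.Dist W) (u : ℤ × ℤ) :
    L.Dist (W.image (fun v => v - u)) := by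
  intro v hv v' hv' h1 h2
  simp only [Finset.mem_image] at hv hv'
  obtain ⟨a, ha, rfl⟩ := hv
  obtain ⟨b, hb, rfl⟩ := hv'
  have := h a ha b hb (by simpa using h1) (by simpa using h2)
  rw [this]

lemma sh_mem_PermOn {W : Finset (ℤ × ℤ)} {z : Equiv.Perm (Om C)} (h : z ∈ PermOn (win C W))
    (u : ℤ × ℤ) : sh (-u) z ∈ PermOn (win C (W.image (fun v => v - u))) := by
  intro p hp
  have h1 : (p.1 + u, p.2) ∉ win C W := by
    intro h1
    apply hp
    rw [mem_win] at *
    exact Finset.mem_image.2 ⟨_, h1, by simp⟩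
  have h2 := h _ h1
  rw [sh_apply]
  simp only [sub_neg_eq_add]
  rw [h2]
  simp

lemma sh_mem_AltOn {W : Finset (ℤ × ℤ)} {z : Equiv.Perm (Om C)} (h : z ∈ AltOn (win C W))
    (u : ℤ × ℤ) : sh (-u) z ∈ AltOn (win C (W.image (fun v => v - u))) := by
  refine ⟨sh_mem_PermOn h.1 u, ?_⟩
  have := conj_mem_AltOn h (tr (C := C) (-u))
  exact this.2

end misc

/-! ### concrete values of raw families -/

section rv

variable (L : Lev X Lab Sta) (κ : X → ι)

open Classical in
/-- concrete value of a raw family -/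
noncomputable def rv (z : ι → Equiv.Perm (Om C)) : Equiv.Perm (X × C) :=
  if h : ∃ W, ∃ _ : L.Dist W, ∀ i, z i ∈ PermOn (win C W) then
    realFam h.choose_spec.choose.cell κ (fun i => ⟨z i, h.choose_spec.choose_spec i⟩)
  else 1

variable {L κ}

lemma rf_mono {W W' : Finset (ℤ × ℤ)} (hW : Cell L.D W) (hW' : Cell L.D W') (hs : W ⊆ W')
    (z : ι → Equiv.Perm (Om C)) (hz : ∀ i, z i ∈ PermOn (win C W))
    (hz' : ∀ i, z i ∈ PermOn (win C W')) :
    realFam hW κ (fun i => ⟨z i, hz i⟩) = realFam hW' κ (fun i => ⟨z i, hz' i⟩) := by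
  ext1 p
  rcases real_cases L.D W p with ⟨v, hv, x, hx, hp⟩ | h
  · rw [hp, realFam_apply hW _ _ hv hx, realFam_apply hW' _ _ (hs hv) hx]
  · rw [realFam_off hW _ _ h]
    rcases real_cases L.D W' p with ⟨v, hv, x, hx, hp⟩ | h'
    · rw [hp, realFam_apply hW' _ _ hv hx]
      have hvW : v ∉ W := by
        intro hvW
        apply h v hvW
        rw [hp]; simpa using hx
      have h1 : z (κ x) (v, p.2) = (v, p.2) := hz _ _ (by simpa using hvW)
      simp [h1]
    · rw [realFam_off hW' _ _ h']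

lemma rf_window {W W' : Finset (ℤ × ℤ)} (hW : Cell L.D W) (hW' : Cell L.D W')
    (z : ι → Equiv.Perm (Om C)) (hz : ∀ i, z i ∈ PermOn (win C W))
    (hz' : ∀ i, z i ∈ PermOn (win C W')) :
    realFam hW κ (fun i => ⟨z i, hz i⟩) = realFam hW' κ (fun i => ⟨z i, hz' i⟩) := by
  have hi : ∀ i, z i ∈ PermOn (win C (W ∩ W')) := by
    intro i
    have := PermOn_inter (hz i) (hz' i)
    refine PermOn_mono ?_ this
    intro p hp
    simp only [Finset.mem_inter, mem_win] at *
    exact hp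
  rw [← rf_mono (hW.mono Finset.inter_subset_left) hW Finset.inter_subset_left z hi hz,
    ← rf_mono (hW.mono Finset.inter_subset_left) hW' Finset.inter_subset_right z hi hz']

lemma rv_eq {W : Finset (ℤ × ℤ)} (hW : L.Dist W) {z : ι → Equiv.Perm (Om C)}
    (hz : ∀ i, z i ∈ PermOn (win C W)) :
    rv L κ z = realFam hW.cell κ (fun i => ⟨z i, hz i⟩) := by
  have h : ∃ W, ∃ _ : L.Dist W, ∀ i, z i ∈ PermOn (win C W) := ⟨W, hW, hz⟩
  rw [rv, dif_pos h]
  exact rf_window _ _ z _ _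

lemma rv_eq_alt {W : Finset (ℤ × ℤ)} (hW : L.Dist W) {z : ι → Equiv.Perm (Om C)}
    (hz : ∀ i, z i ∈ AltOn (win C W)) :
    rv L κ z = realAlt hW.cell κ (fun i => ⟨z i, hz i⟩) :=
  rv_eq hW (fun i => (hz i).1)

lemma rv_apply {W : Finset (ℤ × ℤ)} (hW : L.Dist W) {z : ι → Equiv.Perm (Om C)}
    (hz : ∀ i, z i ∈ PermOn (win C W)) {v : ℤ × ℤ} (hv : v ∈ W) {x : X} (hx : x ∈ L.D) (c : C) :
    rv L κ z (v +ᵥ x, c) = ((z (κ x) (v, c)).1 +ᵥ x, (z (κ x) (v, c)).2) := by
  rw [rv_eq hW hz, realFam_apply hW.cell κ _ hv hx]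

lemma rv_off {W : Finset (ℤ × ℤ)} (hW : L.Dist W) {z : ι → Equiv.Perm (Om C)}
    (hz : ∀ i, z i ∈ PermOn (win C W)) {p : X × C} (h : ∀ v ∈ W, -v +ᵥ p.1 ∉ L.D) :
    rv L κ z p = p := by
  rw [rv_eq hW hz, realFam_off hW.cell κ _ h]

lemma rv_mul {W : Finset (ℤ × ℤ)} (hW : L.Dist W) {z z' : ι → Equiv.Perm (Om C)}
    (hz : ∀ i, z i ∈ PermOn (win C W)) (hz' : ∀ i, z' i ∈ PermOn (win C W)) :
    rv L κ (fun i => z i * z' i) = rv L κ z * rv L κ z' := by
  rw [rv_eq hW hz, rv_eq hW hz', ← map_mul,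
    rv_eq hW (fun i => (PermOn _).mul_mem (hz i) (hz' i))]
  rfl

@[simp] lemma rv_one : rv L κ (fun _ => (1 : Equiv.Perm (Om C))) = 1 := by
  have hW : L.Dist ∅ := by intro v hv; simp at hv
  rw [rv_eq hW (fun i => (PermOn _).one_mem)]
  exact map_one (realFam hW.cell κ)

lemma rv_inv {W : Finset (ℤ × ℤ)} (hW : L.Dist W) {z : ι → Equiv.Perm (Om C)}
    (hz : ∀ i, z i ∈ PermOn (win C W)) :
    rv L κ (fun i => (z i)⁻¹) = (rv L κ z)⁻¹ := by
  rw [eq_inv_iff_mul_eq_one, ← rv_mul hW (fun i => (PermOn _).inv_mem (hz i)) hz]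
  simp

/-- only the occurring indices matter (concrete) -/
lemma rv_congr {W : Finset (ℤ × ℤ)} (hW : L.Dist W) {z z' : ι → Equiv.Perm (Om C)}
    (hz : ∀ i, z i ∈ PermOn (win C W)) (hz' : ∀ i, z' i ∈ PermOn (win C W))
    (h : ∀ x ∈ L.D, z (κ x) = z' (κ x)) : rv L κ z = rv L κ z' := by
  ext1 p
  rcases real_cases L.D W p with ⟨v, hv, x, hx, hp⟩ | h'
  · rw [hp, rv_apply hW hz hv hx, rv_apply hW hz' hv hx, h x hx]
  · rw [rv_off hW hz h', rv_off hW hz' h']

/-- the concrete value determines the family at occurring indices -/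
lemma rv_inj {W : Finset (ℤ × ℤ)} (hW : L.Dist W) {z z' : ι → Equiv.Perm (Om C)}
    (hz : ∀ i, z i ∈ PermOn (win C W)) (hz' : ∀ i, z' i ∈ PermOn (win C W))
    (h : rv L κ z = rv L κ z') {x : X} (hx : x ∈ L.D) : z (κ x) = z' (κ x) := by
  have hfree : ∀ (v v' : ℤ × ℤ), v +ᵥ x = v' +ᵥ x → v = v' := by
    intro v v' e
    have : (-v' + v) +ᵥ x = x := by rw [← vadd_vadd, e, neg_vadd_vadd]
    have := L.free _ _ this
    rw [neg_add_eq_zero] at this
    exact this.symm
  ext1 p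
  obtain ⟨v, c⟩ := p
  by_cases hv : v ∈ W
  · have h1 := rv_apply (κ := κ) hW hz hv hx c
    rw [h, rv_apply (κ := κ) hW hz' hv hx c] at h1
    simp only [Prod.mk.injEq] at h1
    exact (Prod.ext (hfree _ _ h1.1) h1.2).symm
  · have hb : (v, c) ∉ win C W := by simpa using hv
    rw [hz _ _ hb, hz' _ _ hb]

/-- change of kind and base point (concrete): position `v` rel. `x` = position `v - u` rel. `u + x` -/
lemma rv_move {κ' : X → ι'} {W : Finset (ℤ × ℤ)} (hW : L.Dist W) (u : ℤ × ℤ)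
    (hu : L.w ∣ u.1 ∧ L.h ∣ u.2) (ρ : ι' → ι) (hρ : ∀ x ∈ L.D, ρ (κ' (u +ᵥ x)) = κ x)
    {z : ι → Equiv.Perm (Om C)} (hz : ∀ i, z i ∈ PermOn (win C W)) :
    rv L κ z = rv L κ' (fun i' => sh (-u) (z (ρ i'))) := by
  have hz' : ∀ i', sh (-u) (z (ρ i')) ∈ PermOn (win C (W.image (fun v => v - u))) :=
    fun i' => sh_mem_PermOn (hz _) u
  ext1 p
  rcases real_cases L.D W p with ⟨v, hv, x, hx, hp⟩ | h
  · have hx' : u +ᵥ x ∈ L.D := (L.D_iff x hx u).2 hu
    rw [hp, rv_apply hW hz hv hx]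
    have e : v +ᵥ x = (v - u) +ᵥ (u +ᵥ x) := by rw [vadd_vadd]; simp
    rw [e, rv_apply (hW.map u) hz' (Finset.mem_image_of_mem _ hv) hx', hρ x hx, sh_apply]
    simp only [sub_neg_eq_add, sub_add_cancel, vadd_vadd, neg_add_cancel_right]
  · rw [rv_off hW hz h, rv_off (hW.map u) hz']
    intro v' hv' hp
    obtain ⟨v, hv, rfl⟩ := Finset.mem_image.1 hv'
    apply h v hv
    have h1 := (L.D_iff _ hp (-u)).2 (by simpa using hu)
    rw [vadd_vadd] at h1
    have e : -u + -(v - u) = -v := by abel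
    rw [e] at h1
    exact h1

/-- disjoint windows (mod the lattice) commute (concrete) -/
lemma rv_commute {κ' : X → ι'} {W W' : Finset (ℤ × ℤ)} (hW : L.Dist W) (hW' : L.Dist W')
    {z : ι → Equiv.Perm (Om C)} {z' : ι' → Equiv.Perm (Om C)}
    (hz : ∀ i, z i ∈ PermOn (win C W)) (hz' : ∀ i, z' i ∈ PermOn (win C W'))
    (hd : ∀ v ∈ W, ∀ v' ∈ W', ¬ (L.w ∣ v.1 - v'.1 ∧ L.h ∣ v.2 - v'.2)) :
    Commute (rv L κ z) (rv L κ' z') := by
  have key : ∀ v ∈ W, ∀ v' ∈ W', ∀ x ∈ L.D, -v' +ᵥ (v +ᵥ x) ∉ L.D := by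
    intro v hv v' hv' x hx h
    rw [vadd_vadd] at h
    have := (L.D_iff x hx _).1 h
    apply hd v hv v' hv'
    simpa [neg_add_eq_sub] using this
  have key' : ∀ v' ∈ W', ∀ v ∈ W, ∀ x ∈ L.D, -v +ᵥ (v' +ᵥ x) ∉ L.D := by
    intro v' hv' v hv x hx h
    have h2 : -v' +ᵥ (v +ᵥ (-v +ᵥ (v' +ᵥ x))) ∈ L.D := by simpa using hx
    exact key v hv v' hv' _ h h2
  ext1 p
  rw [Equiv.Perm.mul_apply, Equiv.Perm.mul_apply]
  rcases real_cases L.D W p with ⟨v, hv, x, hx, hp⟩ | h
  · have h2 : (z (κ x) (v, p.2)).1 ∈ W := by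
      have := (on_mem_iff (hz (κ x)) (v, p.2)).2 (by simpa using hv)
      simpa using this
    rw [hp, rv_off hW' hz' (fun v' hv' => key v hv v' hv' x hx), rv_apply hW hz hv hx,
      rv_off hW' hz' (fun v' hv' => key _ h2 v' hv' x hx)]
  · rw [rv_off hW hz h]
    rcases real_cases L.D W' p with ⟨v', hv', x, hx, hp⟩ | h'
    · have h2 : (z' (κ' x) (v', p.2)).1 ∈ W' := by
        have := (on_mem_iff (hz' (κ' x)) (v', p.2)).2 (by simpa using hv')
        simpa using this
      rw [hp, rv_apply hW' hz' hv' hx, rv_off hW hz (fun v hv => key' _ h2 v hv x hx)]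
    · rw [rv_off hW' hz' h', rv_off hW hz h]

end rv

/-! ### systems of sections -/

variable {T : Type*} [Group T]

/-- A system of `T`-sections of kind `κ`: for every window `W` with `L.Dist W` a homomorphism
`(ι → Alt (W × C)) →* T` lifting `realAlt`; `ker q` central and `5 ≤ |C|` are included. -/
structure SecSys (L : Lev X Lab Sta) (C : Type*) [Fintype C] [DecidableEq C]
    (q : T →* Equiv.Perm (X × C)) (κ : X → ι) where
  s : ∀ W : Finset (ℤ × ℤ), L.Dist W → (ι → AltOn (win C W)) →* T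
  q_s : ∀ (W : Finset (ℤ × ℤ)) (hW : L.Dist W) (z : ι → AltOn (win C W)),
    q (s W hW z) = realAlt hW.cell κ z
  cen : q.ker ≤ Subgroup.center T
  five : 5 ≤ Fintype.card C

/-- the family groups are perfect -/
lemma pi_win_perfect [Finite ι] (hC : 5 ≤ Fintype.card C) (W : Finset (ℤ × ℤ)) :
    commutator (ι → AltOn (win C W)) = ⊤ := by
  by_cases hW : W.Nonempty
  · apply pi_AltOn_perfect
    intro _
    rw [win, Finset.card_product, Finset.card_univ]
    have := hW.card_pos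
    nlinarith
  · rw [Finset.not_nonempty_iff_eq_empty] at hW
    subst hW
    apply pi_perfect
    intro _
    have : Subsingleton (AltOn (win C (∅ : Finset (ℤ × ℤ)))) := by
      constructor
      intro a b
      apply Subtype.ext
      have ha := a.2.1
      have hb := b.2.1
      simp only [win, Finset.empty_product] at ha hb
      rw [PermOn_empty.1 ha, PermOn_empty.1 hb]
    exact Subsingleton.elim _ _

namespace SecSys

variable {L : Lev X Lab Sta} {q : T →* Equiv.Perm (X × C)} {κ : X → ι} {κ' : X → ι'}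

open Classical in
/-- `T`-value of a raw family -/
noncomputable def val (S : SecSys L C q κ) (z : ι → Equiv.Perm (Om C)) : T :=
  if h : ∃ W, ∃ _ : L.Dist W, ∀ i, z i ∈ AltOn (win C W) then
    S.s _ h.choose_spec.choose (fun i => ⟨z i, h.choose_spec.choose_spec i⟩)
  else 1

/-- inclusion of windows -/
def inclW {W W' : Finset (ℤ × ℤ)} (ι : Type*) (hs : W ⊆ W') :
    (ι → AltOn (win C W)) →* (ι → AltOn (win C W')) where
  toFun z i := ⟨(z i).1, AltOn_mono (win_mono hs) (z i).2⟩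
  map_one' := rfl
  map_mul' _ _ := rfl

variable [Finite ι] [Finite ι']

lemma s_mono (S : SecSys L C q κ) {W W' : Finset (ℤ × ℤ)} (hW : L.Dist W) (hW' : L.Dist W')
    (hs : W ⊆ W') (z : ι → AltOn (win C W)) : S.s W hW z = S.s W' hW' (inclW ι hs z) := by
  refine UP.restrict_of S.cen (pi_win_perfect S.five W) (S.s W hW) (S.s W' hW') (inclW ι hs) ?_ z
  intro z
  rw [S.q_s, S.q_s]
  exact rf_mono hW.cell hW'.cell hs (fun i => (z i).1) (fun i => (z i).2.1) _

lemma val_eq (S : SecSys L C q κ) {W : Finset (ℤ × ℤ)} (hW : L.Dist W)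
    {z : ι → Equiv.Perm (Om C)} (hz : ∀ i, z i ∈ AltOn (win C W)) :
    S.val z = S.s W hW (fun i => ⟨z i, hz i⟩) := by
  have h : ∃ W, ∃ _ : L.Dist W, ∀ i, z i ∈ AltOn (win C W) := ⟨W, hW, hz⟩
  rw [val, dif_pos h]
  set W' := h.choose with hW'def
  have hW' : L.Dist W' := h.choose_spec.choose
  have hz' : ∀ i, z i ∈ AltOn (win C W') := h.choose_spec.choose_spec
  have hi : ∀ i, z i ∈ AltOn (win C (W ∩ W')) := by
    intro i
    have := AltOn_inter (hz i) (hz' i).1
    refine AltOn_mono ?_ this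
    intro p hp
    simp only [Finset.mem_inter, mem_win] at *
    exact hp
  have hWi : L.Dist (W ∩ W') := hW.mono Finset.inter_subset_left
  have e1 := S.s_mono hWi hW Finset.inter_subset_left (fun i => ⟨z i, hi i⟩)
  have e2 := S.s_mono hWi hW' Finset.inter_subset_right (fun i => ⟨z i, hi i⟩)
  exact e2.symm.trans e1

lemma q_val (S : SecSys L C q κ) {W : Finset (ℤ × ℤ)} (hW : L.Dist W)
    {z : ι → Equiv.Perm (Om C)} (hz : ∀ i, z i ∈ AltOn (win C W)) :
    q (S.val z) = rv L κ z := by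
  rw [S.val_eq hW hz, S.q_s, rv_eq_alt hW hz]

lemma val_mul (S : SecSys L C q κ) {W : Finset (ℤ × ℤ)} (hW : L.Dist W)
    {z z' : ι → Equiv.Perm (Om C)} (hz : ∀ i, z i ∈ AltOn (win C W))
    (hz' : ∀ i, z' i ∈ AltOn (win C W)) :
    S.val (fun i => z i * z' i) = S.val z * S.val z' := by
  rw [S.val_eq hW hz, S.val_eq hW hz', ← map_mul,
    S.val_eq hW (fun i => (AltOn _).mul_mem (hz i) (hz' i))]
  rfl

@[simp] lemma val_one (S : SecSys L C q κ) : S.val (fun _ => (1 : Equiv.Perm (Om C))) = 1 := by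
  have hW : L.Dist ∅ := by intro v hv; simp at hv
  rw [S.val_eq hW (fun i => (AltOn _).one_mem)]
  exact map_one (S.s ∅ hW)

lemma val_inv (S : SecSys L C q κ) {W : Finset (ℤ × ℤ)} (hW : L.Dist W)
    {z : ι → Equiv.Perm (Om C)} (hz : ∀ i, z i ∈ AltOn (win C W)) :
    S.val (fun i => (z i)⁻¹) = (S.val z)⁻¹ := by
  rw [eq_inv_iff_mul_eq_one, ← S.val_mul hW (fun i => (AltOn _).inv_mem (hz i)) hz]
  simp

/-- General comparison: `α` a homomorphism of raw families, `x : T`; if `q x` conjugates the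
concrete values then `x` conjugates the `T`-values. -/
lemma val_intertwine (S : SecSys L C q κ) (S' : SecSys L C q κ') {W W' : Finset (ℤ × ℤ)}
    (hW : L.Dist W) (hW' : L.Dist W') (x : T)
    (α : (ι → Equiv.Perm (Om C)) → (ι' → Equiv.Perm (Om C)))
    (hα : ∀ z, (∀ i, z i ∈ AltOn (win C W)) → ∀ i', α z i' ∈ AltOn (win C W'))
    (hαm : ∀ z z', α (fun i => z i * z' i) = fun i' => α z i' * α z' i')
    (h : ∀ z, (∀ i, z i ∈ AltOn (win C W)) → q x * rv L κ z * (q x)⁻¹ = rv L κ' (α z))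
    {z : ι → Equiv.Perm (Om C)} (hz : ∀ i, z i ∈ AltOn (win C W)) :
    x * S.val z * x⁻¹ = S'.val (α z) := by
  let A : (ι → AltOn (win C W)) →* (ι' → AltOn (win C W')) :=
    { toFun := fun z i' => ⟨α (fun i => (z i).1) i', hα _ (fun i => (z i).2) i'⟩
      map_one' := by
        funext i'
        apply Subtype.ext
        have := congrFun (hαm (fun _ => 1) (fun _ => 1)) i'
        simp only [mul_one] at this
        exact left_eq_mul.1 this
      map_mul' := by
        intro a b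
        funext i'
        apply Subtype.ext
        exact congrFun (hαm (fun i => (a i).1) (fun i => (b i).1)) i' }
  have := UP.intertwine S.cen (pi_win_perfect S.five W) x (S.s W hW) (S'.s W' hW') A ?_
    (fun i => ⟨z i, hz i⟩)
  · rw [S.val_eq hW hz, S'.val_eq hW' (hα _ hz)]
    exact this
  · intro z
    rw [S.q_s, S'.q_s]
    have e1 := h (fun i => (z i).1) (fun i => (z i).2)
    rw [rv_eq_alt hW (fun i => (z i).2), rv_eq_alt hW' (hα _ (fun i => (z i).2))] at e1
    exact e1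

/-- only the occurring indices matter -/
lemma val_congr (S : SecSys L C q κ) {W : Finset (ℤ × ℤ)} (hW : L.Dist W)
    {z z' : ι → Equiv.Perm (Om C)} (hz : ∀ i, z i ∈ AltOn (win C W))
    (hz' : ∀ i, z' i ∈ AltOn (win C W)) (h : ∀ x ∈ L.D, z (κ x) = z' (κ x)) :
    S.val z = S.val z' := by
  classical
  -- families supported on the non occurring indices are trivial
  let α : (ι → Equiv.Perm (Om C)) → (ι → Equiv.Perm (Om C)) :=
    fun z i => if ∃ x ∈ L.D, κ x = i then z i else 1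
  have hαz : ∀ z : ι → Equiv.Perm (Om C), (∀ i, z i ∈ AltOn (win C W)) →
      ∀ i, α z i ∈ AltOn (win C W) := by
    intro z hz i
    simp only [α]
    split_ifs
    · exact hz i
    · exact (AltOn _).one_mem
  have key : ∀ z : ι → Equiv.Perm (Om C), (∀ i, z i ∈ AltOn (win C W)) →
      S.val z = S.val (α z) := by
    intro z hz
    have := S.val_intertwine S hW hW 1 α hαz ?_ ?_ hz
    · simpa using this
    · intro z z'
      funext i
      simp only [α]
      split_ifs <;> simp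
    · intro z hz
      rw [map_one, one_mul, inv_one, mul_one]
      apply rv_congr hW (fun i => (hz i).1) (fun i => (hαz z hz i).1)
      intro x hx
      simp only [α]
      rw [if_pos ⟨x, hx, rfl⟩]
  rw [key z hz, key z' hz']
  congr 1
  funext i
  simp only [α]
  split_ifs with hi
  · obtain ⟨x, hx, rfl⟩ := hi
    exact h x hx
  · rfl

/-- `T`-values are determined by their images -/
lemma val_inj (S : SecSys L C q κ) {W : Finset (ℤ × ℤ)} (hW : L.Dist W)
    {z z' : ι → Equiv.Perm (Om C)} (hz : ∀ i, z i ∈ AltOn (win C W))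
    (hz' : ∀ i, z' i ∈ AltOn (win C W)) (h : q (S.val z) = q (S.val z')) :
    S.val z = S.val z' := by
  rw [S.q_val hW hz, S.q_val hW hz'] at h
  exact S.val_congr hW hz hz'
    (fun x hx => rv_inj hW (fun i => (hz i).1) (fun i => (hz' i).1) h hx)

/-- change of kind and base point: position `v` rel. `x` = position `v - u` rel. `u + x` -/
lemma val_move (S : SecSys L C q κ) (S' : SecSys L C q κ') {W : Finset (ℤ × ℤ)}
    (hW : L.Dist W) (u : ℤ × ℤ) (hu : L.w ∣ u.1 ∧ L.h ∣ u.2) (ρ : ι' → ι)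
    (hρ : ∀ x ∈ L.D, ρ (κ' (u +ᵥ x)) = κ x)
    {z : ι → Equiv.Perm (Om C)} (hz : ∀ i, z i ∈ AltOn (win C W)) :
    S.val z = S'.val (fun i' => sh (-u) (z (ρ i'))) := by
  have := S.val_intertwine S' hW (hW.map u) 1 (fun z i' => sh (-u) (z (ρ i'))) ?_ ?_ ?_ hz
  · simpa using this
  · intro z hz i'
    exact sh_mem_AltOn (hz _) u
  · intro z z'
    funext i'
    exact sh_mul _ _ _
  · intro z hz
    rw [map_one, one_mul, inv_one, mul_one]
    exact rv_move hW u hu ρ hρ (fun i => (hz i).1)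

/-- elements of `T` whose image commutes with all concrete values of a window commute -/
lemma commute_val (S : SecSys L C q κ) {W : Finset (ℤ × ℤ)} (hW : L.Dist W) (x : T)
    (h : ∀ z : ι → Equiv.Perm (Om C), (∀ i, z i ∈ AltOn (win C W)) → Commute (q x) (rv L κ z))
    {z : ι → Equiv.Perm (Om C)} (hz : ∀ i, z i ∈ AltOn (win C W)) : Commute x (S.val z) := by
  have := S.val_intertwine S hW hW x (fun z => z) (fun z hz => hz) (fun _ _ => rfl) ?_ hz
  · show x * S.val z = S.val z * x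
    exact mul_inv_eq_iff_eq_mul.1 this
  · intro z hz
    rw [(h z hz).eq]; group

/-- disjoint windows (mod the lattice) commute -/
lemma val_commute (S : SecSys L C q κ) (S' : SecSys L C q κ') {W W' : Finset (ℤ × ℤ)}
    (hW : L.Dist W) (hW' : L.Dist W')
    {z : ι → Equiv.Perm (Om C)} {z' : ι' → Equiv.Perm (Om C)}
    (hz : ∀ i, z i ∈ AltOn (win C W)) (hz' : ∀ i, z' i ∈ AltOn (win C W'))
    (hd : ∀ v ∈ W, ∀ v' ∈ W', ¬ (L.w ∣ v.1 - v'.1 ∧ L.h ∣ v.2 - v'.2)) :
    Commute (S.val z) (S'.val z') := by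
  refine (S.commute_val hW (S'.val z') ?_ hz).symm
  intro z hz
  rw [S'.q_val hW' hz']
  exact (rv_commute hW hW' (fun i => (hz i).1) (fun i => (hz' i).1) hd).symm

end SecSys

end Crest.Agent.R189.K
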