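import Crest.Agent.R189.MuVan
import Crest.Agent.R189.HierDefs

/-!
# Row 189, M7 (E3): `LET_k`, the letters of a level `k` cell

For `h : LS D p q a c St` (`p = (0,1)`, `q = (1,0)` in `Multiplicative (ℤ × ℤ)`), `v ∈ Bx a k`
(box of level `k`): `v • hc k j` lies below a level `0` letter `c i ⊓ₒ St t` if `v` is on no line;
if `v ≠ 0` is on the `P` line (resp. `Q` line) the label of this line is needed, and at the corner
`v = 0` the star.
-/

set_option autoImplicit false

namespace Crest.Agent.R189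

open Romp

/-! ### one step, in any group -/

/-- label of a long line of label `L` (at the bottom) after the row `j`, at the next digit `j'` -/
def labR (a j j' : ℕ) (L : Label) : Label := if j' = 0 then L else ⟨L.tau, L.st, umem a j j'⟩

theorem sigR_Pf (a j j' : ℕ) (L : Label) : (sigR a j j' L).Pf = labR a j j' L := by
  unfold sigR labR; split_ifs <;> rfl

theorem sigR_Pb (a j j' : ℕ) (L : Label) : (sigR a j j' L).Pb = labR a (j - 1) j' L := by
  unfold sigR labR; split_ifs <;> rfl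

/-- a fixed allowed star -/
def blankStar : Star :=
  ⟨⟨true, ⟨.t00, none, .A⟩, ⟨.t00, none, .A⟩, ⟨.t00, none, .B⟩, ⟨.t00, none, .A⟩⟩, by decide⟩

/-- `x` lies below a letter -/
def Below {E : Type*} [OMP E] (a : ℕ) (c : ℕ → E) (St : Star → E) (x : E) : Prop :=
  ∃ j, j < 3 * a ∧ ∃ s, x ≤ c j ⊓ₒ St s

namespace Below
variable {E : Type*} [OMP E] {a : ℕ} {c : ℕ → E} {St : Star → E} {x y : E}

theorem mono (h : Below a c St y) (hxy : x ≤ y) : Below a c St x := by
  obtain ⟨j, hj, s, hs⟩ := h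
  exact ⟨j, hj, s, hxy.trans hs⟩

theorem bot (ha : 0 < a) : Below a c St (⊥ : E) := ⟨0, by omega, blankStar, bot_le⟩

end Below

namespace LS

variable {G E : Type*} [CommGroup G] [ROMP E] [OMPAct G E]
variable {D : E} {p q : G} {a : ℕ} {c : ℕ → E} {St : Star → E}

theorem pow_next_le (h : LS D p q a c St) (j : ℕ) {j' : ℕ} (hj' : j' < 3 * (a + 1)) :
    p ^ j • nextC q c St j' ≤ c j := by
  have := smul_le_smul (p ^ j) (h.next_le hj')
  rwa [h.pow_c] at this

/-- events of the next level -/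
theorem ev_next (h : LS D p q a c St) (A : Set Star) :
    ev (nextSt c St) A = c 0 ⊓ₒ ev St {s | s.flip ∈ A} := by
  have h3 : 0 < 3 * a := by have := h.three_le; omega
  rw [h.meet_ev_St h3, ev, ev]
  congr 1
  ext x
  constructor
  · rintro ⟨s, hs, rfl⟩
    refine ⟨s.flip, ?_, rfl⟩
    show s.flip.flip ∈ A
    rwa [Star.flip_flip]
  · rintro ⟨s, hs, rfl⟩
    refine ⟨s.flip, hs, ?_⟩
    show c 0 ⊓ₒ St s.flip.flip = _
    rw [Star.flip_flip]

theorem comm_next_ev (h : LS D p q a c St) {j' : ℕ} (hj' : j' < 3 * (a + 1)) (A : Set Star) :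
    Comm (nextC q c St j') (ev (nextSt c St) A) :=
  h.next.part_St.comm_right (fun t => h.next.comm j' hj' t) _

/-- the long line of label `L` has the label `labR a j j' L` after the row `j` -/
theorem row_le (h : LS D p q a c St) {j j' : ℕ} (hj : j < 3 * a) (hj' : j' < 3 * (a + 1))
    (L : Label) :
    p ^ j • (nextC q c St j' ⊓ₒ ev (nextSt c St) {s | s.Qf = L}) ≤
      c j ⊓ₒ ev St {s | s.Pf = labR a j j' L} := by
  have e : ev (nextSt c St) {s | s.Qf = L} = Lab p c St 0 {L} := by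
    rw [h.Lab_zero_eq]; rfl
  have key : nextC q c St j' ⊓ₒ Lab p c St 0 {L} ≤ Lab p c St j {labR a j j' L} := by
    unfold labR
    split_ifs with h0
    · subst h0; exact h.X1_zero hj L
    · by_cases hL : L.tau = tauOf (a + 1) j' ∧ L.u = .A
      · have hs : L = ⟨tauOf (a + 1) j', L.st, .A⟩ := by rw [← hL.1, ← hL.2]
        have x1 := h.X1 (j := j) hj (by omega) hj' L.st
        rw [← hs, ← hL.1] at x1
        exact x1
      · rw [h.X1_bot (by omega) hj' L hL]; exact bot_le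
  have := smul_le_smul (p ^ j) key
  rw [h.smul_Lab] at this
  rw [e]
  exact this

/-- the star of the row `j > 0` under a long line of label `L` -/
theorem cell_le (h : LS D p q a c St) {j j' : ℕ} (hj0 : 0 < j) (hj : j < 3 * a)
    (hj' : j' < 3 * (a + 1)) (L : Label) :
    p ^ j • (nextC q c St j' ⊓ₒ ev (nextSt c St) {s | s.Qf = L}) ≤
      c j ⊓ₒ rawSt St (sigR a j j' L) := by
  have h' := h.next
  rw [h'.meet_ev_St hj', smul_ev]
  apply ((h'.part_cell hj').smul (p ^ j)).ev_le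
  intro s hs
  have h1 := h.piece_le hj0 hj hj' s
  rw [show s.Qf = L from hs] at h1
  exact h1

/-- forward label of the row `j > 0` -/
theorem wire_le (h : LS D p q a c St) {j j' : ℕ} (hj0 : 0 < j) (hj : j < 3 * a)
    (hj' : j' < 3 * (a + 1)) :
    p ^ j • nextC q c St j' ≤
      c j ⊓ₒ ev St {s | s.Qf = (⟨tauOf a j, state a j j', .A⟩ : Label)} := by
  have := smul_le_smul (p ^ j) (h.X2f hj0 hj hj')
  rwa [smul_inv_smul] at this

/-- backward label of the row `j > 0` -/
theorem wire_le' (h : LS D p q a c St) {j j' : ℕ} (hj0 : 0 < j) (hj : j < 3 * a)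
    (hj' : j' < 3 * (a + 1)) :
    p ^ j • nextC q c St j' ≤
      c j ⊓ₒ ev St {s | s.Qb = (⟨tauOf a j, state a j (prev a j'), .B⟩ : Label)} := by
  have := smul_le_smul (p ^ j) (h.X2b hj0 hj hj')
  rwa [smul_inv_smul] at this

/-- the `P` line of the next level is the `Q` line over the row `0` -/
theorem next_line_le (h : LS D p q a c St) {j' : ℕ} (hj' : j' < 3 * (a + 1)) (L : Label) :
    nextC q c St j' ⊓ₒ ev (nextSt c St) {s | s.Pf = L} ≤ c 0 ⊓ₒ ev St {s | s.Qf = L} := by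
  refine (meet_le_right (h.comm_next_ev hj' _)).trans (le_of_eq ?_)
  rw [h.ev_next]
  rfl

theorem next_corner_le (h : LS D p q a c St) {j' : ℕ} (hj' : j' < 3 * (a + 1)) (s : Star) :
    nextC q c St j' ⊓ₒ nextSt c St s ≤ c 0 ⊓ₒ St s.flip :=
  meet_le_right (h.next.comm j' hj' s)

theorem Below_raw {x : E} (ha : 0 < a) {y : E} {S' : Star → E} {r : RStar}
    (hx : ∀ s, Below a c St (y ⊓ₒ S' s)) (hr : x ≤ y ⊓ₒ rawSt S' r) : Below a c St x := by
  by_cases h1 : r.OK
  · rw [rawSt_ok _ h1] at hr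
    exact (hx _).mono hr
  · rw [rawSt_bot _ h1, meet_bot] at hr
    exact (Below.bot ha).mono hr

/-- (Ex) the only stars in the row `0 < j < 3a` are the `sigR a j j' L` -/
theorem star_zero (h : LS D p q a c St) {j : ℕ} (hj0 : 0 < j) (hj : j < 3 * a) (s : Star)
    (hs : ∀ j', j' < 3 * (a + 1) → ∀ L : Label, sigR a j j' L ≠ s.1) : c j ⊓ₒ St s = ⊥ := by
  have h1 := h.cell_eq hj0 hj s.1
  rw [rawSt_val] at h1
  rw [h1]
  have h2 : {i : Fin (3 * (a + 1)) × Star | sigR a j i.1 i.2.Qf = s.1} = ∅ := by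
    ext i
    exact iff_of_false (hs i.1 i.1.2 i.2.Qf) (Set.notMem_empty i)
  rw [h2, ev_empty]

end LS

/-! ### geometry -/

/-- `v` is on the `P` line of the box -/
def onP (k : ℕ) (v : ℤ × ℤ) : Prop := if Even k then v.1 = 0 else v.2 = 0
/-- `v` is on the `Q` line of the box -/
def onQ (k : ℕ) (v : ℤ × ℤ) : Prop := if Even k then v.2 = 0 else v.1 = 0

theorem onP_succ (k : ℕ) (v : ℤ × ℤ) : onP (k + 1) v ↔ onQ k v := by
  unfold onP onQ
  by_cases hk : Even k
  · rw [if_neg (by rw [Nat.even_add_one]; exact not_not.2 hk), if_pos hk]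
  · rw [if_pos (Nat.even_add_one.2 hk), if_neg hk]

theorem onQ_succ (k : ℕ) (v : ℤ × ℤ) : onQ (k + 1) v ↔ onP k v := by
  unfold onP onQ
  by_cases hk : Even k
  · rw [if_neg (by rw [Nat.even_add_one]; exact not_not.2 hk), if_pos hk]
  · rw [if_pos (Nat.even_add_one.2 hk), if_neg hk]

theorem onPQ {k : ℕ} {v : ℤ × ℤ} (hP : onP k v) (hQ : onQ k v) : v = 0 := by
  unfold onP at hP
  unfold onQ at hQ
  by_cases hk : Even k
  · rw [if_pos hk] at hP hQ; exact Prod.ext hP hQ
  · rw [if_neg hk] at hP hQ; exact Prod.ext hQ hP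

theorem onP_zero (k : ℕ) : onP k (0 : ℤ × ℤ) := by unfold onP; split_ifs <;> rfl
theorem onQ_zero (k : ℕ) : onQ k (0 : ℤ × ℤ) := by unfold onQ; split_ifs <;> rfl

/-- moving in the direction `p_k` does not leave the `P` line -/
theorem onP_add {a k : ℕ} {u : ℤ × ℤ} {j : ℤ} : onP k (u + j • pp a k) ↔ onP k u := by
  unfold onP
  by_cases hk : Even k
  · rw [if_pos hk, if_pos hk, pp_even hk]; simp
  · rw [if_neg hk, if_neg hk, pp_odd hk]; simp

theorem onQ_add {a k : ℕ} (ha : 0 < a) {u : ℤ × ℤ} (hu : u ∈ Bx a k) {j : ℕ} :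
    onQ k (u + (j : ℤ) • pp a k) ↔ onQ k u ∧ j = 0 := by
  rw [mem_Bx] at hu
  have hw : (0 : ℤ) < ww a k := by exact_mod_cast ww_pos ha k
  have hh' : (0 : ℤ) < hh a k := by exact_mod_cast hh_pos ha k
  unfold onQ
  by_cases hk : Even k
  · rw [if_pos hk, if_pos hk, pp_even hk]
    simp only [Prod.snd_add, Prod.smul_snd, smul_eq_mul]
    constructor
    · intro h
      have h1 : 0 ≤ (j : ℤ) * hh a k := by positivity
      have h2 : (j : ℤ) * hh a k = 0 := by linarith [hu.2.1]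
      have h3 : (j : ℤ) = 0 := (mul_eq_zero.1 h2).resolve_right hh'.ne'
      exact ⟨by linarith [hu.2.1], by exact_mod_cast h3⟩
    · rintro ⟨h, rfl⟩; simp [h]
  · rw [if_neg hk, if_neg hk, pp_odd hk]
    simp only [Prod.fst_add, Prod.smul_fst, smul_eq_mul]
    constructor
    · intro h
      have h1 : 0 ≤ (j : ℤ) * ww a k := by positivity
      have h2 : (j : ℤ) * ww a k = 0 := by linarith [hu.1.1]
      have h3 : (j : ℤ) = 0 := (mul_eq_zero.1 h2).resolve_right hw.ne'
      exact ⟨by linarith [hu.1.1], by exact_mod_cast h3⟩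
    · rintro ⟨h, rfl⟩; simp [h]

/-! ### `LET_k` -/

/-- the generator `p = (0,1)` -/
abbrev pZ : Multiplicative (ℤ × ℤ) := Multiplicative.ofAdd ((0, 1) : ℤ × ℤ)
/-- the generator `q = (1,0)` -/
abbrev qZ : Multiplicative (ℤ × ℤ) := Multiplicative.ofAdd ((1, 0) : ℤ × ℤ)

section letk
variable {E : Type*} [ROMP E] [OMPAct (Multiplicative (ℤ × ℤ)) E]
variable {D : E} {a : ℕ} {c : ℕ → E} {St : Star → E}

theorem smul_add_pp (a k : ℕ) (u : ℤ × ℤ) (j : ℕ) (x : E) :
    Multiplicative.ofAdd (u + (j : ℤ) • pp a k) • x =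
      Multiplicative.ofAdd u • hP pZ qZ a k ^ j • x := by
  rw [hP_eq, ← ofAdd_nsmul, ofAdd_add, mul_smul, natCast_zsmul]

/-- all letters of a level `k` cell -/
structure LetK (a : ℕ) (c : ℕ → E) (St : Star → E) (k : ℕ) : Prop where
  face : ∀ j, j < 3 * (a + k) → ∀ v ∈ Bx a k, ¬ onP k v → ¬ onQ k v →
    Below a c St (Multiplicative.ofAdd v • hc pZ qZ a c St k j)
  lineP : ∀ j, j < 3 * (a + k) → ∀ v ∈ Bx a k, v ≠ 0 → onP k v → ∀ L : Label,
    Below a c St (Multiplicative.ofAdd v •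
      (hc pZ qZ a c St k j ⊓ₒ ev (hSt pZ qZ a c St k) {s | s.Pf = L}))
  lineQ : ∀ j, j < 3 * (a + k) → ∀ v ∈ Bx a k, v ≠ 0 → onQ k v → ∀ L : Label,
    Below a c St (Multiplicative.ofAdd v •
      (hc pZ qZ a c St k j ⊓ₒ ev (hSt pZ qZ a c St k) {s | s.Qf = L}))
  corner : ∀ j, j < 3 * (a + k) → ∀ s : Star,
    Below a c St (hc pZ qZ a c St k j ⊓ₒ hSt pZ qZ a c St k s)

theorem LS.letK (h : LS D pZ qZ a c St) (k : ℕ) : LetK a c St k := by
  have ha : 0 < a := by have := h.three_le; omega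
  induction k with
  | zero =>
    have h0 : ∀ v : ℤ × ℤ, v ∈ Bx a 0 → v = 0 := by
      intro v hv; rw [Bx_zero, Finset.mem_singleton] at hv; exact hv
    refine ⟨?_, ?_, ?_, ?_⟩
    · intro j _ v hv hP; exact absurd ((h0 v hv) ▸ onP_zero 0) hP
    · intro j _ v hv hv0; exact absurd (h0 v hv) hv0
    · intro j _ v hv hv0; exact absurd (h0 v hv) hv0
    · intro j hj s; exact ⟨j, hj, s, le_rfl⟩
  | succ k ih =>
    have hl := h.lvl k
    have hn : ∀ j, j < nn a k → j < 3 * (a + k) := fun j hj => hj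
    have h3 : 0 < 3 * (a + k) := by omega
    refine ⟨?_, ?_, ?_, ?_⟩
    · -- face
      intro j' hj' v hv hP hQ
      rw [onP_succ] at hP
      rw [onQ_succ] at hQ
      obtain ⟨u, hu, j, hj, rfl⟩ := (Bx_succ ha k v).1 hv
      rw [onQ_add ha hu] at hP
      rw [onP_add] at hQ
      rw [smul_add_pp, hc_succ]
      by_cases hQu : onQ k u
      · have hj0 : 0 < j := Nat.pos_of_ne_zero (fun h0 => hP ⟨hQu, h0⟩)
        have hu0 : u ≠ 0 := fun h0 => hQ (h0 ▸ onP_zero k)
        exact (ih.lineQ j hj u hu hu0 hQu _).mono (smul_le_smul _ (hl.wire_le hj0 hj hj'))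
      · exact (ih.face j hj u hu hQ hQu).mono (smul_le_smul _ (hl.pow_next_le j hj'))
    · -- the `P` line
      intro j' hj' v hv hv0 hP L
      rw [onP_succ] at hP
      obtain ⟨u, hu, j, hj, rfl⟩ := (Bx_succ ha k v).1 hv
      obtain ⟨hQu, rfl⟩ := (onQ_add ha hu).1 hP
      have e : u + ((0 : ℕ) : ℤ) • pp a k = u := by simp
      rw [e] at hv0 ⊢
      rw [hc_succ, hSt_succ]
      exact (ih.lineQ 0 h3 u hu hv0 hQu L).mono (smul_le_smul _ (hl.next_line_le hj' L))
    · -- the `Q` line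
      intro j' hj' v hv hv0 hQ L
      rw [onQ_succ] at hQ
      obtain ⟨u, hu, j, hj, rfl⟩ := (Bx_succ ha k v).1 hv
      rw [onP_add] at hQ
      rw [smul_add_pp, hc_succ, hSt_succ]
      by_cases hu0 : u = 0
      · subst hu0
        have hj0 : 0 < j := by
          rcases Nat.eq_zero_or_pos j with h0 | h0
          · subst h0; simp at hv0
          · exact h0
        have e : Multiplicative.ofAdd (0 : ℤ × ℤ) = 1 := rfl
        rw [e, one_smul]
        exact LS.Below_raw ha (ih.corner j hj) (hl.cell_le hj0 hj hj' L)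
      · exact (ih.lineP j hj u hu hu0 hQ _).mono (smul_le_smul _ (hl.row_le hj hj' L))
    · -- the corner
      intro j' hj' s
      rw [hc_succ, hSt_succ]
      exact (ih.corner 0 h3 s.flip).mono (hl.next_corner_le hj' s)

end letk

end Crest.Agent.R189
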