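import Crest.Agent.R189.KSgn

/-!
# Row 189, part F (kernel): definitions (helper503)

* `Om C = (ℤ × ℤ) × C` positions with colours, `tr u` translation, `sh u z` translated permutation,
  `win C W` the finset `W × C`.
* `Cell D W`: the translates `v + D` (`v ∈ W`) are pairwise disjoint.
* `realFam hc κ : (ι → PermOn (win C W)) →* Perm (X × C)`: acts on `(v + x, c)` (`v ∈ W`, `x ∈ D`)
  as `z (κ x) (v, c)`, identity elsewhere.  `realAlt` its restriction to even permutations.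
* `Lev`: the data of a level of the hierarchy (V orientation: `p = (0,h)`, `q = (w,0)`).
-/

set_option autoImplicit false
set_option linter.unusedSectionVars false

namespace Crest.Agent.R189.K

open Equiv Equiv.Perm

/-- positions with colours -/
abbrev Om (C : Type*) := (ℤ × ℤ) × C

section tr

variable {C : Type*}

/-- translation of positions -/
def tr (u : ℤ × ℤ) : Equiv.Perm (Om C) where
  toFun p := (p.1 + u, p.2)
  invFun p := (p.1 - u, p.2)
  left_inv p := by simp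
  right_inv p := by simp

@[simp] lemma tr_apply (u : ℤ × ℤ) (p : Om C) : tr u p = (p.1 + u, p.2) := rfl
@[simp] lemma tr_inv_apply (u : ℤ × ℤ) (p : Om C) : (tr u)⁻¹ p = (p.1 - u, p.2) := rfl

variable [DecidableEq C]

/-- translated permutation: `(v, c) ↦ z (v - u, c) + u` -/
def sh (u : ℤ × ℤ) (z : Equiv.Perm (Om C)) : Equiv.Perm (Om C) := conj (tr u) z

lemma sh_apply (u : ℤ × ℤ) (z : Equiv.Perm (Om C)) (p : Om C) :
    sh u z p = ((z (p.1 - u, p.2)).1 + u, (z (p.1 - u, p.2)).2) := rfl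

lemma sh_mul (u : ℤ × ℤ) (z z' : Equiv.Perm (Om C)) : sh u (z * z') = sh u z * sh u z' :=
  conj_mul _ _ _

@[simp] lemma sh_one (u : ℤ × ℤ) : sh u (1 : Equiv.Perm (Om C)) = 1 := by
  simp [sh, conj]

@[simp] lemma sh_zero (z : Equiv.Perm (Om C)) : sh 0 z = z := by
  ext1 p; simp [sh_apply]

lemma sh_inv (u : ℤ × ℤ) (z : Equiv.Perm (Om C)) : sh u z⁻¹ = (sh u z)⁻¹ := conj_inv _ _

lemma sh_sh (u v : ℤ × ℤ) (z : Equiv.Perm (Om C)) : sh u (sh v z) = sh (u + v) z := by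
  ext1 p
  simp only [sh_apply]
  have h : p.1 - u - v = p.1 - (u + v) := by abel
  rw [h]
  ext <;> simp <;> ring

/-- `sh` as a homomorphism -/
def shHom (u : ℤ × ℤ) : Equiv.Perm (Om C) →* Equiv.Perm (Om C) where
  toFun := sh u
  map_one' := sh_one u
  map_mul' := sh_mul u

@[simp] lemma shHom_apply (u : ℤ × ℤ) (z : Equiv.Perm (Om C)) : shHom u z = sh u z := rfl

end tr

/-- the finset `W × C` -/
def win (C : Type*) [Fintype C] (W : Finset (ℤ × ℤ)) : Finset (Om C) := W ×ˢ Finset.univ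

@[simp] lemma mem_win {C : Type*} [Fintype C] {W : Finset (ℤ × ℤ)} {p : Om C} :
    p ∈ win C W ↔ p.1 ∈ W := by simp [win]

lemma win_mono {C : Type*} [Fintype C] {W W' : Finset (ℤ × ℤ)} (h : W ⊆ W') :
    win C W ⊆ win C W' := fun p hp => by rw [mem_win] at *; exact h hp

/-- the translates `v + D`, `v ∈ W`, are pairwise disjoint -/
def Cell {X : Type*} [AddAction (ℤ × ℤ) X] (D : Set X) (W : Finset (ℤ × ℤ)) : Prop :=
  ∀ v ∈ W, ∀ v' ∈ W, ∀ x ∈ D, ∀ x' ∈ D, v +ᵥ x = v' +ᵥ x' → v = v'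

section real

variable {X C ι : Type*} [AddAction (ℤ × ℤ) X] [Fintype C] [DecidableEq C]
variable {D : Set X} {W : Finset (ℤ × ℤ)}

lemma Cell.mono {W' : Finset (ℤ × ℤ)} (h : Cell D W) (hW : W' ⊆ W) : Cell D W' :=
  fun v hv v' hv' x hx x' hx' e => h v (hW hv) v' (hW hv') x hx x' hx' e

open Classical in
/-- underlying function of `realFam` -/
noncomputable def realFun (D : Set X) (W : Finset (ℤ × ℤ)) (κ : X → ι)
    (z : ι → Equiv.Perm (Om C)) (p : X × C) : X × C :=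
  if h : ∃ v, v ∈ W ∧ -v +ᵥ p.1 ∈ D then
    ((z (κ (-h.choose +ᵥ p.1)) (h.choose, p.2)).1 +ᵥ (-h.choose +ᵥ p.1),
      (z (κ (-h.choose +ᵥ p.1)) (h.choose, p.2)).2)
  else p

lemma realFun_apply (hc : Cell D W) (κ : X → ι) (z : ι → Equiv.Perm (Om C)) {v : ℤ × ℤ}
    (hv : v ∈ W) {x : X} (hx : x ∈ D) (c : C) :
    realFun D W κ z (v +ᵥ x, c) = ((z (κ x) (v, c)).1 +ᵥ x, (z (κ x) (v, c)).2) := by
  have h : ∃ v', v' ∈ W ∧ -v' +ᵥ (v +ᵥ x, c).1 ∈ D := ⟨v, hv, by simpa using hx⟩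
  have e : h.choose = v := by
    have h1 := h.choose_spec
    refine hc _ h1.1 _ hv (-h.choose +ᵥ (v +ᵥ x)) h1.2 x hx ?_
    rw [vadd_vadd, add_neg_cancel, zero_vadd]
  rw [realFun, dif_pos h]
  have e2 : -h.choose +ᵥ (v +ᵥ x, c).1 = x := by
    rw [e]; simp
  rw [e2, e]

lemma realFun_off (κ : X → ι) (z : ι → Equiv.Perm (Om C)) {p : X × C}
    (h : ∀ v ∈ W, -v +ᵥ p.1 ∉ D) : realFun D W κ z p = p := by
  rw [realFun, dif_neg]
  rintro ⟨v, hv, hx⟩
  exact h v hv hx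

/-- case distinction for a point of `X × C` -/
lemma real_cases (D : Set X) (W : Finset (ℤ × ℤ)) (p : X × C) :
    (∃ v ∈ W, ∃ x ∈ D, p = (v +ᵥ x, p.2)) ∨ (∀ v ∈ W, -v +ᵥ p.1 ∉ D) := by
  by_cases h : ∃ v ∈ W, -v +ᵥ p.1 ∈ D
  · obtain ⟨v, hv, hx⟩ := h
    exact Or.inl ⟨v, hv, _, hx, by simp⟩
  · right
    intro v hv hx
    exact h ⟨v, hv, hx⟩

lemma realFun_comp (hc : Cell D W) (κ : X → ι) (z z' : ι → Equiv.Perm (Om C))
    (hz' : ∀ i, z' i ∈ PermOn (win C W)) (p : X × C) :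
    realFun D W κ z (realFun D W κ z' p) = realFun D W κ (fun i => z i * z' i) p := by
  rcases real_cases D W p with ⟨v, hv, x, hx, hp⟩ | h
  · rw [hp, realFun_apply hc _ _ hv hx, realFun_apply hc _ _ hv hx, realFun_apply hc _ _ _ hx]
    · rfl
    · have h1 := (on_mem_iff (hz' (κ x)) (v, p.2)).2 (by simpa using hv)
      simpa using h1
  · rw [realFun_off _ _ h, realFun_off _ _ h, realFun_off _ _ h]

lemma realFun_one (hc : Cell D W) (κ : X → ι) (p : X × C) :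
    realFun D W κ (fun _ => (1 : Equiv.Perm (Om C))) p = p := by
  rcases real_cases D W p with ⟨v, hv, x, hx, hp⟩ | h
  · rw [hp, realFun_apply hc _ _ hv hx]; rfl
  · rw [realFun_off _ _ h]

/-- the concrete homomorphism `(ι → Sym (W × C)) → Perm (X × C)` -/
noncomputable def realFam (hc : Cell D W) (κ : X → ι) :
    (ι → PermOn (win C W)) →* Equiv.Perm (X × C) where
  toFun z :=
    { toFun := realFun D W κ (fun i => (z i : Equiv.Perm (Om C)))
      invFun := realFun D W κ (fun i => (z i : Equiv.Perm (Om C))⁻¹)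
      left_inv := fun p => by
        rw [realFun_comp hc κ _ _ (fun i => (z i).2)]
        simpa using realFun_one hc κ p
      right_inv := fun p => by
        rw [realFun_comp hc κ _ _ (fun i => (PermOn _).inv_mem (z i).2)]
        simpa using realFun_one hc κ p }
  map_one' := by
    ext1 p
    exact realFun_one hc κ p
  map_mul' z z' := by
    ext1 p
    exact (realFun_comp hc κ (fun i => (z i : Equiv.Perm (Om C)))
      (fun i => (z' i : Equiv.Perm (Om C))) (fun i => (z' i).2) p).symm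

lemma realFam_coe (hc : Cell D W) (κ : X → ι) (z : ι → PermOn (win C W)) (p : X × C) :
    realFam hc κ z p = realFun D W κ (fun i => (z i : Equiv.Perm (Om C))) p := rfl

lemma realFam_apply (hc : Cell D W) (κ : X → ι) (z : ι → PermOn (win C W)) {v : ℤ × ℤ}
    (hv : v ∈ W) {x : X} (hx : x ∈ D) (c : C) :
    realFam hc κ z (v +ᵥ x, c) =
      (((z (κ x) : Equiv.Perm (Om C)) (v, c)).1 +ᵥ x,
        ((z (κ x) : Equiv.Perm (Om C)) (v, c)).2) :=
  realFun_apply hc κ (fun i => (z i : Equiv.Perm (Om C))) hv hx c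

lemma realFam_off (hc : Cell D W) (κ : X → ι) (z : ι → PermOn (win C W)) {p : X × C}
    (h : ∀ v ∈ W, -v +ᵥ p.1 ∉ D) : realFam hc κ z p = p :=
  realFun_off κ (fun i => (z i : Equiv.Perm (Om C))) h

/-- inclusion of even permutations, componentwise -/
noncomputable def altIncl (ι : Type*) (W : Finset (ℤ × ℤ)) :
    (ι → AltOn (win C W)) →* (ι → PermOn (win C W)) where
  toFun z i := ⟨(z i).1, (z i).2.1⟩
  map_one' := rfl
  map_mul' _ _ := rfl

/-- the concrete homomorphism on even permutations -/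
noncomputable def realAlt (hc : Cell D W) (κ : X → ι) :
    (ι → AltOn (win C W)) →* Equiv.Perm (X × C) :=
  (realFam hc κ).comp (altIncl ι W)

lemma realAlt_apply (hc : Cell D W) (κ : X → ι) (z : ι → AltOn (win C W)) {v : ℤ × ℤ}
    (hv : v ∈ W) {x : X} (hx : x ∈ D) (c : C) :
    realAlt hc κ z (v +ᵥ x, c) =
      (((z (κ x) : Equiv.Perm (Om C)) (v, c)).1 +ᵥ x,
        ((z (κ x) : Equiv.Perm (Om C)) (v, c)).2) :=
  realFun_apply hc κ (fun i => (z i : Equiv.Perm (Om C))) hv hx c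

lemma realAlt_off (hc : Cell D W) (κ : X → ι) (z : ι → AltOn (win C W)) {p : X × C}
    (h : ∀ v ∈ W, -v +ᵥ p.1 ∉ D) : realAlt hc κ z p = p :=
  realFun_off κ (fun i => (z i : Equiv.Perm (Om C))) h

end real

/-! ### levels -/

/-- The data of an even level (V orientation): cells are `[0,w) × [0,h)`, `p = (0,h)`, `q = (w,0)`;
`dig` row digit, `Pf` label of the upper half edge of the P line (left side of the cell),
`Qf` label of the right half edge of the Q line (bottom of the cell), `st` the star at the corner;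
`sPf sPb sQf : Sta → Lab`, `lft j σ` = the `Q` label (as forward label of the left neighbour)
of a corner with digit `j` and star `σ`. -/
structure Lev (X Lab Sta : Type*) [AddAction (ℤ × ℤ) X] where
  w : ℤ
  h : ℤ
  n : ℕ
  D : Set X
  dig : X → ZMod n
  Pf : X → Lab
  Qf : X → Lab
  st : X → Sta
  sPf : Sta → Lab
  sPb : Sta → Lab
  sQf : Sta → Lab
  lft : ZMod n → Sta → Lab
  w_pos : 0 < w
  h_pos : 0 < h
  n_pos : 0 < n
  /-- periodicity and separation of cells -/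
  D_iff : ∀ x ∈ D, ∀ v : ℤ × ℤ, v +ᵥ x ∈ D ↔ (w ∣ v.1 ∧ h ∣ v.2)
  /-- every point lies in a cell -/
  cover : ∀ y : X, ∃ v : ℤ × ℤ, ∃ x ∈ D, 0 ≤ v.1 ∧ v.1 < w ∧ 0 ≤ v.2 ∧ v.2 < h ∧ y = v +ᵥ x
  /-- the action is free -/
  free : ∀ (v : ℤ × ℤ) (x : X), v +ᵥ x = x → v = 0
  dig_q : ∀ x ∈ D, dig (((w, 0) : ℤ × ℤ) +ᵥ x) = dig x
  dig_p : ∀ x ∈ D, dig (((0, h) : ℤ × ℤ) +ᵥ x) = dig x + 1
  Pf_st : ∀ x ∈ D, Pf x = sPf (st x)
  Pb_st : ∀ x ∈ D, Pf (((0, -h) : ℤ × ℤ) +ᵥ x) = sPb (st x)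
  Qf_st : ∀ x ∈ D, Qf x = sQf (st x)
  lft_st : ∀ x ∈ D, Qf (((-w, 0) : ℤ × ℤ) +ᵥ x) = lft (dig x) (st x)

namespace Lev

variable {X Lab Sta C : Type*} [AddAction (ℤ × ℤ) X] (L : Lev X Lab Sta)

/-- `W` is distinct modulo `wℤ × hℤ` -/
def Dist (W : Finset (ℤ × ℤ)) : Prop :=
  ∀ v ∈ W, ∀ v' ∈ W, L.w ∣ v.1 - v'.1 → L.h ∣ v.2 - v'.2 → v = v'

variable {L}

lemma Dist.mono {W W' : Finset (ℤ × ℤ)} (h : L.Dist W) (hW : W' ⊆ W) : L.Dist W' :=
  fun v hv v' hv' => h v (hW hv) v' (hW hv')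

lemma Dist.cell {W : Finset (ℤ × ℤ)} (hW : L.Dist W) : Cell L.D W := by
  intro v hv v' hv' x hx x' hx' e
  have e1 : (v - v') +ᵥ x ∈ L.D := by
    have : (v - v') +ᵥ x = x' := by
      rw [sub_eq_neg_add, ← vadd_vadd, e, neg_vadd_vadd]
    rw [this]; exact hx'
  have e2 := (L.D_iff x hx _).1 e1
  exact hW v hv v' hv' e2.1 e2.2

end Lev

end Crest.Agent.R189.K
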