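import Crest.Agent.R189.SecW
import Crest.Agent.R189.KDefs

/-!
# Row 189 (S0289): sections over `realAlt` (K2, in the form of `KDefs.lean`)

`exists_secK`: if for every `κ` the event `{x ∈ D | kap x = κ}` is good then
`realAlt hc kap : (K → AltOn (win C W)) →* Perm (X × C)` has a section into `T`.
-/

set_option autoImplicit false
set_option linter.unusedSectionVars false

open Equiv Equiv.Perm Finset

namespace Crest.Agent.R189.SecW

open Crest.Agent.R189.K

section tow

variable {C : Type} [Fintype C] [DecidableEq C]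

/-- the points of the window as a product -/
def winEquiv (W : Finset (ℤ × ℤ)) : {p // p ∈ win C W} ≃ {v // v ∈ W} × C where
  toFun p := (⟨p.1.1, mem_win.1 p.2⟩, p.1.2)
  invFun p := ⟨(p.1.1, p.2), mem_win.2 p.1.2⟩
  left_inv p := rfl
  right_inv p := rfl

/-- even permutations of the window, as even permutations of the product type -/
noncomputable def toTow (W : Finset (ℤ × ℤ)) :
    AltOn (win C W) →* alternatingGroup ({v // v ∈ W} × C) where
  toFun z := ⟨(winEquiv W).permCongr (res (win C W) (z : Perm (Om C))), by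
    rw [mem_alternatingGroup, sign_permCongr, ← sgn_eq z.2.1]
    exact z.2.2⟩
  map_one' := by
    apply Subtype.ext
    change (winEquiv W).permCongr (res (win C W) (1 : Perm (Om C))) = 1
    have : res (win C W) (1 : Perm (Om C)) = 1 := by
      rw [res_of (fun _ => Iff.rfl)]
      rfl
    rw [this]
    apply Equiv.ext
    intro x
    simp
  map_mul' := by
    intro a b
    apply Subtype.ext
    change (winEquiv W).permCongr (res (win C W) ((a : Perm (Om C)) * (b : Perm (Om C)))) =
      (winEquiv W).permCongr (res (win C W) (a : Perm (Om C))) *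
        (winEquiv W).permCongr (res (win C W) (b : Perm (Om C)))
    rw [res_mul (on_mem_iff a.2.1) (on_mem_iff b.2.1)]
    apply Equiv.ext
    intro x
    simp

theorem toTow_fst (W : Finset (ℤ × ℤ)) (z : AltOn (win C W)) {v : ℤ × ℤ} (hv : v ∈ W) (c : C) :
    (((toTow W z : Perm ({v // v ∈ W} × C)) (⟨v, hv⟩, c)).1 : ℤ × ℤ) =
      ((z : Perm (Om C)) (v, c)).1 := by
  change ((res (win C W) (z : Perm (Om C)) ⟨(v, c), mem_win.2 hv⟩ : Om C)).1 = _
  rw [res_apply (on_mem_iff z.2.1)]

theorem toTow_snd (W : Finset (ℤ × ℤ)) (z : AltOn (win C W)) {v : ℤ × ℤ} (hv : v ∈ W) (c : C) :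
    ((toTow W z : Perm ({v // v ∈ W} × C)) (⟨v, hv⟩, c)).2 = ((z : Perm (Om C)) (v, c)).2 := by
  change ((res (win C W) (z : Perm (Om C)) ⟨(v, c), mem_win.2 hv⟩ : Om C)).2 = _
  rw [res_apply (on_mem_iff z.2.1)]

end tow

variable {X A C : Type} [AddAction (ℤ × ℤ) X] {letter : X → A} [Finite A]
  [Fintype C] [DecidableEq C] {T : Type} [Group T]

/-- **(K2)** sections over `realAlt`. -/
theorem exists_secK (q : T →* Gp (ℤ × ℤ) letter C) (hq : Function.Surjective q)
    (hK : q.ker ≤ Subgroup.center T) (hC : 30 ≤ Fintype.card C)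
    {D : Set X} {W : Finset (ℤ × ℤ)} (hc : Cell D W) {K : Type} [Fintype K] (kap : X → K)
    (hE : ∀ κ, Clo (ℤ × ℤ) letter {x | x ∈ D ∧ kap x = κ})
    (θ : K → alternatingGroup C →* T)
    (hθ : ∀ κ s, (q (θ κ s) : Perm (X × C)) = ev {x | x ∈ D ∧ kap x = κ} (s : Perm C)) :
    ∃ s : (K → AltOn (win C W)) →* T,
      ∀ z, (q (s z) : Perm (X × C)) = realAlt hc kap z := by
  classical
  have hM : MS (⋃ κ, {x | x ∈ D ∧ kap x = κ})
      (pc (C := C) (fun v : {v // v ∈ W} => (v : ℤ × ℤ))) := by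
    rintro ⟨⟨v, hv⟩, c⟩ ⟨⟨v', hv'⟩, c'⟩ hne y hy y' hy' hcc h
    rw [Set.mem_iUnion] at hy hy'
    obtain ⟨_, hy, -⟩ := hy
    obtain ⟨_, hy', -⟩ := hy'
    change c = c' at hcc
    subst hcc
    have := hc v hv v' hv' y hy y' hy' h
    subst this
    exact hne rfl
  obtain ⟨Φ, h1, h2⟩ := exists_secFam q hq hK hC (fun κ => {x | x ∈ D ∧ kap x = κ}) hE
    (fun κ κ' hκ => Set.disjoint_left.2 (fun x hx hx' => hκ (hx.2.symm.trans hx'.2))) θ hθ
    (fun v : {v // v ∈ W} => (v : ℤ × ℤ)) hM
  let P : (K → AltOn (win C W)) →* (K → alternatingGroup ({v // v ∈ W} × C)) :=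
    { toFun := fun z κ => toTow W (z κ)
      map_one' := by
        funext κ
        exact map_one (toTow W)
      map_mul' := by
        intro a b
        funext κ
        exact map_mul (toTow W) (a κ) (b κ) }
  refine ⟨Φ.comp P, fun z => ?_⟩
  apply Equiv.ext
  intro p
  rcases real_cases D W p with ⟨v, hv, x, hx, hp⟩ | h
  · rw [hp, realAlt_apply hc kap z hv hx]
    have e := h1 (P z) (kap x) x ⟨hx, rfl⟩ ⟨v, hv⟩ p.2
    refine e.trans ?_
    refine Prod.ext ?_ ?_
    · change (((toTow W (z (kap x)) : Perm ({v // v ∈ W} × C)) (⟨v, hv⟩, p.2)).1 : ℤ × ℤ) +ᵥ x = _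
      rw [toTow_fst]
    · exact toTow_snd W (z (kap x)) hv p.2
  · rw [realAlt_off hc kap z h]
    refine h2 (P z) p ?_
    rintro κ y ⟨hy, -⟩ ⟨v, hv⟩ hpy
    refine h v hv ?_
    rw [hpy]
    simpa using hy

end Crest.Agent.R189.SecW
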