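import Crest.Agent.R189.RNDefs

/-!
# Row 189: morphisms of orthomodular posets, functoriality of the level structures `LS`
-/

set_option autoImplicit false

namespace Crest.Agent.R189

namespace Romp

/-- Morphism of orthomodular posets: monotone, respects complement, zero, orthogonal sums. -/
structure OMPHom (E F : Type*) [OMP E] [OMP F] where
  /-- the map -/
  toFun : E → F
  mono' : ∀ {e f : E}, e ≤ f → toFun e ≤ toFun f
  map_cpl' : ∀ e : E, toFun (cpl e) = cpl (toFun e)
  map_bot' : toFun ⊥ = ⊥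
  map_add' : ∀ {e f : E}, Orth e f → toFun (e +ₒ f) = toFun e +ₒ toFun f

namespace OMPHom

variable {E F : Type*} [OMP E] [OMP F]

instance : CoeFun (OMPHom E F) (fun _ => E → F) := ⟨toFun⟩

variable (φ : OMPHom E F) {e f x D : E}

theorem mono (h : e ≤ f) : φ e ≤ φ f := φ.mono' h
theorem map_cpl (e : E) : φ (cpl e) = cpl (φ e) := φ.map_cpl' e
theorem map_bot : φ ⊥ = ⊥ := φ.map_bot'
theorem map_top : φ ⊤ = ⊤ := by
  have h := φ.map_cpl ⊥
  rwa [cpl_bot, φ.map_bot, cpl_bot] at h
theorem map_add (h : Orth e f) : φ (e +ₒ f) = φ e +ₒ φ f := φ.map_add' h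
theorem map_orth (h : Orth e f) : Orth (φ e) (φ f) := by
  show φ e ≤ cpl (φ f)
  rw [← φ.map_cpl]
  exact φ.mono h
theorem map_sub (h : e ≤ f) : φ (f -ₒ e) = φ f -ₒ φ e := by
  unfold sub
  rw [φ.map_cpl, φ.map_add (orth_cpl_iff.mpr h), φ.map_cpl]
theorem map_comm (h : Comm e f) : Comm (φ e) (φ f) := by
  obtain ⟨p, q, hpq, rfl, hp, hq⟩ := h
  exact ⟨φ p, φ q, φ.map_orth hpq, φ.map_add hpq, φ.mono hp, φ.map_orth (show Orth q f from hq)⟩
theorem map_meet (h : Comm e f) : φ (e ⊓ₒ f) = φ e ⊓ₒ φ f := by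
  obtain ⟨p, q, hpq, rfl, hp, hq⟩ := h
  rw [meet_eq_of_decomp hpq hp hq, φ.map_add hpq,
    meet_eq_of_decomp (φ.map_orth hpq) (φ.mono hp) (φ.map_orth (show Orth q f from hq))]

section
variable {ι : Type*} [Finite ι] {P : ι → E}

theorem map_ev (h : IsPart P D) (A : Set ι) : φ (ev P A) = ev (fun i => φ (P i)) A := by
  have hl : ∀ A : Set ι, IsLUB ((fun i => φ (P i)) '' A) (ev (fun i => φ (P i)) A) := fun A =>
    isLUB_ev (P := fun i => φ (P i)) (fun hij => φ.map_orth (h.orth hij)) A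
  have hA : A.Finite := A.toFinite
  induction A, hA using Set.Finite.induction_on with
  | empty => rw [ev_empty, ev_empty, φ.map_bot]
  | @insert a A ha _ ih =>
    have hd : Disjoint ({a} : Set ι) A := Set.disjoint_singleton_left.mpr ha
    have ho := h.ev_orth hd
    rw [Set.insert_eq, ← h.ev_add hd, φ.map_add ho, ih]
    rw [ev_singleton]
    have ho' : Orth (φ (P a)) (ev (fun i => φ (P i)) A) := by
      rw [← ih]
      have := φ.map_orth ho
      rwa [ev_singleton] at this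
    apply le_antisymm
    · apply add_le ho'
      · exact (hl _).1 ⟨a, by simp, rfl⟩
      · apply (hl A).2
        rintro y ⟨i, hi, rfl⟩
        exact (hl _).1 ⟨i, Or.inr hi, rfl⟩
    · apply (hl _).2
      rintro y ⟨i, hi, rfl⟩
      rcases hi with hi | hi
      · rw [hi]; exact le_add_left ho'
      · exact ((hl A).1 ⟨i, hi, rfl⟩).trans (le_add_right ho')

theorem map_isPart (h : IsPart P D) : IsPart (fun i => φ (P i)) (φ D) :=
  ⟨fun hij => φ.map_orth (h.orth hij), by rw [← φ.map_ev h, h.ev_univ]⟩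
end

/-- injectivity from trivial kernel -/
theorem le_of_map_le (h0 : ∀ e, φ e = ⊥ → e = ⊥) (hc : Comm e f) (h : φ e ≤ φ f) : e ≤ f := by
  have h1 : e ⊓ₒ cpl f = ⊥ := by
    apply h0
    rw [φ.map_meet hc.cpl_right, φ.map_cpl]
    exact meet_eq_bot_of_orth (orth_cpl_iff.mpr h)
  have h2 := meet_add_meet_cpl hc
  rw [h1, add_bot] at h2
  rw [← h2]
  exact meet_le_right hc

/-- composition -/
def comp {E F K : Type*} [OMP E] [OMP F] [OMP K] (ψ : OMPHom F K) (φ : OMPHom E F) :
    OMPHom E K where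
  toFun e := ψ (φ e)
  mono' h := ψ.mono (φ.mono h)
  map_cpl' e := by rw [φ.map_cpl, ψ.map_cpl]
  map_bot' := by rw [φ.map_bot, ψ.map_bot]
  map_add' h := by rw [φ.map_add h, ψ.map_add (φ.map_orth h)]

/-- the translation by a group element as an endomorphism -/
def smul {G : Type*} [Group G] [OMPAct G E] (g : G) : OMPHom E E where
  toFun e := g • e
  mono' h := smul_le_smul g h
  map_cpl' e := smul_cpl g e
  map_bot' := smul_bot g
  map_add' _ := smul_add g _ _

/-- equivariance -/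
def Equiv (G : Type*) [Group G] [OMPAct G E] [OMPAct G F] (φ : OMPHom E F) : Prop :=
  ∀ (g : G) (e : E), φ (g • e) = g • φ e

end OMPHom

end Romp

open Romp

variable {G E F : Type*} [CommGroup G] [ROMP E] [OMPAct G E] [ROMP F] [OMPAct G F]
variable {D : E} {p q : G} {a : ℕ} {c : ℕ → E} {St : Star → E}


theorem LS.comm_ev' (h : LS D p q a c St) {j : ℕ} (hj : j < 3 * a) (A : Set Star) :
    Comm (c j) (ev St A) := h.part_St.comm_right (h.comm j hj) A

/-- functoriality of level structures -/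
theorem LS.map (h : LS D p q a c St) (φ : OMPHom E F) (hφ : φ.Equiv G) :
    LS (φ D) p q a (fun j => φ (c j)) (fun s => φ (St s)) where
  three_le := h.three_le
  part_c := φ.map_isPart h.part_c
  p_c j := by rw [← hφ, h.p_c]
  per := by rw [h.per]
  q_c j := by rw [← hφ, h.q_c]
  part_St := φ.map_isPart h.part_St
  comm j hj s := φ.map_comm (h.comm j hj s)
  dom j h0 hj s hs := by rw [← φ.map_meet (h.comm j hj s), h.dom j h0 hj s hs, φ.map_bot]
  P_shift L := by
    rw [← φ.map_ev h.part_St, ← φ.map_ev h.part_St, ← hφ, h.P_shift]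
  Q_shift0 L := by
    have h3 := h.three_le
    rw [← φ.map_ev h.part_St, ← φ.map_ev h.part_St, ← φ.map_meet (h.comm_ev' (by omega) _),
      ← φ.map_meet (h.comm_ev' (by omega) _), ← hφ, h.Q_shift0]
  Q_shift j h0 hj th := by
    rw [← φ.map_ev h.part_St, ← φ.map_ev h.part_St, ← φ.map_meet (h.comm_ev' hj _),
      ← φ.map_meet (h.comm_ev' hj _), ← hφ, h.Q_shift j h0 hj]

/-- functoriality of the mode event -/
theorem LS.map_modeEv (h : LS D p q a c St) (φ : OMPHom E F) (hφ : φ.Equiv G)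
    (hm : Comm (q • (c 0 ⊓ₒ ev St {s | s.Pf.tau = .t2l}))
      (q⁻¹ • (c 0 ⊓ₒ ev St {s | s.Pf.tau = .f0}))) :
    φ (modeEv q (c 0) St) = modeEv q (φ (c 0)) (fun s => φ (St s)) := by
  have h3 := h.three_le
  unfold modeEv
  rw [φ.map_meet hm, hφ, hφ, φ.map_meet (h.comm_ev' (by omega) _),
    φ.map_meet (h.comm_ev' (by omega) _), φ.map_ev h.part_St, φ.map_ev h.part_St]

theorem LS.map_nextC (h : LS D p q a c St) (φ : OMPHom E F) (hφ : φ.Equiv G)
    (hm : Comm (q • (c 0 ⊓ₒ ev St {s | s.Pf.tau = .t2l}))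
      (q⁻¹ • (c 0 ⊓ₒ ev St {s | s.Pf.tau = .f0}))) (j : ℕ) :
    φ (nextC q c St j) = nextC q (fun j => φ (c j)) (fun s => φ (St s)) j := by
  unfold nextC
  rw [hφ, h.map_modeEv φ hφ hm]

omit [OMPAct G F] in
theorem LS.map_nextSt (h : LS D p q a c St) (φ : OMPHom E F) (s : Star) :
    φ (nextSt c St s) = nextSt (fun j => φ (c j)) (fun s => φ (St s)) s := by
  have h3 := h.three_le
  unfold nextSt
  rw [φ.map_meet (h.comm 0 (by omega) _)]

end Crest.Agent.R189
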