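import Crest.Agent.R189.Romp

/-!
# Row 189: the translation action on the power set `Set X` (helper516)

`V` an additive group acting on `X`; `Multiplicative V` acts on `Set X` by
`v • E = {x | -v +ᵥ x ∈ E}` (`= v + E`).
-/

set_option autoImplicit false

namespace Crest.Agent.R189

open Romp

variable {V X : Type*} [AddGroup V] [AddAction V X]

instance instMulActionSet : MulAction (Multiplicative V) (Set X) where
  smul v E := {x | -v.toAdd +ᵥ x ∈ E}
  one_smul E := by
    ext x
    show -(0 : V) +ᵥ x ∈ E ↔ _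
    simp
  mul_smul v w E := by
    ext x
    show -(v.toAdd + w.toAdd) +ᵥ x ∈ E ↔ -w.toAdd +ᵥ (-v.toAdd +ᵥ x) ∈ E
    rw [vadd_vadd, neg_add_rev]

theorem set_smul_def (v : Multiplicative V) (E : Set X) : v • E = {x | -v.toAdd +ᵥ x ∈ E} := rfl

@[simp] theorem mem_set_smul {v : Multiplicative V} {E : Set X} {x : X} :
    x ∈ v • E ↔ -v.toAdd +ᵥ x ∈ E := Iff.rfl

theorem ofAdd_smul_set (v : V) (E : Set X) :
    Multiplicative.ofAdd v • E = {x | -v +ᵥ x ∈ E} := rfl

theorem vadd_mem_set_smul {v : V} {E : Set X} {x : X} :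
    v +ᵥ x ∈ Multiplicative.ofAdd v • E ↔ x ∈ E := by
  rw [mem_set_smul, toAdd_ofAdd, neg_vadd_vadd]

theorem set_smul_eq_image (v : V) (E : Set X) :
    Multiplicative.ofAdd v • E = (fun x => v +ᵥ x) '' E := by
  ext x
  constructor
  · intro h
    exact ⟨-v +ᵥ x, h, by simp⟩
  · rintro ⟨y, hy, rfl⟩
    exact vadd_mem_set_smul.2 hy

instance instOMPActSet : OMPAct (Multiplicative V) (Set X) where
  smul_le_smul' _ _ _ h := fun _ hx => h hx
  smul_cpl' _ _ := rfl

end Crest.Agent.R189
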