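import Crest.Agent.R189.EvDefs
import Crest.Agent.R189.AltPres

/-!
Row 189, tower lemma (helper840), part 1: sum-zero displacement functions, conjugation of events by
translations, values `M3` of an event on sectional 3-cycles.
-/

set_option autoImplicit false
set_option linter.unusedSectionVars false

open Equiv Equiv.Perm Finset

namespace Crest.Agent.R189.Tower

/-! ### 3-cycles in the alternating group -/

section acyc

variable {Ω : Type*} [Fintype Ω] [DecidableEq Ω]

/-- the 3-cycle `a → b → c → a` as an element of the alternating group (junk `1` if degenerate) -/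
def acyc (a b c : Ω) : alternatingGroup Ω :=
  if h : sign (AltPres.cyc a b c) = 1 then ⟨AltPres.cyc a b c, mem_alternatingGroup.2 h⟩ else 1

theorem cyc_mem {a b c : Ω} (hab : a ≠ b) (hac : a ≠ c) (hbc : b ≠ c) :
    AltPres.cyc a b c ∈ alternatingGroup Ω :=
  (AltPres.cyc_isThreeCycle hab hac hbc).mem_alternatingGroup

theorem coe_acyc {a b c : Ω} (hab : a ≠ b) (hac : a ≠ c) (hbc : b ≠ c) :
    (acyc a b c : Perm Ω) = AltPres.cyc a b c := by
  rw [acyc, dif_pos (mem_alternatingGroup.1 (cyc_mem hab hac hbc))]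

theorem cyc_apply_fst {a b c : Ω} (hab : a ≠ b) (hbc : b ≠ c) : AltPres.cyc a b c a = b :=
  AltPres.cyc_apply hab hbc

theorem cyc_apply_snd {a b c : Ω} : AltPres.cyc a b c b = c := by
  simp [AltPres.cyc]

theorem cyc_apply_trd {a b c : Ω} (hac : a ≠ c) (hbc : b ≠ c) : AltPres.cyc a b c c = a := by
  simp [AltPres.cyc, swap_apply_of_ne_of_ne hac.symm hbc.symm]

theorem cyc_apply_of_ne {a b c x : Ω} (h1 : x ≠ a) (h2 : x ≠ b) (h3 : x ≠ c) :
    AltPres.cyc a b c x = x := by
  simp [AltPres.cyc, swap_apply_of_ne_of_ne h1 h2, swap_apply_of_ne_of_ne h1 h3]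

theorem cyc_rot {a b c : Ω} (hab : a ≠ b) (hac : a ≠ c) (hbc : b ≠ c) :
    AltPres.cyc a b c = AltPres.cyc b c a := by
  ext x
  by_cases h1 : x = a
  · subst h1; rw [cyc_apply_fst hab hbc, cyc_apply_trd hab.symm hac.symm]
  by_cases h2 : x = b
  · subst h2; rw [cyc_apply_snd, cyc_apply_fst hbc hac.symm]
  by_cases h3 : x = c
  · subst h3; rw [cyc_apply_trd hac hbc, cyc_apply_snd]
  rw [cyc_apply_of_ne h1 h2 h3, cyc_apply_of_ne h2 h3 h1]

theorem acyc_rot {a b c : Ω} (hab : a ≠ b) (hac : a ≠ c) (hbc : b ≠ c) :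
    acyc a b c = acyc b c a := by
  apply Subtype.ext
  rw [coe_acyc hab hac hbc, coe_acyc hbc hab.symm hac.symm, cyc_rot hab hac hbc]

theorem conj_cyc (σ : Perm Ω) (a b c : Ω) :
    σ * AltPres.cyc a b c * σ⁻¹ = AltPres.cyc (σ a) (σ b) (σ c) := by
  unfold AltPres.cyc
  have h : ∀ x y : Ω, σ * swap x y * σ⁻¹ = swap (σ x) (σ y) := fun x y => by
    rw [Equiv.mul_swap_eq_swap_mul, mul_inv_cancel_right]
  rw [← h a c, ← h a b]; group

theorem conj_acyc (σ : alternatingGroup Ω) {a b c : Ω} (hab : a ≠ b) (hac : a ≠ c) (hbc : b ≠ c) :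
    σ * acyc a b c * σ⁻¹ = acyc ((σ : Perm Ω) a) ((σ : Perm Ω) b) ((σ : Perm Ω) c) := by
  apply Subtype.ext
  have hi := (σ : Perm Ω).injective
  rw [coe_acyc (hi.ne hab) (hi.ne hac) (hi.ne hbc), ← conj_cyc]
  simp [coe_acyc hab hac hbc]

theorem support_cyc_eq {a b c : Ω} (hab : a ≠ b) (hac : a ≠ c) (hbc : b ≠ c) :
    (AltPres.cyc a b c).support = {a, b, c} := by
  refine Finset.eq_of_subset_of_card_le AltPres.support_cyc ?_
  rw [(AltPres.cyc_isThreeCycle hab hac hbc).card_support, card_eq_three.2 ⟨a, b, c, hab, hac, hbc, rfl⟩]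

theorem support_acyc {a b c : Ω} (hab : a ≠ b) (hac : a ≠ c) (hbc : b ≠ c) :
    (acyc a b c : Perm Ω).support = {a, b, c} := by
  rw [coe_acyc hab hac hbc, support_cyc_eq hab hac hbc]

theorem exists_cyc {z : Perm Ω} (hz : z.IsThreeCycle) :
    ∃ a b c : Ω, a ≠ b ∧ a ≠ c ∧ b ≠ c ∧ z = AltPres.cyc a b c := by
  have h3 := hz.card_support
  obtain ⟨a, ha⟩ : z.support.Nonempty := by rw [← Finset.card_pos]; omega
  have hord := hz.orderOf
  have ha1 : z a ≠ a := mem_support.1 ha
  have hb1 : z (z a) ≠ z a := fun h => ha1 (z.injective h)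
  have hz3 : z (z (z a)) = a := by
    have := congrArg (fun y : Perm Ω => y a) (pow_orderOf_eq_one z)
    rw [hord] at this
    simpa [pow_succ] using this
  have hac : a ≠ z (z a) := fun h => ha1 (by rw [← h] at hz3; exact hz3)
  refine ⟨a, z a, z (z a), Ne.symm ha1, hac, Ne.symm hb1, ?_⟩
  have hsup : z.support = {a, z a, z (z a)} := by
    symm
    refine Finset.eq_of_subset_of_card_le ?_ ?_
    · intro x hx
      simp only [mem_insert, mem_singleton] at hx
      rw [mem_support]
      rcases hx with rfl | rfl | rfl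
      · exact ha1
      · exact hb1
      · exact fun h => hb1 (z.injective h)
    · rw [h3, card_eq_three.2 ⟨a, z a, z (z a), Ne.symm ha1, hac, Ne.symm hb1, rfl⟩]
  ext x
  by_cases h1 : x = a
  · subst h1; rw [cyc_apply_fst (Ne.symm ha1) (Ne.symm hb1)]
  by_cases h2 : x = z a
  · subst h2; rw [cyc_apply_snd]
  by_cases h3 : x = z (z a)
  · subst h3; rw [cyc_apply_trd hac (Ne.symm hb1), hz3]
  rw [cyc_apply_of_ne h1 h2 h3]
  have : x ∉ z.support := by rw [hsup]; simp [h1, h2, h3]
  exact notMem_support.1 this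

/-- `exists_cyc` for elements of the alternating group -/
theorem eq_acyc {z : Perm Ω} (hz : z.IsThreeCycle) :
    ∃ a b c : Ω, a ≠ b ∧ a ≠ c ∧ b ≠ c ∧ z = AltPres.cyc a b c ∧
      (⟨z, hz.mem_alternatingGroup⟩ : alternatingGroup Ω) = acyc a b c := by
  obtain ⟨a, b, c, hab, hac, hbc, h⟩ := exists_cyc hz
  refine ⟨a, b, c, hab, hac, hbc, h, ?_⟩
  apply Subtype.ext
  rw [coe_acyc hab hac hbc]
  exact h

end acyc

/-! ### sum-zero functions -/

section lam

variable {C : Type} [Fintype C] [DecidableEq C] {V : Type} [AddCommGroup V]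

/-- prescribe the values on `A`, balance at `b ∉ A`, zero elsewhere -/
theorem exists_lam_insert (A : Finset C) {b : C} (hb : b ∉ A) (f : C → V) :
    ∃ l : C → V, ∑ c, l c = 0 ∧ (∀ c ∈ A, l c = f c) ∧ ∀ c, c ∉ insert b A → l c = 0 := by
  refine ⟨fun c => if c ∈ A then f c else if c = b then - ∑ a ∈ A, f a else 0, ?_, ?_, ?_⟩
  · have h1 : ∀ c : C, (if c ∈ A then f c else if c = b then - ∑ a ∈ A, f a else 0) =
        (if c ∈ A then f c else 0) + (if c = b then - ∑ a ∈ A, f a else 0) := by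
      intro c
      by_cases hc : c ∈ A
      · have : c ≠ b := fun h => hb (h ▸ hc)
        simp [hc, this]
      · simp [hc]
    rw [Finset.sum_congr rfl fun c _ => h1 c, Finset.sum_add_distrib]
    simp
  · intro c hc; simp [hc]
  · intro c hc
    rw [mem_insert, not_or] at hc
    simp [hc.1, hc.2]

theorem exists_lam (A : Finset C) (hA : A ≠ univ) (f : C → V) :
    ∃ l : C → V, ∑ c, l c = 0 ∧ ∀ c ∈ A, l c = f c := by
  obtain ⟨b, hb⟩ : ∃ b, b ∉ A := by
    by_contra h
    push Not at h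
    exact hA (eq_univ_of_forall h)
  obtain ⟨l, h1, h2, _⟩ := exists_lam_insert A hb f
  exact ⟨l, h1, h2⟩

end lam

variable {C : Type} [Fintype C] [DecidableEq C] {V : Type} [AddCommGroup V] {T : Type} [Group T]

section H

variable (S : ColGrp C V T)

theorem H_zero : S.H 0 = 1 := by
  have h := S.H_add 0 0 (by simp) (by simp)
  rw [add_zero] at h
  exact left_eq_mul.1 h

theorem H_neg {l : C → V} (hl : ∑ c, l c = 0) : S.H (-l) = (S.H l)⁻¹ := by
  have h := S.H_add (-l) l (by simp [hl]) hl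
  rw [neg_add_cancel, H_zero] at h
  exact (inv_eq_of_mul_eq_one_left h.symm).symm

theorem H_sub {l m : C → V} (hl : ∑ c, l c = 0) (hm : ∑ c, m c = 0) :
    S.H (l - m) = S.H l * (S.H m)⁻¹ := by
  rw [sub_eq_add_neg, S.H_add l (-m) hl (by simp [hm]), H_neg S hm]

theorem H_comm {l m : C → V} (hl : ∑ c, l c = 0) (hm : ∑ c, m c = 0) :
    Commute (S.H l) (S.H m) := by
  unfold Commute SemiconjBy
  rw [← S.H_add l m hl hm, ← S.H_add m l hm hl, add_comm]

end H

variable {S : ColGrp C V T}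

/-- elements of `T[A]` commute with the event values of disjoint support -/
theorem comm_hom (e : Ev S) {A : Finset C} {x : T} (hx : x ∈ S.sub A) (s : alternatingGroup C)
    (h : Disjoint (s : Perm C).support A) : Commute x (e.hom s) := by
  have h1 := S.sub_gen A hx
  clear hx
  induction h1 using Subgroup.closure_induction with
  | mem y hy =>
    obtain ⟨B, hBA, hB3, hyB⟩ := hy
    have h2 : e.hom s ∈ S.sub Bᶜ := by
      refine e.mem s _ ?_ ?_
      · intro c hc
        rw [mem_compl]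
        exact fun hcB => (Finset.disjoint_left.1 h) hc (hBA hcB)
      · rw [card_compl]
        have := S.card_C
        omega
    exact S.sub_comm B Bᶜ disjoint_compl_right y hyB _ h2
  | one => exact Commute.one_left _
  | mul a b _ _ iha ihb => exact Commute.mul_left iha ihb
  | inv a _ ih => exact Commute.inv_left ih

theorem H_comm_hom (e : Ev S) {m : C → V} (hm : ∑ c, m c = 0) (s : alternatingGroup C)
    (h : ∀ c ∈ (s : Perm C).support, m c = 0) : Commute (S.H m) (e.hom s) := by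
  refine comm_hom e (A := (s : Perm C).supportᶜ) (S.H_mem m _ hm fun c hc => ?_) s
    disjoint_compl_right
  rw [mem_compl, not_not] at hc
  exact h c hc

/-- conjugation by `H l` only depends on the values of `l` on the support -/
theorem conj_H_congr (e : Ev S) {l m : C → V} (hl : ∑ c, l c = 0) (hm : ∑ c, m c = 0)
    (s : alternatingGroup C) (h : ∀ c ∈ (s : Perm C).support, l c = m c) :
    S.H l * e.hom s * (S.H l)⁻¹ = S.H m * e.hom s * (S.H m)⁻¹ := by
  have h1 : Commute (S.H (l - m)) (e.hom s) := by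
    refine H_comm_hom e (by simp [hl, hm]) s fun c hc => ?_
    rw [Pi.sub_apply, h c hc, sub_self]
  have h2 : S.H l = S.H m * S.H (l - m) := by
    rw [← S.H_add m (l - m) hm (by simp [hl, hm])]
    congr 1
    abel
  rw [h2, mul_inv_rev, mul_assoc, mul_assoc, ← mul_assoc (e.hom s), ← mul_assoc (S.H (l - m)),
    ← mul_assoc (S.H (l - m)), h1.eq, mul_assoc (e.hom s), mul_inv_cancel, mul_one, ← mul_assoc]

/-- The value of the event `e` on the sectional permutation `s` at the positions `f`: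
`H(l) e(s) H(l)⁻¹` for any `l` of sum zero equal to `f` on the support of `s`. -/
noncomputable def trf (e : Ev S) (f : C → V) (s : alternatingGroup C) : T :=
  open Classical in
  if h : ∃ l : C → V, ∑ c, l c = 0 ∧ ∀ c ∈ (s : Perm C).support, l c = f c then
    S.H h.choose * e.hom s * (S.H h.choose)⁻¹ else 1

theorem trf_eq (e : Ev S) {f : C → V} {s : alternatingGroup C} {l : C → V} (hl : ∑ c, l c = 0)
    (h : ∀ c ∈ (s : Perm C).support, l c = f c) :
    trf e f s = S.H l * e.hom s * (S.H l)⁻¹ := by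
  have h0 : ∃ l : C → V, ∑ c, l c = 0 ∧ ∀ c ∈ (s : Perm C).support, l c = f c := ⟨l, hl, h⟩
  rw [trf, dif_pos h0]
  exact conj_H_congr e h0.choose_spec.1 hl s fun c hc =>
    (h0.choose_spec.2 c hc).trans (h c hc).symm

theorem trf_congr (e : Ev S) {f g : C → V} {s : alternatingGroup C}
    (h : ∀ c ∈ (s : Perm C).support, f c = g c) : trf e f s = trf e g s := by
  by_cases h0 : ∃ l : C → V, ∑ c, l c = 0 ∧ ∀ c ∈ (s : Perm C).support, l c = f c
  · obtain ⟨l, hl, hf⟩ := h0
    rw [trf_eq e hl hf, trf_eq e hl fun c hc => (hf c hc).trans (h c hc)]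
  · have h1 : ¬ ∃ l : C → V, ∑ c, l c = 0 ∧ ∀ c ∈ (s : Perm C).support, l c = g c := by
      rintro ⟨l, hl, hg⟩
      exact h0 ⟨l, hl, fun c hc => (hg c hc).trans (h c hc).symm⟩
    rw [trf, trf, dif_neg h0, dif_neg h1]

theorem trf_mul (e : Ev S) {f : C → V} {s t : alternatingGroup C} {l : C → V}
    (hl : ∑ c, l c = 0) (hs : ∀ c ∈ (s : Perm C).support, l c = f c)
    (ht : ∀ c ∈ (t : Perm C).support, l c = f c) : trf e f (s * t) = trf e f s * trf e f t := by
  have hst : ∀ c ∈ ((s * t : alternatingGroup C) : Perm C).support, l c = f c := by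
    intro c hc
    rcases mem_union.1 (support_mul_le _ _ hc) with h | h
    · exact hs c h
    · exact ht c h
  rw [trf_eq e hl hst, trf_eq e hl hs, trf_eq e hl ht, map_mul]
  group

theorem trf_one (e : Ev S) (f : C → V) : trf e f 1 = 1 := by
  rw [trf_eq e (l := 0) (by simp) (by simp)]
  simp

/-- Locality: `x` lies in `T[A']` for every `A' ⊇ A` of cardinality at least `k`. -/
def Loc (S : ColGrp C V T) (k : ℕ) (A : Finset C) (x : T) : Prop :=
  ∀ A' : Finset C, A ⊆ A' → k ≤ A'.card → x ∈ S.sub A'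

theorem Loc.mul {k : ℕ} {A : Finset C} {x y : T} (hx : Loc S k A x) (hy : Loc S k A y) :
    Loc S k A (x * y) := fun A' h h' => mul_mem (hx A' h h') (hy A' h h')

theorem Loc.inv {k : ℕ} {A : Finset C} {x : T} (hx : Loc S k A x) : Loc S k A x⁻¹ :=
  fun A' h h' => inv_mem (hx A' h h')

theorem Loc.mono {k k' : ℕ} {A B : Finset C} {x : T} (hx : Loc S k A x) (hAB : A ⊆ B)
    (hk : k ≤ k') : Loc S k' B x := fun A' h h' => hx A' (hAB.trans h) (hk.trans h')

theorem Loc.comm {k k' : ℕ} {A B : Finset C} {x y : T} (hx : Loc S k A x) (hy : Loc S k' B y)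
    (hAB : Disjoint A B) (h1 : A.card + B.card ≤ 30) (h2 : k + k' ≤ 30)
    (h3 : A.card + k' ≤ 30) (h4 : B.card + k ≤ 30) : Commute x y := by
  -- choose `A'`
  have hN := S.card_C
  have hAc : A ⊆ Bᶜ := fun c hc => mem_compl.2 (Finset.disjoint_left.1 hAB hc)
  obtain ⟨A', hA1, hA2, hA3⟩ : ∃ A' : Finset C, A ⊆ A' ∧ A' ⊆ Bᶜ ∧ A'.card = max A.card k := by
    refine exists_subsuperset_card_eq hAc (le_max_left _ _) ?_
    rw [card_compl]
    rcases max_choice A.card k with h | h <;> rw [h] <;> omega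
  have hB : B ⊆ A'ᶜ := fun c hc => mem_compl.2 fun h => (mem_compl.1 (hA2 h)) hc
  refine S.sub_comm A' A'ᶜ disjoint_compl_right x (hx A' hA1 ?_) y (hy _ hB ?_)
  · rw [hA3]; exact le_max_right _ _
  · rw [card_compl, hA3]
    rcases max_choice A.card k with h | h <;> rw [h] <;> omega

theorem Loc.comm_sub {k : ℕ} {A B : Finset C} {x y : T} (hx : Loc S k A x) (hy : y ∈ S.sub B)
    (hAB : Disjoint A B) (hk : k ≤ 27) : Commute x y := by
  have h1 := S.sub_gen B hy
  clear hy
  induction h1 using Subgroup.closure_induction with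
  | mem z hz =>
    obtain ⟨B', hBB, hB3, hzB⟩ := hz
    have h2 : x ∈ S.sub B'ᶜ := by
      refine hx _ ?_ ?_
      · intro c hc
        rw [mem_compl]
        exact fun hcB => (Finset.disjoint_left.1 hAB) hc (hBB hcB)
      · rw [card_compl]
        have := S.card_C
        omega
    exact (S.sub_comm B' B'ᶜ disjoint_compl_right z hzB _ h2).symm
  | one => exact Commute.one_right _
  | mul a b _ _ iha ihb => exact Commute.mul_right iha ihb
  | inv a _ ih => exact Commute.inv_right ih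

theorem hom_loc (e : Ev S) (s : alternatingGroup C) : Loc S 5 (s : Perm C).support (e.hom s) :=
  fun A' h h' => e.mem s A' h h'

theorem trf_loc (e : Ev S) (f : C → V) (s : alternatingGroup C) (hs : (s : Perm C).support.card ≤ 4) :
    Loc S 5 (s : Perm C).support (trf e f s) := by
  intro A' h h'
  obtain ⟨b, hb, hbs⟩ : ∃ b ∈ A', b ∉ (s : Perm C).support :=
    Finset.exists_mem_notMem_of_card_lt_card (by omega)
  obtain ⟨l, h1, h2, h3⟩ := exists_lam_insert (s : Perm C).support hbs f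
  have hH : S.H l ∈ S.sub A' := by
    refine S.H_mem l A' h1 fun c hc => h3 c fun hc' => hc ?_
    rcases mem_insert.1 hc' with rfl | h4
    · exact hb
    · exact h h4
  rw [trf_eq e h1 h2]
  exact mul_mem (mul_mem hH (e.mem s A' h h')) (inv_mem hH)

/-! ### values on sectional 3-cycles -/

/-- positions `v₁, v₂, v₃` at the colours `a, b, c` -/
def pos3 (v₁ v₂ v₃ : V) (a b : C) : C → V := fun x => if x = a then v₁ else if x = b then v₂ else v₃

/-- the value of `e` on the 3-cycle `(v₁,a) → (v₂,b) → (v₃,c)` (`a,b,c` distinct colours) -/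
noncomputable def M3 (e : Ev S) (v₁ v₂ v₃ : V) (a b c : C) : T :=
  trf e (pos3 v₁ v₂ v₃ a b) (acyc a b c)

theorem M3_eq (e : Ev S) {v₁ v₂ v₃ : V} {a b c : C} (hab : a ≠ b) (hac : a ≠ c) (hbc : b ≠ c)
    {l : C → V} (hl : ∑ x, l x = 0) (ha : l a = v₁) (hb : l b = v₂) (hc : l c = v₃) :
    M3 e v₁ v₂ v₃ a b c = S.H l * e.hom (acyc a b c) * (S.H l)⁻¹ := by
  refine trf_eq e hl fun x hx => ?_
  rw [support_acyc hab hac hbc] at hx
  simp only [mem_insert, mem_singleton] at hx
  rcases hx with rfl | rfl | rfl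
  · simp [pos3, ha]
  · simp [pos3, hab.symm, hb]
  · simp [pos3, hac.symm, hbc.symm, hc]

theorem M3_loc (e : Ev S) (v₁ v₂ v₃ : V) {a b c : C} (hab : a ≠ b) (hac : a ≠ c) (hbc : b ≠ c) :
    Loc S 5 {a, b, c} (M3 e v₁ v₂ v₃ a b c) := by
  have h := trf_loc e (pos3 v₁ v₂ v₃ a b) (acyc a b c)
  rw [support_acyc hab hac hbc] at h
  exact h (card_le_three.trans (by norm_num))

/-- existence of a sum-zero function with prescribed values on few colours -/
theorem exists_lam' (S : ColGrp C V T) (A : Finset C) (hA : A.card < 30) (f : C → V) :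
    ∃ l : C → V, ∑ c, l c = 0 ∧ ∀ c ∈ A, l c = f c := by
  refine exists_lam A (fun h => ?_) f
  rw [h, card_univ] at hA
  exact absurd S.card_C (by omega)

theorem M3_rot (e : Ev S) (v₁ v₂ v₃ : V) {a b c : C} (hab : a ≠ b) (hac : a ≠ c) (hbc : b ≠ c) :
    M3 e v₁ v₂ v₃ a b c = M3 e v₂ v₃ v₁ b c a := by
  obtain ⟨l, hl, h⟩ := exists_lam' S {a, b, c}
    (card_le_three.trans_lt (by norm_num)) (pos3 v₁ v₂ v₃ a b)
  have ha : l a = v₁ := by rw [h a (by simp)]; simp [pos3]
  have hb : l b = v₂ := by rw [h b (by simp)]; simp [pos3, hab.symm]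
  have hc : l c = v₃ := by rw [h c (by simp)]; simp [pos3, hac.symm, hbc.symm]
  rw [M3_eq e hab hac hbc hl ha hb hc, M3_eq e hbc hab.symm hac.symm hl hb hc ha,
    acyc_rot hab hac hbc]

/-- **recolouring step**: the 3-cycle `a → x → y` at position `v₁` moves the point `(v₁,a)` of a
sectional 3-cycle to `(v₁,x)`. -/
theorem M3_step (e : Ev S) (v₁ v₂ v₃ : V) {a b c x y : C} (hab : a ≠ b) (hac : a ≠ c) (hbc : b ≠ c)
    (hax : a ≠ x) (hay : a ≠ y) (hxy : x ≠ y) (hbx : b ≠ x) (hby : b ≠ y) (hcx : c ≠ x)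
    (hcy : c ≠ y) :
    M3 e v₁ v₁ v₁ a x y * M3 e v₁ v₂ v₃ a b c * (M3 e v₁ v₁ v₁ a x y)⁻¹ =
      M3 e v₁ v₂ v₃ x b c := by
  obtain ⟨l, hl, h⟩ := exists_lam' S ({a, b, c, x, y} : Finset C)
    (card_le_five.trans_lt (by norm_num))
    (fun t => if t = b then v₂ else if t = c then v₃ else v₁)
  have ha : l a = v₁ := by rw [h a (by simp)]; simp [hab, hac]
  have hb : l b = v₂ := by rw [h b (by simp)]; simp
  have hc : l c = v₃ := by rw [h c (by simp)]; simp [hbc.symm]
  have hx : l x = v₁ := by rw [h x (by simp)]; simp [hbx.symm, hcx.symm]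
  have hy : l y = v₁ := by rw [h y (by simp)]; simp [hby.symm, hcy.symm]
  rw [M3_eq e hax hay hxy hl ha hx hy, M3_eq e hab hac hbc hl ha hb hc,
    M3_eq e hbx.symm hcx.symm hbc hl hx hb hc]
  have h1 : acyc a x y * acyc a b c * (acyc a x y)⁻¹ = acyc x b c := by
    rw [conj_acyc _ hab hac hbc, coe_acyc hax hay hxy, cyc_apply_fst hax hxy,
      cyc_apply_of_ne hab.symm hbx hby, cyc_apply_of_ne hac.symm hcx hcy]
  rw [← h1, map_mul, map_mul, map_inv]
  group

end Crest.Agent.R189.Tower
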