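import Crest.Agent.R189.Lift
import Crest.Agent.R189.SecK
import Crest.Agent.R189.FPBridge
import Crest.Agent.R189.FPGen
import Crest.Agent.R189.GlueT
import Crest.Agent.R189.GpSimple
import Crest.Agent.R189.XMin
import Crest.Agent.R189.KSec
import Crest.Agent.R189.KRef
import Crest.Agent.R189.Sem
import Crest.Agent.R189.HierMap
import Crest.Agent.R189.TBase
import Crest.Agent.R189.Glue
import Crest.Agent.R189.Asm
import Crest.Agent.R189.Let

/-!
# Row 189 (S0289), section 3: ASSEMBLY (helper396)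

`T = TGrp MD C` (presented group), `q : T →* Gp`, `Tbar = T ⧸ Z(T)`, `qb : Tbar →* Gp`.

* `clo_of_ev_mem` : events with values in `Gp` are clopen;
* `secSys_of_good` : if all events `{x ∈ D | κ x = k}` are good then the system of sections `SecSys`
  of kind `κ` exists.
-/

set_option autoImplicit false

namespace Crest.Agent.R189.FPMain

open Equiv Equiv.Perm

section clopen

variable {X A C : Type} [AddAction (ℤ × ℤ) X] [Finite A] [Fintype C] [DecidableEq C]
  {letter : X → A}

/-- an event all of whose values lie in `Gp` is clopen -/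
theorem clo_of_ev_mem (hC : 5 ≤ Fintype.card C) {E : Set X}
    (h : ∀ s ∈ alternatingGroup C, ev E s ∈ Gp (ℤ × ℤ) letter C) : Clo (ℤ × ℤ) letter E := by
  classical
  obtain ⟨c1, c2, c3, h12, h13, h23⟩ : ∃ c1 c2 c3 : C, c1 ≠ c2 ∧ c1 ≠ c3 ∧ c2 ≠ c3 :=
    Fintype.two_lt_card_iff.1 (by omega)
  let s : Perm C := Equiv.swap c1 c2 * Equiv.swap c1 c3
  have hs : s ∈ alternatingGroup C := by
    rw [Equiv.Perm.mem_alternatingGroup, map_mul, Equiv.Perm.sign_swap h12,
      Equiv.Perm.sign_swap h13]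
    rfl
  obtain ⟨W, d, k, hdk, hg⟩ := isLoc_of_mem_Gp (h s hs)
  have hs3 : s c3 = c2 := by
    simp [s]
  refine ⟨W, ?_⟩
  have key : ∀ x y : X, Agree letter (W : Set (ℤ × ℤ)) x y → x ∈ E → y ∈ E := by
    intro x y hxy hx
    by_contra hy
    have e1 := hg x c3
    have e2 := hg y c3
    rw [ev_apply_mem hx] at e1
    rw [ev_apply_notMem hy] at e2
    have e3 := (hdk x y hxy c3).2
    rw [Prod.ext_iff] at e1 e2
    have : c2 = c3 := by
      rw [← hs3]
      exact e1.2.trans (e3.trans e2.2.symm)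
    exact h23 this
  intro x y hxy
  exact ⟨key x y hxy, key y x hxy.symm⟩

/-- the full map `T →* Perm (X × C)` -/
def qP {T : Type} [Group T] (q : T →* Gp (ℤ × ℤ) letter C) : T →* Perm (X × C) :=
  (Gp (ℤ × ℤ) letter C).subtype.comp q

omit [Finite A] in
@[simp] theorem qP_apply {T : Type} [Group T] (q : T →* Gp (ℤ × ℤ) letter C) (t : T) :
    qP q t = (q t : Perm (X × C)) := rfl

omit [Finite A] in
theorem qP_ker {T : Type} [Group T] (q : T →* Gp (ℤ × ℤ) letter C) : (qP q).ker = q.ker := by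
  ext t
  rw [MonoidHom.mem_ker, MonoidHom.mem_ker, qP_apply]
  exact ⟨fun h => Subtype.ext h, fun h => by rw [h]; rfl⟩

/-- SECTIONS: if every event `{x ∈ D | κ x = k}` is good, the system of sections exists. -/
theorem secSys_of_good {T : Type} [Group T] (q : T →* Gp (ℤ × ℤ) letter C)
    (hq : Function.Surjective q) (hK : q.ker ≤ Subgroup.center T) (hC : 30 ≤ Fintype.card C)
    {Lab Sta : Type} (L : K.Lev X Lab Sta) {κ' : Type} [Fintype κ'] (κ : X → κ')
    (good : ∀ k, ∃ θ : alternatingGroup C →* T,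
      ∀ s, (q (θ s) : Perm (X × C)) = ev {x | x ∈ L.D ∧ κ x = k} (s : Perm C)) :
    Nonempty (K.SecSys L C (qP q) κ) := by
  classical
  choose θ hθ using good
  have hE : ∀ k, Clo (ℤ × ℤ) letter {x | x ∈ L.D ∧ κ x = k} := by
    intro k
    apply clo_of_ev_mem (C := C) (by omega)
    intro s hs
    have := hθ k ⟨s, hs⟩
    change _ = ev _ s at this
    rw [← this]
    exact (q _).2
  have hs : ∀ (W : Finset (ℤ × ℤ)) (hW : L.Dist W),
      ∃ s : (κ' → K.AltOn (K.win C W)) →* T,
        ∀ z, (q (s z) : Perm (X × C)) = K.realAlt hW.cell κ z :=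
    fun W hW => SecW.exists_secK q hq hK hC hW.cell κ hE θ hθ
  choose s hs using hs
  exact ⟨{ s := s
           q_s := hs
           cen := by rw [qP_ker]; exact hK
           five := by omega }⟩

/-- the four kinds of sections from the goodness of the sets `{x ∈ D | dig x = j, st x ∈ A}` -/
theorem secSys_four {T : Type} [Group T] (q : T →* Gp (ℤ × ℤ) letter C)
    (hq : Function.Surjective q) (hK : q.ker ≤ Subgroup.center T) (hC : 30 ≤ Fintype.card C)
    {Lab Sta : Type} [Fintype Lab] [Fintype Sta] (L : K.Lev X Lab Sta)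
    (good : ∀ (j : ZMod L.n) (S : Set Sta), ∃ θ : alternatingGroup C →* T,
      ∀ s, (q (θ s) : Perm (X × C)) =
        ev {x | x ∈ L.D ∧ L.dig x = j ∧ L.st x ∈ S} (s : Perm C)) :
    Nonempty (K.SecSys L C (qP q) L.dig) ∧ Nonempty (K.SecSys L C (qP q) L.kP) ∧
      Nonempty (K.SecSys L C (qP q) L.kQ) ∧ Nonempty (K.SecSys L C (qP q) L.kV) := by
  have : NeZero L.n := ⟨L.n_pos.ne'⟩
  refine ⟨?_, ?_, ?_, ?_⟩
  · refine secSys_of_good q hq hK hC L L.dig (fun j => ?_)
    obtain ⟨θ, hθ⟩ := good j Set.univ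
    refine ⟨θ, fun s => ?_⟩
    rw [hθ]
    congr 2
    ext x
    simp
  · refine secSys_of_good q hq hK hC L L.kP (fun k => ?_)
    obtain ⟨θ, hθ⟩ := good k.1 {σ | L.sPf σ = k.2}
    refine ⟨θ, fun s => ?_⟩
    rw [hθ]
    congr 2
    ext x
    simp only [Set.mem_ofPred_eq, K.Lev.kP, Prod.ext_iff]
    constructor
    · rintro ⟨h1, h2, h3⟩
      exact ⟨h1, h2, by rw [L.Pf_st x h1]; exact h3⟩
    · rintro ⟨h1, h2, h3⟩
      exact ⟨h1, h2, by rw [← L.Pf_st x h1]; exact h3⟩
  · refine secSys_of_good q hq hK hC L L.kQ (fun k => ?_)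
    obtain ⟨θ, hθ⟩ := good k.1 {σ | L.sQf σ = k.2}
    refine ⟨θ, fun s => ?_⟩
    rw [hθ]
    congr 2
    ext x
    simp only [Set.mem_ofPred_eq, K.Lev.kQ, Prod.ext_iff]
    constructor
    · rintro ⟨h1, h2, h3⟩
      exact ⟨h1, h2, by rw [L.Qf_st x h1]; exact h3⟩
    · rintro ⟨h1, h2, h3⟩
      exact ⟨h1, h2, by rw [← L.Qf_st x h1]; exact h3⟩
  · refine secSys_of_good q hq hK hC L L.kV (fun k => ?_)
    obtain ⟨θ, hθ⟩ := good k.1 {σ | σ = k.2}
    refine ⟨θ, fun s => ?_⟩
    rw [hθ]
    congr 2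
    ext x
    simp only [Set.mem_ofPred_eq, K.Lev.kV, Prod.ext_iff]

end clopen

section lift

variable {X C : Type} [AddAction (ℤ × ℤ) X] [Fintype C] [DecidableEq C]
  {T T' : Type} [Group T] [Group T'] {S : ColGrp C (ℤ × ℤ) T} {S' : ColGrp C (ℤ × ℤ) T'}
  {π : T →* T'}

/-- the cells of all levels are good -/
theorem good_cell [Centreless T'] [Cls.IsCentral π] (h : ColMap S S' π) (R : Rep S' X)
    {D : Ev S'} {p r : Multiplicative (ℤ × ℤ)} {a : ℕ} (ha : Odd a)
    {c : ℕ → Ev S'} {St : Star → Ev S'} (hLS : LS D p r a c St)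
    (h0 : ∀ j s, j < 3 * a → ∃ e : Ev S, e.map h = Romp.meet (c j) (St s))
    (k j : ℕ) (hj : j < 3 * (a + k)) (A : Set Star) :
    ∃ θ : alternatingGroup C →* T, ∀ s, R.toHom (π (θ s)) =
      ev (Romp.meet (hc p r a (fun j => R.set (c j)) (fun s => R.set (St s)) k j)
        (Romp.ev (hSt p r a (fun j => R.set (c j)) (fun s => R.set (St s)) k) A))
        (s : Perm C) := by
  obtain ⟨e, he⟩ := lift_cell' h ha hLS h0 k j hj A
  refine ⟨e.hom, fun s => ?_⟩
  rw [← Ev.map_hom h, he, R.hom_eq]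
  congr 2
  exact hLS.map_atom R.ompHom R.ompHom_equiv k hj A

end lift

/-! ### the concrete group -/

section concrete

variable (C : Type) [Fintype C] [DecidableEq C]

/-- `Gp` is centreless -/
theorem centre_Gp (hC : 30 ≤ Fintype.card C) :
    Subgroup.center (Gp (ℤ × ℤ) letter C) = ⊥ :=
  center_Gp (by omega) letter_sep letter_minl

variable {C} [Nonempty C] (hC : 30 ≤ Fintype.card C)

/-- the representation of `T / Z(T)` -/
noncomputable def RX : Rep ((tModel MD C).modCenter.colGrp hC) X :=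
  (conc_qTbar letter MD letter_match (centre_Gp C hC)).rep hC

theorem RX_mk (t : TGrp MD C) :
    (RX hC).toHom (QuotientGroup.mk' _ t) = qT (C := C) letter MD letter_match t := rfl

theorem RX_set_c (j : ℕ) : (RX hC).set (cEv (tModel MD C).modCenter hC j) = cX j := by
  rw [cEv, RX, Conc.set_setEv]
  ext y
  simp [cX]

theorem RX_set_St (s : Star) :
    (RX hC).set (StEv (tModel MD C).modCenter hC s) = StX s := by
  rw [StEv, RX, Conc.set_setEv]
  ext y
  simp [StX]

omit [Nonempty C] in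
include hC in
theorem centreless_bar : Centreless (TGrp MD C ⧸ Subgroup.center (TGrp MD C)) :=
  ⟨(tModel MD C).modCenter_center hC⟩

include hC in
/-- all cells of all levels are good in `T` -/
theorem good_X (k j : ℕ) (hj : j < 3 * (3 + k)) (A : Set Star) :
    ∃ θ : alternatingGroup C →* TGrp MD C, ∀ s, qT (C := C) letter MD letter_match (θ s) =
      ev (Romp.meet (hc pZ qZ 3 cX StX k j) (Romp.ev (hSt pZ qZ 3 cX StX k) A))
        (s : Perm C) := by
  have := centreless_bar (C := C) hC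
  obtain ⟨θ, hθ⟩ := good_cell ((tModel MD C).colMap_modCenter hC) (RX hC)
    (a := 3) (by decide) (TBase.base (tModel MD C).modCenter hC) (by
      intro j s hj
      refine ⟨(tModel MD C).letterEv hC (⟨j, hj⟩, s), ?_⟩
      rw [TModel.map_letterEv_modCenter, TBase.atom _ hC hj]) k j hj A
  have e1 : (fun j => (RX hC).set (cEv (tModel MD C).modCenter hC j)) = cX :=
    funext (RX_set_c hC)
  have e2 : (fun s => (RX hC).set (StEv (tModel MD C).modCenter hC s)) = StX :=
    funext (RX_set_St hC)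
  refine ⟨θ, fun s => ?_⟩
  rw [← RX_mk hC, hθ, e1, e2]

include hC in
/-- the cells of the even levels -/
theorem good_LX (m : ℕ) (j : ZMod (LX m).n) (A : Set Star) :
    ∃ θ : alternatingGroup C →* TGrp MD C, ∀ s, qT (C := C) letter MD letter_match (θ s) =
      ev {x | x ∈ (LX m).D ∧ (LX m).dig x = j ∧ (LX m).st x ∈ A} (s : Perm C) := by
  have : NeZero (LX m).n := ⟨(LX m).n_pos.ne'⟩
  obtain ⟨θ, hθ⟩ := good_X hC (2 * m) j.val (ZMod.val_lt j) A
  refine ⟨θ, fun s => ?_⟩
  rw [hθ, cell_eq, ZMod.natCast_zmod_val]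

include hC in
/-- **the sections of the four kinds** -/
theorem secSys_LX (hK : (qT (C := C) letter MD letter_match).ker ≤
      Subgroup.center (TGrp MD C)) (m : ℕ) :
    Nonempty (K.SecSys (LX m) C (qT letter MD letter_match) (LX m).dig) ∧
    Nonempty (K.SecSys (LX m) C (qT letter MD letter_match) (LX m).kP) ∧
    Nonempty (K.SecSys (LX m) C (qT letter MD letter_match) (LX m).kQ) ∧
    Nonempty (K.SecSys (LX m) C (qT letter MD letter_match) (LX m).kV) := by
  rw [ker_qT] at hK
  exact secSys_four (gpModel letter MD letter_match).lift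
    (gpModel letter MD letter_match).lift_surjective hK hC (LX m) (good_LX hC m)

omit [Nonempty C] in
/-- finite presentability from a finitely generated kernel -/
theorem fp_of_fg [Nonempty C] (h : Group.FG (qT (C := C) letter MD letter_match).ker) :
    Group.IsFinitelyPresented (Gp (ℤ × ℤ) letter C) := by
  rw [ker_qT] at h
  have := TGrp_fp (C := C) MD
  exact Group.IsFinitelyPresented.of_surjective (gpModel letter MD letter_match).lift
    (gpModel letter MD letter_match).lift_surjective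
    (Subgroup.IsFinitelyNormallyGenerated.of_FG _)

end concrete

end Crest.Agent.R189.FPMain
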