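import Crest.Agent.R189.Let
import Crest.Agent.R189.StarOf

/-!
# Row 189, M7: which stars can occur (algebraic side)

In any level structure a nonzero event `c j ⊓ₒ St s` with `0 < j < 3a` has
`s.1 = rstarOf a j j' L0` with `AdmL a j' L0`.
-/

set_option autoImplicit false

namespace Crest.Agent.R189

open Romp

theorem labR_eq_lamAt (a j j' : ℕ) (L : Label) : labR a j j' L = lamAt a j j' L := rfl

theorem sigR_eq_rstarOf (a j j' : ℕ) (L : Label) : sigR a j j' L = rstarOf a j j' L := by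
  unfold sigR rstarOf lamAt
  split_ifs <;> rfl

namespace LS

variable {G E : Type*} [CommGroup G] [ROMP E] [OMPAct G E]
variable {D : E} {p q : G} {a : ℕ} {c : ℕ → E} {St : Star → E}

theorem exists_of_ev_ne_bot (h : LS D p q a c St) {j : ℕ} (hj : j < 3 * a) {A : Set Star}
    (hA : c j ⊓ₒ ev St A ≠ ⊥) : ∃ s ∈ A, c j ⊓ₒ St s ≠ ⊥ := by
  rw [h.meet_ev_St hj] at hA
  by_contra hn
  push Not at hn
  exact hA ((h.part_cell hj).ev_eq_bot_iff.2 hn)

theorem smul_ne_bot_iff {E : Type*} [OMP E] [OMPAct G E] (g : G) {x : E} : g • x ≠ ⊥ ↔ x ≠ ⊥ :=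
  not_congr (smul_eq_bot_iff g)

/-- one step of the occurrence statement -/
theorem cell_occ_aux (h : LS D p q a c St) {j : ℕ} (hj0 : 0 < j) (hj : j < 3 * a) {s : Star}
    (hne : c j ⊓ₒ St s ≠ ⊥) :
    ∃ j', j' < 3 * (a + 1) ∧ ∃ t : Star, s.1 = rstarOf a j j' t.Qf ∧
      nextC q c St j' ⊓ₒ nextSt c St t ≠ ⊥ := by
  have h1 := h.cell_eq hj0 hj s.1
  rw [rawSt_val] at h1
  rw [h1] at hne
  by_contra hn
  push Not at hn
  apply hne
  rw [(h.part_pieces j).ev_eq_bot_iff]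
  rintro ⟨j', t⟩ ht
  have ht' : sigR a j j' t.Qf = s.1 := ht
  have h2 := hn j' j'.2 t (by rw [← ht', sigR_eq_rstarOf])
  show p ^ j • (nextC q c St j' ⊓ₒ nextSt c St t) = ⊥
  rw [h2, smul_bot]

/-- **occurrence**: the nonzero star events of the row `0 < j < 3a` -/
theorem cell_occ (h : LS D p q a c St) {j : ℕ} (hj0 : 0 < j) (hj : j < 3 * a) {s : Star}
    (hne : c j ⊓ₒ St s ≠ ⊥) :
    ∃ j', j' < 3 * (a + 1) ∧ ∃ L0 : Label, AdmL a j' L0 ∧ s.1 = rstarOf a j j' L0 := by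
  obtain ⟨j', hj', t, hs, ht⟩ := h.cell_occ_aux hj0 hj hne
  refine ⟨j', hj', t.Qf, ?_, hs⟩
  rcases Nat.eq_zero_or_pos j' with h0 | h0
  · subst h0
    rw [AdmL_zero]
    exact t.Qf_valid
  · rw [AdmL_of_ne h0.ne']
    obtain ⟨j'', hj'', u, hu, -⟩ := h.next.cell_occ_aux h0 hj' ht
    exact ⟨j'', hj'', congrArg RStar.Qf hu⟩

end LS

/-! ### in the hierarchy -/

section hier
variable {G E : Type*} [CommGroup G] [ROMP E] [OMPAct G E]
variable {D : E} {p q : G} {a : ℕ} {c : ℕ → E} {St : Star → E}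

theorem LS.hier_occ (h : LS D p q a c St) (k : ℕ) {j : ℕ} (hj0 : 0 < j) (hj : j < 3 * (a + k))
    {s : Star} (hne : hc p q a c St k j ⊓ₒ hSt p q a c St k s ≠ ⊥) :
    ∃ j', j' < 3 * (a + k + 1) ∧ ∃ L0 : Label, AdmL (a + k) j' L0 ∧
      s.1 = rstarOf (a + k) j j' L0 :=
  (h.lvl k).cell_occ hj0 hj hne

theorem LS.hier_ev_occ (h : LS D p q a c St) (k : ℕ) {j : ℕ} (hj : j < 3 * (a + k))
    {A : Set Star} (hA : hc p q a c St k j ⊓ₒ ev (hSt p q a c St k) A ≠ ⊥) :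
    ∃ s ∈ A, hc p q a c St k j ⊓ₒ hSt p q a c St k s ≠ ⊥ :=
  (h.lvl k).exists_of_ev_ne_bot hj hA

end hier

end Crest.Agent.R189
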