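import Crest.Agent.R189.XHierLS
import Crest.Agent.R189.LetOcc

/-!
Row 189 (S0289), helper787.  OCCURRENCE at every level of the explicit system:
the atoms `xc a k j ∩ xSt a k s`, the line events and the digit events which are allowed by
(X1), (X2) are nonempty.  `occ_transfer`: if an atom of the hierarchy of ANY level structure is
`≠ ⊥`, the corresponding atom of the explicit system is nonempty.
-/

set_option autoImplicit false

namespace Crest.Agent.R189.XH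

open Romp XOccAux

/-- the point of `X` with given coordinates of level `k` -/
def xpt (a k : ℕ) (s : Star) (m n : ℤ) : X :=
  if Even k then ⟨((ww a k : ℤ) * m, (hh a k : ℤ) * n), s⟩
  else ⟨((ww a k : ℤ) * n, (hh a k : ℤ) * m), s.flip⟩

theorem xpt_mem_xD (a k : ℕ) (s : Star) (m n : ℤ) : xpt a k s m n ∈ xD a k := by
  unfold xpt xD
  split_ifs <;> exact ⟨Dvd.intro _ rfl, Dvd.intro _ rfl⟩

theorem xs_xpt (a k : ℕ) (s : Star) (m n : ℤ) : xs k (xpt a k s m n) = s := by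
  unfold xpt xs
  by_cases hk : Even k
  · rw [if_pos hk, if_pos hk]
  · rw [if_neg hk, if_neg hk, Star.flip_flip]

theorem xP_xpt {a : ℕ} (ha : 1 ≤ a) (k : ℕ) (s : Star) (m n : ℤ) :
    xP a k (xpt a k s m n) = m := by
  have hw : (ww a k : ℤ) ≠ 0 := by exact_mod_cast (ww_pos ha k).ne'
  have hh' : (hh a k : ℤ) ≠ 0 := by exact_mod_cast (hh_pos ha k).ne'
  unfold xpt xP
  by_cases hk : Even k
  · rw [if_pos hk, if_pos hk]; exact Int.mul_ediv_cancel_left _ hw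
  · rw [if_neg hk, if_neg hk]; exact Int.mul_ediv_cancel_left _ hh'

theorem xQ_xpt {a : ℕ} (ha : 1 ≤ a) (k : ℕ) (s : Star) (m n : ℤ) :
    xQ a k (xpt a k s m n) = n := by
  have hw : (ww a k : ℤ) ≠ 0 := by exact_mod_cast (ww_pos ha k).ne'
  have hh' : (hh a k : ℤ) ≠ 0 := by exact_mod_cast (hh_pos ha k).ne'
  unfold xpt xQ
  by_cases hk : Even k
  · rw [if_pos hk, if_pos hk]; exact Int.mul_ediv_cancel_left _ hh'
  · rw [if_neg hk, if_neg hk]; exact Int.mul_ediv_cancel_left _ hw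

theorem xr_xpt {a : ℕ} (ha : 1 ≤ a) (k : ℕ) (s : Star) (m n : ℤ) :
    xr a k (xpt a k s m n) = rstar (a + k) s m n := by
  rw [xr, xs_xpt, xP_xpt ha, xQ_xpt ha]

/-- every digit occurs -/
theorem xc_nonempty {a : ℕ} (ha : 3 ≤ a) (k j : ℕ) : (xc a k j).Nonempty := by
  have hn : 0 < 3 * (a + k) := by omega
  refine ⟨xpt a k blankStar 0 (j : ℤ), xpt_mem_xD _ _ _ _ _, ?_⟩
  rw [xQ_xpt (by omega)]
  unfold dg
  rw [← Int.natCast_mod, Int.toNat_natCast]

/-- row `0`: every star occurs -/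
theorem xc_zero_xSt_nonempty {a : ℕ} (ha : 3 ≤ a) (k : ℕ) (s : Star) :
    (xc a k 0 ⊓ₒ xSt a k s).Nonempty := by
  rw [set_meet]
  refine ⟨xpt a k s 0 0, ⟨xpt_mem_xD _ _ _ _ _, ?_⟩, xpt_mem_xD _ _ _ _ _, ?_⟩
  · rw [xQ_xpt (by omega), dg_zero', Nat.zero_mod]
  · rw [xr_xpt (by omega), rstar_zero]

/-- row `j ≠ 0`: the allowed stars occur -/
theorem xc_xSt_nonempty {a : ℕ} (ha : 3 ≤ a) (k : ℕ) {j j' : ℕ} (hj0 : 0 < j)
    (hj : j < 3 * (a + k)) (hj' : j' < 3 * (a + k + 1)) {L0 : Label} (hL : AdmL (a + k) j' L0)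
    {s : Star} (hs : s.1 = rstarOf (a + k) j j' L0) : (xc a k j ⊓ₒ xSt a k s).Nonempty := by
  obtain ⟨t, x, y, h1, -, h3⟩ := exists_rstar_eq (a := a + k) (by omega) hj0 hj hj' hL
  rw [set_meet]
  refine ⟨xpt a k t x y, ⟨xpt_mem_xD _ _ _ _ _, ?_⟩, xpt_mem_xD _ _ _ _ _, ?_⟩
  · rw [xQ_xpt (by omega), h1, Nat.mod_eq_of_lt hj]
  · rw [xr_xpt (by omega), h3, hs]

section transfer
variable {G E : Type*} [CommGroup G] [ROMP E] [OMPAct G E]
variable {D : E} {p q : G} {a : ℕ} {c : ℕ → E} {St : Star → E}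

/-- **OCCURRENCE**: atoms of level `k` which are `≠ ⊥` in some level structure are nonempty in the
explicit system -/
theorem occ_transfer (h : LS D p q a c St) (k : ℕ) {j : ℕ} (hj : j < 3 * (a + k)) {s : Star}
    (hne : hc p q a c St k j ⊓ₒ hSt p q a c St k s ≠ ⊥) : (xc a k j ⊓ₒ xSt a k s).Nonempty := by
  have ha := h.three_le
  rcases Nat.eq_zero_or_pos j with rfl | hj0
  · exact xc_zero_xSt_nonempty ha k s
  · obtain ⟨j', hj', L0, hL, hs⟩ := h.hier_occ k hj0 hj hne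
    exact xc_xSt_nonempty ha k hj0 hj hj' hL hs

/-- the same for events `c_j ∧ [A]` (`P_{j,L}`: `A = {s | s.Pf = L}`, `Q_{j,L}`: `A = {s | s.Qf = L}`,
`c_j`: `A = univ`) -/
theorem occ_transfer_ev (h : LS D p q a c St) (k : ℕ) {j : ℕ} (hj : j < 3 * (a + k))
    {A : Set Star} (hne : hc p q a c St k j ⊓ₒ ev (hSt p q a c St k) A ≠ ⊥) :
    (xc a k j ⊓ₒ ev (xSt a k) A).Nonempty := by
  obtain ⟨s, hs, h1⟩ := h.hier_ev_occ k hj hne
  obtain ⟨x, hx⟩ := occ_transfer h k hj h1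
  rw [set_meet] at hx
  refine ⟨x, ?_⟩
  rw [set_meet, set_ev]
  exact ⟨hx.1, Set.mem_biUnion hs hx.2⟩

end transfer

end Crest.Agent.R189.XH
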