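import Crest.Agent.R189.Cent
import Crest.Agent.R189.FPMain
import Crest.Agent.R189.XHierOcc
import Crest.Agent.R189.HierMap

/-!
# Row 189 (S0289): occurrence of the nonzero atoms of a concrete centreless model   (helper254)

`atom_occ`: an atom of the hierarchy of `m : TModel MD C G` is `⊥` or occurs in `X` with the letters
`h.ltr`.  `ker_qT_eq`: the kernel of `T → Gp` is the centre of `T`.
-/

set_option autoImplicit false
set_option linter.unusedSectionVars false

open Equiv Equiv.Perm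

namespace Crest.Agent.R189.Cent

variable {C : Type} [Fintype C] [DecidableEq C] {G : Type} [Group G]

/-- the atoms are events `c_j ∧ [A]` -/
theorem event_form {G' E : Type*} [CommGroup G'] [ROMP E] [OMPAct G' E] {D : E} {p q : G'} {a : ℕ}
    {c : ℕ → E} {St : Star → E} (h : LS D p q a c St) (κ : Atom (3 * a)) :
    ∃ A : Set Star, κ.event c St = Romp.meet (c κ.dig) (Romp.ev St A) := by
  cases κ with
  | F j =>
    refine ⟨Set.univ, ?_⟩
    rw [h.part_St.ev_univ]
    exact (Romp.meet_eq_left (h.c_le _)).symm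
  | P j L => exact ⟨_, rfl⟩
  | Q j L => exact ⟨_, rfl⟩
  | V j s =>
    refine ⟨{s}, ?_⟩
    rw [Romp.ev_singleton]
    rfl

section

variable (m : TModel MD C G) (hC : 30 ≤ Fintype.card C)

theorem set_cEv {φ : G →* Perm (X × C)} (hφ : Conc m letter φ) :
    (fun j => (hφ.rep hC).set (cEv m hC j)) = XH.xc 3 0 := by
  rw [← FPMain.cX_eq]
  funext j
  rw [cEv, hφ.set_setEv]
  ext y
  simp [FPMain.cX]

theorem set_StEv {φ : G →* Perm (X × C)} (hφ : Conc m letter φ) :
    (fun s => (hφ.rep hC).set (StEv m hC s)) = XH.xSt 3 0 := by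
  rw [← FPMain.StX_eq]
  funext s
  rw [StEv, hφ.set_setEv]
  ext y
  simp [FPMain.StX]

/-- nonzero atoms have nonempty sets -/
theorem atom_nonempty [Centreless G] {φ : G →* Perm (X × C)} (hφ : Conc m letter φ) (k : ℕ)
    (κ : Atom (3 * (3 + k))) (hne : atomE 3 (cEv m hC) (StEv m hC) k κ ≠ ⊥) :
    ((hφ.rep hC).set (atomE 3 (cEv m hC) (StEv m hC) k κ)).Nonempty := by
  have h := TBase.base m hC
  obtain ⟨A, hA⟩ := event_form (h.lvl k) κ
  have hA' : atomE 3 (cEv m hC) (StEv m hC) k κ = Romp.meet (hc pZ qZ 3 (cEv m hC) (StEv m hC) k κ.dig)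
      (Romp.ev (hSt pZ qZ 3 (cEv m hC) (StEv m hC) k) A) := hA
  rw [hA'] at hne ⊢
  have h1 := h.map_atom (hφ.rep hC).ompHom (hφ.rep hC).ompHom_equiv k κ.dig.2 A
  rw [Rep.ompHom_apply] at h1
  have h2 : (fun j => (hφ.rep hC).ompHom (cEv m hC j)) = XH.xc 3 0 := set_cEv m hC hφ
  have h3 : (fun s => (hφ.rep hC).ompHom (StEv m hC s)) = XH.xSt 3 0 := set_StEv m hC hφ
  rw [h2, h3, XH.hc_xc le_rfl, XH.hSt_xSt le_rfl] at h1
  rw [h1]
  exact XH.occ_transfer_ev h k κ.dig.2 hne

/-- **occurrence** -/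
theorem atom_occ [Centreless G] {φ : G →* Perm (X × C)} (hφ : Conc m letter φ) (k : ℕ)
    (κ : Atom (3 * (3 + k))) :
    atomE 3 (cEv m hC) (StEv m hC) k κ = ⊥ ∨
      ∃ y : X, ∀ v ∈ κ.Win 3 k, letter (v +ᵥ y) = (TBase.base m hC).ltr k κ v := by
  by_cases hne : atomE 3 (cEv m hC) (StEv m hC) k κ = ⊥
  · exact Or.inl hne
  · right
    obtain ⟨y, hy⟩ := atom_nonempty m hC hφ k κ hne
    refine ⟨y, fun v hv => ?_⟩
    have h1 := (TBase.base m hC).le_ltr k κ hv
    have h2 := (hφ.rep hC).set_mono h1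
    rw [(hφ.rep hC).set_smul] at h2
    have h3 := h2 (vadd_mem_set_smul.2 hy)
    have h4 : (hφ.rep hC).set (letterE (cEv m hC) (StEv m hC) ((TBase.base m hC).ltr k κ v)) =
        {z | letter z = (TBase.base m hC).ltr k κ v} := by
      rw [← lev_eq m hC]
      exact hφ.set_letterEv hC _
    rw [h4] at h3
    exact h3

end

/-! ### the kernel of `T → Gp` -/

section T

variable [Nonempty C] (hC : 30 ≤ Fintype.card C)

include hC

/-- `T / Z(T)` acts faithfully on `X × C` -/
theorem injective_qTbar_X :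
    Function.Injective (qTbar (C := C) letter MD letter_match (FPMain.centre_Gp C hC)) := by
  have := centreless_Tbar (C := C) hC
  exact injective_qTbar_of_occ hC (FPMain.centre_Gp C hC) (fun n κ =>
    atom_occ (tModel MD C).modCenter hC (conc_qTbar letter MD letter_match (FPMain.centre_Gp C hC))
      (2 * n) κ)

/-- **C1**: the kernel of `T → Gp` is the centre of `T` -/
theorem ker_qT_eq : (qT (C := C) letter MD letter_match).ker = Subgroup.center (TGrp MD C) :=
  ker_qT_eq_center letter MD letter_match (FPMain.centre_Gp C hC) (injective_qTbar_X hC)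

end T

end Crest.Agent.R189.Cent
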