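import Crest.Agent.R189.EvDefs

/-!
Row 189: the order structure of the events of a coloured group (any group `T`), helper418.
-/

set_option autoImplicit false

namespace Crest.Agent.R189

open Equiv Equiv.Perm
open scoped commutatorElement

variable {C : Type} [Fintype C] [DecidableEq C] {V : Type} [AddCommGroup V] {T : Type} [Group T]

/-! ### Generalities on `Alt(C)` -/

theorem alt_induction {P : alternatingGroup C → Prop}
    (h3 : ∀ σ : alternatingGroup C, (σ : Perm C).IsThreeCycle → P σ)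
    (h1 : P 1) (hmul : ∀ σ τ, P σ → P τ → P (σ * τ)) (hinv : ∀ σ, P σ → P σ⁻¹) (σ) : P σ := by
  have h : σ ∈ Subgroup.closure {g : alternatingGroup C | Equiv.Perm.IsThreeCycle (g : Equiv.Perm C)} := by
    rw [_root_.alternatingGroup.closure_isThreeCycles_eq_top]; trivial
  induction h using Subgroup.closure_induction with
  | mem x hx => exact h3 x hx
  | one => exact h1
  | mul x y _ _ hx hy => exact hmul x y hx hy
  | inv x _ hx => exact hinv x hx

theorem IsThreeCycle.card_supp {σ : Perm C} (h : σ.IsThreeCycle) : σ.support.card = 3 := by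
  rw [← Equiv.Perm.sum_cycleType, h.cycleType, Multiset.sum_singleton]

namespace ColGrp

variable (S : ColGrp C V T)

include S

theorem card_univ : 30 ≤ (Finset.univ : Finset C).card := S.card_C

theorem natCard : 5 ≤ Nat.card C := by
  rw [Nat.card_eq_fintype_card]; have := S.card_C; omega

/-- enlarge a small set, avoiding another small set -/
theorem exists_superset {A B : Finset C} (hd : Disjoint A B) (m : ℕ)
    (hA : A.card ≤ m) (hm : m + B.card ≤ 30) : ∃ A' : Finset C, A ⊆ A' ∧ A'.card = m ∧ Disjoint A' B := by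
  have h1 : A ⊆ Finset.univ \ B := by
    rw [Finset.subset_sdiff]; exact ⟨Finset.subset_univ _, hd⟩
  have h2 : m ≤ (Finset.univ \ B).card := by
    rw [Finset.card_sdiff_of_subset (Finset.subset_univ _)]
    have := S.card_C
    rw [Finset.card_univ]
    omega
  obtain ⟨A', h3, h4, h5⟩ := Finset.exists_subsuperset_card_eq h1 hA h2
  refine ⟨A', h3, h5, ?_⟩
  rw [Finset.subset_sdiff] at h4
  exact h4.2

/-- a small set can be moved off another small set by an even permutation fixing a third set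
pointwise -/
theorem exists_move (A B D : Finset C) (hAD : Disjoint A D) (h : 2 * A.card + B.card + D.card + 2 ≤ 30) :
    ∃ ρ : alternatingGroup C, Disjoint (A.image (ρ : Perm C)) B ∧ (∀ c ∈ D, (ρ : Perm C) c = c) := by
  classical
  -- an injection of A into the complement of A ∪ B ∪ D
  have hcard : A.card + 2 ≤ (Finset.univ \ (A ∪ B ∪ D)).card := by
    rw [Finset.card_sdiff_of_subset (Finset.subset_univ _)]
    have h1 := Finset.card_union_le (A ∪ B) D
    have h2 := Finset.card_union_le A B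
    have := S.card_C
    rw [Finset.card_univ]
    omega
  obtain ⟨A', hA', hA'c⟩ := Finset.exists_subset_card_eq hcard
  -- two extra points
  obtain ⟨A'', hA'', hA''c⟩ := Finset.exists_subset_card_eq (s := A') (n := A.card) (by omega)
  have hsd : (A' \ A'').card = 2 := by
    rw [Finset.card_sdiff_of_subset hA'']; omega
  obtain ⟨x, y, hxy, hxy'⟩ := Finset.card_eq_two.1 hsd
  have hAA' : Disjoint A A' := by
    rw [Finset.disjoint_left]
    intro a ha ha'
    have := hA' ha'
    simp [ha] at this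
  have hA'B : Disjoint A' B := by
    rw [Finset.disjoint_left]
    intro a ha ha'
    have := hA' ha
    simp [ha'] at this
  have hA'D : Disjoint A' D := by
    rw [Finset.disjoint_left]
    intro a ha ha'
    have := hA' ha
    simp [ha'] at this
  have hxA' : x ∈ A' \ A'' := by rw [hxy']; simp
  have hyA' : y ∈ A' \ A'' := by rw [hxy']; simp
  rw [Finset.mem_sdiff] at hxA' hyA'
  obtain ⟨f⟩ := Fintype.card_eq.1 (show Fintype.card A = Fintype.card A'' by simp [hA''c])
  -- the involution exchanging A and A''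
  have key : ∃ π : Perm C, (∀ a (ha : a ∈ A), π a = f ⟨a, ha⟩) ∧
      ∀ c, c ∉ A → c ∉ A'' → π c = c := by
    let g : C → C := fun c => if h : c ∈ A then (f ⟨c, h⟩ : C) else if h' : c ∈ A'' then (f.symm ⟨c, h'⟩ : C) else c
    have hdis : Disjoint A A'' := hAA'.mono_right hA''
    have hg : Function.Involutive g := by
      intro c
      by_cases h1 : c ∈ A
      · have h2 : (f ⟨c, h1⟩ : C) ∈ A'' := (f ⟨c, h1⟩).2
        have h3 : (f ⟨c, h1⟩ : C) ∉ A := fun h => (Finset.disjoint_left.1 hdis h) h2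
        simp [g, h1, h3]
      · by_cases h2 : c ∈ A''
        · have h3 : (f.symm ⟨c, h2⟩ : C) ∈ A := (f.symm ⟨c, h2⟩).2
          simp [g, h1, h2]
        · simp [g, h1, h2]
    refine ⟨hg.toPerm, ?_, ?_⟩
    · intro a ha
      simp [g, ha]
    · intro c h1 h2
      simp [g, h1, h2]
  obtain ⟨π, hπ1, hπ2⟩ := key
  have hmove : ∀ a ∈ A, π a ∈ A'' := by
    intro a ha
    rw [hπ1 a ha]; exact (f ⟨a, ha⟩).2
  by_cases hs : sign π = 1
  · refine ⟨⟨π, mem_alternatingGroup.2 hs⟩, ?_, ?_⟩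
    · rw [Finset.disjoint_left]
      intro c hc
      rw [Finset.mem_image] at hc
      obtain ⟨a, ha, rfl⟩ := hc
      exact fun h' => (Finset.disjoint_left.1 hA'B (hA'' (hmove a ha))) h'
    · intro c hc
      exact hπ2 c (fun h' => (Finset.disjoint_left.1 hAD h') hc)
        (fun h' => (Finset.disjoint_left.1 hA'D (hA'' h')) hc)
  · have hs' : sign π = -1 := by
      rcases Int.units_eq_one_or (sign π) with h1 | h1
      · exact absurd h1 hs
      · exact h1
    have hx1 : ∀ a ∈ A, swap x y (π a) = π a := by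
      intro a ha
      refine swap_apply_of_ne_of_ne ?_ ?_
      · intro h'; exact hxA'.2 (h' ▸ hmove a ha)
      · intro h'; exact hyA'.2 (h' ▸ hmove a ha)
    refine ⟨⟨swap x y * π, ?_⟩, ?_, ?_⟩
    · rw [mem_alternatingGroup, Perm.sign_mul, sign_swap hxy, hs']; rfl
    · rw [Finset.disjoint_left]
      intro c hc
      rw [Finset.mem_image] at hc
      obtain ⟨a, ha, rfl⟩ := hc
      simp only [Perm.coe_mul, Function.comp_apply, hx1 a ha]
      exact fun h' => (Finset.disjoint_left.1 hA'B (hA'' (hmove a ha))) h'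
    · intro c hc
      have h1 : π c = c := hπ2 c (fun h' => (Finset.disjoint_left.1 hAD h') hc)
        (fun h' => (Finset.disjoint_left.1 hA'D (hA'' h')) hc)
      simp only [Perm.coe_mul, Function.comp_apply, h1]
      refine swap_apply_of_ne_of_ne ?_ ?_
      · intro h'; subst h'; exact (Finset.disjoint_left.1 hA'D hxA'.1) hc
      · intro h'; subst h'; exact (Finset.disjoint_left.1 hA'D hyA'.1) hc

/-- elements commuting with all small `T[B]`, `B ⊆ A`, commute with `T[A]` -/
theorem comm_of_gen {A : Finset C} {x : T}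
    (h : ∀ B ⊆ A, B.card ≤ 3 → ∀ y ∈ S.sub B, x * y = y * x) : ∀ y ∈ S.sub A, x * y = y * x := by
  intro y hy
  have h1 : y ∈ Subgroup.closure {x : T | ∃ B : Finset C, B ⊆ A ∧ B.card ≤ 3 ∧ x ∈ S.sub B} := S.sub_gen A hy
  have h2 : Subgroup.closure {x : T | ∃ B : Finset C, B ⊆ A ∧ B.card ≤ 3 ∧ x ∈ S.sub B} ≤
      Subgroup.centralizer {x} := by
    rw [Subgroup.closure_le]
    rintro z ⟨B, hB, hB3, hz⟩
    rw [SetLike.mem_coe, Subgroup.mem_centralizer_iff]
    intro w hw
    rw [Set.mem_singleton_iff] at hw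
    subst hw
    exact h B hB hB3 z hz
  have h3 := h2 h1
  rw [Subgroup.mem_centralizer_iff] at h3
  exact h3 x rfl

end ColGrp

namespace Ev

variable {S : ColGrp C V T}

/-- `e(σ)` commutes with `T[B]` if `B` is disjoint from the support of `σ`. -/
theorem comm_sub (e : Ev S) (σ : alternatingGroup C) (hσ : (σ : Perm C).support.card ≤ 20)
    {B : Finset C} (hd : Disjoint (σ : Perm C).support B) {x : T} (hx : x ∈ S.sub B) :
    e.hom σ * x = x * e.hom σ := by
  refine S.comm_of_gen (A := B) ?_ x hx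
  intro B' hB' hc y hy
  obtain ⟨A', h1, h2, h3⟩ := S.exists_superset (hd.mono_right hB') 27 (by omega) (by omega)
  exact S.sub_comm A' B' h3 _ (e.mem σ A' h1 (by omega)) _ hy

theorem comm_disj (e f : Ev S) (σ τ : alternatingGroup C) (hσ : (σ : Perm C).support.card ≤ 20)
    (hτ : (τ : Perm C).support.card ≤ 5)
    (hd : Disjoint (σ : Perm C).support (τ : Perm C).support) :
    e.hom σ * f.hom τ = f.hom τ * e.hom σ := by
  obtain ⟨B, h1, h2, h3⟩ := S.exists_superset hd.symm 5 hτ (by omega)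
  exact e.comm_sub σ hσ h3.symm (f.mem τ B h1 (by omega))

theorem orth_of_threeCycle {e f : Ev S}
    (h : ∀ σ τ : alternatingGroup C, (σ : Perm C).IsThreeCycle → (τ : Perm C).IsThreeCycle →
      e.hom σ * f.hom τ = f.hom τ * e.hom σ) : Orth e f := by
  have h1 : ∀ σ τ : alternatingGroup C, (σ : Perm C).IsThreeCycle →
      Commute (e.hom σ) (f.hom τ) := by
    intro σ τ hσ
    refine alt_induction (P := fun τ => Commute (e.hom σ) (f.hom τ)) ?_ ?_ ?_ ?_ τ
    · intro τ hτ; exact h σ τ hσ hτ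
    · simp
    · intro a b ha hb; simp only [map_mul]; exact ha.mul_right hb
    · intro a ha; simp only [map_inv]; exact ha.inv_right
  intro σ τ
  refine alt_induction (P := fun σ => Commute (e.hom σ) (f.hom τ)) ?_ ?_ ?_ ?_ σ
  · intro σ hσ; exact h1 σ τ hσ
  · simp
  · intro a b ha hb; simp only [map_mul]; exact ha.mul_left hb
  · intro a ha; simp only [map_inv]; exact ha.inv_left

theorem Orth.symm {e f : Ev S} (h : Orth e f) : Orth f e := fun σ τ => (h τ σ).symm

theorem orth_comm {e f : Ev S} : Orth e f ↔ Orth f e := ⟨Orth.symm, Orth.symm⟩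

theorem le_unit (e : Ev S) : e ≤ unit S := fun σ τ => e.equivar σ τ

theorem zero_le (e : Ev S) : zero S ≤ e := fun σ τ => by simp [zero]

theorem le_refl' (e : Ev S) : e ≤ e := fun σ τ => by simp [map_mul, mul_assoc]

theorem orth_zero (e : Ev S) : Orth e (zero S) := fun σ τ => by simp [zero]

theorem zero_orth (e : Ev S) : Orth (zero S) e := fun σ τ => by simp [zero]

theorem le_antisymm' {e f : Ev S} (h1 : e ≤ f) (h2 : f ≤ e) : e = f := by
  have key : ∀ s t : alternatingGroup C, e.hom ⁅t, s⁆ = f.hom ⁅t, s⁆ := by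
    intro s t
    have a1 := h1 s t
    have a2 := h2 t⁻¹ s
    rw [commutatorElement_def]
    have b1 : e.hom (t * s * t⁻¹ * s⁻¹) = f.hom t * e.hom s * (f.hom t)⁻¹ * (e.hom s)⁻¹ := by
      rw [a1]; simp only [map_mul, map_inv]
    have b2 : f.hom (t * s * t⁻¹ * s⁻¹) = f.hom t * (e.hom s * (f.hom t)⁻¹ * (e.hom s)⁻¹) := by
      have : (f.hom t)⁻¹ = f.hom t⁻¹ := (map_inv _ _).symm
      rw [this, a2]; simp only [map_mul, map_inv]; group
    rw [b1, b2]; group
  ext σ
  refine alt_induction (P := fun σ => e.hom σ = f.hom σ) ?_ ?_ ?_ ?_ σ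
  · intro σ hσ
    obtain ⟨a, b, hab⟩ := hσ.mem_commutatorSet_alternatingGroup S.natCard
    rw [← hab]; exact key b a
  · simp
  · intro a b ha hb; simp [ha, hb]
  · intro a ha; simp [ha]

/-- difference `f - e` for `e ≤ f` -/
def diff (f e : Ev S) (h : e ≤ f) : Ev S where
  hom :=
    { toFun := fun σ => f.hom σ * (e.hom σ)⁻¹
      map_one' := by simp
      map_mul' := by
        intro σ τ
        have h1 : f.hom τ⁻¹ * (e.hom σ)⁻¹ * (f.hom τ⁻¹)⁻¹ = (e.hom (τ⁻¹ * σ * τ))⁻¹ := by
          have h2 := h σ⁻¹ τ⁻¹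
          rw [map_inv e.hom] at h2
          rw [h2]; simp only [map_mul, map_inv]; group
        have h3 : (e.hom σ)⁻¹ * f.hom τ = f.hom τ * (e.hom (τ⁻¹ * σ * τ))⁻¹ := by
          rw [← h1]; simp only [map_inv]; group
        calc f.hom (σ * τ) * (e.hom (σ * τ))⁻¹
            = f.hom σ * f.hom τ * ((e.hom τ)⁻¹ * (e.hom σ)⁻¹) := by simp [map_mul]
          _ = f.hom σ * (f.hom τ * (e.hom (τ⁻¹ * σ * τ))⁻¹) * (e.hom τ)⁻¹ := by
              simp only [map_mul, map_inv]; group
          _ = f.hom σ * (e.hom σ)⁻¹ * (f.hom τ * (e.hom τ)⁻¹) := by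
              rw [← h3]; group }
  mem := fun σ A h1 h2 => (S.sub A).mul_mem (f.mem σ A h1 h2) ((S.sub A).inv_mem (e.mem σ A h1 h2))
  equivar := by
    intro σ τ
    have h1 := f.equivar σ τ
    have h2 := e.equivar σ τ
    show S.one τ * (f.hom σ * (e.hom σ)⁻¹) * (S.one τ)⁻¹ = f.hom (τ * σ * τ⁻¹) * (e.hom (τ * σ * τ⁻¹))⁻¹
    rw [← h1, ← h2]; group

@[simp] theorem diff_hom {f e : Ev S} (h : e ≤ f) (σ) : (diff f e h).hom σ = f.hom σ * (e.hom σ)⁻¹ := rfl

/-- complement -/
def compl (e : Ev S) : Ev S := diff (unit S) e (le_unit e)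

@[simp] theorem compl_hom (e : Ev S) (σ) : (compl e).hom σ = S.one σ * (e.hom σ)⁻¹ := rfl

/-- sum of orthogonal events -/
def add (e f : Ev S) (h : Orth e f) : Ev S where
  hom :=
    { toFun := fun σ => e.hom σ * f.hom σ
      map_one' := by simp
      map_mul' := by
        intro σ τ
        have h1 := h τ σ
        simp only [map_mul]
        calc e.hom σ * e.hom τ * (f.hom σ * f.hom τ) = e.hom σ * (e.hom τ * f.hom σ) * f.hom τ := by group
          _ = e.hom σ * f.hom σ * (e.hom τ * f.hom τ) := by rw [h1]; group }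
  mem := fun σ A h1 h2 => (S.sub A).mul_mem (e.mem σ A h1 h2) (f.mem σ A h1 h2)
  equivar := by
    intro σ τ
    have h1 := f.equivar σ τ
    have h2 := e.equivar σ τ
    show S.one τ * (e.hom σ * f.hom σ) * (S.one τ)⁻¹ = e.hom (τ * σ * τ⁻¹) * f.hom (τ * σ * τ⁻¹)
    rw [← h1, ← h2]; group

@[simp] theorem add_hom {e f : Ev S} (h : Orth e f) (σ) : (add e f h).hom σ = e.hom σ * f.hom σ := rfl

/-- `e ⊥ f - e`. -/
theorem orth_diff {e f : Ev S} (h : e ≤ f) : Orth e (diff f e h) := by
  intro σ τ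
  have h1 := h (τ⁻¹ * σ * τ) τ
  have h2 : τ * (τ⁻¹ * σ * τ) * τ⁻¹ = σ := by group
  rw [h2] at h1
  have h3 : e.hom (τ⁻¹ * σ * τ) = (e.hom τ)⁻¹ * e.hom σ * e.hom τ := by simp only [map_mul, map_inv]
  have h4 : e.hom σ * f.hom τ = f.hom τ * e.hom (τ⁻¹ * σ * τ) := by
    rw [← h1]; group
  rw [diff_hom, ← mul_assoc, h4, h3]; group

/-- key lemma: `p ≤ r`, `q ≤ r'` with `r`, `r'` complementary implies `p ⊥ q` -/
theorem orth_of_le_compl {p q r : Ev S} (hp : p ≤ r) (hq : q ≤ compl r) : Orth p q := by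
  refine orth_of_threeCycle ?_
  intro s t hs ht
  obtain ⟨ρ, hρ, -⟩ := S.exists_move (t : Perm C).support (s : Perm C).support ∅ (by simp) (by
    have h1 := IsThreeCycle.card_supp hs
    have h2 := IsThreeCycle.card_supp ht
    simp only [Finset.card_empty]; omega)
  -- p(s) commutes with (compl r)(ρ)
  have h1 : (compl r).hom ρ * p.hom s * ((compl r).hom ρ)⁻¹ = p.hom s := by
    rw [compl_hom]
    have h2 := hp s ρ⁻¹
    have h3 := p.equivar (ρ⁻¹ * s * ρ⁻¹⁻¹) ρ
    calc S.one ρ * (r.hom ρ)⁻¹ * p.hom s * (S.one ρ * (r.hom ρ)⁻¹)⁻¹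
        = S.one ρ * (r.hom ρ⁻¹ * p.hom s * (r.hom ρ⁻¹)⁻¹) * (S.one ρ)⁻¹ := by
          simp only [map_inv]; group
      _ = p.hom s := by rw [h2, h3]; congr 1; group
  have h2 : (compl r).hom ρ * q.hom t * ((compl r).hom ρ)⁻¹ = q.hom (ρ * t * ρ⁻¹) := hq t ρ
  have h3 : p.hom s * q.hom (ρ * t * ρ⁻¹) = q.hom (ρ * t * ρ⁻¹) * p.hom s := by
    refine comm_disj p q s _ (by rw [IsThreeCycle.card_supp hs]; omega) ?_ ?_
    · have : ((ρ * t * ρ⁻¹ : alternatingGroup C) : Perm C) = (ρ : Perm C) * t * (ρ : Perm C)⁻¹ := rfl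
      rw [this, Equiv.Perm.card_support_conj, IsThreeCycle.card_supp ht]; omega
    · have : ((ρ * t * ρ⁻¹ : alternatingGroup C) : Perm C) = (ρ : Perm C) * t * (ρ : Perm C)⁻¹ := rfl
      rw [this, Equiv.Perm.support_conj]
      refine Disjoint.symm ?_
      rw [Finset.map_eq_image]
      exact hρ
  rw [← h2] at h3
  nth_rewrite 1 [← h1] at h3
  nth_rewrite 2 [← h1] at h3
  have h4 : (compl r).hom ρ * (p.hom s * q.hom t) * ((compl r).hom ρ)⁻¹ =
      (compl r).hom ρ * (q.hom t * p.hom s) * ((compl r).hom ρ)⁻¹ := by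
    calc _ = (compl r).hom ρ * p.hom s * ((compl r).hom ρ)⁻¹ * ((compl r).hom ρ * q.hom t * ((compl r).hom ρ)⁻¹) := by group
      _ = _ := by rw [h3]; group
  exact mul_left_cancel (mul_right_cancel h4)

theorem le_compl_of_orth {e f : Ev S} (h : Orth e f) : e ≤ compl f := by
  intro σ τ
  rw [compl_hom, ← e.equivar]
  have h1 := h σ τ
  calc S.one τ * (f.hom τ)⁻¹ * e.hom σ * (S.one τ * (f.hom τ)⁻¹)⁻¹
      = S.one τ * ((f.hom τ)⁻¹ * (e.hom σ * f.hom τ)) * (S.one τ)⁻¹ := by group
    _ = _ := by rw [h1]; group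

theorem orth_iff_le_compl {e f : Ev S} : Orth e f ↔ e ≤ compl f :=
  ⟨le_compl_of_orth, fun h => (orth_of_le_compl (le_refl' f) h).symm⟩

/-- orthogonality is inherited -/
theorem Orth.mono {p q e f : Ev S} (h : Orth e f) (hp : p ≤ e) (hq : q ≤ f) : Orth p q := by
  -- p ≤ e, f ≤ compl e  =>  p ⊥ f; then p ≤ compl f ...
  have h1 : f ≤ compl e := le_compl_of_orth h.symm
  have h2 : Orth p f := orth_of_le_compl hp h1
  -- q ≤ f, p ≤ compl f => q ⊥ p
  exact (orth_of_le_compl hq (le_compl_of_orth h2)).symm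

theorem diff_le_compl {e f : Ev S} (h : e ≤ f) : diff f e h ≤ compl e :=
  le_compl_of_orth (orth_diff h).symm

/-- `f - e` and `e` recompose `f` -/
theorem hom_eq_of_le {e f : Ev S} (h : e ≤ f) (σ) : f.hom σ = e.hom σ * (diff f e h).hom σ := by
  rw [orth_diff h σ σ, diff_hom]; group

theorem le_trans' {e f g : Ev S} (h1 : e ≤ f) (h2 : f ≤ g) : e ≤ g := by
  have ho : Orth e (diff g f h2) := orth_of_le_compl h1 (diff_le_compl h2)
  intro σ τ
  have h3 := ho σ τ
  have h4 := h1 σ τ
  rw [hom_eq_of_le h2 τ]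
  calc f.hom τ * (diff g f h2).hom τ * e.hom σ * (f.hom τ * (diff g f h2).hom τ)⁻¹
      = f.hom τ * ((diff g f h2).hom τ * e.hom σ) * ((diff g f h2).hom τ)⁻¹ * (f.hom τ)⁻¹ := by group
    _ = f.hom τ * e.hom σ * (f.hom τ)⁻¹ := by rw [← h3]; group
    _ = _ := h4

instance : PartialOrder (Ev S) where
  le_refl := le_refl'
  le_trans := fun _ _ _ => le_trans'
  le_antisymm := fun _ _ => le_antisymm'

instance : OrderBot (Ev S) where
  bot := zero S
  bot_le := zero_le

instance : OrderTop (Ev S) where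
  top := unit S
  le_top := le_unit

theorem compl_compl' (e : Ev S) : compl (compl e) = e := by
  ext σ
  simp only [compl_hom]
  have h1 := (orth_diff (le_unit e)) σ σ
  have h2 : e.hom σ * (S.one σ * (e.hom σ)⁻¹) = S.one σ * (e.hom σ)⁻¹ * e.hom σ := h1
  have h3 : e.hom σ * S.one σ = S.one σ * e.hom σ := by
    have : e.hom σ * S.one σ = (e.hom σ * (S.one σ * (e.hom σ)⁻¹)) * e.hom σ := by group
    rw [this, h2]; group
  rw [mul_inv_rev, inv_inv, ← mul_assoc, ← h3]; group

theorem compl_anti {e f : Ev S} (h : e ≤ f) : compl f ≤ compl e := by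
  rw [← orth_iff_le_compl]
  exact (orth_of_le_compl h (le_refl' _)).symm

theorem compl_le_compl_iff {e f : Ev S} : compl f ≤ compl e ↔ e ≤ f :=
  ⟨fun h => by simpa [compl_compl'] using compl_anti h, compl_anti⟩

/-- no nonzero event is below `e` and `compl e` -/
theorem eq_zero_of_orth_self {e : Ev S} (h : Orth e e) : e = zero S := by
  ext σ
  refine alt_induction (P := fun σ => e.hom σ = (zero S).hom σ) ?_ ?_ ?_ ?_ σ
  · intro σ hσ
    obtain ⟨a, b, hab⟩ := hσ.mem_commutatorSet_alternatingGroup S.natCard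
    rw [← hab]
    show e.hom ⁅a, b⁆ = 1
    rw [map_commutatorElement, commutatorElement_eq_one_iff_mul_comm]
    exact h a b
  · simp
  · intro a b ha hb; simp [ha, hb]
  · intro a ha; simp [ha]

theorem eq_zero_of_le_compl {e g : Ev S} (h1 : g ≤ e) (h2 : g ≤ compl e) : g = zero S :=
  eq_zero_of_orth_self (orth_of_le_compl h1 h2)

/-! ### sums -/

theorem le_add_left {e f : Ev S} (h : Orth e f) : e ≤ add e f h := by
  intro σ τ
  rw [add_hom]
  have h1 := h σ τ
  calc e.hom τ * f.hom τ * e.hom σ * (e.hom τ * f.hom τ)⁻¹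
      = e.hom τ * (f.hom τ * e.hom σ) * (f.hom τ)⁻¹ * (e.hom τ)⁻¹ := by group
    _ = e.hom (τ * σ * τ⁻¹) := by rw [← h1]; simp only [map_mul, map_inv]; group

theorem le_add_right {e f : Ev S} (h : Orth e f) : f ≤ add e f h := by
  intro σ τ
  rw [add_hom]
  have h1 := h τ (τ * σ * τ⁻¹)
  calc e.hom τ * f.hom τ * f.hom σ * (e.hom τ * f.hom τ)⁻¹
      = e.hom τ * f.hom (τ * σ * τ⁻¹) * (e.hom τ)⁻¹ := by simp only [map_mul, map_inv]; group
    _ = f.hom (τ * σ * τ⁻¹) := by rw [h1]; group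

theorem add_le {e f g : Ev S} (h : Orth e f) (he : e ≤ g) (hf : f ≤ g) : add e f h ≤ g := by
  intro σ τ
  have h1 := he σ τ
  have h2 := hf σ τ
  rw [add_hom, add_hom, ← h1, ← h2]; group

theorem orth_add {e f g : Ev S} (h : Orth e f) (h1 : Orth g e) (h2 : Orth g f) : Orth g (add e f h) := by
  intro σ τ
  rw [add_hom, ← mul_assoc, h1 σ τ, mul_assoc, h2 σ τ, mul_assoc]

theorem add_diff {e f : Ev S} (h : e ≤ f) : add e (diff f e h) (orth_diff h) = f := by
  ext σ
  rw [add_hom]; exact (hom_eq_of_le h σ).symm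

theorem add_comm' {e f : Ev S} (h : Orth e f) : add e f h = add f e h.symm := by
  ext σ; rw [add_hom, add_hom, h σ σ]

theorem diff_le {e f : Ev S} (h : e ≤ f) : diff f e h ≤ f := by
  have := le_add_right (orth_diff h)
  rwa [add_diff] at this

/-- `f - e = (e + f')'`. -/
theorem diff_eq_compl {e f : Ev S} (h : e ≤ f) :
    ∃ h' : Orth e (compl f), diff f e h = compl (add e (compl f) h') := by
  have h' : Orth e (compl f) := orth_of_le_compl h (le_refl' _)
  refine ⟨h', ?_⟩
  ext σ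
  simp only [diff_hom, compl_hom, add_hom]
  have h1 := (orth_diff (le_unit f)) σ σ
  have h2 : f.hom σ * (S.one σ * (f.hom σ)⁻¹) = S.one σ * (f.hom σ)⁻¹ * f.hom σ := h1
  have h3 : f.hom σ * S.one σ = S.one σ * f.hom σ := by
    have : f.hom σ * S.one σ = (f.hom σ * (S.one σ * (f.hom σ)⁻¹)) * f.hom σ := by group
    rw [this, h2]; group
  rw [mul_inv_rev, mul_inv_rev, inv_inv]
  calc f.hom σ * (e.hom σ)⁻¹ = S.one σ * ((S.one σ)⁻¹ * f.hom σ) * (e.hom σ)⁻¹ := by group
    _ = S.one σ * (f.hom σ * (S.one σ)⁻¹ * (e.hom σ)⁻¹) := by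
        have : (S.one σ)⁻¹ * f.hom σ = f.hom σ * (S.one σ)⁻¹ := by
          rw [inv_mul_eq_iff_eq_mul, ← mul_assoc, ← h3]; group
        rw [this]; group

theorem add_compl {e : Ev S} : add e (compl e) (orth_of_le_compl (le_refl' e) (le_refl' _)) = unit S := by
  ext σ
  have := hom_eq_of_le (le_unit e) σ
  rw [add_hom]; exact this.symm

end Ev

end Crest.Agent.R189
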