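import Crest.Agent.R189.TowerHom
import Crest.Agent.R189.EvOrder

/-!
Row 189, tower lemma (helper840), part 3: properties of the tower homomorphism.
-/

set_option autoImplicit false
set_option linter.unusedSectionVars false

open Equiv Equiv.Perm Finset
open scoped Function

namespace Crest.Agent.R189.Tower

variable {C : Type} [Fintype C] [DecidableEq C] {V : Type} [AddCommGroup V] {T : Type} [Group T]
variable {S : ColGrp C V T}
variable {ι : Type} [Fintype ι] [DecidableEq ι]

/-! ### generation by sectional 3-cycles -/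

/-- `Alt(ι × C)` is generated by the 3-cycles with three different colours. -/
theorem sec_induction (S : ColGrp C V T) {P : alternatingGroup (ι × C) → Prop} (one : P 1)
    (mul : ∀ x y, P x → P y → P (x * y)) (inv : ∀ x, P x → P x⁻¹)
    (sec : ∀ p q r : ι × C, p.2 ≠ q.2 → p.2 ≠ r.2 → q.2 ≠ r.2 → P (acyc p q r)) :
    ∀ z, P z := by
  have h3 : ∀ p q r : ι × C, p ≠ q → p ≠ r → q ≠ r → P (acyc p q r) := by
    intro p q r hpq hpr hqr
    obtain ⟨d, d', fd⟩ := fresh3 S p q r
    have hp : p ∈ ({p, q, r} : Finset (ι × C)) := by simp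
    have hq : q ∈ ({p, q, r} : Finset (ι × C)) := by simp
    have hr : r ∈ ({p, q, r} : Finset (ι × C)) := by simp
    -- movers
    have hm : ∀ x ∈ ({p, q, r} : Finset (ι × C)),
        x.2 ≠ d x ∧ x.2 ≠ d' x ∧ d x ≠ d' x := fun x hx =>
      ⟨(fd.ned x hx x hx).symm, (fd.ned' x hx x hx).symm, fd.ne x hx x hx⟩
    set g : ι × C → alternatingGroup (ι × C) := fun x => acyc x (x.1, d x) (x.1, d' x) with hg
    have hne : ∀ x ∈ ({p, q, r} : Finset (ι × C)),
        x ≠ (x.1, d x) ∧ x ≠ (x.1, d' x) ∧ (x.1, d x) ≠ (x.1, d' x) := by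
      intro x hx
      obtain ⟨a, b, c⟩ := hm x hx
      exact ⟨fun h => a (congrArg Prod.snd h), fun h => b (congrArg Prod.snd h),
        fun h => c (congrArg Prod.snd h)⟩
    have hPg : ∀ x ∈ ({p, q, r} : Finset (ι × C)), P (g x) := fun x hx =>
      sec _ _ _ (hm x hx).1 (hm x hx).2.1 (hm x hx).2.2
    have hg1 : ∀ x ∈ ({p, q, r} : Finset (ι × C)), (g x : Perm (ι × C)) x = (x.1, d x) := by
      intro x hx
      obtain ⟨a, b, c⟩ := hne x hx
      rw [hg]; simp only
      rw [coe_acyc a b c, cyc_apply_fst a c]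
    have hg2 : ∀ x ∈ ({p, q, r} : Finset (ι × C)), ∀ y ∈ ({p, q, r} : Finset (ι × C)), x ≠ y →
        (g x : Perm (ι × C)) y = y ∧ (g x : Perm (ι × C)) (y.1, d y) = (y.1, d y) := by
      intro x hx y hy hxy
      obtain ⟨a, b, c⟩ := hne x hx
      rw [hg]; simp only
      rw [coe_acyc a b c]
      constructor
      · refine cyc_apply_of_ne hxy.symm (fun h => ?_) (fun h => ?_)
        · exact fd.ned x hx y hy (congrArg Prod.snd h).symm
        · exact fd.ned' x hx y hy (congrArg Prod.snd h).symm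
      · refine cyc_apply_of_ne (fun h => ?_) (fun h => ?_) (fun h => ?_)
        · exact fd.ned y hy x hx (congrArg Prod.snd h)
        · exact hxy (fd.injd x hx y hy (congrArg Prod.snd h).symm)
        · exact fd.ne y hy x hx (congrArg Prod.snd h)
    set G := g p * g q * g r with hG
    have e1 : G * acyc p q r * G⁻¹ = acyc (p.1, d p) (q.1, d q) (r.1, d r) := by
      rw [conj_acyc G hpq hpr hqr]
      have a1 : (G : Perm (ι × C)) p = (p.1, d p) := by
        rw [hG]
        simp only [Subgroup.coe_mul, Perm.mul_apply]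
        rw [(hg2 r hr p hp hpr.symm).1, (hg2 q hq p hp hpq.symm).1, hg1 p hp]
      have a2 : (G : Perm (ι × C)) q = (q.1, d q) := by
        rw [hG]
        simp only [Subgroup.coe_mul, Perm.mul_apply]
        rw [(hg2 r hr q hq hqr.symm).1, hg1 q hq, (hg2 p hp q hq hpq).2]
      have a3 : (G : Perm (ι × C)) r = (r.1, d r) := by
        rw [hG]
        simp only [Subgroup.coe_mul, Perm.mul_apply]
        rw [hg1 r hr, (hg2 q hq r hr hqr).2, (hg2 p hp r hr hpr).2]
      rw [a1, a2, a3]
    have e2 : acyc p q r = G⁻¹ * acyc (p.1, d p) (q.1, d q) (r.1, d r) * G := by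
      rw [← e1]; group
    have hPG : P G := mul _ _ (mul _ _ (hPg p hp) (hPg q hq)) (hPg r hr)
    rw [e2]
    refine mul _ _ (mul _ _ (inv _ hPG) (sec _ _ _ ?_ ?_ ?_)) hPG
    · exact fun h => hpq (fd.injd p hp q hq h)
    · exact fun h => hpr (fd.injd p hp r hr h)
    · exact fun h => hqr (fd.injd q hq r hr h)
  rintro ⟨z, hz⟩
  have hz' := hz
  rw [← closure_three_cycles_eq_alternating] at hz'
  induction hz' using Subgroup.closure_induction with
  | mem x hx =>
    obtain ⟨a, b, c, hab, hac, hbc, hxc, _⟩ := eq_acyc hx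
    have : (⟨x, hz⟩ : alternatingGroup (ι × C)) = acyc a b c :=
      Subtype.ext (hxc.trans (coe_acyc hab hac hbc).symm)
    rw [this]
    exact h3 a b c hab hac hbc
  | one => exact one
  | mul a b ha hb iha ihb =>
    rw [closure_three_cycles_eq_alternating] at ha hb
    exact mul ⟨a, ha⟩ ⟨b, hb⟩ (iha ha) (ihb hb)
  | inv a ha iha =>
    rw [closure_three_cycles_eq_alternating] at ha
    exact inv ⟨a, ha⟩ (iha ha)

/-- homomorphisms out of `Alt(ι × C)` are determined by the sectional 3-cycles -/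
theorem hom_ext_sec (S : ColGrp C V T) {G : Type*} [Group G] {Φ Ψ : alternatingGroup (ι × C) →* G}
    (h : ∀ p q r : ι × C, p.2 ≠ q.2 → p.2 ≠ r.2 → q.2 ≠ r.2 → Φ (acyc p q r) = Ψ (acyc p q r)) :
    Φ = Ψ := by
  ext z
  refine sec_induction S (P := fun z => Φ z = Ψ z) ?_ ?_ ?_ h z
  · rw [map_one, map_one]
  · intro x y hx hy; rw [map_mul, map_mul, hx, hy]
  · intro x hx; rw [map_inv, map_inv, hx]

/-- **uniqueness of the tower homomorphism** -/
theorem eq_eps {e : Ev S} {pos : ι → V} (hO : OrthFam e pos) {Φ : alternatingGroup (ι × C) →* T}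
    (h : ∀ p q r : ι × C, p.2 ≠ q.2 → p.2 ≠ r.2 → q.2 ≠ r.2 →
      Φ (acyc p q r) = M3 e (pos p.1) (pos q.1) (pos r.1) p.2 q.2 r.2) : Φ = eps e pos hO :=
  hom_ext_sec S fun p q r h1 h2 h3 => by rw [h p q r h1 h2 h3, eps_M3 hO h1 h2 h3]

/-! ### translates -/

theorem M3_const {e e' : Ev S} {v : V} (h : Ev.IsTrans v e e') {a b c : C} (hab : a ≠ b)
    (hac : a ≠ c) (hbc : b ≠ c) : M3 e v v v a b c = e'.hom (acyc a b c) := by
  obtain ⟨l, hl, hlf⟩ := exists_lam' S ({a, b, c} : Finset C)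
    (card_le_three.trans_lt (by norm_num)) (fun _ => v)
  have ha := hlf a (by simp)
  have hb := hlf b (by simp)
  have hc := hlf c (by simp)
  rw [M3_eq e hab hac hbc hl ha hb hc]
  refine (h _ l hl fun x hx => ?_).symm
  rw [support_acyc hab hac hbc] at hx
  exact hlf x hx

theorem isTrans_zero (e : Ev S) : Ev.IsTrans (0 : V) e e := by
  intro σ l hl h
  have h1 := conj_H_congr e hl (m := 0) (by simp) σ (fun c hc => by rw [h c hc]; rfl)
  rw [h1, H_zero]; simp

theorem TOrth_of_orth {e f e' f' : Ev S} {v w : V} (he : Ev.IsTrans v e e')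
    (hf : Ev.IsTrans w f f') (h : Ev.Orth e' f') : TOrth e f v w := by
  intro a b c a' b' c' h1 h2 h3 h4 h5 h6
  rw [M3_const he h1 h2 h3, M3_const hf h4 h5 h6]
  exact h _ _

theorem orth_of_TOrth {e f e' f' : Ev S} {v w : V} (he : Ev.IsTrans v e e')
    (hf : Ev.IsTrans w f f') (h : TOrth e f v w) : Ev.Orth e' f' := by
  refine Ev.orth_of_threeCycle ?_
  intro s t hs ht
  obtain ⟨a, b, c, hab, hac, hbc, hx, _⟩ := eq_acyc hs
  obtain ⟨a', b', c', hab', hac', hbc', hx', _⟩ := eq_acyc ht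
  have e1 : s = acyc a b c := Subtype.ext (hx.trans (coe_acyc hab hac hbc).symm)
  have e2 : t = acyc a' b' c' := Subtype.ext (hx'.trans (coe_acyc hab' hac' hbc').symm)
  rw [e1, e2, ← M3_const he hab hac hbc, ← M3_const hf hab' hac' hbc']
  exact h a b c a' b' c' hab hac hbc hab' hac' hbc'

theorem orthFam_of {e : Ev S} {pos : ι → V} {te : ι → Ev S} (ht : ∀ i, Ev.IsTrans (pos i) e (te i))
    (h : ∀ i j, i ≠ j → Ev.Orth (te i) (te j)) : OrthFam e pos :=
  fun i j hij => TOrth_of_orth (ht i) (ht j) (h i j hij)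

/-! ### levels and sections -/

/-- the level `{i} × C` -/
def lvlEmb (i : ι) : C ↪ ι × C := ⟨fun c => (i, c), fun _ _ h => congrArg Prod.snd h⟩

/-- the section `{(f c, c)}` -/
def secEmb (f : C → ι) : C ↪ ι × C := ⟨fun c => (f c, c), fun _ _ h => congrArg Prod.snd h⟩

/-- level-wise permutations -/
def lv (r : ι → alternatingGroup C) : alternatingGroup (ι × C) :=
  ⟨Equiv.prodCongrRight fun i => (r i : Perm C), by
    rw [mem_alternatingGroup, sign_prodCongrRight]
    exact Finset.prod_eq_one fun i _ => mem_alternatingGroup.1 (r i).2⟩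

theorem lv_apply (r : ι → alternatingGroup C) (p : ι × C) :
    (lv r : Perm (ι × C)) p = (p.1, (r p.1 : Perm C) p.2) := rfl

/-- level-wise permutations, as a homomorphism -/
def lvHom : (ι → alternatingGroup C) →* alternatingGroup (ι × C) where
  toFun := lv
  map_one' := by apply Subtype.ext; ext p <;> rfl
  map_mul' r s := by apply Subtype.ext; ext p <;> rfl

theorem lv_mul (r s : ι → alternatingGroup C) : lv (r * s) = lv r * lv s := lvHom.map_mul r s

theorem lv_one : lv (1 : ι → alternatingGroup C) = 1 := lvHom.map_one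

theorem altMap_lvlEmb (i : ι) (σ : alternatingGroup C) :
    altMap (lvlEmb i) σ = lv (Pi.mulSingle i σ) := by
  symm
  refine eq_altMap _ _ (fun c => ?_) fun p hp => ?_
  · change ((i, ((Pi.mulSingle i σ : ι → alternatingGroup C) i : Perm C) c) : ι × C) = (i, (σ : Perm C) c)
    rw [Pi.mulSingle_eq_same]
  · rw [lv_apply]
    have : p.1 ≠ i := fun h => hp ⟨p.2, by rw [← h]; rfl⟩
    rw [Pi.mulSingle_eq_of_ne this]
    rfl

/-- **(A2)** on the level `i` the tower homomorphism is the translate `(pos i).e` -/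
theorem eps_lvl {e : Ev S} {pos : ι → V} (hO : OrthFam e pos) {i : ι} {e' : Ev S}
    (h : Ev.IsTrans (pos i) e e') (σ : alternatingGroup C) :
    eps e pos hO (altMap (lvlEmb i) σ) = e'.hom σ := by
  have : (eps e pos hO).comp (altMap (lvlEmb i)) = e'.hom := by
    refine AltPres.alt_hom_ext fun z hz => ?_
    obtain ⟨a, b, c, hab, hac, hbc, _, hx⟩ := eq_acyc hz
    rw [hx, MonoidHom.comp_apply, altMap_acyc _ hab hac hbc, ← M3_const h hab hac hbc,
      eps_M3 hO]
    · rfl
    · exact hab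
    · exact hac
    · exact hbc
  exact DFunLike.congr_fun this σ

theorem eps_lv_single {e : Ev S} {pos : ι → V} (hO : OrthFam e pos) {i : ι} {e' : Ev S}
    (h : Ev.IsTrans (pos i) e e') (σ : alternatingGroup C) :
    eps e pos hO (lv (Pi.mulSingle i σ)) = e'.hom σ := by
  rw [← altMap_lvlEmb, eps_lvl hO h]

/-- induction over the even permutations with support in a given set -/
theorem altOn_induction {Ω : Type*} [Fintype Ω] [DecidableEq Ω] (A : Finset Ω)
    {P : alternatingGroup Ω → Prop} (one : P 1) (mul : ∀ x y, P x → P y → P (x * y))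
    (inv : ∀ x, P x → P x⁻¹)
    (cyc : ∀ a ∈ A, ∀ b ∈ A, ∀ c ∈ A, a ≠ b → a ≠ c → b ≠ c → P (acyc a b c)) :
    ∀ z : alternatingGroup Ω, (z : Perm Ω).support ⊆ A → P z := by
  rintro ⟨z, hz⟩ hzA
  have hz' : z ∈ AltPres.altOn A := ⟨hz, hzA⟩
  have hz'' := hz'
  rw [← AltPres.closure_threeCycles_altOn] at hz''
  have key : ∀ (y : Perm Ω) (_ : y ∈ Subgroup.closure {z : Perm Ω | z.IsThreeCycle ∧ z.support ⊆ A})
      (hy : y ∈ alternatingGroup Ω), P ⟨y, hy⟩ := by
    intro y hy
    induction hy using Subgroup.closure_induction with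
    | mem x hx =>
      intro hxa
      obtain ⟨a, b, c, hab, hac, hbc, hxc, _⟩ := eq_acyc hx.1
      have : (⟨x, hxa⟩ : alternatingGroup Ω) = acyc a b c :=
        Subtype.ext (hxc.trans (coe_acyc hab hac hbc).symm)
      rw [this]
      have hsup : x.support = {a, b, c} := by rw [hxc, support_cyc_eq hab hac hbc]
      exact cyc a (hx.2 (by rw [hsup]; simp)) b (hx.2 (by rw [hsup]; simp)) c
        (hx.2 (by rw [hsup]; simp)) hab hac hbc
    | one => intro _; exact one
    | mul a b ha hb iha ihb =>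
      intro _
      rw [AltPres.closure_threeCycles_altOn] at ha hb
      exact mul ⟨a, ha.1⟩ ⟨b, hb.1⟩ (iha ha.1) (ihb hb.1)
    | inv a ha iha =>
      intro _
      rw [AltPres.closure_threeCycles_altOn] at ha
      exact inv ⟨a, ha.1⟩ (iha ha.1)
  exact key z hz'' hz

/-- **(A1)** value on sectional permutations -/
theorem eps_sec {e : Ev S} {pos : ι → V} (hO : OrthFam e pos) (f : C → ι)
    (s : alternatingGroup C) {l : C → V} (hl : ∑ c, l c = 0)
    (h : ∀ c ∈ (s : Perm C).support, l c = pos (f c)) :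
    eps e pos hO (altMap (secEmb f) s) = S.H l * e.hom s * (S.H l)⁻¹ := by
  refine altOn_induction (s : Perm C).support
    (P := fun s => eps e pos hO (altMap (secEmb f) s) = S.H l * e.hom s * (S.H l)⁻¹) ?_ ?_ ?_ ?_ s
    (Finset.Subset.refl _)
  · simp
  · intro x y hx hy; rw [map_mul, map_mul, hx, hy, map_mul]; group
  · intro x hx; rw [map_inv, map_inv, hx, map_inv]; group
  intro a ha b hb c hc hab hac hbc
  rw [altMap_acyc _ hab hac hbc]
  exact eps_section3 hO hab hac hbc hl (h a ha) (h b hb) (h c hc)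

/-! ### commutation -/

/-- **(A4)** for 3-cycles -/
theorem eps_comm3 {κ : Type} [Fintype κ] [DecidableEq κ] {e f : Ev S} {pos : ι → V} {pos' : κ → V}
    (hO : OrthFam e pos) (hO' : OrthFam f pos') {p q r : ι × C} (hpq : p ≠ q) (hpr : p ≠ r)
    (hqr : q ≠ r) {p' q' r' : κ × C} (hpq' : p' ≠ q') (hpr' : p' ≠ r') (hqr' : q' ≠ r')
    (h : ∀ x ∈ ({p, q, r} : Finset (ι × C)), ∀ y ∈ ({p', q', r'} : Finset (κ × C)), x.2 = y.2 →
      TOrth e f (pos x.1) (pos' y.1)) :
    Commute (eps e pos hO (acyc p q r)) (eps f pos' hO' (acyc p' q' r')) := by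
  classical
  set P : Finset (ι × C) := {p, q, r} with hP
  set P' : Finset (κ × C) := {p', q', r'} with hP'
  have hc : P.card ≤ 3 := card_le_three
  have hc' : P'.card ≤ 3 := card_le_three
  have hi2 : (P'.image Prod.snd).card ≤ P'.card := card_image_le
  obtain ⟨d, d', fd, hd, hd'⟩ := exists_fresh S P (P'.image Prod.snd) (by omega)
  obtain ⟨x, x', fx, hx, hx'⟩ := exists_fresh S P' (P.image Prod.snd ∪ (P.image d ∪ P.image d'))
    (by
      have b1 := card_union_le (P.image Prod.snd) (P.image d ∪ P.image d')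
      have b2 := card_union_le (P.image d) (P.image d')
      have b3 : (P.image Prod.snd).card ≤ P.card := card_image_le
      have b4 : (P.image d).card ≤ P.card := card_image_le
      have b5 : (P.image d').card ≤ P.card := card_image_le
      omega)
  have hp : p ∈ P := by simp [hP]
  have hq : q ∈ P := by simp [hP]
  have hr : r ∈ P := by simp [hP]
  have hp' : p' ∈ P' := by simp [hP']
  have hq' : q' ∈ P' := by simp [hP']
  have hr' : r' ∈ P' := by simp [hP']
  -- all the inequalities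
  have n1 : ∀ s ∈ P, ∀ t ∈ P', d s ≠ t.2 := fun s hs t ht h' =>
    hd s hs (mem_image.2 ⟨t, ht, h'.symm⟩)
  have n2 : ∀ s ∈ P, ∀ t ∈ P', d' s ≠ t.2 := fun s hs t ht h' =>
    hd' s hs (mem_image.2 ⟨t, ht, h'.symm⟩)
  have n3 : ∀ s ∈ P, ∀ t ∈ P', s.2 ≠ x t := fun s hs t ht h' =>
    hx t ht (mem_union_left _ (mem_image.2 ⟨s, hs, h'⟩))
  have n4 : ∀ s ∈ P, ∀ t ∈ P', s.2 ≠ x' t := fun s hs t ht h' =>
    hx' t ht (mem_union_left _ (mem_image.2 ⟨s, hs, h'⟩))
  have n5 : ∀ s ∈ P, ∀ t ∈ P', d s ≠ x t := fun s hs t ht h' =>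
    hx t ht (mem_union_right _ (mem_union_left _ (mem_image.2 ⟨s, hs, h'⟩)))
  have n6 : ∀ s ∈ P, ∀ t ∈ P', d s ≠ x' t := fun s hs t ht h' =>
    hx' t ht (mem_union_right _ (mem_union_left _ (mem_image.2 ⟨s, hs, h'⟩)))
  have n7 : ∀ s ∈ P, ∀ t ∈ P', d' s ≠ x t := fun s hs t ht h' =>
    hx t ht (mem_union_right _ (mem_union_right _ (mem_image.2 ⟨s, hs, h'⟩)))
  have n8 : ∀ s ∈ P, ∀ t ∈ P', d' s ≠ x' t := fun s hs t ht h' =>
    hx' t ht (mem_union_right _ (mem_union_right _ (mem_image.2 ⟨s, hs, h'⟩)))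
  have dist : ∀ s ∈ P, s.2 ≠ d s ∧ s.2 ≠ d' s ∧ d s ≠ d' s := fun s hs =>
    ⟨(fd.ned s hs s hs).symm, (fd.ned' s hs s hs).symm, fd.ne s hs s hs⟩
  have dist' : ∀ s ∈ P', s.2 ≠ x s ∧ s.2 ≠ x' s ∧ x s ≠ x' s := fun s hs =>
    ⟨(fx.ned s hs s hs).symm, (fx.ned' s hs s hs).symm, fx.ne s hs s hs⟩
  have dpq : d p ≠ d q := fun h' => hpq (fd.injd p hp q hq h')
  have dpr : d p ≠ d r := fun h' => hpr (fd.injd p hp r hr h')
  have dqr : d q ≠ d r := fun h' => hqr (fd.injd q hq r hr h')
  have xpq : x p' ≠ x q' := fun h' => hpq' (fx.injd p' hp' q' hq' h')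
  have xpr : x p' ≠ x r' := fun h' => hpr' (fx.injd p' hp' r' hr' h')
  have xqr : x q' ≠ x r' := fun h' => hqr' (fx.injd q' hq' r' hr' h')
  -- commutations of the factors
  have c1 : ∀ s ∈ P, ∀ t ∈ P', Commute (mv e (pos s.1) s.2 (d s) (d' s))
      (mv f (pos' t.1) t.2 (x t) (x' t)) := by
    intro s hs t ht
    obtain ⟨a1, a2, a3⟩ := dist s hs
    obtain ⟨b1, b2, b3⟩ := dist' t ht
    refine mv_comm ?_ a1 a2 a3 b1 b2 b3
    by_cases hst : s.2 = t.2
    · exact Or.inl (h s hs t ht hst)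
    · exact Or.inr ⟨hst, n5 s hs t ht, n6 s hs t ht, n7 s hs t ht, n8 s hs t ht, n3 s hs t ht,
        n4 s hs t ht, (n1 s hs t ht).symm, (n2 s hs t ht).symm⟩
  have c2 : ∀ s ∈ P, Commute (mv e (pos s.1) s.2 (d s) (d' s))
      (M3 f (pos' p'.1) (pos' q'.1) (pos' r'.1) (x p') (x q') (x r')) := by
    intro s hs
    obtain ⟨a1, a2, a3⟩ := dist s hs
    refine M3_comm_of_disj e f _ _ _ _ _ _ a1 a2 a3 xpq xpr xqr ?_
    rw [Finset.disjoint_left]
    intro y hy hy'
    simp only [mem_insert, mem_singleton] at hy hy'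
    rcases hy with rfl | rfl | rfl <;> rcases hy' with h' | h' | h'
    · exact n3 s hs p' hp' h'
    · exact n3 s hs q' hq' h'
    · exact n3 s hs r' hr' h'
    · exact n5 s hs p' hp' h'
    · exact n5 s hs q' hq' h'
    · exact n5 s hs r' hr' h'
    · exact n7 s hs p' hp' h'
    · exact n7 s hs q' hq' h'
    · exact n7 s hs r' hr' h'
  have c3 : ∀ t ∈ P', Commute (M3 e (pos p.1) (pos q.1) (pos r.1) (d p) (d q) (d r))
      (mv f (pos' t.1) t.2 (x t) (x' t)) := by
    intro t ht
    obtain ⟨b1, b2, b3⟩ := dist' t ht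
    refine M3_comm_of_disj e f _ _ _ _ _ _ dpq dpr dqr b1 b2 b3 ?_
    rw [Finset.disjoint_left]
    intro y hy hy'
    simp only [mem_insert, mem_singleton] at hy hy'
    rcases hy with rfl | rfl | rfl <;> rcases hy' with h' | h' | h'
    · exact n1 p hp t ht h'
    · exact n5 p hp t ht h'
    · exact n6 p hp t ht h'
    · exact n1 q hq t ht h'
    · exact n5 q hq t ht h'
    · exact n6 q hq t ht h'
    · exact n1 r hr t ht h'
    · exact n5 r hr t ht h'
    · exact n6 r hr t ht h'
  have c4 : Commute (M3 e (pos p.1) (pos q.1) (pos r.1) (d p) (d q) (d r))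
      (M3 f (pos' p'.1) (pos' q'.1) (pos' r'.1) (x p') (x q') (x r')) := by
    refine M3_comm_of_disj e f _ _ _ _ _ _ dpq dpr dqr xpq xpr xqr ?_
    rw [Finset.disjoint_left]
    intro y hy hy'
    simp only [mem_insert, mem_singleton] at hy hy'
    rcases hy with rfl | rfl | rfl <;> rcases hy' with h' | h' | h'
    · exact n5 p hp p' hp' h'
    · exact n5 p hp q' hq' h'
    · exact n5 p hp r' hr' h'
    · exact n5 q hq p' hp' h'
    · exact n5 q hq q' hq' h'
    · exact n5 q hq r' hr' h'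
    · exact n5 r hr p' hp' h'
    · exact n5 r hr q' hq' h'
    · exact n5 r hr r' hr' h'
  rw [eps_val hO hpq hpr hqr fd, eps_val hO' hpq' hpr' hqr' fx]
  have k1 : ∀ t ∈ P', Commute (mv3 e pos d d' p q r) (mv f (pos' t.1) t.2 (x t) (x' t)) :=
    fun t ht => ((c1 p hp t ht).mul_left (c1 q hq t ht)).mul_left (c1 r hr t ht)
  have k2 : Commute (mv3 e pos d d' p q r) (mv3 f pos' x x' p' q' r') :=
    ((k1 p' hp').mul_right (k1 q' hq')).mul_right (k1 r' hr')
  have k3 : Commute (mv3 e pos d d' p q r)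
      (M3 f (pos' p'.1) (pos' q'.1) (pos' r'.1) (x p') (x q') (x r')) :=
    ((c2 p hp).mul_left (c2 q hq)).mul_left (c2 r hr)
  have k4 : Commute (M3 e (pos p.1) (pos q.1) (pos r.1) (d p) (d q) (d r))
      (mv3 f pos' x x' p' q' r') :=
    ((c3 p' hp').mul_right (c3 q' hq')).mul_right (c3 r' hr')
  have k5 : Commute (mv3 e pos d d' p q r) (val f pos' x x' p' q' r') :=
    ((k2.inv_right).mul_right k3).mul_right k2
  have k6 : Commute (M3 e (pos p.1) (pos q.1) (pos r.1) (d p) (d q) (d r))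
      (val f pos' x x' p' q' r') :=
    ((k4.inv_right).mul_right c4).mul_right k4
  exact ((k5.inv_left).mul_left k6).mul_left k5

/-- **(A4)** tower elements commute if the translates are orthogonal at equal colours. -/
theorem eps_comm {κ : Type} [Fintype κ] [DecidableEq κ] {e f : Ev S} {pos : ι → V} {pos' : κ → V}
    (hO : OrthFam e pos) (hO' : OrthFam f pos') (z : alternatingGroup (ι × C))
    (z' : alternatingGroup (κ × C))
    (h : ∀ x ∈ (z : Perm (ι × C)).support, ∀ y ∈ (z' : Perm (κ × C)).support, x.2 = y.2 →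
      TOrth e f (pos x.1) (pos' y.1)) :
    Commute (eps e pos hO z) (eps f pos' hO' z') := by
  refine altOn_induction (z : Perm (ι × C)).support
    (P := fun z => Commute (eps e pos hO z) (eps f pos' hO' z')) ?_ ?_ ?_ ?_ z
    (Finset.Subset.refl _)
  · rw [map_one]; exact Commute.one_left _
  · intro x y hx hy; rw [map_mul]; exact hx.mul_left hy
  · intro x hx; rw [map_inv]; exact hx.inv_left
  intro a ha b hb c hc hab hac hbc
  refine altOn_induction (z' : Perm (κ × C)).support
    (P := fun z' => Commute (eps e pos hO (acyc a b c)) (eps f pos' hO' z')) ?_ ?_ ?_ ?_ z'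
    (Finset.Subset.refl _)
  · rw [map_one]; exact Commute.one_right _
  · intro x y hx hy; rw [map_mul]; exact hx.mul_right hy
  · intro x hx; rw [map_inv]; exact hx.inv_right
  intro a' ha' b' hb' c' hc' hab' hac' hbc'
  refine eps_comm3 hO hO' hab hac hbc hab' hac' hbc' fun x hx y hy hxy => h x ?_ y ?_ hxy
  · simp only [mem_insert, mem_singleton] at hx
    rcases hx with rfl | rfl | rfl <;> assumption
  · simp only [mem_insert, mem_singleton] at hy
    rcases hy with rfl | rfl | rfl <;> assumption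

/-- the one-point family is orthogonal -/
theorem orthFam_unit (e : Ev S) (v : V) : OrthFam e (fun _ : Unit => v) :=
  fun i j hij => absurd (Subsingleton.elim i j) hij

/-- a single event as a tower -/
theorem hom_eq_eps {f f' : Ev S} {w : V} (hf : Ev.IsTrans w f f') (τ : alternatingGroup C) :
    f'.hom τ = eps f (fun _ : Unit => w) (orthFam_unit f w) (altMap (lvlEmb ()) τ) :=
  (eps_lvl (orthFam_unit f w) (i := ()) hf τ).symm

/-- **(A4')** an event orthogonal to all the translates commutes with the tower -/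
theorem eps_comm_hom {e f : Ev S} {pos : ι → V} (hO : OrthFam e pos) {te : ι → Ev S}
    (ht : ∀ i, Ev.IsTrans (pos i) e (te i)) (h : ∀ i, Ev.Orth (te i) f)
    (z : alternatingGroup (ι × C)) (τ : alternatingGroup C) :
    Commute (eps e pos hO z) (f.hom τ) := by
  rw [hom_eq_eps (isTrans_zero f) τ]
  exact eps_comm hO _ z _ fun x _ y _ _ => TOrth_of_orth (ht x.1) (isTrans_zero f) (h x.1)

/-! ### sums -/

/-- **(A5)** additivity -/
theorem eps_add {e f g : Ev S} {pos : ι → V} (he : OrthFam e pos) (hf : OrthFam f pos)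
    (hg : OrthFam g pos) (hef : ∀ i j, TOrth e f (pos i) (pos j))
    (h : ∀ σ, g.hom σ = e.hom σ * f.hom σ) (z : alternatingGroup (ι × C)) :
    eps g pos hg z = eps e pos he z * eps f pos hf z := by
  have hc : ∀ z z', Commute (eps e pos he z) (eps f pos hf z') := fun z z' =>
    eps_comm he hf z z' fun x _ y _ _ => hef x.1 y.1
  let Φ : alternatingGroup (ι × C) →* T :=
    { toFun := fun z => eps e pos he z * eps f pos hf z
      map_one' := by rw [map_one, map_one, one_mul]
      map_mul' := fun x y => by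
        rw [map_mul, map_mul, mul_assoc, mul_assoc, ← mul_assoc (eps e pos he y),
          (hc y x).eq, mul_assoc] }
  have : Φ = eps g pos hg := eq_eps hg fun p q r h1 h2 h3 => by
    change eps e pos he (acyc p q r) * eps f pos hf (acyc p q r) = _
    rw [eps_M3 he h1 h2 h3, eps_M3 hf h1 h2 h3]
    obtain ⟨l, hl, hlf⟩ := exists_lam' S ({p.2, q.2, r.2} : Finset C)
      (card_le_three.trans_lt (by norm_num)) (pos3 (pos p.1) (pos q.1) (pos r.1) p.2 q.2)
    have ha : l p.2 = pos p.1 := by rw [hlf _ (by simp)]; simp [pos3]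
    have hb : l q.2 = pos q.1 := by rw [hlf _ (by simp)]; simp [pos3, h1.symm]
    have hc : l r.2 = pos r.1 := by rw [hlf _ (by simp)]; simp [pos3, h2.symm, h3.symm]
    rw [M3_eq e h1 h2 h3 hl ha hb hc, M3_eq f h1 h2 h3 hl ha hb hc, M3_eq g h1 h2 h3 hl ha hb hc, h]
    group
  exact (DFunLike.congr_fun this z).symm

/-! ### functoriality -/

/-- **(A6),(A7)** conjugation by `H(m)` = shift of the positions by `m`; with `m = 0` this is
functoriality in the family of positions. -/
theorem eps_H {κ : Type} [Fintype κ] [DecidableEq κ] {e : Ev S} {pos : ι → V} {pos' : κ → V}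
    (hO : OrthFam e pos) (hO' : OrthFam e pos') {m : C → V} (hm : ∑ c, m c = 0)
    (θ : ι × C ↪ κ × C) (h2 : ∀ p, (θ p).2 = p.2) (h1 : ∀ p, pos' (θ p).1 = m p.2 + pos p.1)
    (z : alternatingGroup (ι × C)) :
    S.H m * eps e pos hO z * (S.H m)⁻¹ = eps e pos' hO' (altMap θ z) := by
  have : (MulAut.conj (S.H m)).toMonoidHom.comp (eps e pos hO) =
      (eps e pos' hO').comp (altMap θ) := by
    refine hom_ext_sec S fun p q r e1 e2 e3 => ?_
    change S.H m * eps e pos hO (acyc p q r) * (S.H m)⁻¹ = eps e pos' hO' (altMap θ (acyc p q r))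
    have hpq : p ≠ q := fun h => e1 (congrArg Prod.snd h)
    have hpr : p ≠ r := fun h => e2 (congrArg Prod.snd h)
    have hqr : q ≠ r := fun h => e3 (congrArg Prod.snd h)
    rw [eps_M3 hO e1 e2 e3, altMap_acyc θ hpq hpr hqr,
      eps_M3 hO' (by rw [h2, h2]; exact e1) (by rw [h2, h2]; exact e2) (by rw [h2, h2]; exact e3),
      h1, h1, h1, h2, h2, h2]
    obtain ⟨l, hl, hlf⟩ := exists_lam' S ({p.2, q.2, r.2} : Finset C)
      (card_le_three.trans_lt (by norm_num)) (pos3 (pos p.1) (pos q.1) (pos r.1) p.2 q.2)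
    have ha : l p.2 = pos p.1 := by rw [hlf _ (by simp)]; simp [pos3]
    have hb : l q.2 = pos q.1 := by rw [hlf _ (by simp)]; simp [pos3, e1.symm]
    have hc : l r.2 = pos r.1 := by rw [hlf _ (by simp)]; simp [pos3, e2.symm, e3.symm]
    have hml : ∑ c, (m + l) c = 0 := by
      simp only [Pi.add_apply, Finset.sum_add_distrib, hm, hl, add_zero]
    rw [M3_eq e e1 e2 e3 hl ha hb hc, M3_eq e (l := m + l) e1 e2 e3 hml (by rw [Pi.add_apply, ha])
      (by rw [Pi.add_apply, hb]) (by rw [Pi.add_apply, hc]), S.H_add m l hm hl]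
    group
  exact DFunLike.congr_fun this z

/-- **(A6)** functoriality -/
theorem eps_map {κ : Type} [Fintype κ] [DecidableEq κ] {e : Ev S} {pos : ι → V} {pos' : κ → V}
    (hO : OrthFam e pos) (hO' : OrthFam e pos') (θ : ι × C ↪ κ × C) (h2 : ∀ p, (θ p).2 = p.2)
    (h1 : ∀ p, pos' (θ p).1 = pos p.1) (z : alternatingGroup (ι × C)) :
    eps e pos hO z = eps e pos' hO' (altMap θ z) := by
  have := eps_H hO hO' (m := 0) (by simp) θ h2 (fun p => by rw [h1]; simp) z
  rw [← this, H_zero]; simp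

/-- **(A7')** conjugation by `one(τ)` -/
theorem eps_one {e : Ev S} {pos : ι → V} (hO : OrthFam e pos) (τ : alternatingGroup C)
    (z : alternatingGroup (ι × C)) :
    S.one τ * eps e pos hO z * (S.one τ)⁻¹ =
      eps e pos hO (lv (fun _ => τ) * z * (lv (fun _ => τ))⁻¹) := by
  have : (MulAut.conj (S.one τ)).toMonoidHom.comp (eps e pos hO) =
      (eps e pos hO).comp (MulAut.conj (lv (fun _ : ι => τ))).toMonoidHom := by
    refine hom_ext_sec S fun p q r e1 e2 e3 => ?_
    have hpq : p ≠ q := fun h => e1 (congrArg Prod.snd h)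
    have hpr : p ≠ r := fun h => e2 (congrArg Prod.snd h)
    have hqr : q ≠ r := fun h => e3 (congrArg Prod.snd h)
    change S.one τ * eps e pos hO (acyc p q r) * (S.one τ)⁻¹ =
      eps e pos hO (lv (fun _ => τ) * acyc p q r * (lv (fun _ => τ))⁻¹)
    rw [conj_acyc _ hpq hpr hqr, lv_apply, lv_apply, lv_apply, eps_M3 hO e1 e2 e3,
      eps_M3 hO (fun h => e1 ((τ : Perm C).injective h)) (fun h => e2 ((τ : Perm C).injective h))
        (fun h => e3 ((τ : Perm C).injective h))]
    obtain ⟨l, hl, hlf⟩ := exists_lam' S ({p.2, q.2, r.2} : Finset C)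
      (card_le_three.trans_lt (by norm_num)) (pos3 (pos p.1) (pos q.1) (pos r.1) p.2 q.2)
    have ha : l p.2 = pos p.1 := by rw [hlf _ (by simp)]; simp [pos3]
    have hb : l q.2 = pos q.1 := by rw [hlf _ (by simp)]; simp [pos3, e1.symm]
    have hc : l r.2 = pos r.1 := by rw [hlf _ (by simp)]; simp [pos3, e2.symm, e3.symm]
    have hl' : ∑ c, l ((τ : Perm C)⁻¹ c) = 0 := by
      rw [← hl]; exact Equiv.sum_comp ((τ : Perm C)⁻¹) l
    have hi := (τ : Perm C).injective
    rw [M3_eq e e1 e2 e3 hl ha hb hc,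
      M3_eq e (l := fun c => l ((τ : Perm C)⁻¹ c)) (hi.ne e1) (hi.ne e2) (hi.ne e3) hl'
        (by simp [ha]) (by simp [hb]) (by simp [hc]), ← S.one_H τ l hl, ← conj_acyc τ e1 e2 e3,
      ← e.equivar]
    group
  exact DFunLike.congr_fun this z

/-! ### letter events -/

theorem le_diff_of_orth {p e f : Ev S} (h : e ≤ f) (hp : p ≤ f) (ho : Ev.Orth p e) :
    p ≤ Ev.diff f e h := by
  intro σ τ
  rw [Ev.diff_hom]
  have h1 := hp σ τ
  have h2 : (e.hom τ)⁻¹ * p.hom σ * e.hom τ = p.hom σ := by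
    rw [mul_assoc, ho σ τ, inv_mul_cancel_left]
  calc f.hom τ * (e.hom τ)⁻¹ * p.hom σ * (f.hom τ * (e.hom τ)⁻¹)⁻¹
      = f.hom τ * ((e.hom τ)⁻¹ * p.hom σ * e.hom τ) * (f.hom τ)⁻¹ := by group
    _ = p.hom (τ * σ * τ⁻¹) := by rw [h2, h1]

/-- **(A8)** conjugation by an event `f` such that every translate `(pos i).e` is `≤ f` (for
`i ∈ A`) or orthogonal to `f` (for `i ∉ A`). -/
theorem eps_conj_event {e : Ev S} {pos : ι → V} (hO : OrthFam e pos) {te : ι → Ev S}
    (ht : ∀ i, Ev.IsTrans (pos i) e (te i)) (A : Finset ι) (f : Ev S)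
    (h1 : ∀ i ∈ A, te i ≤ f) (h2 : ∀ i, i ∉ A → Ev.Orth (te i) f) (τ : alternatingGroup C)
    (z : alternatingGroup (ι × C)) :
    f.hom τ * eps e pos hO z * (f.hom τ)⁻¹ =
      eps e pos hO (lv (fun i => if i ∈ A then τ else 1) * z *
        (lv (fun i => if i ∈ A then τ else 1))⁻¹) := by
  have ho : ∀ i j, i ≠ j → Ev.Orth (te i) (te j) := fun i j hij =>
    orth_of_TOrth (ht i) (ht j) (hO i j hij)
  induction A using Finset.induction_on generalizing f z with
  | empty =>
    have h0 : lv (fun i : ι => if i ∈ (∅ : Finset ι) then τ else 1) = 1 := by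
      rw [← lv_one]; congr 1
    rw [h0]
    have := eps_comm_hom hO ht (fun i => h2 i (Finset.notMem_empty i)) z τ
    rw [← this.eq]
    simp
  | insert a A ha ih =>
    have hle : te a ≤ f := h1 a (mem_insert_self a A)
    have key := ih (Ev.diff f (te a) hle)
      (fun i hi => le_diff_of_orth hle (h1 i (mem_insert_of_mem hi))
        (ho i a (fun h => ha (h ▸ hi))))
      (fun i hi => by
        by_cases hia : i = a
        · subst hia; exact Ev.orth_diff hle
        · exact (h2 i (by simp [hia, hi])).mono le_rfl (Ev.diff_le hle))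
      z
    have e1 : lv (fun i : ι => if i ∈ insert a A then τ else 1) =
        lv (Pi.mulSingle a τ) * lv (fun i => if i ∈ A then τ else 1) := by
      rw [← lv_mul]
      congr 1
      funext i
      by_cases hia : i = a
      · subst hia; simp [ha]
      · simp [hia]
    have e2 := eps_lv_single hO (ht a) τ
    rw [Ev.hom_eq_of_le hle τ, e1]
    calc (te a).hom τ * (Ev.diff f (te a) hle).hom τ * eps e pos hO z *
          ((te a).hom τ * (Ev.diff f (te a) hle).hom τ)⁻¹
        = (te a).hom τ * ((Ev.diff f (te a) hle).hom τ * eps e pos hO z *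
          ((Ev.diff f (te a) hle).hom τ)⁻¹) * ((te a).hom τ)⁻¹ := by group
      _ = _ := by
        rw [key, ← e2, ← map_inv, ← map_mul, ← map_mul]
        congr 1

end Crest.Agent.R189.Tower
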