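import Crest.Agent.R189.CentCore
import Crest.Agent.R189.TowerProp
import Crest.Agent.R189.EvTrans
import Crest.Agent.R189.KGen

/-!
# Row 189 (S0289): C1 in terms of windows   (helper254)

`WinAtlas S letter lev M`: a family of events `e i` with finite windows `W i ⊂ ℤ × ℤ`, such that the
translates `v.e_i` (`v ∈ W i`) are below letters, pairwise orthogonal, generate the letters at depth
`≥ M + 1`, and occur in `X`.

`cent_of_win`: if there are such atlases for all `M` then `q w = 1` implies `w ∈ center T`.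
-/

set_option autoImplicit false
set_option linter.unusedSectionVars false

open Equiv Equiv.Perm

namespace Crest.Agent.R189.Cent

variable {C : Type} [Fintype C] [DecidableEq C] {T : Type} [Group T]

/-! ### the elements `tv` -/

section tv

variable {V : Type} [AddCommGroup V] [DecidableEq V] {S : ColGrp C V T}

/-- the embedding of an inner window, shifted by `m` -/
def shiftEmb (W W' : Finset V) (m : C → V) (h : ∀ c, ∀ v ∈ W', m c + v ∈ W) :
    {v // v ∈ W'} × C ↪ {v // v ∈ W} × C where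
  toFun p := (⟨m p.2 + p.1.1, h p.2 _ p.1.2⟩, p.2)
  inj' := by
    rintro ⟨⟨v, hv⟩, c⟩ ⟨⟨v', hv'⟩, c'⟩ hh
    simp only [Prod.mk.injEq, Subtype.mk.injEq] at hh ⊢
    obtain ⟨h1, rfl⟩ := hh
    exact ⟨add_left_cancel h1, rfl⟩

open Classical in
/-- the 3-cycle `(a b c)` of the tower over `e` with window `W` (junk `1` off the window) -/
noncomputable def tv (e : Ev S) (W : Finset V)
    (hO : Tower.OrthFam e (fun w : {v // v ∈ W} => (w : V))) (a b c : V × C) : T :=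
  if h : a.1 ∈ W ∧ b.1 ∈ W ∧ c.1 ∈ W then
    Tower.eps e (fun w : {v // v ∈ W} => (w : V)) hO
      (Tower.acyc (⟨a.1, h.1⟩, a.2) (⟨b.1, h.2.1⟩, b.2) (⟨c.1, h.2.2⟩, c.2))
  else 1

variable {e : Ev S} {W : Finset V} {hO : Tower.OrthFam e (fun w : {v // v ∈ W} => (w : V))}

theorem tv_eq {a b c : V × C} (ha : a.1 ∈ W) (hb : b.1 ∈ W) (hc : c.1 ∈ W) :
    tv e W hO a b c = Tower.eps e (fun w : {v // v ∈ W} => (w : V)) hO
      (Tower.acyc (⟨a.1, ha⟩, a.2) (⟨b.1, hb⟩, b.2) (⟨c.1, hc⟩, c.2)) := by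
  unfold tv
  rw [dif_pos ⟨ha, hb, hc⟩]

theorem pne {a b : V × C} (h : a ≠ b) (ha : a.1 ∈ W) (hb : b.1 ∈ W) :
    ((⟨a.1, ha⟩, a.2) : {v // v ∈ W} × C) ≠ (⟨b.1, hb⟩, b.2) := by
  intro h'
  simp only [Prod.mk.injEq, Subtype.mk.injEq] at h'
  exact h (Prod.ext h'.1 h'.2)

/-- conjugation by a translation -/
theorem tv_H {W' : Finset V} {m : C → V} (hm : ∑ c, m c = 0) (h : ∀ c, ∀ v ∈ W', m c + v ∈ W)
    (h' : W' ⊆ W) {a b c : V × C} (hab : a ≠ b) (hac : a ≠ c) (hbc : b ≠ c)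
    (ha : a.1 ∈ W') (hb : b.1 ∈ W') (hc : c.1 ∈ W') :
    S.H m * tv e W hO a b c * (S.H m)⁻¹ =
      tv e W hO (m a.2 + a.1, a.2) (m b.2 + b.1, b.2) (m c.2 + c.1, c.2) := by
  have hO' : Tower.OrthFam e (fun w : {v // v ∈ W'} => (w : V)) := by
    intro i j hij
    exact hO ⟨i.1, h' i.2⟩ ⟨j.1, h' j.2⟩ (fun h2 => hij (Subtype.ext (congrArg Subtype.val h2 : _)))
  have h0 : ∀ c, ∀ v ∈ W', (0 : C → V) c + v ∈ W := fun c v hv => by simpa using h' hv
  have e1 := Tower.eps_map hO' hO (shiftEmb W W' 0 h0) (fun p => rfl) (fun p => by simp [shiftEmb])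
    (Tower.acyc (⟨a.1, ha⟩, a.2) (⟨b.1, hb⟩, b.2) (⟨c.1, hc⟩, c.2))
  have e2 := Tower.eps_H hO' hO hm (shiftEmb W W' m h) (fun p => rfl) (fun p => rfl)
    (Tower.acyc (⟨a.1, ha⟩, a.2) (⟨b.1, hb⟩, b.2) (⟨c.1, hc⟩, c.2))
  rw [Tower.altMap_acyc _ (pne hab ha hb) (pne hac ha hc) (pne hbc hb hc)] at e1 e2
  have e3 : tv e W hO a b c = Tower.eps e (fun w : {v // v ∈ W'} => (w : V)) hO'
      (Tower.acyc (⟨a.1, ha⟩, a.2) (⟨b.1, hb⟩, b.2) (⟨c.1, hc⟩, c.2)) := by
    rw [tv_eq (h' ha) (h' hb) (h' hc), e1]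
    have : ∀ (v : V) (hv : v ∈ W') (c : C), shiftEmb W W' 0 h0 (⟨v, hv⟩, c) = (⟨v, h' hv⟩, c) := by
      intro v hv c
      simp [shiftEmb]
    rw [this, this, this]
  rw [e3, e2, tv_eq (h _ _ ha) (h _ _ hb) (h _ _ hc)]
  rfl

/-- conjugation by an event -/
theorem tv_ev {f : Ev S} (P : V → Prop) [DecidablePred P]
    (h1 : ∀ v ∈ W, P v → Ev.trans v e ≤ f) (h2 : ∀ v ∈ W, ¬ P v → Ev.Orth (Ev.trans v e) f)
    (τ : alternatingGroup C) {a b c : V × C} (hab : a ≠ b) (hac : a ≠ c) (hbc : b ≠ c)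
    (ha : a.1 ∈ W) (hb : b.1 ∈ W) (hc : c.1 ∈ W) :
    f.hom τ * tv e W hO a b c * (f.hom τ)⁻¹ =
      tv e W hO (a.1, if P a.1 then (τ : Perm C) a.2 else a.2)
        (b.1, if P b.1 then (τ : Perm C) b.2 else b.2)
        (c.1, if P c.1 then (τ : Perm C) c.2 else c.2) := by
  have e1 := Tower.eps_conj_event hO (te := fun w : {v // v ∈ W} => Ev.trans (w : V) e)
    (fun w => Ev.isTrans_trans _ _) (Finset.univ.filter (fun w : {v // v ∈ W} => P w.1)) f
    (fun w hw => h1 _ w.2 (by simpa using hw)) (fun w hw => h2 _ w.2 (by simpa using hw)) τ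
    (Tower.acyc (⟨a.1, ha⟩, a.2) (⟨b.1, hb⟩, b.2) (⟨c.1, hc⟩, c.2))
  rw [tv_eq ha hb hc, e1, Tower.conj_acyc _ (pne hab ha hb) (pne hac ha hc) (pne hbc hb hc)]
  have key : ∀ (v : V) (hv : v ∈ W) (c : C),
      ((Tower.lv (fun w : {v // v ∈ W} => if w ∈ Finset.univ.filter (fun w : {v // v ∈ W} => P w.1)
        then τ else 1) : alternatingGroup ({v // v ∈ W} × C)) : Perm ({v // v ∈ W} × C)) (⟨v, hv⟩, c) =
      (⟨v, hv⟩, if P v then (τ : Perm C) c else c) := by
    intro v hv c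
    rw [Tower.lv_apply]
    by_cases h : P v
    · simp [h]
    · simp [h]
  rw [key, key, key]
  exact (tv_eq (a := (a.1, if P a.1 then (τ : Perm C) a.2 else a.2))
    (b := (b.1, if P b.1 then (τ : Perm C) b.2 else b.2))
    (c := (c.1, if P c.1 then (τ : Perm C) c.2 else c.2)) ha hb hc).symm

/-- the diagonal 3-cycles are values of the translates -/
theorem tv_diag {v : V} (hv : v ∈ W) {p q r : C} (hpq : p ≠ q) (hpr : p ≠ r) (hqr : q ≠ r) :
    tv e W hO (v, p) (v, q) (v, r) = (Ev.trans v e).hom (Tower.acyc p q r) := by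
  rw [tv_eq hv hv hv, Tower.eps_M3 hO hpq hpr hqr, Tower.M3_const (Ev.isTrans_trans v e) hpq hpr hqr]

theorem tv_bot (h : e = Ev.zero S) (a b c : V × C) : tv e W hO a b c = 1 := by
  unfold tv
  split
  · next h' =>
    have : (1 : alternatingGroup ({v // v ∈ W} × C) →* T) =
        Tower.eps e (fun w : {v // v ∈ W} => (w : V)) hO := by
      refine Tower.eq_eps hO ?_
      intro p q r h1 h2 h3
      obtain ⟨l, hl, hlf⟩ := Tower.exists_lam' S ({p.2, q.2, r.2} : Finset C)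
        (Finset.card_le_three.trans_lt (by norm_num))
        (Tower.pos3 (p.1 : V) (q.1 : V) (r.1 : V) p.2 q.2)
      have ha : l p.2 = (p.1 : V) := by rw [hlf _ (by simp)]; simp [Tower.pos3]
      have hb : l q.2 = (q.1 : V) := by rw [hlf _ (by simp)]; simp [Tower.pos3, h1.symm]
      have hc : l r.2 = (r.1 : V) := by
        rw [hlf _ (by simp)]; simp [Tower.pos3, h2.symm, h3.symm]
      rw [Tower.M3_eq e h1 h2 h3 hl ha hb hc, h]
      simp [Ev.zero]
    rw [← this]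
    rfl
  · rfl

end tv

/-! ### window atlases -/

section atlas

variable {S : ColGrp C (ℤ × ℤ) T} {A X : Type} [AddAction (ℤ × ℤ) X]

/-- a window atlas of depth `M` -/
structure WinAtlas (S : ColGrp C (ℤ × ℤ) T) (letter : X → A) (lev : A → Ev S) (M : ℕ) where
  κ : Type
  e : κ → Ev S
  W : κ → Finset (ℤ × ℤ)
  dep : κ → ℤ × ℤ → ℕ
  ltr : κ → ℤ × ℤ → A
  dep_W : ∀ i v u, |u.1| ≤ 1 → |u.2| ≤ 1 → 1 ≤ dep i v → u + v ∈ W i
  dep_step : ∀ i v u, |u.1| ≤ 1 → |u.2| ≤ 1 → dep i v ≤ dep i (u + v) + 1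
  le : ∀ i v, v ∈ W i → Ev.trans v (e i) ≤ lev (ltr i v)
  orth : ∀ i v v', v ∈ W i → v' ∈ W i → v ≠ v' → Ev.Orth (Ev.trans v (e i)) (Ev.trans v' (e i))
  sum : ∀ (a : A) (K : Subgroup T) (σ : alternatingGroup C),
    (∀ i v, M + 1 ≤ dep i v → (Ev.trans v (e i)).hom σ ∈ K) → (lev a).hom σ ∈ K
  occ : ∀ i, e i = Ev.zero S ∨ ∃ y : X, ∀ v ∈ W i, letter (v +ᵥ y) = ltr i v

variable {letter : X → A} {lev : A → Ev S} {M : ℕ}

namespace WinAtlas

variable (At : WinAtlas S letter lev M)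

theorem orthFam (i : At.κ) :
    Tower.OrthFam (At.e i) (fun w : {v // v ∈ At.W i} => (w : ℤ × ℤ)) :=
  Tower.orthFam_of (te := fun w => Ev.trans (w : ℤ × ℤ) (At.e i)) (fun _ => Ev.isTrans_trans _ _)
    (fun v w h => At.orth i v w v.2 w.2 (fun h' => h (Subtype.ext h')))

/-- the tower elements -/
noncomputable def t (i : At.κ) (a b c : (ℤ × ℤ) × C) : T := tv (At.e i) (At.W i) (At.orthFam i) a b c

theorem mem_W {i : At.κ} {v : ℤ × ℤ} (h : 1 ≤ At.dep i v) : v ∈ At.W i := by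
  have := At.dep_W i v 0 (by simp) (by simp) h
  simpa using this

/-- conjugation by a small translation -/
theorem t_H (i : At.κ) {m : C → ℤ × ℤ} (hm : ∑ c, m c = 0)
    (h : ∀ c, |(m c).1| ≤ 1 ∧ |(m c).2| ≤ 1) {a b c : (ℤ × ℤ) × C} (hab : a ≠ b) (hac : a ≠ c)
    (hbc : b ≠ c) (ha : 1 ≤ At.dep i a.1) (hb : 1 ≤ At.dep i b.1) (hc : 1 ≤ At.dep i c.1) :
    S.H m * At.t i a b c * (S.H m)⁻¹ =
      At.t i (m a.2 + a.1, a.2) (m b.2 + b.1, b.2) (m c.2 + c.1, c.2) := by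
  refine tv_H (W' := (At.W i).filter (fun v => 1 ≤ At.dep i v)) hm ?_ (Finset.filter_subset _ _)
    hab hac hbc ?_ ?_ ?_
  · intro c v hv
    exact At.dep_W i v _ (h c).1 (h c).2 (Finset.mem_filter.1 hv).2
  · exact Finset.mem_filter.2 ⟨At.mem_W ha, ha⟩
  · exact Finset.mem_filter.2 ⟨At.mem_W hb, hb⟩
  · exact Finset.mem_filter.2 ⟨At.mem_W hc, hc⟩

/-- conjugation by a letter event -/
theorem t_ev (lev_orth : ∀ x y, x ≠ y → Ev.Orth (lev x) (lev y)) [DecidableEq A] (i : At.κ) (x : A)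
    (τ : alternatingGroup C) {a b c : (ℤ × ℤ) × C} (hab : a ≠ b) (hac : a ≠ c)
    (hbc : b ≠ c) (ha : a.1 ∈ At.W i) (hb : b.1 ∈ At.W i) (hc : c.1 ∈ At.W i) :
    (lev x).hom τ * At.t i a b c * ((lev x).hom τ)⁻¹ =
      At.t i (a.1, if At.ltr i a.1 = x then (τ : Perm C) a.2 else a.2)
        (b.1, if At.ltr i b.1 = x then (τ : Perm C) b.2 else b.2)
        (c.1, if At.ltr i c.1 = x then (τ : Perm C) c.2 else c.2) := by
  refine tv_ev (fun v => At.ltr i v = x) ?_ ?_ τ hab hac hbc ha hb hc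
  · intro v hv h
    rw [← h]
    exact At.le i v hv
  · intro v hv h
    exact (lev_orth _ _ h).mono (At.le i v hv) le_rfl

section gen

variable (K : Subgroup T) (hK : ∀ i, ∀ a b c : (ℤ × ℤ) × C, a ≠ b → a ≠ c → b ≠ c →
      M ≤ At.dep i a.1 → M ≤ At.dep i b.1 → M ≤ At.dep i c.1 → At.t i a b c ∈ K)

include hK

theorem trans_mem (i : At.κ) {v : ℤ × ℤ} (hv : M ≤ At.dep i v) (hv1 : 1 ≤ At.dep i v)
    (σ : alternatingGroup C) : (Ev.trans v (At.e i)).hom σ ∈ K := by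
  refine alt_induction (P := fun σ => (Ev.trans v (At.e i)).hom σ ∈ K) ?_ ?_ ?_ ?_ σ
  · rintro ⟨s, hs'⟩ hs
    obtain ⟨p, q, r, hpq, hpr, hqr, -, h⟩ := Tower.eq_acyc hs
    have h2 : (⟨s, hs'⟩ : alternatingGroup C) = Tower.acyc p q r := h
    rw [h2, ← tv_diag (hO := At.orthFam i) (At.mem_W hv1) hpq hpr hqr]
    exact hK i _ _ _ (by simp [hpq]) (by simp [hpr]) (by simp [hqr]) hv hv hv
  · rw [map_one]; exact K.one_mem
  · intro a b ha hb; rw [map_mul]; exact K.mul_mem ha hb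
  · intro a ha; rw [map_inv]; exact K.inv_mem ha

theorem lev_mem (x : A) (σ : alternatingGroup C) : (lev x).hom σ ∈ K :=
  At.sum x K σ (fun i v hv => At.trans_mem K hK i (by omega) (by omega) σ)

theorem conj_lev_mem {m : C → ℤ × ℤ} (hm : ∑ c, m c = 0)
    (h : ∀ c, |(m c).1| ≤ 1 ∧ |(m c).2| ≤ 1) (x : A) (σ : alternatingGroup C)
    (hσ : (σ : Perm C).IsThreeCycle) : S.H m * (lev x).hom σ * (S.H m)⁻¹ ∈ K := by
  have := At.sum x (K.comap (MulAut.conj (S.H m)).toMonoidHom) σ ?_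
  · exact this
  intro i v hv
  show S.H m * (Ev.trans v (At.e i)).hom σ * (S.H m)⁻¹ ∈ K
  obtain ⟨s, hs'⟩ := σ
  obtain ⟨p, q, r, hpq, hpr, hqr, -, h3⟩ := Tower.eq_acyc hσ
  have h2 : (⟨s, hs'⟩ : alternatingGroup C) = Tower.acyc p q r := h3
  rw [h2, ← tv_diag (hO := At.orthFam i) (At.mem_W (by omega)) hpq hpr hqr]
  have h4 := At.t_H i hm h (a := (v, p)) (b := (v, q)) (c := (v, r)) (by simp [hpq])
    (by simp [hpr]) (by simp [hqr]) (show 1 ≤ At.dep i v by omega) (show 1 ≤ At.dep i v by omega)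
    (show 1 ≤ At.dep i v by omega)
  rw [t] at h4
  rw [h4]
  have h5 : ∀ c, M ≤ At.dep i (m c + v) := by
    intro c
    have := At.dep_step i v (m c) (h c).1 (h c).2
    omega
  exact hK i _ _ _ (by simp [hpq]) (by simp [hpr]) (by simp [hqr]) (h5 _) (h5 _) (h5 _)

theorem H_mem (hone : ∀ (σ : alternatingGroup C) (K : Subgroup T), (∀ x, (lev x).hom σ ∈ K) →
    S.one σ ∈ K) (b : Bool) (p q : C) : S.H (dl (uv b) p q) ∈ K := by
  by_cases hpq : p = q
  · subst hpq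
    have : dl (uv b) p p = 0 := by simp [dl]
    rw [this, S.H_zero]
    exact K.one_mem
  obtain ⟨r, hr⟩ := S.exists_off (D := {p, q}) (by
    have := Finset.card_le_two (a := p) (b := q); omega)
  obtain ⟨x, hx⟩ := S.exists_off (D := {p, q, r}) (by
    have := Finset.card_le_three (a := p) (b := q) (c := r); omega)
  simp only [Finset.mem_insert, Finset.mem_singleton, not_or] at hr hx
  have hqp : q ≠ p := Ne.symm hpq
  have hqx : q ≠ x := Ne.symm hx.2.1
  have hpx : p ≠ x := Ne.symm hx.1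
  set s : alternatingGroup C := Tower.acyc q p x with hs
  have hs3 : (s : Perm C).IsThreeCycle := by
    rw [hs, Tower.coe_acyc hqp hqx hpx]
    exact AltPres.cyc_isThreeCycle hqp hqx hpx
  have hsq : (s : Perm C) q = p := by
    rw [hs, Tower.coe_acyc hqp hqx hpx, Tower.cyc_apply_fst hqp hpx]
  have hsr : (s : Perm C) r = r := by
    rw [hs, Tower.coe_acyc hqp hqx hpx]
    exact Tower.cyc_apply_of_ne hr.2 hr.1 (fun h => hx.2.2 h.symm)
  set l := dl (uv b) q r with hl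
  have hl0 : ∑ c, l c = 0 := dl_sum _ _ _
  have h1 := S.one_H s l hl0
  have h2 : (fun c => l ((s : Perm C)⁻¹ c)) = dl (uv b) p r := by
    have := dl_comp (uv b) q r (s : Perm C)
    rw [hsq, hsr] at this
    exact this
  rw [h2] at h1
  have h3 : S.H (dl (uv b) p q) = S.one s * (S.H l * S.one s⁻¹ * (S.H l)⁻¹) := by
    have h4 : dl (uv b) p q = dl (uv b) p r - l := by
      rw [hl, ← dl_mul (uv b) p q r]
      abel
    rw [h4, S.H_sub (dl_sum _ _ _) hl0, ← h1, map_inv]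
    group
  rw [h3]
  refine K.mul_mem (hone s K (fun x => At.lev_mem K hK x s)) ?_
  refine hone s⁻¹ (K.comap (MulAut.conj (S.H l)).toMonoidHom) (fun y => ?_)
  have h5 : ∀ c, |(l c).1| ≤ 1 ∧ |(l c).2| ≤ 1 := TModel.dl_small b (Ne.symm hr.2)
  have h6 := At.conj_lev_mem K hK hl0 h5 y s⁻¹ (by
    rw [Subgroup.coe_inv]
    exact hs3.inv)
  exact h6

end gen

end WinAtlas

/-- index of the generators -/
abbrev GI (A C : Type) [Fintype C] [DecidableEq C] : Type := (A × alternatingGroup C) ⊕ (Bool × C × C)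

/-- the generators -/
def gn (lev : A → Ev S) : GI A C → T
  | Sum.inl p => (lev p.1).hom p.2
  | Sum.inr p => S.H (dl (uv p.1) p.2.1 p.2.2)

/-- the partial action -/
def pact [DecidableEq A] (ltr : ℤ × ℤ → A) : GI A C → (ℤ × ℤ) × C → (ℤ × ℤ) × C
  | Sum.inl p, a => (a.1, if ltr a.1 = p.1 then (p.2 : Perm C) a.2 else a.2)
  | Sum.inr p, a => (dl (uv p.1) p.2.1 p.2.2 a.2 + a.1, a.2)

theorem pact_inj [DecidableEq A] (ltr : ℤ × ℤ → A) (g : GI A C) (a b : (ℤ × ℤ) × C)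
    (h : pact ltr g a = pact ltr g b) : a = b := by
  obtain ⟨v, c⟩ := a
  obtain ⟨v', c'⟩ := b
  rcases g with p | p
  · simp only [pact, Prod.mk.injEq] at h
    obtain ⟨rfl, h⟩ := h
    by_cases h1 : ltr v = p.1
    · rw [if_pos h1, if_pos h1] at h
      rw [(p.2 : Perm C).injective h]
    · rw [if_neg h1, if_neg h1] at h
      rw [h]
  · simp only [pact, Prod.mk.injEq] at h
    obtain ⟨h, rfl⟩ := h
    rw [add_left_cancel h]

theorem dl_uv_small (b : Bool) (p q c : C) :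
    |(dl (uv b) p q c).1| ≤ 1 ∧ |(dl (uv b) p q c).2| ≤ 1 := by
  by_cases h : p = q
  · subst h
    simp [dl]
  · exact TModel.dl_small b h c

theorem exists_list {I : Type} (g : I → T) (hinv : ∀ i, ∃ j, g j = (g i)⁻¹)
    (h : Subgroup.closure (Set.range g) = ⊤) (w : T) : ∃ l : List I, (l.map g).prod = w := by
  have hw : w ∈ Subgroup.closure (Set.range g) := by rw [h]; trivial
  induction hw using Subgroup.closure_induction with
  | mem x hx => obtain ⟨i, rfl⟩ := hx; exact ⟨[i], by simp⟩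
  | one => exact ⟨[], rfl⟩
  | mul x y _ _ hx hy =>
    obtain ⟨l, rfl⟩ := hx
    obtain ⟨l', rfl⟩ := hy
    exact ⟨l ++ l', by simp⟩
  | inv x _ hx =>
    obtain ⟨l, rfl⟩ := hx
    choose j hj using hinv
    refine ⟨(l.map j).reverse, ?_⟩
    have key : ∀ l : List I, (((l.map j).reverse).map g).prod = ((l.map g).prod)⁻¹ := by
      intro l
      induction l with
      | nil => simp
      | cons a l ih =>
        rw [List.map_cons, List.reverse_cons, List.map_append, List.prod_append, ih]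
        simp [hj]
    exact key l

/-- **C1 from window atlases.** -/
theorem cent_of_win (lev_orth : ∀ x y, x ≠ y → Ev.Orth (lev x) (lev y))
    (hone : ∀ (σ : alternatingGroup C) (K : Subgroup T), (∀ x, (lev x).hom σ ∈ K) → S.one σ ∈ K)
    (hgen : Subgroup.closure (Set.range (gn (C := C) lev)) = ⊤)
    (q : T →* Perm (X × C))
    (q_lev : ∀ a σ, q ((lev a).hom σ) = ev {x | letter x = a} (σ : Perm C))
    (q_H : ∀ b p r, q (S.H (dl (uv b) p r)) = H (dl (uv b) p r))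
    (free : ∀ (v v' : ℤ × ℤ) (y : X), v +ᵥ y = v' +ᵥ y → v = v')
    (hW : ∀ M : ℕ, Nonempty (WinAtlas S letter lev M)) (w : T) (hw : q w = 1) :
    w ∈ Subgroup.center T := by
  classical
  refine cent_core (V := ℤ × ℤ) q (gn lev) (exists_list _ ?_ hgen) ?_ w hw
  · rintro (p | p)
    · exact ⟨Sum.inl (p.1, p.2⁻¹), by simp [gn]⟩
    · refine ⟨Sum.inr (p.1, p.2.2, p.2.1), ?_⟩
      simp only [gn]
      rw [← S.H_neg (dl_sum _ _ _)]
      congr 1
      simp [dl]
  · intro M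
    obtain ⟨At⟩ := hW M
    refine ⟨M, le_rfl, ⟨⟨At.κ, At.t, fun i => pact (At.ltr i), At.dep, ?_, ?_, ?_, ?_, ?_⟩⟩⟩
    · intro i g a b h
      exact pact_inj _ _ _ _ h
    · rintro i (p | p) a
      · simp [pact]
      · exact At.dep_step i _ _ (dl_uv_small _ _ _ _).1 (dl_uv_small _ _ _ _).2
    · rintro i (p | p) a b c hab hac hbc ha hb hc
      · exact At.t_ev lev_orth i p.1 p.2 hab hac hbc (At.mem_W ha) (At.mem_W hb) (At.mem_W hc)
      · exact At.t_H i (dl_sum _ _ _) (dl_uv_small _ _ _) hab hac hbc ha hb hc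
    · intro i
      rcases At.occ i with h | ⟨y, hy⟩
      · left
        intro a b c _ _ _ _ _ _
        exact tv_bot h a b c
      · right
        refine ⟨y, fun v v' _ _ h => free v v' y h, ?_⟩
        rintro (p | p) a ha
        · simp only [gn, pact, q_lev]
          by_cases h : At.ltr i a.1 = p.1
          · rw [if_pos h, ev_apply_mem]
            rw [Set.mem_ofPred_eq, hy _ (At.mem_W ha), h]
          · rw [if_neg h, ev_apply_notMem]
            rw [Set.mem_ofPred_eq, hy _ (At.mem_W ha)]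
            exact h
        · simp only [gn, pact, q_H, H_apply, add_vadd]
    · intro K hK
      rw [← top_le_iff, ← hgen, Subgroup.closure_le]
      rintro _ ⟨p | p, rfl⟩
      · exact At.lev_mem K hK p.1 p.2
      · exact At.H_mem K hK hone p.1 p.2.1 p.2.2

end atlas

end Crest.Agent.R189.Cent
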