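import Mathlib

/-!
Row 189: coloured groups and events (frozen definitions, helper418).

`ColGrp C V T` : the structure "coloured group" on a group `T` (blueprint E0); `C` the finite colour
set, `V` the (additive) translation group `ℤ × ℤ`.  `Ev S` : the events of a coloured group `S`
(blueprint E1), i.e. homomorphisms `e : Alt(C) → T` with `e(Alt A) ⊆ T[A]` for `|A| ≥ 5` and
`one(s) e(t) one(s)⁻¹ = e(s t s⁻¹)`.
-/

set_option autoImplicit false

namespace Crest.Agent.R189

open Equiv Equiv.Perm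

/-- A coloured group structure on `T`.  `H l` is only meaningful for `l : C → V` of sum zero. -/
structure ColGrp (C : Type) [Fintype C] [DecidableEq C] (V : Type) [AddCommGroup V]
    (T : Type) [Group T] where
  /-- the unit event -/
  one : alternatingGroup C →* T
  /-- the translations, `λ ↦ H(λ)` for `λ : C → V` with `∑ λ = 0` -/
  H : (C → V) → T
  /-- the colour subgroups `T[A]` -/
  sub : Finset C → Subgroup T
  card_C : 30 ≤ Fintype.card C
  H_add : ∀ l m : C → V, ∑ c, l c = 0 → ∑ c, m c = 0 → H (l + m) = H l * H m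
  one_H : ∀ (σ : alternatingGroup C) (l : C → V), ∑ c, l c = 0 →
    one σ * H l * (one σ)⁻¹ = H (fun c => l ((σ : Perm C)⁻¹ c))
  sub_mono : ∀ A B : Finset C, A ⊆ B → sub A ≤ sub B
  sub_comm : ∀ A B : Finset C, Disjoint A B → ∀ x ∈ sub A, ∀ y ∈ sub B, x * y = y * x
  one_mem : ∀ (σ : alternatingGroup C) (A : Finset C), (σ : Perm C).support ⊆ A → one σ ∈ sub A
  H_mem : ∀ (l : C → V) (A : Finset C), ∑ c, l c = 0 → (∀ c, c ∉ A → l c = 0) → H l ∈ sub A
  one_sub : ∀ (σ : alternatingGroup C) (A : Finset C) (x : T), x ∈ sub A →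
    one σ * x * (one σ)⁻¹ ∈ sub (A.image (σ : Perm C))
  sub_gen : ∀ A : Finset C,
    sub A ≤ Subgroup.closure {x : T | ∃ B : Finset C, B ⊆ A ∧ B.card ≤ 3 ∧ x ∈ sub B}
  sub_univ : sub Finset.univ = ⊤

variable {C : Type} [Fintype C] [DecidableEq C] {V : Type} [AddCommGroup V] {T : Type} [Group T]

/-- Events of a coloured group. -/
structure Ev (S : ColGrp C V T) where
  hom : alternatingGroup C →* T
  mem : ∀ (σ : alternatingGroup C) (A : Finset C), (σ : Perm C).support ⊆ A → 5 ≤ A.card →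
    hom σ ∈ S.sub A
  equivar : ∀ σ τ : alternatingGroup C, S.one τ * hom σ * (S.one τ)⁻¹ = hom (τ * σ * τ⁻¹)

namespace Ev

variable {S : ColGrp C V T}

@[ext] theorem ext {e f : Ev S} (h : ∀ σ, e.hom σ = f.hom σ) : e = f := by
  cases e; cases f
  simp only [mk.injEq]
  exact MonoidHom.ext h

/-- `e ≤ f`. -/
instance : LE (Ev S) := ⟨fun e f => ∀ σ τ : alternatingGroup C,
  f.hom τ * e.hom σ * (f.hom τ)⁻¹ = e.hom (τ * σ * τ⁻¹)⟩

theorem le_def {e f : Ev S} : e ≤ f ↔ ∀ σ τ : alternatingGroup C,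
    f.hom τ * e.hom σ * (f.hom τ)⁻¹ = e.hom (τ * σ * τ⁻¹) := Iff.rfl

/-- `e ⊥ f`: the images commute elementwise. -/
def Orth (e f : Ev S) : Prop := ∀ σ τ : alternatingGroup C, e.hom σ * f.hom τ = f.hom τ * e.hom σ

/-- the unit event -/
def unit (S : ColGrp C V T) : Ev S where
  hom := S.one
  mem := fun σ A h _ => S.one_mem σ A h
  equivar := fun σ τ => by simp

/-- the zero event -/
def zero (S : ColGrp C V T) : Ev S where
  hom := 1
  mem := fun σ A _ _ => (S.sub A).one_mem
  equivar := fun σ τ => by simp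

/-- `IsTrans v e e'` : the event `e'` is the translate `v.e`, i.e. `e'(σ) = H(λ) e(σ) H(λ)⁻¹` for every
`λ` of sum zero with `λ = v` on the support of `σ`. -/
def IsTrans (v : V) (e e' : Ev S) : Prop := ∀ (σ : alternatingGroup C) (l : C → V), ∑ c, l c = 0 →
  (∀ c ∈ (σ : Perm C).support, l c = v) → e'.hom σ = S.H l * e.hom σ * (S.H l)⁻¹

end Ev

end Crest.Agent.R189
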