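import Crest.Agent.R189.EvOrder
import Crest.Agent.R189.AltPres

/-!
Row 189: the commutation criterion (Specker principle) for events of a centreless coloured group,
helper418.

`crit` : if `T` is centreless and `⁅a s, b t⁆ = ⁅b s, a t⁆` for all `s t` then there is an event
`k ≤ a, b` with `⁅a s, b t⁆ = k ⁅s, t⁆` (so `a`, `b` commute with meet `k`).
-/

set_option autoImplicit false

namespace Crest.Agent.R189

open Equiv Equiv.Perm
open scoped commutatorElement

variable {C : Type} [Fintype C] [DecidableEq C] {V : Type} [AddCommGroup V] {T : Type} [Group T]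

/-- a 3-cycle supported in a set of size at least 5 is a commutator inside this set -/
theorem exists_comm_of_threeCycle {A : Finset C} (hA : 5 ≤ A.card) {σ : alternatingGroup C}
    (hσ : (σ : Perm C).IsThreeCycle) (hs : (σ : Perm C).support ⊆ A) :
    ∃ s t : alternatingGroup C, (s : Perm C).support ⊆ A ∧ (t : Perm C).support ⊆ A ∧ ⁅s, t⁆ = σ := by
  classical
  have h2 : ∀ x, (σ : Perm C) x ≠ x → x ∈ A := fun x hx => hs (mem_support.2 hx)
  have h1 : ∀ x, (σ : Perm C) x ∈ A ↔ x ∈ A := by
    intro x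
    by_cases hx : (σ : Perm C) x = x
    · rw [hx]
    · refine ⟨fun _ => h2 _ hx, fun _ => h2 _ fun h => hx ((σ : Perm C).injective h)⟩
  set g' : Perm {x // x ∈ A} := (σ : Perm C).subtypePerm h1 with hg'
  have e1 : ofSubtype g' = (σ : Perm C) := ofSubtype_subtypePerm h1 h2
  have e2 : g'.IsThreeCycle := by
    have := hσ
    rw [← e1, IsThreeCycle, cycleType_ofSubtype] at this
    exact this
  have e3 : (⟨g', e2.mem_alternatingGroup⟩ : alternatingGroup {x // x ∈ A}) ∈ commutatorSet _ :=
    IsThreeCycle.mem_commutatorSet_alternatingGroup (by simpa using hA) e2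
  obtain ⟨u, v, huv⟩ := e3
  have hsup : ∀ u : alternatingGroup {x // x ∈ A}, (ofSubtype (u : Perm {x // x ∈ A})).support ⊆ A := by
    intro u x hx
    rw [mem_support] at hx
    by_contra hxA
    exact hx (ofSubtype_apply_of_not_mem _ hxA)
  have halt : ∀ u : alternatingGroup {x // x ∈ A}, ofSubtype (u : Perm {x // x ∈ A}) ∈ alternatingGroup C := by
    intro u
    rw [mem_alternatingGroup, sign_ofSubtype]
    exact mem_alternatingGroup.1 u.2
  refine ⟨⟨ofSubtype (u : Perm {x // x ∈ A}), halt u⟩, ⟨ofSubtype (v : Perm {x // x ∈ A}), halt v⟩,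
    hsup u, hsup v, ?_⟩
  apply Subtype.ext
  have h3 : ((⁅u, v⁆ : alternatingGroup {x // x ∈ A}) : Perm {x // x ∈ A}) = g' := by rw [huv]
  rw [← e1, ← h3]
  simp [commutatorElement_def]

theorem alt_perfect_hom (h5 : 5 ≤ Nat.card C) {G : Type} [CommGroup G] (f : alternatingGroup C →* G)
    (σ) : f σ = 1 := by
  have h1 : σ ∈ commutator (alternatingGroup C) := by
    rw [commutator_alternatingGroup_eq_top h5]; trivial
  exact (Abelianization.commutator_subset_ker f) h1

namespace Ev

section Crit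

variable {S : ColGrp C V T} (a b : Ev S)

/-- `Φ(s,t)` -/
def Phi (s t : alternatingGroup C) : T := ⁅a.hom s, b.hom t⁆

/-- the subgroup generated by all `Φ(s,t)` -/
def PP : Subgroup T := Subgroup.closure {y | ∃ s t, y = Phi a b s t}

theorem Phi_mem (s t) : Phi a b s t ∈ PP a b := Subgroup.subset_closure ⟨s, t, rfl⟩

/-- as elements of the subgroup -/
def ph (s t : alternatingGroup C) : PP a b := ⟨Phi a b s t, Phi_mem a b s t⟩

theorem conj_a (u s t) : a.hom u * Phi a b s t * (a.hom u)⁻¹ =
    Phi a b (u * s) t * (Phi a b u t)⁻¹ := by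
  simp only [Phi, map_mul, commutatorElement_def]; group

variable (h : ∀ s t, ⁅a.hom s, b.hom t⁆ = ⁅b.hom s, a.hom t⁆)

include h in
theorem conj_b (u s t) : b.hom u * Phi a b s t * (b.hom u)⁻¹ =
    Phi a b (u * s) t * (Phi a b u t)⁻¹ := by
  simp only [Phi, h]
  simp only [map_mul, commutatorElement_def]; group

theorem conj_mem (u) {y : T} (hy : y ∈ PP a b) : a.hom u * y * (a.hom u)⁻¹ ∈ PP a b := by
  have h1 : (PP a b).map (MulAut.conj (a.hom u)).toMonoidHom ≤ PP a b := by
    rw [PP, MonoidHom.map_closure, Subgroup.closure_le]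
    rintro _ ⟨_, ⟨s, t, rfl⟩, rfl⟩
    show a.hom u * Phi a b s t * (a.hom u)⁻¹ ∈ PP a b
    rw [conj_a]
    exact (PP a b).mul_mem (Phi_mem a b _ _) ((PP a b).inv_mem (Phi_mem a b _ _))
  exact h1 ⟨y, hy, rfl⟩

include h in
theorem conj_ab (u) {y : T} (hy : y ∈ PP a b) :
    b.hom u * y * (b.hom u)⁻¹ = a.hom u * y * (a.hom u)⁻¹ := by
  have : Set.EqOn (MulAut.conj (b.hom u)).toMonoidHom (MulAut.conj (a.hom u)).toMonoidHom
      {y | ∃ s t, y = Phi a b s t} := by
    rintro _ ⟨s, t, rfl⟩
    show b.hom u * Phi a b s t * (b.hom u)⁻¹ = a.hom u * Phi a b s t * (a.hom u)⁻¹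
    rw [conj_a, conj_b a b h]
  exact MonoidHom.eqOn_closure this hy

/-- the action of `Alt(C)` on `P` through `a` -/
def rho : alternatingGroup C →* MulAut (PP a b) where
  toFun u :=
    { toFun := fun y => ⟨a.hom u * y * (a.hom u)⁻¹, conj_mem a b u y.2⟩
      invFun := fun y => ⟨a.hom u⁻¹ * y * (a.hom u⁻¹)⁻¹, conj_mem a b u⁻¹ y.2⟩
      left_inv := by intro y; apply Subtype.ext; simp only [map_inv]; group
      right_inv := by intro y; apply Subtype.ext; simp only [map_inv]; group
      map_mul' := by intro x y; apply Subtype.ext; simp only [Subgroup.coe_mul]; group }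
  map_one' := by ext y; simp
  map_mul' := by intro u v; ext y; simp [mul_assoc]

@[simp] theorem rho_coe (u) (y : PP a b) : ((rho a b u y : PP a b) : T) = a.hom u * y * (a.hom u)⁻¹ := rfl

include h in
theorem rho_comm (s t) : rho a b ⁅s, t⁆ = MulAut.conj (ph a b s t) := by
  ext y
  rw [MulAut.conj_apply]
  simp only [rho_coe, Subgroup.coe_mul, Subgroup.coe_inv, ph]
  have h1 : ∀ u, ∀ y ∈ PP a b, b.hom u * y * (b.hom u)⁻¹ = a.hom u * y * (a.hom u)⁻¹ :=
    fun u y hy => conj_ab a b h u hy
  have h2 : (b.hom t)⁻¹ * (y : T) * (b.hom t) = (a.hom t)⁻¹ * y * a.hom t := by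
    have := h1 t⁻¹ y y.2
    simpa using this
  have h3 : (a.hom t)⁻¹ * (y : T) * a.hom t ∈ PP a b := by
    have := conj_mem a b t⁻¹ y.2; simpa using this
  have h4 : (a.hom s)⁻¹ * ((a.hom t)⁻¹ * (y : T) * a.hom t) * a.hom s ∈ PP a b := by
    have := conj_mem a b s⁻¹ h3; simpa using this
  have h5 := h1 t _ h4
  calc a.hom ⁅s, t⁆ * (y : T) * (a.hom ⁅s, t⁆)⁻¹
      = a.hom s * (a.hom t * ((a.hom s)⁻¹ * ((a.hom t)⁻¹ * y * a.hom t) * a.hom s) * (a.hom t)⁻¹) * (a.hom s)⁻¹ := by
        simp only [commutatorElement_def, map_mul, map_inv]; group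
    _ = a.hom s * (b.hom t * ((a.hom s)⁻¹ * ((b.hom t)⁻¹ * y * b.hom t) * a.hom s) * (b.hom t)⁻¹) * (a.hom s)⁻¹ := by
        rw [← h5, h2]
    _ = Phi a b s t * y * (Phi a b s t)⁻¹ := by
        simp only [Phi, commutatorElement_def]; group

/-- a subgroup of `Alt(C)` containing all commutators is everything -/
theorem alt_all (h5 : 5 ≤ Nat.card C) {P : alternatingGroup C → Prop}
    (h1 : ∀ s t : alternatingGroup C, P ⁅s, t⁆) (hone : P 1) (hmul : ∀ s t, P s → P t → P (s * t))
    (hinv : ∀ s, P s → P s⁻¹) (s) : P s := by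
  refine alt_induction ?_ hone hmul hinv s
  intro σ hσ
  obtain ⟨x, y, hxy⟩ := hσ.mem_commutatorSet_alternatingGroup h5
  rw [← hxy]; exact h1 x y

include h in
theorem of_rho (h5 : 5 ≤ Nat.card C) (u) (y : PP a b) :
    (Abelianization.of (rho a b u y) : Abelianization (PP a b)) = Abelianization.of y := by
  have key : ∀ u, ∀ y : PP a b, (Abelianization.of (rho a b u y) : Abelianization (PP a b)) =
      Abelianization.of y := by
    intro u
    refine alt_all (P := fun u => ∀ y : PP a b, (Abelianization.of (rho a b u y) :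
      Abelianization (PP a b)) = Abelianization.of y) h5 ?_ ?_ ?_ ?_ u
    · intro s t y
      rw [rho_comm a b h, MulAut.conj_apply, map_mul, map_mul, map_inv, mul_comm, inv_mul_cancel_left]
    · intro y; simp
    · intro s t hs ht y
      rw [map_mul, MulAut.mul_apply, hs, ht]
    · intro s hs y
      rw [← hs, ← MulAut.mul_apply, ← map_mul]; simp
  exact key u y

theorem ph_mul (u s t) : ph a b (u * s) t = rho a b u (ph a b s t) * ph a b u t := by
  apply Subtype.ext
  simp only [Subgroup.coe_mul, rho_coe, ph, conj_a]; group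

include h in
/-- `P` is perfect -/
theorem PP_perfect (h5 : 5 ≤ Nat.card C) : commutator (PP a b) = ⊤ := by
  have h1 : ∀ s t, (Abelianization.of (ph a b s t) : Abelianization (PP a b)) = 1 := by
    intro s t
    let f : alternatingGroup C →* Abelianization (PP a b) :=
      { toFun := fun s => Abelianization.of (ph a b s t)
        map_one' := by
          have : ph a b 1 t = 1 := by apply Subtype.ext; simp [ph, Phi]
          rw [this, map_one]
        map_mul' := by
          intro u s
          rw [ph_mul a b, map_mul, of_rho a b h h5, mul_comm] }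
    exact alt_perfect_hom h5 f s
  rw [eq_top_iff]
  have h2 : ∀ y : T, ∀ hy : y ∈ PP a b, (⟨y, hy⟩ : PP a b) ∈ commutator (PP a b) := by
    intro y hy
    induction hy using Subgroup.closure_induction with
    | mem x hx =>
      obtain ⟨s, t, rfl⟩ := hx
      have h3 := h1 s t
      rw [← MonoidHom.mem_ker, Abelianization.ker_of] at h3
      exact h3
    | one => exact one_mem _
    | mul x y hx hy ihx ihy => exact mul_mem ihx ihy
    | inv x hx ih => exact inv_mem ih
  intro y _
  exact h2 y.1 y.2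

theorem perfect_hom {P : Type} [Group P] (hP : commutator P = ⊤) {G : Type} [Group G]
    (f : P →* G) (hc : ∀ x y, f x * f y = f y * f x) (x : P) : f x = 1 := by
  have h1 : commutator P ≤ f.ker := by
    rw [commutator_def, Subgroup.commutator_le]
    intro x _ y _
    rw [MonoidHom.mem_ker, map_commutatorElement, commutatorElement_eq_one_iff_mul_comm]
    exact hc x y
  rw [hP] at h1
  exact h1 (Subgroup.mem_top x)

include h in
theorem rho_center (h5 : 5 ≤ Nat.card C) (u) {z : PP a b} (hz : z ∈ Subgroup.center (PP a b)) :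
    rho a b u z = z := by
  refine alt_all (P := fun u => rho a b u z = z) h5 ?_ ?_ ?_ ?_ u
  · intro s t
    rw [rho_comm a b h, MulAut.conj_apply]
    rw [Subgroup.mem_center_iff] at hz
    rw [hz, mul_inv_cancel_right]
  · simp
  · intro s t hs ht
    rw [map_mul, MulAut.mul_apply, ht, hs]
  · intro s hs
    nth_rewrite 1 [← hs]
    rw [← MulAut.mul_apply, ← map_mul]; simp

include h in
theorem conj_mem_range (y : PP a b) : MulAut.conj y ∈ (rho a b).range := by
  have h2 : ∀ y : T, ∀ hy : y ∈ PP a b, MulAut.conj (⟨y, hy⟩ : PP a b) ∈ (rho a b).range := by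
    intro y hy
    induction hy using Subgroup.closure_induction with
    | mem x hx =>
      obtain ⟨s, t, rfl⟩ := hx
      exact ⟨⁅s, t⁆, rho_comm a b h s t⟩
    | one =>
      have : (⟨1, (PP a b).one_mem⟩ : PP a b) = 1 := rfl
      rw [this, map_one]; exact one_mem _
    | mul x y hx hy ihx ihy =>
      have : (⟨x * y, mul_mem hx hy⟩ : PP a b) = ⟨x, hx⟩ * ⟨y, hy⟩ := rfl
      rw [this, map_mul]; exact mul_mem ihx ihy
    | inv x hx ih =>
      have : (⟨x⁻¹, inv_mem hx⟩ : PP a b) = ⟨x, hx⟩⁻¹ := rfl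
      rw [this, map_inv]; exact inv_mem ih
  exact h2 y.1 y.2

/-! ### the faithful case -/

section Faithful

variable (h5 : 5 ≤ Nat.card C) (hker : Function.Injective (rho a b))

/-- the projection `π : P → Alt(C)` -/
noncomputable def pr (hker : Function.Injective (rho a b)) : PP a b →* alternatingGroup C :=
  (MonoidHom.ofInjective hker).symm.toMonoidHom.comp
    (MulAut.conj.codRestrict (rho a b).range (conj_mem_range a b h))

theorem rho_pr (y : PP a b) : rho a b (pr a b h hker y) = MulAut.conj y := by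
  have h1 := congrArg Subtype.val ((MonoidHom.ofInjective hker).apply_symm_apply
    (MulAut.conj.codRestrict (rho a b).range (conj_mem_range a b h) y))
  exact h1

theorem pr_eq {y : PP a b} {u} (hu : rho a b u = MulAut.conj y) : pr a b h hker y = u :=
  hker ((rho_pr a b h hker y).trans hu.symm)

theorem pr_ph (s t) : pr a b h hker (ph a b s t) = ⁅s, t⁆ :=
  pr_eq a b h hker (rho_comm a b h s t)

theorem pr_ker {y : PP a b} (hy : pr a b h hker y = 1) : y ∈ Subgroup.center (PP a b) := by
  have h1 := rho_pr a b h hker y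
  rw [hy, map_one] at h1
  rw [Subgroup.mem_center_iff]
  intro g
  have h2 : (1 : MulAut (PP a b)) g = MulAut.conj y g := by rw [h1]
  rw [MulAut.conj_apply, MulAut.one_apply] at h2
  calc g * y = (y * g * y⁻¹) * y := by rw [← h2]
    _ = y * g := by group

include h5 in
/-- an endomorphism of `P` over `Alt(C)` is the identity -/
theorem rigid (β : PP a b →* PP a b) (hβ : ∀ y, pr a b h hker (β y) = pr a b h hker y) (y) : β y = y := by
  have hz : ∀ y, β y * y⁻¹ ∈ Subgroup.center (PP a b) := by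
    intro y
    refine pr_ker a b h hker ?_
    rw [map_mul, hβ, map_inv, mul_inv_cancel]
  let f : PP a b →* PP a b :=
    { toFun := fun y => β y * y⁻¹
      map_one' := by simp
      map_mul' := by
        intro x y
        have h1 := (Subgroup.mem_center_iff.1 (hz y)) (β x)
        calc β (x * y) * (x * y)⁻¹ = β x * (β y * y⁻¹) * x⁻¹ := by rw [map_mul]; group
          _ = β y * y⁻¹ * (β x * x⁻¹) := by rw [h1]; group
          _ = β x * x⁻¹ * (β y * y⁻¹) := ((Subgroup.mem_center_iff.1 (hz x)) _) }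
  have h1 := perfect_hom (PP_perfect a b h h5) f (fun x y => (Subgroup.mem_center_iff.1 (hz y)) _) y
  exact mul_inv_eq_one.1 h1

theorem pr_rho (u) (y : PP a b) : pr a b h hker (rho a b u y) = u * pr a b h hker y * u⁻¹ := by
  refine pr_eq a b h hker ?_
  rw [map_mul, map_mul, rho_pr, map_inv]
  ext x
  have h1 : (((rho a b u)⁻¹ x : PP a b) : T) = (a.hom u)⁻¹ * x * a.hom u := by
    rw [← map_inv, rho_coe, map_inv, inv_inv]
  simp only [MulAut.mul_apply, MulAut.conj_apply, rho_coe, Subgroup.coe_mul, Subgroup.coe_inv]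
  rw [h1]
  group

theorem one_conj_mem (u) {y : T} (hy : y ∈ PP a b) : S.one u * y * (S.one u)⁻¹ ∈ PP a b := by
  have h1 : (PP a b).map (MulAut.conj (S.one u)).toMonoidHom ≤ PP a b := by
    rw [PP, MonoidHom.map_closure, Subgroup.closure_le]
    rintro _ ⟨_, ⟨s, t, rfl⟩, rfl⟩
    show S.one u * Phi a b s t * (S.one u)⁻¹ ∈ PP a b
    have : S.one u * Phi a b s t * (S.one u)⁻¹ = Phi a b (u * s * u⁻¹) (u * t * u⁻¹) := by
      simp only [Phi]
      rw [← a.equivar, ← b.equivar]
      simp only [commutatorElement_def]; group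
    rw [this]
    exact Phi_mem a b _ _
  exact h1 ⟨y, hy, rfl⟩

/-- conjugation by `one u` -/
def oneA (u : alternatingGroup C) : PP a b →* PP a b where
  toFun y := ⟨S.one u * y * (S.one u)⁻¹, one_conj_mem a b u y.2⟩
  map_one' := by apply Subtype.ext; simp
  map_mul' := by intro x y; apply Subtype.ext; simp

theorem oneA_ph (u s t) : oneA a b u (ph a b s t) = ph a b (u * s * u⁻¹) (u * t * u⁻¹) := by
  apply Subtype.ext
  show S.one u * Phi a b s t * (S.one u)⁻¹ = Phi a b (u * s * u⁻¹) (u * t * u⁻¹)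
  simp only [Phi]
  rw [← a.equivar, ← b.equivar]
  simp only [commutatorElement_def]; group

theorem PP_induction {P : PP a b → Prop} (hph : ∀ s t, P (ph a b s t)) (h1 : P 1)
    (hmul : ∀ x y, P x → P y → P (x * y)) (hinv : ∀ x, P x → P x⁻¹) (y) : P y := by
  have h2 : ∀ y : T, ∀ hy : y ∈ PP a b, P ⟨y, hy⟩ := by
    intro y hy
    induction hy using Subgroup.closure_induction with
    | mem x hx => obtain ⟨s, t, rfl⟩ := hx; exact hph s t
    | one => exact h1
    | mul x y hx hy ihx ihy => exact hmul _ _ ihx ihy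
    | inv x hx ih => exact hinv _ ih
  exact h2 y.1 y.2

theorem pr_oneA (u) (y : PP a b) : pr a b h hker (oneA a b u y) = u * pr a b h hker y * u⁻¹ := by
  refine PP_induction a b (P := fun y => pr a b h hker (oneA a b u y) = u * pr a b h hker y * u⁻¹)
    ?_ ?_ ?_ ?_ y
  · intro s t
    rw [oneA_ph, pr_ph, pr_ph]
    simp only [commutatorElement_def]; group
  · simp
  · intro x y hx hy; rw [map_mul, map_mul, map_mul, hx, hy]; group
  · intro x hx; rw [map_inv, map_inv, map_inv, hx]; group

include h h5 hker in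
theorem oneA_eq (u) (y : PP a b) : oneA a b u y = rho a b u y := by
  have h1 := rigid a b h h5 hker ((rho a b u⁻¹).toMonoidHom.comp (oneA a b u)) (by
    intro y
    show pr a b h hker (rho a b u⁻¹ (oneA a b u y)) = pr a b h hker y
    rw [pr_rho, pr_oneA]; group) y
  have h2 : rho a b u⁻¹ (oneA a b u y) = y := h1
  have h3 : rho a b u (rho a b u⁻¹ (oneA a b u y)) = rho a b u y := by rw [h2]
  rw [← MulAut.mul_apply, ← map_mul] at h3
  simpa using h3

/-- local subgroups -/
def PA (A : Finset C) : Subgroup (PP a b) :=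
  Subgroup.closure {y | ∃ s t : alternatingGroup C, (s : Perm C).support ⊆ A ∧
    (t : Perm C).support ⊆ A ∧ y = ph a b s t}

theorem PA_mono {A B : Finset C} (hAB : A ⊆ B) : PA a b A ≤ PA a b B := by
  refine Subgroup.closure_mono ?_
  rintro y ⟨s, t, h1, h2, h3⟩
  exact ⟨s, t, h1.trans hAB, h2.trans hAB, h3⟩

theorem PA_sub {A : Finset C} (hA : 5 ≤ A.card) {y : PP a b} (hy : y ∈ PA a b A) : (y : T) ∈ S.sub A := by
  have h1 : PA a b A ≤ (S.sub A).comap (PP a b).subtype := by
    rw [PA, Subgroup.closure_le]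
    rintro _ ⟨s, t, h1, h2, rfl⟩
    show ⁅a.hom s, b.hom t⁆ ∈ S.sub A
    have ha := a.mem s A h1 hA
    have hb := b.mem t A h2 hA
    rw [commutatorElement_def]
    exact mul_mem (mul_mem (mul_mem ha hb) (inv_mem ha)) (inv_mem hb)
  exact h1 hy

include h h5 hker in
theorem center_PA (hZ : Subgroup.center T = ⊥) {A : Finset C} (hA : 5 ≤ A.card) (hA' : A.card ≤ 22)
    {z : PP a b} (hz : z ∈ Subgroup.center (PP a b)) (hzA : z ∈ PA a b A) : z = 1 := by
  have h1 : ∀ u, S.one u * (z : T) * (S.one u)⁻¹ = z := by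
    intro u
    have := congrArg Subtype.val ((oneA_eq a b h h5 hker u z).trans (rho_center a b h h5 u hz))
    exact this
  have h2 : (z : T) ∈ Subgroup.center T := by
    rw [Subgroup.mem_center_iff]
    intro g
    have hg : g ∈ S.sub Finset.univ := by rw [S.sub_univ]; trivial
    refine (S.comm_of_gen (x := (z : T)) ?_ g hg).symm
    intro B _ hB y hy
    obtain ⟨ρ, hρ, -⟩ := S.exists_move B A ∅ (by simp) (by
      simp only [Finset.card_empty]; omega)
    have h3 : S.one ρ * y * (S.one ρ)⁻¹ ∈ S.sub (B.image (ρ : Perm C)) := S.one_sub ρ B y hy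
    have h4 := S.sub_comm A (B.image (ρ : Perm C)) hρ.symm _ (PA_sub a b hA hzA) _ h3
    have h5 := h1 ρ
    nth_rewrite 1 [← h5] at h4
    nth_rewrite 2 [← h5] at h4
    have h6 : S.one ρ * ((z : T) * y) * (S.one ρ)⁻¹ = S.one ρ * (y * (z : T)) * (S.one ρ)⁻¹ := by
      calc _ = S.one ρ * (z : T) * (S.one ρ)⁻¹ * (S.one ρ * y * (S.one ρ)⁻¹) := by group
        _ = _ := by rw [h4]; group
    exact mul_left_cancel (mul_right_cancel h6)
  rw [hZ, Subgroup.mem_bot] at h2
  exact Subtype.ext h2

include h5 in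
theorem PA_inj (hZ : Subgroup.center T = ⊥) {A : Finset C} (hA : 5 ≤ A.card) (hA' : A.card ≤ 22)
    {x y : PP a b} (hx : x ∈ PA a b A) (hy : y ∈ PA a b A)
    (hxy : pr a b h hker x = pr a b h hker y) : x = y := by
  have h1 : x * y⁻¹ = 1 := by
    refine center_PA a b h h5 hker hZ hA hA' (pr_ker a b h hker ?_) (mul_mem hx (inv_mem hy))
    rw [map_mul, map_inv, hxy, mul_inv_cancel]
  exact mul_inv_eq_one.1 h1

/-- uniqueness across different small sets -/
theorem PA_inj' (h5 : 5 ≤ Nat.card C) (hZ : Subgroup.center T = ⊥) {A B : Finset C} (hA : 5 ≤ A.card)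
    (hAB : A.card + B.card ≤ 22)
    {x y : PP a b} (hx : x ∈ PA a b A) (hy : y ∈ PA a b B)
    (hxy : pr a b h hker x = pr a b h hker y) : x = y := by
  have hc := Finset.card_union_le A B
  have hc' := Finset.card_le_card (Finset.subset_union_left (s₁ := A) (s₂ := B))
  exact PA_inj a b h h5 hker hZ (A := A ∪ B) (by omega) (by omega)
    (PA_mono a b Finset.subset_union_left hx) (PA_mono a b Finset.subset_union_right hy) hxy

theorem PA_onto {A : Finset C} (hA : 5 ≤ A.card) (σ : alternatingGroup C)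
    (hσ : (σ : Perm C).support ⊆ A) : ∃ y ∈ PA a b A, pr a b h hker y = σ := by
  have h1 : (σ : Perm C) ∈ Subgroup.closure {z : Perm C | z.IsThreeCycle ∧ z.support ⊆ A} := by
    rw [AltPres.closure_threeCycles_altOn]; exact ⟨σ.2, hσ⟩
  have h2 : ∀ π ∈ Subgroup.closure {z : Perm C | z.IsThreeCycle ∧ z.support ⊆ A},
      ∃ y ∈ PA a b A, ((pr a b h hker y : alternatingGroup C) : Perm C) = π := by
    intro π hπ
    induction hπ using Subgroup.closure_induction with
    | mem z hz =>
      obtain ⟨s, t, hs, ht, hst⟩ := exists_comm_of_threeCycle hA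
        (σ := ⟨z, hz.1.mem_alternatingGroup⟩) hz.1 hz.2
      refine ⟨ph a b s t, Subgroup.subset_closure ⟨s, t, hs, ht, rfl⟩, ?_⟩
      rw [pr_ph, hst]
    | one => exact ⟨1, one_mem _, by simp⟩
    | mul x y hx hy ihx ihy =>
      obtain ⟨x', hx', hx''⟩ := ihx
      obtain ⟨y', hy', hy''⟩ := ihy
      exact ⟨x' * y', mul_mem hx' hy', by simp [hx'', hy'']⟩
    | inv x hx ih =>
      obtain ⟨x', hx', hx''⟩ := ih
      exact ⟨x'⁻¹, inv_mem hx', by simp [hx'']⟩
  obtain ⟨y, hy, hy'⟩ := h2 _ h1
  exact ⟨y, hy, Subtype.ext hy'⟩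

include h5 in
/-- the section of `π` -/
theorem exists_section (hZ : Subgroup.center T = ⊥) (h30 : 30 ≤ Fintype.card C) :
    ∃ k : alternatingGroup C →* PP a b, ∀ (σ : alternatingGroup C) (A : Finset C),
      (σ : Perm C).support ⊆ A → 5 ≤ A.card → k σ ∈ PA a b A ∧ pr a b h hker (k σ) = σ := by
  classical
  -- a 5-set containing the support of a 3-cycle
  have hA0 : ∀ z : Perm C, ∃ A : Finset C, z.IsThreeCycle → z.support ⊆ A ∧ A.card = 5 := by
    intro z
    by_cases hz : z.IsThreeCycle
    · obtain ⟨A, h1, h2, h3⟩ := Finset.exists_subsuperset_card_eq (s := z.support) (t := Finset.univ)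
        (n := 5) (Finset.subset_univ _) (by rw [IsThreeCycle.card_supp hz]; omega)
        (by rw [Finset.card_univ]; omega)
      exact ⟨A, fun _ => ⟨h1, h3⟩⟩
    · exact ⟨∅, fun h => absurd h hz⟩
  choose A0 hA0 using hA0
  have hφ : ∀ z : Perm C, ∃ y : PP a b, ∀ hz : z.IsThreeCycle, y ∈ PA a b (A0 z) ∧
      pr a b h hker y = ⟨z, hz.mem_alternatingGroup⟩ := by
    intro z
    by_cases hz : z.IsThreeCycle
    · obtain ⟨y, h1, h2⟩ := PA_onto a b h hker (A := A0 z) (by rw [(hA0 z hz).2])
        ⟨z, hz.mem_alternatingGroup⟩ (hA0 z hz).1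
      exact ⟨y, fun _ => ⟨h1, h2⟩⟩
    · exact ⟨1, fun h => absurd h hz⟩
  choose φ hφ using hφ
  have hloc : ∀ B : Finset C, B.card = 5 → ∃ θ : AltPres.altOn B →* PP a b, AltPres.Agrees φ θ := by
    intro B hB
    have hθ : ∀ σ : AltPres.altOn B, ∃ y ∈ PA a b B, pr a b h hker y = ⟨(σ : Perm C), σ.2.1⟩ := by
      intro σ
      exact PA_onto a b h hker (by omega) _ σ.2.2
    choose θ hθ1 hθ2 using hθ
    refine ⟨{ toFun := θ, map_one' := ?_, map_mul' := ?_ }, ?_⟩
    · refine PA_inj a b h h5 hker hZ (A := B) (by omega) (by omega) (hθ1 _) (one_mem _) ?_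
      rw [hθ2 1, map_one]; rfl
    · intro x y
      refine PA_inj a b h h5 hker hZ (A := B) (by omega) (by omega) (hθ1 _)
        (mul_mem (hθ1 _) (hθ1 _)) ?_
      rw [map_mul, hθ2, hθ2, hθ2]; rfl
    · intro z hz hzB
      refine PA_inj' a b h hker h5 hZ (A := B) (B := A0 z) (by omega)
        (by rw [(hA0 z hz).2]; omega) (hθ1 _) (hφ z hz).1 ?_
      exact (hθ2 _).trans (hφ z hz).2.symm
  obtain ⟨k, hk⟩ := AltPres.exists_alt_hom' (by omega) hloc
  refine ⟨k, ?_⟩
  intro σ A hσ hA
  have h1 : (σ : Perm C) ∈ Subgroup.closure {z : Perm C | z.IsThreeCycle ∧ z.support ⊆ A} := by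
    rw [AltPres.closure_threeCycles_altOn]; exact ⟨σ.2, hσ⟩
  have h2 : ∀ π ∈ Subgroup.closure {z : Perm C | z.IsThreeCycle ∧ z.support ⊆ A},
      ∃ hπ : π ∈ alternatingGroup C, k ⟨π, hπ⟩ ∈ PA a b A ∧ pr a b h hker (k ⟨π, hπ⟩) = ⟨π, hπ⟩ := by
    intro π hπ
    induction hπ using Subgroup.closure_induction with
    | mem z hz =>
      refine ⟨hz.1.mem_alternatingGroup, ?_, ?_⟩
      · rw [hk z hz.1]
        obtain ⟨A', hA1, hA2, hA3⟩ := Finset.exists_subsuperset_card_eq (n := 5) hz.2
          (by rw [IsThreeCycle.card_supp hz.1]; omega) hA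
        obtain ⟨y, hy1, hy2⟩ := PA_onto a b h hker (A := A') (by omega)
          ⟨z, hz.1.mem_alternatingGroup⟩ hA1
        have : φ z = y := by
          refine PA_inj' a b h hker h5 hZ (A := A0 z) (B := A') (by rw [(hA0 z hz.1).2])
            (by rw [(hA0 z hz.1).2]; omega) (hφ z hz.1).1 hy1 ?_
          rw [(hφ z hz.1).2, hy2]
        rw [this]
        exact PA_mono a b hA2 hy1
      · rw [hk z hz.1, (hφ z hz.1).2]
    | one =>
      refine ⟨one_mem _, ?_, ?_⟩
      · have : (⟨1, one_mem _⟩ : alternatingGroup C) = 1 := rfl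
        rw [this, map_one]; exact one_mem _
      · have : (⟨1, one_mem _⟩ : alternatingGroup C) = 1 := rfl
        rw [this, map_one, map_one]
    | mul x y hx hy ihx ihy =>
      obtain ⟨hx0, hx1, hx2⟩ := ihx
      obtain ⟨hy0, hy1, hy2⟩ := ihy
      refine ⟨mul_mem hx0 hy0, ?_, ?_⟩
      · have : (⟨x * y, mul_mem hx0 hy0⟩ : alternatingGroup C) = ⟨x, hx0⟩ * ⟨y, hy0⟩ := rfl
        rw [this, map_mul]; exact mul_mem hx1 hy1
      · have : (⟨x * y, mul_mem hx0 hy0⟩ : alternatingGroup C) = ⟨x, hx0⟩ * ⟨y, hy0⟩ := rfl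
        rw [this, map_mul, map_mul, hx2, hy2]
    | inv x hx ih =>
      obtain ⟨hx0, hx1, hx2⟩ := ih
      refine ⟨inv_mem hx0, ?_, ?_⟩
      · have : (⟨x⁻¹, inv_mem hx0⟩ : alternatingGroup C) = ⟨x, hx0⟩⁻¹ := rfl
        rw [this, map_inv]; exact inv_mem hx1
      · have : (⟨x⁻¹, inv_mem hx0⟩ : alternatingGroup C) = ⟨x, hx0⟩⁻¹ := rfl
        rw [this, map_inv, map_inv, hx2]
  obtain ⟨_, h3⟩ := h2 _ h1
  exact h3

include h5 in
/-- `y = k (π y)` -/
theorem section_eq {k : alternatingGroup C →* PP a b} (hk : ∀ σ, pr a b h hker (k σ) = σ)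
    (y : PP a b) : k (pr a b h hker y) = y := by
  exact rigid a b h h5 hker (k.comp (pr a b h hker)) (fun y => hk _) y

end Faithful

include h in
/-- **The commutation criterion.** -/
theorem crit (hZ : Subgroup.center T = ⊥) :
    ∃ k : Ev S, k ≤ a ∧ k ≤ b ∧ ∀ s t, ⁅a.hom s, b.hom t⁆ = k.hom ⁅s, t⁆ := by
  have h5 : 5 ≤ Nat.card C := S.natCard
  have hsimple : IsSimpleGroup (alternatingGroup C) := alternatingGroup.isSimpleGroup h5
  rcases hsimple.eq_bot_or_eq_top_of_normal (rho a b).ker inferInstance with hk | hk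
  · -- faithful case
    have hker : Function.Injective (rho a b) := (MonoidHom.ker_eq_bot_iff _).1 hk
    obtain ⟨k, hk⟩ := exists_section a b h h5 hker hZ S.card_C
    have hk' : ∀ σ, pr a b h hker (k σ) = σ := fun σ =>
      (hk σ Finset.univ (Finset.subset_univ _) (by
        rw [Finset.card_univ]; have := S.card_C; omega)).2
    have hsec := section_eq a b h h5 hker hk'
    have hone : ∀ σ τ : alternatingGroup C, oneA a b τ (k σ) = k (τ * σ * τ⁻¹) := by
      intro σ τ
      rw [← hsec (oneA a b τ (k σ)), pr_oneA, hk']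
    have hrho : ∀ σ τ : alternatingGroup C, rho a b τ (k σ) = k (τ * σ * τ⁻¹) := by
      intro σ τ
      rw [← hsec (rho a b τ (k σ)), pr_rho, hk']
    refine ⟨⟨(PP a b).subtype.comp k, ?_, ?_⟩, ?_, ?_, ?_⟩
    · intro σ A h1 h2
      exact PA_sub a b h2 (hk σ A h1 h2).1
    · intro σ τ
      exact congrArg Subtype.val (hone σ τ)
    · intro σ τ
      exact congrArg Subtype.val (hrho σ τ)
    · intro σ τ
      show b.hom τ * (k σ : T) * (b.hom τ)⁻¹ = k (τ * σ * τ⁻¹)
      rw [conj_ab a b h τ (k σ).2]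
      exact congrArg Subtype.val (hrho σ τ)
    · intro s t
      have h1 := hsec (ph a b s t)
      rw [pr_ph] at h1
      exact (congrArg Subtype.val h1).symm
  · -- trivial case
    have hr : ∀ u, rho a b u = 1 := fun u => by
      have : u ∈ (rho a b).ker := by rw [hk]; trivial
      exact this
    have hc : ∀ x y : PP a b, x * y = y * x := by
      have h1 : ∀ s t, ∀ y : PP a b, ph a b s t * y = y * ph a b s t := by
        intro s t y
        have h2 := rho_comm a b h s t
        rw [hr] at h2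
        have h3 : (1 : MulAut (PP a b)) y = MulAut.conj (ph a b s t) y := by rw [h2]
        rw [MulAut.conj_apply, MulAut.one_apply] at h3
        exact (eq_mul_inv_iff_mul_eq.1 h3).symm
      intro x y
      refine PP_induction a b (P := fun x => x * y = y * x) (fun s t => h1 s t y) (by simp) ?_ ?_ x
      · intro u v hu hv; rw [mul_assoc, hv, ← mul_assoc, hu, mul_assoc]
      · intro u hu
        rw [inv_mul_eq_iff_eq_mul, ← mul_assoc, hu]; group
    have htriv : ∀ y : PP a b, y = 1 := fun y =>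
      perfect_hom (PP_perfect a b h h5) (MonoidHom.id _) (fun x y => hc x y) y
    refine ⟨zero S, zero_le _, zero_le _, ?_⟩
    intro s t
    have := congrArg Subtype.val (htriv (ph a b s t))
    exact this

end Crit

end Ev

end Crest.Agent.R189
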