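import Crest.Agent.R189.Glue
import Crest.Agent.R189.XMatch
import Crest.Agent.R189.Asm
import Crest.Agent.R189.KFin

/-!
# Row 189 (S0289): finite presentability of `Gp` from the kernel of `T → Gp`   (helper926)

`qTL : TGrp MD Col →* Perm (X × Col)`.
* `fp_of_FG_ker`   : the kernel of `qTL` is finitely generated ⇒ `GG` is finitely presented.
* `fp_of_fin_ker`  : the kernel is finite.
* `fp_of_words`    : version with words (any surjection `tau : F →* T`), `KFin.fp_of_flux`.
* `S0289_of_...`   : the corresponding final statements.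
-/

set_option autoImplicit false

namespace Crest.Agent.R189

open Equiv Equiv.Perm Filter

/-- the concrete homomorphism `T → Perm (X × Col)` -/
noncomputable abbrev qTL : TGrp MD Col →* Perm (X × Col) := qT (C := Col) letter MD letter_match

/-- the concrete homomorphism `T → Gp` -/
noncomputable abbrev piTL : TGrp MD Col →* GG := (gpModel (C := Col) letter MD letter_match).lift

theorem piTL_surjective : Function.Surjective piTL :=
  (gpModel (C := Col) letter MD letter_match).lift_surjective

theorem ker_piTL : (piTL).ker = (qTL).ker := (ker_qT letter MD letter_match).symm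

instance fpT : Group.IsFinitelyPresented (TGrp MD Col) := TGrp_fp MD

theorem fp_of_FG_ker (h : Group.FG (qTL).ker) : Group.IsFinitelyPresented GG := by
  rw [← ker_piTL] at h
  exact Group.IsFinitelyPresented.of_surjective piTL piTL_surjective
    (Subgroup.IsFinitelyNormallyGenerated.of_FG (piTL).ker)

theorem fp_of_fin_ker (h : Finite (qTL).ker) : Group.IsFinitelyPresented GG :=
  fp_of_FG_ker inferInstance

/-- version with words -/
theorem fp_of_words {F : Type*} [Group F] (tau : F →* TGrp MD Col)
    (htau : Function.Surjective tau) (kap : ℕ → F → ℤ)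
    (bdd : ∀ w, qTL (tau w) = 1 → ∃ C : ℤ, ∀ᶠ k in atTop, |kap k w| ≤ C)
    (add : ∀ w w', qTL (tau w) = 1 → qTL (tau w') = 1 →
      ∀ᶠ k in atTop, kap k (w * w') = kap k w + kap k w') (N : ℕ)
    (cnt : ∀ S : Set F, S.Finite → (∀ w ∈ S, qTL (tau w) = 1) →
      ∀ᶠ k in atTop, (∀ w ∈ S, kap k w = 0) → (tau '' S).ncard ≤ N) :
    Group.IsFinitelyPresented GG := by
  let R : Subgroup F := (qTL).ker.comap tau
  have hR : ∀ w : R, qTL (tau w) = 1 := fun w => w.2
  let p : R →* (qTL).ker := (tau.comp R.subtype).codRestrict _ (fun w => w.2)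
  have hp : Function.Surjective p := by
    rintro ⟨t, ht⟩
    obtain ⟨w, rfl⟩ := htau t
    exact ⟨⟨w, ht⟩, rfl⟩
  refine fp_of_FG_ker (KFin.fg_of_flux p hp (fun k w => kap k w) (fun w => bdd w (hR w))
    (fun w w' => add w w' (hR w) (hR w')) N ?_)
  intro S hS
  have h1 := cnt ((fun w : R => (w : F)) '' S) (hS.image _) (by
    rintro _ ⟨w, -, rfl⟩
    exact hR w)
  filter_upwards [h1] with k hk h0
  have h2 := hk (by
    rintro _ ⟨w, hw, rfl⟩
    exact h0 w hw)
  have h3 : tau '' ((fun w : R => (w : F)) '' S) = Subtype.val '' (p '' S) := by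
    rw [Set.image_image, Set.image_image]
    rfl
  rw [h3, Set.ncard_image_of_injective _ Subtype.val_injective] at h2
  exact h2

end Crest.Agent.R189
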