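import Crest.Agent.R189.KCtx

/-!
# Row 189, part F (K5): the toggle of a face (helper686)

`tw a b A`: the permutation of `Om C` exchanging the colours `a`, `b` at the positions of `A`.
`fam J A`: the raw family `i ↦ tw a b A` for `J i`, `1` otherwise.

`toggle_mem`: the product of the `Q`-values of the two-spot permutation at the digits in `J` and
in `J + 1` lies in the range of the `V`-sections.  `Ctx.rep_toggle` is (R2).
-/

set_option autoImplicit false

namespace Crest.Agent.R189.K.Tog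

open Equiv Equiv.Perm

section tw

variable {C : Type*} [DecidableEq C]

/-- exchange the colours `a` and `b` at the positions of `A` -/
def tw (a b : C) (A : Finset (ℤ × ℤ)) : Equiv.Perm (Om C) where
  toFun p := if p.1 ∈ A then (p.1, swap a b p.2) else p
  invFun p := if p.1 ∈ A then (p.1, swap a b p.2) else p
  left_inv p := by
    by_cases h : p.1 ∈ A <;> simp [h]
  right_inv p := by
    by_cases h : p.1 ∈ A <;> simp [h]

variable (a b : C)

theorem tw_apply (A : Finset (ℤ × ℤ)) (p : Om C) :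
    tw a b A p = if p.1 ∈ A then (p.1, swap a b p.2) else p := rfl

theorem tw_mul (A B : Finset (ℤ × ℤ)) : tw a b A * tw a b B = tw a b (symmDiff A B) := by
  ext1 p
  rw [Equiv.Perm.mul_apply]
  simp only [tw_apply, Finset.mem_symmDiff]
  by_cases hA : p.1 ∈ A <;> by_cases hB : p.1 ∈ B <;> simp [hA, hB]

theorem tw_empty : tw a b ∅ = 1 := by
  ext1 p
  simp [tw_apply]

theorem tw_mul_disj {A B : Finset (ℤ × ℤ)} (h : Disjoint A B) :
    tw a b A * tw a b B = tw a b (A ∪ B) := by
  rw [tw_mul, h.symmDiff_eq_sup]; rfl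

theorem tw_sq (A : Finset (ℤ × ℤ)) : tw a b A * tw a b A = 1 := by
  rw [tw_mul, symmDiff_self]; exact tw_empty a b

theorem tw_inv (A : Finset (ℤ × ℤ)) : (tw a b A)⁻¹ = tw a b A :=
  inv_eq_of_mul_eq_one_left (tw_sq a b A)

theorem tw_singleton (v : ℤ × ℤ) : tw a b {v} = swap (v, a) (v, b) := by
  ext1 p
  obtain ⟨u, c⟩ := p
  rw [tw_apply, swap_apply_def]
  by_cases h : u = v
  · subst h
    simp only [Finset.mem_singleton, if_true]
    rw [swap_apply_def]
    split_ifs <;> simp_all
  · rw [if_neg (by simpa using h), swap_apply_of_ne_of_ne] <;>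
      (intro e; exact h (congrArg Prod.fst e))

theorem tw_commute (A B : Finset (ℤ × ℤ)) : Commute (tw a b A) (tw a b B) := by
  show tw a b A * tw a b B = tw a b B * tw a b A
  rw [tw_mul, tw_mul, symmDiff_comm]

theorem sh_tw (u : ℤ × ℤ) (A : Finset (ℤ × ℤ)) :
    sh u (tw a b A) = tw a b (A.image (fun v => v + u)) := by
  ext1 p
  have h : p.1 ∈ A.image (fun v => v + u) ↔ p.1 - u ∈ A := by
    rw [Finset.mem_image]
    constructor
    · rintro ⟨v, hv, e⟩; rw [← e]; simpa using hv
    · intro h; exact ⟨_, h, by simp⟩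
  rw [sh_apply, tw_apply, tw_apply]
  by_cases hp : p.1 - u ∈ A
  · rw [if_pos hp, if_pos (h.2 hp)]; simp
  · rw [if_neg hp, if_neg (fun h' => hp (h.1 h'))]; simp

variable [Fintype C]

theorem tw_mem_PermOn {A W : Finset (ℤ × ℤ)} (h : A ⊆ W) : tw a b A ∈ PermOn (win C W) := by
  intro p hp
  rw [tw_apply, if_neg]
  intro h'
  exact hp (by rw [mem_win]; exact h h')

variable {a b}

theorem sgn_tw (hab : a ≠ b) (A : Finset (ℤ × ℤ)) : sgn (tw a b A) = (-1) ^ A.card := by
  induction A using Finset.induction_on with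
  | empty => rw [tw_empty]; simp
  | @insert v A hv ih =>
    have hd : Disjoint ({v} : Finset (ℤ × ℤ)) A := Finset.disjoint_singleton_left.mpr hv
    rw [Finset.insert_eq, ← tw_mul_disj a b hd,
      sgn_mul (tw_mem_PermOn a b (Finset.Subset.refl _)) (tw_mem_PermOn a b (Finset.Subset.refl _)),
      ih, tw_singleton, sgn_swap (by simpa using hab), Finset.card_union_of_disjoint hd,
      Finset.card_singleton, pow_add, pow_one]

theorem tw_mem_AltOn (hab : a ≠ b) {A W : Finset (ℤ × ℤ)} (h : A ⊆ W) (he : Even A.card) :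
    tw a b A ∈ AltOn (win C W) :=
  ⟨tw_mem_PermOn a b h, by rw [sgn_tw hab, he.neg_one_pow]⟩

end tw

section fam

variable {X Lab Sta C : Type*} [AddAction (ℤ × ℤ) X] [Fintype C] [DecidableEq C]
variable {ι ι' : Type*} {T : Type*} [Group T]
variable {L : Lev X Lab Sta} {q : T →* Equiv.Perm (X × C)} {κ : X → ι} {κ' : X → ι'}

open Classical in
/-- the raw family `tw a b A` at the indices with `J i`, `1` elsewhere -/
noncomputable def fam (a b : C) (J : ι → Prop) (A : Finset (ℤ × ℤ)) : ι → Equiv.Perm (Om C) :=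
  fun i => if J i then tw a b A else 1

variable {a b : C} {J : ι → Prop} {A B W : Finset (ℤ × ℤ)}

theorem fam_mem (hab : a ≠ b) (h : A ⊆ W) (he : Even A.card) (i : ι) :
    fam a b J A i ∈ AltOn (win C W) := by
  unfold fam
  split_ifs
  · exact tw_mem_AltOn hab h he
  · exact (AltOn _).one_mem

omit [Fintype C] in
theorem fam_mul (A B : Finset (ℤ × ℤ)) :
    (fun i => fam a b J A i * fam a b J B i) = fam a b J (symmDiff A B) := by
  funext i
  unfold fam
  split_ifs
  · exact tw_mul a b A B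
  · exact one_mul 1

variable [Finite ι] [Finite ι']

theorem val_fam_symmDiff (S : SecSys L C q κ) (hab : a ≠ b) (hW : L.Dist W) (hA : A ⊆ W)
    (hB : B ⊆ W) (eA : Even A.card) (eB : Even B.card) :
    S.val (fam a b J (symmDiff A B)) = S.val (fam a b J A) * S.val (fam a b J B) := by
  rw [← fam_mul, S.val_mul hW (fam_mem hab hA eA) (fam_mem hab hB eB)]

theorem val_fam_union (S : SecSys L C q κ) (hab : a ≠ b) (hW : L.Dist W) (hA : A ⊆ W)
    (hB : B ⊆ W) (hd : Disjoint A B) (eA : Even A.card) (eB : Even B.card) :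
    S.val (fam a b J (A ∪ B)) = S.val (fam a b J A) * S.val (fam a b J B) := by
  rw [← val_fam_symmDiff S hab hW hA hB eA eB, hd.symmDiff_eq_sup]; rfl

theorem val_fam_inv (S : SecSys L C q κ) (hab : a ≠ b) (hW : L.Dist W) (hA : A ⊆ W)
    (eA : Even A.card) : (S.val (fam a b J A))⁻¹ = S.val (fam a b J A) := by
  rw [← S.val_inv hW (fam_mem hab hA eA)]
  congr 1
  funext i
  unfold fam
  split_ifs
  · exact tw_inv a b A
  · exact inv_one

/-- change of kind and base point for the families `fam` -/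
theorem val_fam_move (S : SecSys L C q κ) (S' : SecSys L C q κ') (hab : a ≠ b) (hA : L.Dist A)
    (eA : Even A.card) (u : ℤ × ℤ) (hu : L.w ∣ u.1 ∧ L.h ∣ u.2) (ρ : ι' → ι)
    (hρ : ∀ x ∈ L.D, ρ (κ' (u +ᵥ x)) = κ x) {J' : ι' → Prop} (hJ : ∀ i', J' i' ↔ J (ρ i'))
    {A' : Finset (ℤ × ℤ)} (hA' : A' = A.image (fun v => v + -u)) :
    S.val (fam a b J A) = S'.val (fam a b J' A') := by
  subst hA'
  rw [S.val_move S' hA u hu ρ hρ (fam_mem hab (Finset.Subset.refl A) eA)]
  congr 1
  funext i'
  unfold fam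
  by_cases h : J (ρ i')
  · rw [if_pos h, if_pos ((hJ i').2 h), sh_tw]
  · rw [if_neg h, if_neg (fun h' => h ((hJ i').1 h')), sh_one]

theorem val_mem_range (S : SecSys L C q κ) (hW : L.Dist W) {z : ι → Equiv.Perm (Om C)}
    (hz : ∀ i, z i ∈ AltOn (win C W)) : S.val z ∈ (S.s W hW).range :=
  ⟨_, (S.val_eq hW hz).symm⟩

theorem range_mono (S : SecSys L C q κ) {W W' : Finset (ℤ × ℤ)} (hW : L.Dist W)
    (hW' : L.Dist W') (hs : W ⊆ W') : (S.s W hW).range ≤ (S.s W' hW').range := by
  rintro _ ⟨z, rfl⟩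
  exact ⟨_, (S.s_mono hW hW' hs z).symm⟩

end fam

section toggle

variable {X Lab Sta C : Type*} [AddAction (ℤ × ℤ) X] [Fintype C] [DecidableEq C]
variable {T : Type*} [Group T] {L : Lev X Lab Sta} {q : T →* Equiv.Perm (X × C)}
variable [Finite Lab] [Finite Sta]

/-- card of an explicit pair of positions -/
theorem even_pair {v v' : ℤ × ℤ} (h : v ≠ v') : Even ({v, v'} : Finset (ℤ × ℤ)).card := by
  rw [Finset.card_pair h]; decide

omit [Finite Lab] [Finite Sta] in
theorem finite_zmod_lev (L : Lev X Lab Sta) : Finite (ZMod L.n) := by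
  have : NeZero L.n := ⟨L.n_pos.ne'⟩
  infer_instance

theorem vz {X : Type*} [AddAction (ℤ × ℤ) X] (x : X) : ((0, 0) : ℤ × ℤ) +ᵥ x = x := zero_vadd _ x

theorem pair_sub {v v' : ℤ × ℤ} {W : Finset (ℤ × ℤ)} (h : v ∈ W) (h' : v' ∈ W) :
    ({v, v'} : Finset (ℤ × ℤ)) ⊆ W := by
  intro u hu
  rw [Finset.mem_insert, Finset.mem_singleton] at hu
  rcases hu with rfl | rfl <;> assumption

theorem image_pair {v v' u w w' : ℤ × ℤ} (h : w = v + u) (h' : w' = v' + u) :
    ({w, w'} : Finset (ℤ × ℤ)) = ({v, v'} : Finset (ℤ × ℤ)).image (fun w => w + u) := by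
  rw [Finset.image_insert, Finset.image_singleton, h, h']

theorem padd {x y x1 y1 x2 y2 : ℤ} (h : x = x1 - x2) (h' : y = y1 - y2) :
    ((x, y) : ℤ × ℤ) = (x1, y1) + -(x2, y2) := by
  rw [h, h']
  ext <;> simp [sub_eq_add_neg]

section regroup
variable {ι : Type*} [Finite ι] {κ : X → ι}

omit [Finite Lab] [Finite Sta] in
theorem val_fam_comm (S : SecSys L C q κ) {a b : C} {J : ι → Prop} (hab : a ≠ b)
    {A B W : Finset (ℤ × ℤ)} (hW : L.Dist W) (hA : A ⊆ W) (hB : B ⊆ W) (eA : Even A.card)
    (eB : Even B.card) :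
    S.val (fam a b J A) * S.val (fam a b J B) = S.val (fam a b J B) * S.val (fam a b J A) := by
  rw [← val_fam_symmDiff S hab hW hA hB eA eB, ← val_fam_symmDiff S hab hW hB hA eB eA,
    symmDiff_comm]

omit [Finite Lab] [Finite Sta] in
theorem regroup (S : SecSys L C q κ) {a b : C} {J : ι → Prop} (hab : a ≠ b)
    {W : Finset (ℤ × ℤ)} (hW : L.Dist W) {p1 p2 p3 p4 : ℤ × ℤ} (m1 : p1 ∈ W) (m2 : p2 ∈ W)
    (m3 : p3 ∈ W) (m4 : p4 ∈ W) (h12 : p1 ≠ p2) (h13 : p1 ≠ p3) (h14 : p1 ≠ p4) (h23 : p2 ≠ p3)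
    (h24 : p2 ≠ p4) (h34 : p3 ≠ p4) :
    S.val (fam a b J {p1, p2}) * S.val (fam a b J {p3, p4}) =
      S.val (fam a b J {p1, p3}) * S.val (fam a b J {p2, p4}) := by
  rw [← val_fam_symmDiff S hab hW (pair_sub m1 m2) (pair_sub m3 m4) (even_pair h12)
    (even_pair h34), ← val_fam_symmDiff S hab hW (pair_sub m1 m3) (pair_sub m2 m4)
    (even_pair h13) (even_pair h24)]
  congr 2
  ext1 x
  simp only [Finset.mem_symmDiff, Finset.mem_insert, Finset.mem_singleton, not_or]
  by_cases e1 : x = p1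
  · subst e1; simp [h12, h13, h14]
  · by_cases e2 : x = p2
    · subst e2; simp [h12.symm, h23, h24]
    · by_cases e3 : x = p3
      · subst e3; simp [h13.symm, h23.symm, h34]
      · by_cases e4 : x = p4
        · subst e4; simp [h14.symm, h24.symm, h34.symm]
        · simp [e1, e2, e3, e4]
end regroup

/-- **the toggle of the faces with digit in `J`** -/
theorem toggle_mem (SF : SecSys L C q L.dig) (SP : SecSys L C q L.kP) (SQ : SecSys L C q L.kQ)
    (SV : SecSys L C q L.kV) {a b : C} (hab : a ≠ b) {t0 t : ℤ} (h0 : 1 ≤ t0) (h1 : t0 + 1 ≤ t)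
    (hw : 2 * t ≤ L.w) (hh : 2 * t ≤ L.h) (hWV : L.Dist (WV t)) (J : ZMod L.n → Prop) :
    SQ.val (fam a b (fun i => J i.1) {(t0, 0), (L.w - 1 - t0, 0)}) *
      SQ.val (fam a b (fun i => J (i.1 - 1)) {(t0, 0), (L.w - 1 - t0, 0)}) ∈
      (SV.s (WV t) hWV).range := by
  classical
  have := finite_zmod_lev L
  have hWF : L.Dist L.WF := Lev.dist_WF
  have hWP : L.Dist (L.WP 1 t0) := Lev.dist_WP (by omega) (by omega)
  have hWQ : L.Dist (L.WQ 1 t0) := Lev.dist_WQ (by omega) (by omega)
  -- memberships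
  have mF : ∀ x y : ℤ, 0 ≤ x → x < L.w → 0 ≤ y → y < L.h → (x, y) ∈ L.WF := by
    intro x y g1 g2 g3 g4
    rw [Lev.mem_WF]; exact ⟨⟨g1, g2⟩, ⟨g3, g4⟩⟩
  have mP : ∀ x y : ℤ, -1 ≤ x → x < 1 → t0 ≤ y → y < L.h - t0 → (x, y) ∈ L.WP 1 t0 := by
    intro x y g1 g2 g3 g4
    rw [Lev.mem_WP]; exact ⟨⟨g1, g2⟩, ⟨g3, g4⟩⟩
  have mQ : ∀ x y : ℤ, t0 ≤ x → x < L.w - t0 → -1 ≤ y → y < 1 → (x, y) ∈ L.WQ 1 t0 := by
    intro x y g1 g2 g3 g4
    rw [Lev.mem_WQ]; exact ⟨⟨g1, g2⟩, ⟨g3, g4⟩⟩
  have mV : ∀ x y : ℤ, -t ≤ x → x < t → -t ≤ y → y < t → (x, y) ∈ WV t := by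
    intro x y g1 g2 g3 g4
    rw [mem_WV]; exact ⟨⟨g1, g2⟩, ⟨g3, g4⟩⟩
  have ne1 : ∀ {x y x' y' : ℤ}, x ≠ x' → ((x, y) : ℤ × ℤ) ≠ (x', y') := by
    intro x y x' y' h e; exact h (congrArg Prod.fst e)
  have ne2 : ∀ {x y x' y' : ℤ}, y ≠ y' → ((x, y) : ℤ × ℤ) ≠ (x', y') := by
    intro x y x' y' h e; exact h (congrArg Prod.snd e)
  -- the sides
  have eL : SF.val (fam a b (fun i => J i) {(0, t0), (0, L.h - 1 - t0)}) =
      SP.val (fam a b (fun i => J i.1) {(0, t0), (0, L.h - 1 - t0)}) := by
    apply val_fam_move SF SP hab (hWF.mono (pair_sub (mF _ _ (by omega) (by omega) (by omega)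
      (by omega)) (mF _ _ (by omega) (by omega) (by omega) (by omega))))
      (even_pair (ne2 (by omega))) (0, 0) ⟨by simp, by simp⟩ Prod.fst
    · intro x hx; show L.dig _ = L.dig x; rw [vz]
    · intro i; rfl
    · exact image_pair (padd (by omega) (by omega)) (padd (by omega) (by omega))
  have eR : SF.val (fam a b (fun i => J i) {(L.w - 1, t0), (L.w - 1, L.h - 1 - t0)}) =
      SP.val (fam a b (fun i => J i.1) {(-1, t0), (-1, L.h - 1 - t0)}) := by
    apply val_fam_move SF SP hab (hWF.mono (pair_sub (mF _ _ (by omega) (by omega) (by omega)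
      (by omega)) (mF _ _ (by omega) (by omega) (by omega) (by omega))))
      (even_pair (ne2 (by omega))) (L.w, 0) ⟨by simp, by simp⟩ Prod.fst
    · intro x hx; exact L.dig_q x hx
    · intro i; rfl
    · exact image_pair (padd (by omega) (by omega)) (padd (by omega) (by omega))
  have eB : SF.val (fam a b (fun i => J i) {(t0, 0), (L.w - 1 - t0, 0)}) =
      SQ.val (fam a b (fun i => J i.1) {(t0, 0), (L.w - 1 - t0, 0)}) := by
    apply val_fam_move SF SQ hab (hWF.mono (pair_sub (mF _ _ (by omega) (by omega) (by omega)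
      (by omega)) (mF _ _ (by omega) (by omega) (by omega) (by omega))))
      (even_pair (ne1 (by omega))) (0, 0) ⟨by simp, by simp⟩ Prod.fst
    · intro x hx; show L.dig _ = L.dig x; rw [vz]
    · intro i; rfl
    · exact image_pair (padd (by omega) (by omega)) (padd (by omega) (by omega))
  have eT : SF.val (fam a b (fun i => J i) {(t0, L.h - 1), (L.w - 1 - t0, L.h - 1)}) =
      SQ.val (fam a b (fun i => J (i.1 - 1)) {(t0, -1), (L.w - 1 - t0, -1)}) := by
    apply val_fam_move SF SQ hab (hWF.mono (pair_sub (mF _ _ (by omega) (by omega) (by omega)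
      (by omega)) (mF _ _ (by omega) (by omega) (by omega) (by omega))))
      (even_pair (ne1 (by omega))) (0, L.h) ⟨by simp, by simp⟩ (fun i => i.1 - 1)
    · intro x hx
      show L.dig _ - 1 = L.dig x
      rw [L.dig_p x hx]; ring
    · intro i; rfl
    · exact image_pair (padd (by omega) (by omega)) (padd (by omega) (by omega))
  -- the corners
  have kBL : SF.val (fam a b (fun i => J i) {(0, t0), (t0, 0)}) ∈ (SV.s (WV t) hWV).range := by
    rw [val_fam_move SF SV hab (hWF.mono (pair_sub (mF _ _ (by omega) (by omega) (by omega)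
      (by omega)) (mF _ _ (by omega) (by omega) (by omega) (by omega))))
      (even_pair (ne1 (by omega))) (0, 0) ⟨by simp, by simp⟩ Prod.fst
      (J' := fun i => J i.1) (A' := {(0, t0), (t0, 0)})
      (by intro x hx; show L.dig _ = L.dig x; rw [vz]) (by intro i; rfl) (image_pair (padd (by omega) (by omega)) (padd (by omega) (by omega)))]
    exact val_mem_range SV hWV (fam_mem hab (pair_sub (mV _ _ (by omega) (by omega) (by omega)
      (by omega)) (mV _ _ (by omega) (by omega) (by omega) (by omega)))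
      (even_pair (ne1 (by omega))))
  have kBR : SF.val (fam a b (fun i => J i) {(L.w - 1, t0), (L.w - 1 - t0, 0)}) ∈
      (SV.s (WV t) hWV).range := by
    rw [val_fam_move SF SV hab (hWF.mono (pair_sub (mF _ _ (by omega) (by omega) (by omega)
      (by omega)) (mF _ _ (by omega) (by omega) (by omega) (by omega))))
      (even_pair (ne1 (by omega))) (L.w, 0) ⟨by simp, by simp⟩ Prod.fst
      (J' := fun i => J i.1) (A' := {(-1, t0), (-1 - t0, 0)})
      (by intro x hx; exact L.dig_q x hx) (by intro i; rfl)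
      (image_pair (padd (by omega) (by omega)) (padd (by omega) (by omega)))]
    exact val_mem_range SV hWV (fam_mem hab (pair_sub (mV _ _ (by omega) (by omega) (by omega)
      (by omega)) (mV _ _ (by omega) (by omega) (by omega) (by omega)))
      (even_pair (ne1 (by omega))))
  have kTL : SF.val (fam a b (fun i => J i) {(0, L.h - 1 - t0), (t0, L.h - 1)}) ∈
      (SV.s (WV t) hWV).range := by
    rw [val_fam_move SF SV hab (hWF.mono (pair_sub (mF _ _ (by omega) (by omega) (by omega)
      (by omega)) (mF _ _ (by omega) (by omega) (by omega) (by omega))))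
      (even_pair (ne1 (by omega))) (0, L.h) ⟨by simp, by simp⟩ (fun i => i.1 - 1)
      (J' := fun i => J (i.1 - 1)) (A' := {(0, -1 - t0), (t0, -1)})
      (by
        intro x hx
        show L.dig _ - 1 = L.dig x
        rw [L.dig_p x hx]; ring) (by intro i; rfl)
      (image_pair (padd (by omega) (by omega)) (padd (by omega) (by omega)))]
    exact val_mem_range SV hWV (fam_mem hab (pair_sub (mV _ _ (by omega) (by omega) (by omega)
      (by omega)) (mV _ _ (by omega) (by omega) (by omega) (by omega)))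
      (even_pair (ne1 (by omega))))
  have kTR : SF.val (fam a b (fun i => J i) {(L.w - 1, L.h - 1 - t0), (L.w - 1 - t0, L.h - 1)}) ∈
      (SV.s (WV t) hWV).range := by
    rw [val_fam_move SF SV hab (hWF.mono (pair_sub (mF _ _ (by omega) (by omega) (by omega)
      (by omega)) (mF _ _ (by omega) (by omega) (by omega) (by omega))))
      (even_pair (ne1 (by omega))) (L.w, L.h) ⟨by simp, by simp⟩ (fun i => i.1 - 1)
      (J' := fun i => J (i.1 - 1)) (A' := {(-1, -1 - t0), (-1 - t0, -1)})
      (by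
        intro x hx
        show L.dig _ - 1 = L.dig x
        have e : ((L.w, L.h) : ℤ × ℤ) = (L.w, 0) + (0, L.h) := by simp
        rw [e, ← vadd_vadd, L.dig_q _ (Lev.up_mem hx), L.dig_p x hx]; ring) (by intro i; rfl)
      (image_pair (padd (by omega) (by omega)) (padd (by omega) (by omega)))]
    exact val_mem_range SV hWV (fam_mem hab (pair_sub (mV _ _ (by omega) (by omega) (by omega)
      (by omega)) (mV _ _ (by omega) (by omega) (by omega) (by omega)))
      (even_pair (ne1 (by omega))))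
  -- the ends of the `P` line
  have eP : SP.val (fam a b (fun i => J i.1) {(0, t0), (0, L.h - 1 - t0)}) *
      SP.val (fam a b (fun i => J i.1) {(-1, t0), (-1, L.h - 1 - t0)}) ∈
      (SV.s (WV t) hWV).range := by
    rw [regroup SP hab hWP (mP _ _ (by omega) (by omega) (by omega) (by omega))
      (mP _ _ (by omega) (by omega) (by omega) (by omega))
      (mP _ _ (by omega) (by omega) (by omega) (by omega))
      (mP _ _ (by omega) (by omega) (by omega) (by omega))
      (ne2 (by omega)) (ne1 (by omega)) (ne1 (by omega)) (ne1 (by omega)) (ne1 (by omega))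
      (ne2 (by omega))]
    apply Subgroup.mul_mem
    · rw [val_fam_move SP SV hab (hWP.mono (pair_sub (mP _ _ (by omega) (by omega) (by omega)
        (by omega)) (mP _ _ (by omega) (by omega) (by omega) (by omega))))
        (even_pair (ne1 (by omega))) (0, 0) ⟨by simp, by simp⟩ (fun i => (i.1, L.sPf i.2))
        (J' := fun i => J i.1) (A' := {(0, t0), (-1, t0)})
        (by
          intro x hx
          rw [vz]
          exact Prod.ext rfl (L.Pf_st x hx).symm) (by intro i; rfl)
        (image_pair (padd (by omega) (by omega)) (padd (by omega) (by omega)))]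
      exact val_mem_range SV hWV (fam_mem hab (pair_sub (mV _ _ (by omega) (by omega) (by omega)
        (by omega)) (mV _ _ (by omega) (by omega) (by omega) (by omega)))
        (even_pair (ne1 (by omega))))
    · rw [val_fam_move SP SV hab (hWP.mono (pair_sub (mP _ _ (by omega) (by omega) (by omega)
        (by omega)) (mP _ _ (by omega) (by omega) (by omega) (by omega))))
        (even_pair (ne1 (by omega))) (0, L.h) ⟨by simp, by simp⟩ (fun i => (i.1 - 1, L.sPb i.2))
        (J' := fun i => J (i.1 - 1)) (A' := {(0, -1 - t0), (-1, -1 - t0)})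
        (by
          intro x hx
          refine Prod.ext ?_ ?_
          · show L.dig _ - 1 = L.dig x
            rw [L.dig_p x hx]; ring
          · show L.sPb (L.st _) = L.Pf x
            rw [← L.Pb_st _ (Lev.up_mem hx), vadd_vadd]
            simp only [Prod.mk_add_mk, add_zero, neg_add_cancel]
            rw [vz]) (by intro i; rfl)
        (image_pair (padd (by omega) (by omega)) (padd (by omega) (by omega)))]
      exact val_mem_range SV hWV (fam_mem hab (pair_sub (mV _ _ (by omega) (by omega) (by omega)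
        (by omega)) (mV _ _ (by omega) (by omega) (by omega) (by omega)))
        (even_pair (ne1 (by omega))))
  -- the ends of the `Q` line
  have eQ : SQ.val (fam a b (fun i => J (i.1 - 1)) {(t0, -1), (L.w - 1 - t0, -1)}) *
      SQ.val (fam a b (fun i => J (i.1 - 1)) {(t0, 0), (L.w - 1 - t0, 0)}) ∈
      (SV.s (WV t) hWV).range := by
    rw [regroup SQ hab hWQ (mQ _ _ (by omega) (by omega) (by omega) (by omega))
      (mQ _ _ (by omega) (by omega) (by omega) (by omega))
      (mQ _ _ (by omega) (by omega) (by omega) (by omega))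
      (mQ _ _ (by omega) (by omega) (by omega) (by omega))
      (ne1 (by omega)) (ne2 (by omega)) (ne1 (by omega)) (ne1 (by omega)) (ne2 (by omega))
      (ne1 (by omega))]
    apply Subgroup.mul_mem
    · rw [val_fam_move SQ SV hab (hWQ.mono (pair_sub (mQ _ _ (by omega) (by omega) (by omega)
        (by omega)) (mQ _ _ (by omega) (by omega) (by omega) (by omega))))
        (even_pair (ne2 (by omega))) (0, 0) ⟨by simp, by simp⟩ (fun i => (i.1, L.sQf i.2))
        (J' := fun i => J (i.1 - 1)) (A' := {(t0, -1), (t0, 0)})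
        (by
          intro x hx
          rw [vz]
          exact Prod.ext rfl (L.Qf_st x hx).symm) (by intro i; rfl)
        (image_pair (padd (by omega) (by omega)) (padd (by omega) (by omega)))]
      exact val_mem_range SV hWV (fam_mem hab (pair_sub (mV _ _ (by omega) (by omega) (by omega)
        (by omega)) (mV _ _ (by omega) (by omega) (by omega) (by omega)))
        (even_pair (ne2 (by omega))))
    · rw [val_fam_move SQ SV hab (hWQ.mono (pair_sub (mQ _ _ (by omega) (by omega) (by omega)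
        (by omega)) (mQ _ _ (by omega) (by omega) (by omega) (by omega))))
        (even_pair (ne2 (by omega))) (L.w, 0) ⟨by simp, by simp⟩ (fun i => (i.1, L.lft i.1 i.2))
        (J' := fun i => J (i.1 - 1)) (A' := {(-1 - t0, -1), (-1 - t0, 0)})
        (by
          intro x hx
          have hd := L.dig_q x hx
          refine Prod.ext ?_ ?_
          · exact hd
          · show L.lft (L.dig _) (L.st _) = L.Qf x
            rw [← L.lft_st _ (Lev.right_mem hx), vadd_vadd]
            simp only [Prod.mk_add_mk, add_zero, neg_add_cancel]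
            rw [vz]) (by intro i; rfl)
        (image_pair (padd (by omega) (by omega)) (padd (by omega) (by omega)))]
      exact val_mem_range SV hWV (fam_mem hab (pair_sub (mV _ _ (by omega) (by omega) (by omega)
        (by omega)) (mV _ _ (by omega) (by omega) (by omega) (by omega)))
        (even_pair (ne2 (by omega))))
  -- regrouping the 8 spots of the face
  have key : SF.val (fam a b (fun i => J i) {(0, t0), (0, L.h - 1 - t0)}) *
      SF.val (fam a b (fun i => J i) {(L.w - 1, t0), (L.w - 1, L.h - 1 - t0)}) *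
      (SF.val (fam a b (fun i => J i) {(t0, 0), (L.w - 1 - t0, 0)}) *
      SF.val (fam a b (fun i => J i) {(t0, L.h - 1), (L.w - 1 - t0, L.h - 1)})) =
      SF.val (fam a b (fun i => J i) {(0, t0), (t0, 0)}) *
      SF.val (fam a b (fun i => J i) {(L.w - 1, t0), (L.w - 1 - t0, 0)}) *
      (SF.val (fam a b (fun i => J i) {(0, L.h - 1 - t0), (t0, L.h - 1)}) *
      SF.val (fam a b (fun i => J i) {(L.w - 1, L.h - 1 - t0), (L.w - 1 - t0, L.h - 1)})) := by
    have q1 : ((0, t0) : ℤ × ℤ) ∈ L.WF := mF _ _ (by omega) (by omega) (by omega) (by omega)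
    have q2 : ((0, L.h - 1 - t0) : ℤ × ℤ) ∈ L.WF :=
      mF _ _ (by omega) (by omega) (by omega) (by omega)
    have q3 : ((L.w - 1, t0) : ℤ × ℤ) ∈ L.WF := mF _ _ (by omega) (by omega) (by omega) (by omega)
    have q4 : ((L.w - 1, L.h - 1 - t0) : ℤ × ℤ) ∈ L.WF :=
      mF _ _ (by omega) (by omega) (by omega) (by omega)
    have q5 : ((t0, 0) : ℤ × ℤ) ∈ L.WF := mF _ _ (by omega) (by omega) (by omega) (by omega)
    have q6 : ((L.w - 1 - t0, 0) : ℤ × ℤ) ∈ L.WF :=
      mF _ _ (by omega) (by omega) (by omega) (by omega)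
    have q7 : ((t0, L.h - 1) : ℤ × ℤ) ∈ L.WF := mF _ _ (by omega) (by omega) (by omega) (by omega)
    have q8 : ((L.w - 1 - t0, L.h - 1) : ℤ × ℤ) ∈ L.WF :=
      mF _ _ (by omega) (by omega) (by omega) (by omega)
    rw [regroup SF hab hWF q1 q2 q3 q4 (ne2 (by omega)) (ne1 (by omega)) (ne1 (by omega))
      (ne1 (by omega)) (ne1 (by omega)) (ne2 (by omega))]
    rw [← regroup SF hab hWF q1 q3 q5 q6 (ne1 (by omega)) (ne1 (by omega)) (ne1 (by omega))
      (ne1 (by omega)) (ne1 (by omega)) (ne1 (by omega))]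
    rw [← regroup SF hab hWF q2 q4 q7 q8 (ne1 (by omega)) (ne1 (by omega)) (ne1 (by omega))
      (ne1 (by omega)) (ne1 (by omega)) (ne1 (by omega))]
    have hc := val_fam_comm SF (a := a) (b := b) (J := fun i => J i) hab hWF (pair_sub q2 q4)
      (pair_sub q5 q6) (even_pair (ne1 (by omega))) (even_pair (ne1 (by omega)))
    simp only [mul_assoc]
    rw [← mul_assoc (SF.val (fam a b (fun i => J i) {(0, L.h - 1 - t0), (L.w - 1, L.h - 1 - t0)})),
      hc]
    simp only [mul_assoc]
  have hinv := val_fam_inv SQ (a := a) (b := b) (J := fun i => J (i.1 - 1)) hab hWQ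
    (pair_sub (mQ t0 (-1) (by omega) (by omega) (by omega) (by omega))
      (mQ (L.w - 1 - t0) (-1) (by omega) (by omega) (by omega) (by omega)))
    (even_pair (ne1 (by omega)))
  rw [eL, eR, eB, eT] at key
  set PL := SP.val (fam a b (fun i => J i.1) {(0, t0), (0, L.h - 1 - t0)}) with hPL
  set PR := SP.val (fam a b (fun i => J i.1) {(-1, t0), (-1, L.h - 1 - t0)}) with hPR
  set QB := SQ.val (fam a b (fun i => J i.1) {(t0, 0), (L.w - 1 - t0, 0)}) with hQB
  set QT := SQ.val (fam a b (fun i => J (i.1 - 1)) {(t0, -1), (L.w - 1 - t0, -1)}) with hQT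
  set Q1 := SQ.val (fam a b (fun i => J (i.1 - 1)) {(t0, 0), (L.w - 1 - t0, 0)}) with hQ1
  have hV := Subgroup.mul_mem _ (Subgroup.mul_mem _ kBL kBR) (Subgroup.mul_mem _ kTL kTR)
  rw [← key] at hV
  have e : QB * Q1 = (PL * PR)⁻¹ * (PL * PR * (QB * QT)) * (QT * Q1) := by
    have : QT * QT = 1 := by
      have e1 : QT⁻¹ * QT = 1 := inv_mul_cancel QT
      rwa [hinv] at e1
    calc QB * Q1 = QB * (QT * QT) * Q1 := by rw [this, mul_one]
      _ = _ := by group
  rw [e]
  exact Subgroup.mul_mem _ (Subgroup.mul_mem _ (Subgroup.inv_mem _ eP) hV) eQ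

/-! ### (R2) -/

theorem pow_val_add {G : Type*} [Group G] {z : G} (h : z * z = 1) (x y : ZMod 2) :
    z ^ (x + y).val = z ^ x.val * z ^ y.val := by
  have hx : x = 0 ∨ x = 1 := by revert x; decide
  have hy : y = 0 ∨ y = 1 := by revert y; decide
  rcases hx with rfl | rfl <;> rcases hy with rfl | rfl
  · simp
  · simp [ZMod.val_one]
  · simp [ZMod.val_one]
  · have e : ((1 : ZMod 2) + 1) = 0 := by decide
    rw [e, ZMod.val_zero, pow_zero, ZMod.val_one, pow_one, h]

end toggle

end Tog

namespace Ctx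

open Tog

variable {X Lab Sta C T : Type*} [AddAction (ℤ × ℤ) X] [Fintype C] [DecidableEq C] [Group T]
variable {L : Lev X Lab Sta} {q : T →* Equiv.Perm (X × C)} (M : Ctx L C q)

theorem lf_mul_rt : M.lf * M.rt = tw M.c0 M.c1 {(M.P.t0, 0), (L.w - 1 - M.P.t0, 0)} := by
  have h1 := M.P.m1; have h2 := M.P.m2; have h5 := M.P.d0; have hw := M.hw
  have h6 := M.P.hst; have h7 := M.P.ht0; have h8 := M.P.s0
  have hd : Disjoint ({(M.P.t0, 0)} : Finset (ℤ × ℤ)) {(L.w - 1 - M.P.t0, 0)} := by
    rw [Finset.disjoint_singleton]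
    intro e
    have := congrArg Prod.fst e
    simp only at this
    omega
  rw [Finset.insert_eq, ← tw_mul_disj _ _ hd, tw_singleton, tw_singleton]
  unfold lf rt sw
  have e : M.P.w - M.P.t0 - 1 = L.w - 1 - M.P.t0 := by omega
  rw [e]

theorem famQ_eq_fam (t : ZMod L.n × Lab → ZMod 2) (i : ZMod L.n × Lab) :
    M.famQ t i = fam M.c0 M.c1 (fun i => t i = 1) {(M.P.t0, 0), (L.w - 1 - M.P.t0, 0)} i := by
  unfold famQ fam
  rw [M.lf_mul_rt]
  have hx : ∀ x : ZMod 2, x = 0 ∨ x = 1 := by decide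
  rcases hx (t i) with h | h
  · have h' : ¬ (t i = 1) := by rw [h]; decide
    rw [if_neg h', h, ZMod.val_zero, pow_zero]
  · rw [if_pos h, h, ZMod.val_one, pow_one]

theorem togQ_add (b b' : ZMod L.n × Lab → ZMod 2) (i : ZMod L.n × Lab) :
    M.famQ (fun i => b i + b' i) i = M.famQ b i * M.famQ b' i := by
  unfold famQ
  apply pow_val_add
  rw [M.lf_mul_rt]
  exact tw_sq _ _ _

theorem togQ_mem (b : ZMod L.n × Lab → ZMod 2) (i : ZMod L.n × Lab) :
    M.famQ b i ∈ AltOn (win C (L.WQ 1 M.P.t0)) := by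
  have h1 := M.P.m1; have h2 := M.P.m2; have h5 := M.P.d0; have hw := M.hw
  have h6 := M.P.hst; have h7 := M.P.ht0; have h8 := M.P.s0
  rw [M.famQ_eq_fam]
  apply fam_mem M.hc
  · apply pair_sub
    · rw [Lev.mem_WQ]; exact ⟨⟨le_rfl, by omega⟩, ⟨by norm_num, by norm_num⟩⟩
    · rw [Lev.mem_WQ]; exact ⟨⟨by show _ ≤ L.w - 1 - M.P.t0; omega,
        by show L.w - 1 - M.P.t0 < _; omega⟩, ⟨by norm_num, by norm_num⟩⟩
  · apply even_pair
    intro e
    have := congrArg Prod.fst e
    simp only at this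
    omega

/-- **(R2)** the signs of the `Q` edges may be toggled on both sides of faces -/
theorem rep_toggle [Finite Lab] [Finite Sta] {w : T} {a b : ZMod L.n × Lab → ZMod 2}
    (hw : w ∈ Subgroup.center T) (h : M.Rep w a b) (t : ZMod L.n → ZMod 2) :
    M.Rep w a (fun i => b i + t i.1 + t (i.1 - 1)) := by
  have hn := finite_zmod_lev L
  have g1 := M.P.m1; have g2 := M.P.m2; have g3 := M.P.m3; have g4 := M.P.m4
  have g5 := M.P.d0; have gw := M.hw; have gh := M.hh
  have g6 := M.P.hst; have g7 := M.P.ht0; have g8 := M.P.s0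
  obtain ⟨z, hz, hwz⟩ := h
  have hWQ : L.Dist (L.WQ 1 M.P.t0) := Lev.dist_WQ (by omega) (by omega)
  have key := toggle_mem M.SF M.SP M.SQ M.SV M.hc (t0 := M.P.t0) (t := M.P.t) (by omega)
    (by omega) (by omega) (by omega) M.dB (fun j => t j = 1)
  have e1 : M.SQ.val (M.famQ (fun i => t i.1)) =
      M.SQ.val (fam M.c0 M.c1 (fun i : ZMod L.n × Lab => t i.1 = 1)
        {(M.P.t0, 0), (L.w - 1 - M.P.t0, 0)}) := by
    congr 1
    funext i
    exact M.famQ_eq_fam _ i
  have e2 : M.SQ.val (M.famQ (fun i => t (i.1 - 1))) =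
      M.SQ.val (fam M.c0 M.c1 (fun i : ZMod L.n × Lab => t (i.1 - 1) = 1)
        {(M.P.t0, 0), (L.w - 1 - M.P.t0, 0)}) := by
    congr 1
    funext i
    exact M.famQ_eq_fam _ i
  rw [← e1, ← e2] at key
  obtain ⟨y, hy⟩ := key
  have hy' : M.SV.val (fun i => (y i : Equiv.Perm (Om C))) =
      M.SQ.val (M.famQ (fun i => t i.1)) * M.SQ.val (M.famQ (fun i => t (i.1 - 1))) := by
    rw [M.SV.val_eq M.dB (fun i => (y i).2)]
    exact hy
  have e3 : M.SQ.val (M.famQ (fun i => b i + t i.1 + t (i.1 - 1))) =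
      M.SQ.val (M.famQ b) * M.SV.val (fun i => (y i : Equiv.Perm (Om C))) := by
    rw [hy', ← mul_assoc, ← M.SQ.val_mul hWQ (M.togQ_mem _) (M.togQ_mem _),
      ← M.SQ.val_mul hWQ (fun i => (AltOn _).mul_mem (M.togQ_mem _ i) (M.togQ_mem _ i))
        (M.togQ_mem _)]
    congr 1
    funext i
    rw [M.togQ_add (fun i => b i + t i.1) (fun i => t (i.1 - 1)) i,
      M.togQ_add b (fun i => t i.1) i]
  refine ⟨fun i => (y i : Equiv.Perm (Om C))⁻¹ * z i, fun i => (AltOn _).mul_mem
    ((AltOn _).inv_mem (y i).2) (hz i), ?_⟩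
  rw [M.SV.val_mul M.dB (fun i => (AltOn _).inv_mem (y i).2) hz, M.SV.val_inv M.dB (fun i => (y i).2)]
  have e4 : M.Es a (fun i => b i + t i.1 + t (i.1 - 1)) =
      M.Es a b * M.SV.val (fun i => (y i : Equiv.Perm (Om C))) := by
    unfold Es
    rw [e3, mul_assoc]
  rw [e4]
  have hc := Subgroup.mem_center_iff.mp hw (M.SV.val (fun i => (y i : Equiv.Perm (Om C))))
  calc w = (M.SV.val (fun i => (y i : Equiv.Perm (Om C))))⁻¹ *
        (w * M.SV.val (fun i => (y i : Equiv.Perm (Om C)))) := by rw [← hc]; group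
    _ = _ := by rw [hwz]; group

end Ctx

end Crest.Agent.R189.K
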