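import Crest.Agent.R189.KCtx

/-!
# Row 189, part F (R4): the vertex condition (helper13)

`Ctx.vertex`: if `w ∈ ker q` is represented by the signs `(a, b)` then at every corner the four
signs add up to zero.
-/

set_option autoImplicit false
set_option linter.unusedSectionVars false

namespace Crest.Agent.R189.K

open Equiv Equiv.Perm
open KFlux (bx mem_bx)

variable {X Lab Sta C T : Type*} [AddAction (ℤ × ℤ) X] [Fintype C] [DecidableEq C] [Group T]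

namespace VC

lemma sgn_sw_pow {c0 c1 : C} (h : c0 ≠ c1) (v : ℤ × ℤ) (k : ℕ) :
    sgn (sw c0 c1 v ^ k) = (-1) ^ k := by
  have hm : sw c0 c1 v ∈ PermOn (win C {v}) := sw_mem_PermOn (by simp)
  induction k with
  | zero => simp
  | succ k ih =>
    rw [pow_succ, sgn_mul_on ((PermOn _).pow_mem hm k) hm, ih, sgn_sw h, pow_succ]

lemma sh_pow (u : ℤ × ℤ) (z : Equiv.Perm (Om C)) (k : ℕ) : sh u (z ^ k) = (sh u z) ^ k :=
  map_pow (shHom u) z k

end VC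

namespace Ctx

open VC

variable {L : Lev X Lab Sta} {q : T →* Equiv.Perm (X × C)} (M : Ctx L C q)

lemma vc_dn_mem : M.dn ∈ PermOn (win C (bw (-M.P.s) M.P.s M.P.t0 (M.P.h - M.P.t0))) := by
  have h1 := M.P.m1; have h2 := M.P.m2; have h3 := M.P.m3; have h4 := M.P.m4
  have h5 := M.P.d0; have h6 := M.P.hst; have h7 := M.P.ht0; have h8 := M.P.s0
  refine sw_mem_PermOn ?_
  rw [mem_bw]
  simp only
  omega

lemma vc_up_mem : M.up ∈ PermOn (win C (bw (-M.P.s) M.P.s M.P.t0 (M.P.h - M.P.t0))) := by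
  have h1 := M.P.m1; have h2 := M.P.m2; have h3 := M.P.m3; have h4 := M.P.m4
  have h5 := M.P.d0; have h6 := M.P.hst; have h7 := M.P.ht0; have h8 := M.P.s0
  refine sw_mem_PermOn ?_
  rw [mem_bw]
  simp only
  omega

lemma vc_lf_mem : M.lf ∈ PermOn (win C (bw M.P.t0 (M.P.w - M.P.t0) (-M.P.s) M.P.s)) := by
  have h1 := M.P.m1; have h2 := M.P.m2; have h3 := M.P.m3; have h4 := M.P.m4
  have h5 := M.P.d0; have h6 := M.P.hst; have h7 := M.P.ht0; have h8 := M.P.s0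
  refine sw_mem_PermOn ?_
  rw [mem_bw]
  simp only
  omega

lemma vc_rt_mem : M.rt ∈ PermOn (win C (bw M.P.t0 (M.P.w - M.P.t0) (-M.P.s) M.P.s)) := by
  have h1 := M.P.m1; have h2 := M.P.m2; have h3 := M.P.m3; have h4 := M.P.m4
  have h5 := M.P.d0; have h6 := M.P.hst; have h7 := M.P.ht0; have h8 := M.P.s0
  refine sw_mem_PermOn ?_
  rw [mem_bw]
  simp only
  omega

lemma vc_famP_alt (a : ZMod L.n × Lab → ZMod 2) (i : ZMod L.n × Lab) :
    M.famP a i ∈ AltOn (win C (bw (-M.P.s) M.P.s M.P.t0 (M.P.h - M.P.t0))) := by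
  refine (AltOn _).pow_mem ?_ _
  refine ⟨(PermOn _).mul_mem M.vc_dn_mem M.vc_up_mem, ?_⟩
  rw [sgn_mul_on M.vc_dn_mem M.vc_up_mem, dn, up, sgn_sw M.hc, sgn_sw M.hc]
  rfl

lemma vc_famQ_alt (b : ZMod L.n × Lab → ZMod 2) (i : ZMod L.n × Lab) :
    M.famQ b i ∈ AltOn (win C (bw M.P.t0 (M.P.w - M.P.t0) (-M.P.s) M.P.s)) := by
  refine (AltOn _).pow_mem ?_ _
  refine ⟨(PermOn _).mul_mem M.vc_lf_mem M.vc_rt_mem, ?_⟩
  rw [sgn_mul_on M.vc_lf_mem M.vc_rt_mem, lf, rt, sgn_sw M.hc, sgn_sw M.hc]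
  rfl

lemma vc_sh_up : sh (0, -L.h) M.up = sw M.c0 M.c1 (0, -M.P.t0 - 1) := by
  rw [up, sh_sw]
  have hh := M.hh
  congr 1
  ext
  · simp
  · simp only [Prod.mk_add_mk]
    omega

lemma vc_sh_rt : sh (-L.w, 0) M.rt = sw M.c0 M.c1 (-M.P.t0 - 1, 0) := by
  rw [rt, sh_sw]
  have hw := M.hw
  congr 1
  ext
  · simp only [Prod.mk_add_mk]
    omega
  · simp

lemma vc_dn_memV : sw M.c0 M.c1 (0, M.P.t0) ∈ PermOn (win C M.WB) := by
  have h5 := M.P.d0; have h6 := M.P.hst; have h7 := M.P.ht0; have h8 := M.P.s0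
  refine sw_mem_PermOn ?_
  rw [mem_bw]
  simp only
  omega

lemma vc_up_memV : sw M.c0 M.c1 (0, -M.P.t0 - 1) ∈ PermOn (win C M.WB) := by
  have h5 := M.P.d0; have h6 := M.P.hst; have h7 := M.P.ht0; have h8 := M.P.s0
  refine sw_mem_PermOn ?_
  rw [mem_bw]
  simp only
  omega

lemma vc_lf_memV : sw M.c0 M.c1 (M.P.t0, 0) ∈ PermOn (win C M.WB) := by
  have h5 := M.P.d0; have h6 := M.P.hst; have h7 := M.P.ht0; have h8 := M.P.s0
  refine sw_mem_PermOn ?_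
  rw [mem_bw]
  simp only
  omega

lemma vc_rt_memV : sw M.c0 M.c1 (-M.P.t0 - 1, 0) ∈ PermOn (win C M.WB) := by
  have h5 := M.P.d0; have h6 := M.P.hst; have h7 := M.P.ht0; have h8 := M.P.s0
  refine sw_mem_PermOn ?_
  rw [mem_bw]
  simp only
  omega

lemma vc_rv_famP_aux (a : ZMod L.n × Lab → ZMod 2) :
    rv L L.kP (M.famP a) = rv L L.kV (fun i =>
      sw M.c0 M.c1 (0, M.P.t0) ^ (a (i.1, L.sPf i.2)).val *
        sw M.c0 M.c1 (0, -M.P.t0 - 1) ^ (a (i.1 - 1, L.sPb i.2)).val) := by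
  have e : M.famP a = fun i => M.dn ^ (a i).val * M.up ^ (a i).val := by
    funext i
    exact (sw_commute _ _).mul_pow _
  rw [e, rv_mul M.dWP (fun i => (PermOn _).pow_mem M.vc_dn_mem _)
    (fun i => (PermOn _).pow_mem M.vc_up_mem _),
    rv_PV M.dWP (fun i => (PermOn _).pow_mem M.vc_dn_mem _),
    rv_PVp M.dWP (fun i => (PermOn _).pow_mem M.vc_up_mem _),
    rv_mul M.dB (fun i => (PermOn _).pow_mem M.vc_dn_memV _)
      (fun i => (PermOn _).pow_mem M.vc_up_memV _)]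
  simp only [sh_pow, vc_sh_up]
  rfl

lemma vc_rv_famQ_aux (b : ZMod L.n × Lab → ZMod 2) :
    rv L L.kQ (M.famQ b) = rv L L.kV (fun i =>
      sw M.c0 M.c1 (M.P.t0, 0) ^ (b (i.1, L.sQf i.2)).val *
        sw M.c0 M.c1 (-M.P.t0 - 1, 0) ^ (b (i.1, L.lft i.1 i.2)).val) := by
  have e : M.famQ b = fun i => M.lf ^ (b i).val * M.rt ^ (b i).val := by
    funext i
    exact (sw_commute _ _).mul_pow _
  rw [e, rv_mul M.dWQ (fun i => (PermOn _).pow_mem M.vc_lf_mem _)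
    (fun i => (PermOn _).pow_mem M.vc_rt_mem _),
    rv_QV M.dWQ (fun i => (PermOn _).pow_mem M.vc_lf_mem _),
    rv_QVq M.dWQ (fun i => (PermOn _).pow_mem M.vc_rt_mem _),
    rv_mul M.dB (fun i => (PermOn _).pow_mem M.vc_lf_memV _)
      (fun i => (PermOn _).pow_mem M.vc_rt_memV _)]
  simp only [sh_pow, vc_sh_rt]
  rfl

/-- (R4) the vertex condition -/
theorem vertex [Finite Lab] [Finite Sta] {w : T} (hq : q w = 1)
    {a b : ZMod L.n × Lab → ZMod 2} (h : M.Rep w a b) {x : X} (hx : x ∈ L.D) :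
    a (L.dig x, L.sPf (L.st x)) + a (L.dig x - 1, L.sPb (L.st x)) +
      b (L.dig x, L.sQf (L.st x)) + b (L.dig x, L.lft (L.dig x) (L.st x)) = 0 := by
  have : NeZero L.n := ⟨L.n_pos.ne'⟩
  obtain ⟨z, hz, rfl⟩ := h
  rw [map_mul, Es, map_mul, M.SV.q_val M.dB hz, M.SP.q_val M.dWP (M.vc_famP_alt a),
    M.SQ.q_val M.dWQ (M.vc_famQ_alt b), M.vc_rv_famP_aux, M.vc_rv_famQ_aux] at hq
  have hP : ∀ i : ZMod L.n × Sta, sw M.c0 M.c1 (0, M.P.t0) ^ (a (i.1, L.sPf i.2)).val *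
      sw M.c0 M.c1 (0, -M.P.t0 - 1) ^ (a (i.1 - 1, L.sPb i.2)).val ∈ PermOn (win C M.WB) :=
    fun i => (PermOn _).mul_mem ((PermOn _).pow_mem M.vc_dn_memV _)
      ((PermOn _).pow_mem M.vc_up_memV _)
  have hQ : ∀ i : ZMod L.n × Sta, sw M.c0 M.c1 (M.P.t0, 0) ^ (b (i.1, L.sQf i.2)).val *
      sw M.c0 M.c1 (-M.P.t0 - 1, 0) ^ (b (i.1, L.lft i.1 i.2)).val ∈ PermOn (win C M.WB) :=
    fun i => (PermOn _).mul_mem ((PermOn _).pow_mem M.vc_lf_memV _)
      ((PermOn _).pow_mem M.vc_rt_memV _)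
  rw [← rv_mul M.dB hP hQ,
    ← rv_mul M.dB (fun i => (hz i).1) (fun i => (PermOn _).mul_mem (hP i) (hQ i)),
    ← rv_one (L := L) (κ := L.kV)] at hq
  have h1 := rv_inj M.dB
    (fun i => (PermOn _).mul_mem (hz i).1 ((PermOn _).mul_mem (hP i) (hQ i)))
    (fun i => (PermOn _).one_mem) hq hx
  have h2 := congrArg sgn h1
  simp only [Lev.kV] at h2
  rw [sgn_mul_on (hz _).1 ((PermOn _).mul_mem (hP (L.dig x, L.st x)) (hQ (L.dig x, L.st x))),
    (hz _).2, one_mul, sgn_mul_on (hP (L.dig x, L.st x)) (hQ (L.dig x, L.st x)),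
    sgn_mul_on ((PermOn _).pow_mem M.vc_dn_memV _) ((PermOn _).pow_mem M.vc_up_memV _),
    sgn_mul_on ((PermOn _).pow_mem M.vc_lf_memV _) ((PermOn _).pow_mem M.vc_rt_memV _),
    sgn_sw_pow M.hc, sgn_sw_pow M.hc, sgn_sw_pow M.hc, sgn_sw_pow M.hc, sgn_one,
    ← pow_add, ← pow_add, ← pow_add] at h2
  simp only at h2
  have h3 : Even ((a (L.dig x, L.sPf (L.st x))).val + (a (L.dig x - 1, L.sPb (L.st x))).val +
      ((b (L.dig x, L.sQf (L.st x))).val + (b (L.dig x, L.lft (L.dig x) (L.st x))).val)) := by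
    rw [neg_one_pow_eq_one_iff_even] at h2
    · exact h2
    · decide
  have h4 := (ZMod.natCast_eq_zero_iff_even).2 h3
  push_cast at h4
  simp only [ZMod.natCast_val, ZMod.cast_id', id] at h4
  rw [← h4]
  ring

end Ctx

end Crest.Agent.R189.K
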