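import Crest.Agent.R189.FPFinal
import Crest.Agent.R189.KVC
import Crest.Agent.R189.KTog

/-!
# Row 189 (S0289), helper396: uniqueness, congruence of representations, and the count
-/

set_option autoImplicit false

namespace Crest.Agent.R189.FPMain

open K
open Equiv Equiv.Perm

section

variable {X Lab Sta C T : Type*} [AddAction (ℤ × ℤ) X] [Fintype C] [DecidableEq C] [Group T]
variable {L : Lev X Lab Sta} {q : T →* Equiv.Perm (X × C)} (M : Ctx L C q)

/-- uniqueness of the represented kernel element -/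
theorem rep_uniq_c [Finite Lab] [Finite Sta] {w w' : T} (hw : q w = 1) (hw' : q w' = 1)
    {a b : ZMod L.n × Lab → ZMod 2} (h : M.Rep w a b) (h' : M.Rep w' a b) : w = w' := by
  have : NeZero L.n := ⟨L.n_pos.ne'⟩
  obtain ⟨z, hz, rfl⟩ := h
  obtain ⟨z', hz', rfl⟩ := h'
  have e : q (M.SV.val z) = q (M.SV.val z') := by
    have := hw.trans hw'.symm
    rw [map_mul, map_mul] at this
    exact mul_right_cancel this
  rw [M.SV.val_inj M.dB hz hz' e]

/-- the representation depends on the occurring signs only -/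
theorem rep_congr_c [Finite Lab] [Finite Sta] {w : T}
    {a b a' b' : ZMod L.n × Lab → ZMod 2} (h : M.Rep w a b)
    (ha : ∀ x ∈ L.D, a (L.kP x) = a' (L.kP x)) (hb : ∀ x ∈ L.D, b (L.kQ x) = b' (L.kQ x)) :
    M.Rep w a' b' := by
  have : NeZero L.n := ⟨L.n_pos.ne'⟩
  obtain ⟨z, hz, hw⟩ := h
  refine ⟨z, hz, ?_⟩
  rw [hw]
  congr 1
  unfold Ctx.Es
  congr 1
  · apply M.SP.val_congr M.dWP (fun i => M.vc_famP_alt a i) (fun i => M.vc_famP_alt a' i)
    intro x hx
    unfold Ctx.famP
    rw [ha x hx]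
  · apply M.SQ.val_congr M.dWQ (fun i => M.vc_famQ_alt b i) (fun i => M.vc_famQ_alt b' i)
    intro x hx
    unfold Ctx.famQ
    rw [hb x hx]

end

/-- **the count** -/
theorem hcnt (k : ℕ) (M : Ctx (LX k) Col qTL) (K : Set (TGrp MD Col))
    (hK : ∀ w ∈ K, qTL w = 1 ∧ ∃ a b, M.Rep w a b) :
    K.ncard ≤ Nat.card ((Label → ZMod 2) × (Label → ZMod 2)) := by
  refine (M.card_le_aux (countX le_rfl (allOK le_rfl) k) K (fun w hw => (hK w hw).2)
    ?_ ?_ ?_ ?_).2
  · intro w hw a b h t
    exact M.rep_toggle (ker_le_center hCol (MonoidHom.mem_ker.2 (hK w hw).1)) h t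
  · intro w hw a b h x hx
    exact M.vertex (hK w hw).1 h hx
  · intro w hw w' hw' a b h h'
    exact rep_uniq_c M (hK w hw).1 (hK w' hw').1 h h'
  · intro w hw a b a' b' h ha hb
    exact rep_congr_c M h ha hb

/-- **the kernel of `T → Gp` is finitely generated** -/
theorem fg_ker : Group.FG (qTL).ker := fg_ker_of_count _ hcnt

/-- **`GG` is finitely presented** -/
theorem GG_fp : Group.IsFinitelyPresented GG := GG_fp_of_count _ hcnt

end Crest.Agent.R189.FPMain
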