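import Crest.Agent.R189.XDef

/-!
Row 189 (S0289), helper869.  Inflation and congruence lemmas for the explicit configurations.

`xh a m = ∏_{i<m} 3(a+2i)` : the rows `y` (Q lines) of level `a` with `xh a m ∤ y` have order
`< 2m`; `xh (a+1) m` plays the same role for the columns `x` (P lines).
-/

set_option autoImplicit false

namespace Crest.Agent.R189

/-- `∏_{i<m} 3(a+2i)` -/
def xh (a : ℕ) : ℕ → ℕ
  | 0 => 1
  | m + 1 => 3 * a * xh (a + 2) m

@[simp] theorem xh_zero (a : ℕ) : xh a 0 = 1 := rfl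

theorem xh_succ (a m : ℕ) : xh a (m + 1) = 3 * a * xh (a + 2) m := rfl

theorem xh_pos {a : ℕ} (ha : 1 ≤ a) (m : ℕ) : 0 < xh a m := by
  induction m generalizing a with
  | zero => simp
  | succ m ih => rw [xh_succ]; have := ih (a := a + 2) (by omega); positivity

theorem xh_succ' (a m : ℕ) : xh a (m + 1) = xh a m * (3 * (a + 2 * m)) := by
  induction m generalizing a with
  | zero => simp [xh_succ]
  | succ m ih =>
    rw [xh_succ a (m + 1), ih (a + 2), xh_succ a m]; ring

theorem xh_dvd_succ (a m : ℕ) : xh a m ∣ xh a (m + 1) := by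
  rw [xh_succ']; exact Dvd.intro _ rfl

theorem xh_dvd {a m m' : ℕ} (h : m ≤ m') : xh a m ∣ xh a m' := by
  induction h with
  | refl => exact dvd_rfl
  | step _ ih => exact ih.trans (xh_dvd_succ _ _)

theorem lt_xh {a : ℕ} (ha : 1 ≤ a) (m : ℕ) : m < xh a m := by
  induction m with
  | zero => simp
  | succ m ih =>
    rw [xh_succ']
    have : xh a m * 3 ≤ xh a m * (3 * (a + 2 * m)) := by
      apply Nat.mul_le_mul_left; omega
    omega

theorem dg_congr {n : ℕ} {x x' : ℤ} {N : ℕ} (hN : n ∣ N) (h : (N : ℤ) ∣ x - x') :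
    dg n x = dg n x' := by
  have h1 : (n : ℤ) ∣ x - x' := dvd_trans (by exact_mod_cast hN) h
  exact dg_eq_of_emod (Int.ModEq.symm (Int.modEq_iff_dvd.2 h1))

/-- `x ≡ x'` modulo `n * N` implies `x / n ≡ x' / n` modulo `N` -/
theorem div_congr {n N : ℕ} (hn : 0 < n) {x x' : ℤ} (h : ((n * N : ℕ) : ℤ) ∣ x - x') :
    (N : ℤ) ∣ x / (n : ℤ) - x' / (n : ℤ) := by
  obtain ⟨k, hk⟩ := h
  have : x = x' + n * (N * k) := by push_cast at hk; linarith
  rw [this, Int.add_mul_ediv_left _ _ (by exact_mod_cast hn.ne')]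
  simp

/-- inflation of labels -/
theorem V_inflate {a : ℕ} (ha : 1 ≤ a) (s : Star) (m : ℕ) (x y : ℤ) :
    V a s ((xh (a + 1) m : ℕ) * x) y = V (a + 2 * m) s x (y / (xh a m : ℕ)) := by
  induction m generalizing a x y with
  | zero => simp
  | succ m ih =>
    have h1 : ((xh (a + 1) (m + 1) : ℕ) : ℤ) * x
        = ((3 * (a + 1) : ℕ) : ℤ) * ((xh (a + 2 + 1) m : ℕ) * x) := by
      rw [xh_succ]; push_cast; ring
    rw [h1, V_mul ha, ih (by omega), xh_succ]
    have h2 : y / ((3 * a : ℕ) : ℤ) / ((xh (a + 2) m : ℕ) : ℤ)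
        = y / ((3 * a * xh (a + 2) m : ℕ) : ℤ) := by
      rw [Int.ediv_ediv_of_nonneg (by positivity)]
      push_cast; rfl
    rw [h2]
    congr 1
    ring

/-- labels of lines of small order are determined by digits -/
theorem V_congr {a : ℕ} (ha : 1 ≤ a) (m : ℕ) (s s' : Star) {x x' y y' : ℤ}
    (hx : ¬ ((xh (a + 1) m : ℕ) : ℤ) ∣ x) (hxx : ((xh (a + 1) m : ℕ) : ℤ) ∣ x - x')
    (hyy : ((xh a (m + 1) : ℕ) : ℤ) ∣ y - y') : V a s x y = V a s' x' y' := by
  induction m generalizing a x x' y y' with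
  | zero => exact absurd (by simp) hx
  | succ m ih =>
    have hdx : dg (3 * (a + 1)) x = dg (3 * (a + 1)) x' :=
      dg_congr (Dvd.intro _ (xh_succ (a + 1) m).symm) hxx
    by_cases hd : dg (3 * (a + 1)) x = 0
    · obtain ⟨x1, rfl⟩ := (dg_eq_zero (by omega)).1 hd
      obtain ⟨x2, rfl⟩ := (dg_eq_zero (by omega)).1 (hdx ▸ hd)
      rw [V_mul ha, V_mul ha]
      have hp : ((3 * (a + 1) : ℕ) : ℤ) ≠ 0 := by positivity
      apply ih (by omega)
      · intro h
        apply hx
        rw [xh_succ]; push_cast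
        have := mul_dvd_mul_left ((3 * (a + 1) : ℕ) : ℤ) h
        push_cast at this
        exact this
      · rw [← mul_sub, xh_succ] at hxx
        push_cast at hxx
        have hp' : (3 * ((a : ℤ) + 1)) ≠ 0 := by positivity
        exact (mul_dvd_mul_iff_left hp').1 hxx
      · exact div_congr (by omega) (by rw [← xh_succ]; exact hyy)
    · rw [V_of_ne _ _ hd, V_of_ne _ _ (hdx ▸ hd), hdx]
      have h1 : dg (3 * a) y = dg (3 * a) y' :=
        dg_congr (Dvd.intro _ (xh_succ a (m + 1)).symm) hyy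
      have h2 : dg (3 * (a + 2)) (y / ((3 * a : ℕ) : ℤ)) = dg (3 * (a + 2)) (y' / ((3 * a : ℕ) : ℤ)) := by
        apply dg_congr (N := xh (a + 2) (m + 1)) (Dvd.intro _ (xh_succ (a + 2) m).symm)
        exact div_congr (by omega) (by rw [← xh_succ]; exact hyy)
      rw [h1, h2]

theorem Hf_congr {a : ℕ} (ha : 1 ≤ a) (m : ℕ) (s s' : Star) {x x' y y' : ℤ}
    (hy : ¬ ((xh a m : ℕ) : ℤ) ∣ y) (hyy : ((xh a m : ℕ) : ℤ) ∣ y - y')
    (hxx : ((xh (a + 1) m : ℕ) : ℤ) ∣ x - x') : Hf a s x y = Hf a s' x' y' := by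
  cases m with
  | zero => exact absurd (by simp) hy
  | succ m =>
    have hdy : dg (3 * a) y = dg (3 * a) y' := dg_congr (Dvd.intro _ (xh_succ a m).symm) hyy
    have hp : ((3 * a : ℕ) : ℤ) ≠ 0 := by
      have : 0 < 3 * a := by omega
      exact_mod_cast this.ne'
    by_cases hd : dg (3 * a) y = 0
    · obtain ⟨y1, rfl⟩ := (dg_eq_zero (by omega)).1 hd
      obtain ⟨y2, rfl⟩ := (dg_eq_zero (by omega)).1 (hdy ▸ hd)
      rw [Hf_mul ha, Hf_mul ha]
      apply V_congr (by omega) m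
      · intro h
        apply hy
        rw [xh_succ]; push_cast
        have := mul_dvd_mul_left ((3 * a : ℕ) : ℤ) h
        push_cast at this
        exact this
      · rw [← mul_sub, xh_succ] at hyy
        push_cast at hyy
        have hp' : (3 * (a : ℤ)) ≠ 0 := by exact_mod_cast hp
        exact (mul_dvd_mul_iff_left hp').1 hyy
      · exact hxx
    · rw [Hf, Hf, if_neg hd, if_neg (hdy ▸ hd), hdy,
        dg_congr (Dvd.intro _ (xh_succ (a + 1) m).symm) hxx]

theorem Hb_congr {a : ℕ} (ha : 1 ≤ a) (m : ℕ) (s s' : Star) {x x' y y' : ℤ}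
    (hy : ¬ ((xh a m : ℕ) : ℤ) ∣ y) (hyy : ((xh a m : ℕ) : ℤ) ∣ y - y')
    (hxx : ((xh (a + 1) m : ℕ) : ℤ) ∣ x - x') : Hb a s x y = Hb a s' x' y' := by
  cases m with
  | zero => exact absurd (by simp) hy
  | succ m =>
    have hdy : dg (3 * a) y = dg (3 * a) y' := dg_congr (Dvd.intro _ (xh_succ a m).symm) hyy
    have hxx' : ((xh (a + 1) (m + 1) : ℕ) : ℤ) ∣ (x - 1) - (x' - 1) := by
      rwa [sub_sub_sub_cancel_right]
    have hp : ((3 * a : ℕ) : ℤ) ≠ 0 := by
      have : 0 < 3 * a := by omega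
      exact_mod_cast this.ne'
    by_cases hd : dg (3 * a) y = 0
    · obtain ⟨y1, rfl⟩ := (dg_eq_zero (by omega)).1 hd
      obtain ⟨y2, rfl⟩ := (dg_eq_zero (by omega)).1 (hdy ▸ hd)
      rw [Hb_mul ha, Hb_mul ha]
      apply V_congr (by omega) m
      · intro h
        apply hy
        rw [xh_succ]; push_cast
        have := mul_dvd_mul_left ((3 * a : ℕ) : ℤ) h
        push_cast at this
        exact this
      · rw [← mul_sub, xh_succ] at hyy
        push_cast at hyy
        have hp' : (3 * (a : ℤ)) ≠ 0 := by exact_mod_cast hp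
        exact (mul_dvd_mul_iff_left hp').1 hyy
      · exact hxx'
    · rw [Hb, Hb, if_neg hd, if_neg (hdy ▸ hd), hdy,
        dg_congr (Dvd.intro _ (xh_succ (a + 1) m).symm) hxx']

theorem dom_congr {a : ℕ} (ha : 1 ≤ a) (m : ℕ) (s s' : Star) {x x' y y' : ℤ}
    (hxy : ¬ ((xh a m : ℕ) : ℤ) ∣ y ∨ ¬ ((xh (a + 1) m : ℕ) : ℤ) ∣ x)
    (hyy : ((xh a m : ℕ) : ℤ) ∣ y - y')
    (hxx : ((xh (a + 1) m : ℕ) : ℤ) ∣ x - x') : dom a s x y = dom a s' x' y' := by
  induction m generalizing a x x' y y' with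
  | zero => rcases hxy with h | h <;> exact absurd (by simp) h
  | succ m ih =>
    have hdy : dg (3 * a) y = dg (3 * a) y' := dg_congr (Dvd.intro _ (xh_succ a m).symm) hyy
    have hdx : dg (3 * (a + 1)) x = dg (3 * (a + 1)) x' :=
      dg_congr (Dvd.intro _ (xh_succ (a + 1) m).symm) hxx
    have hp : ((3 * a : ℕ) : ℤ) ≠ 0 := by
      have : 0 < 3 * a := by omega
      exact_mod_cast this.ne'
    by_cases hd : dg (3 * a) y = 0
    · obtain ⟨y1, rfl⟩ := (dg_eq_zero (by omega)).1 hd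
      obtain ⟨y2, rfl⟩ := (dg_eq_zero (by omega)).1 (hdy ▸ hd)
      by_cases hd' : dg (3 * (a + 1)) x = 0
      · obtain ⟨x1, rfl⟩ := (dg_eq_zero (by omega)).1 hd'
        obtain ⟨x2, rfl⟩ := (dg_eq_zero (by omega)).1 (hdx ▸ hd')
        rw [dom_mul_mul ha, dom_mul_mul ha]
        apply ih (by omega)
        · rcases hxy with h | h
          · left
            intro h'
            apply h
            rw [xh_succ]; push_cast
            have := mul_dvd_mul_left ((3 * a : ℕ) : ℤ) h'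
            push_cast at this
            exact this
          · right
            intro h'
            apply h
            rw [xh_succ]; push_cast
            have := mul_dvd_mul_left ((3 * (a + 1) : ℕ) : ℤ) h'
            push_cast at this
            exact this
        · rw [← mul_sub, xh_succ] at hyy
          push_cast at hyy
          have hp' : (3 * (a : ℤ)) ≠ 0 := by exact_mod_cast hp
          exact (mul_dvd_mul_iff_left hp').1 hyy
        · rw [← mul_sub, xh_succ] at hxx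
          push_cast at hxx
          have hp' : (3 * ((a : ℤ) + 1)) ≠ 0 := by positivity
          exact (mul_dvd_mul_iff_left hp').1 hxx
      · rw [dom_mul_of_ne ha _ _ hd', dom_mul_of_ne ha _ _ (hdx ▸ hd')]
    · rw [dom_of_ne _ _ hd, dom_of_ne _ _ (hdy ▸ hd)]

theorem rstar_flip2 {a : ℕ} (ha : 2 ≤ a) (s : Star) (x y : ℤ) :
    rstar a s (((3 * (a + 1) : ℕ) : ℤ) * x) (((3 * a : ℕ) : ℤ) * y) = rstar (a + 2) s x y := by
  rw [rstar_flip ha, rstar_flip (a := a + 1) (by omega), Star.flip_flip]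
  simp [RStar.flip]

/-- inflation at lattice points -/
theorem rstar_inflate {a : ℕ} (ha : 2 ≤ a) (s : Star) (m : ℕ) (x y : ℤ) :
    rstar a s ((xh (a + 1) m : ℕ) * x) ((xh a m : ℕ) * y) = rstar (a + 2 * m) s x y := by
  induction m generalizing a x y with
  | zero => simp
  | succ m ih =>
    have h1 : ((xh (a + 1) (m + 1) : ℕ) : ℤ) * x
        = ((3 * (a + 1) : ℕ) : ℤ) * ((xh (a + 2 + 1) m : ℕ) * x) := by
      rw [xh_succ]; push_cast; ring
    have h2 : ((xh a (m + 1) : ℕ) : ℤ) * y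
        = ((3 * a : ℕ) : ℤ) * ((xh (a + 2) m : ℕ) * y) := by
      rw [xh_succ]; push_cast; ring
    rw [h1, h2, rstar_flip2 ha, ih (by omega)]
    congr 1
    ring

end Crest.Agent.R189
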