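import Crest.Agent.R189.KOcc
import Crest.Agent.R189.XGeo
import Crest.Agent.R189.KDefs
import Crest.Agent.R189.XOK

/-!
Row 189 (S0289), helper260.  The `K.Lev` instance (even levels) of the concrete system `X`.

Level `m`: parameter `b = a + 2 m`, `w = xh (a+1) m`, `h = xh a m`, `n = 3 b`,
`D = {x | w ∣ x.p.1, h ∣ x.p.2}`, digit of `x ∈ D` = `x.p.2 / h` modulo `n`,
star of `x ∈ D` = `rstar b x.s (x.p.1 / w) (x.p.2 / h)`.
-/

set_option autoImplicit false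

namespace Crest.Agent.R189

open KCount

/-- all configurations are made of allowed stars (`allOK`) -/
def AllOK (a : ℕ) : Prop := ∀ (b : ℕ), a ≤ b → ∀ (s : Star) (x y : ℤ), (rstar b s x y).OK

theorem allOK {a : ℕ} (ha : 3 ≤ a) : AllOK a := fun _ hb s x y => rstar_ok (ha.trans hb) s x y

section
/-- the digit of level `m` -/
def xdig (a m : ℕ) (x : X) : ZMod (3 * (a + 2 * m)) := ((x.p.2 / (xh a m : ℕ) : ℤ) : ZMod _)

/-- the star of level `m` (junk off the lattice) -/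
def xst {a : ℕ} (hOK : AllOK a) (m : ℕ) (x : X) : Star :=
  ⟨rstar (a + 2 * m) x.s (x.p.1 / (xh (a + 1) m : ℕ)) (x.p.2 / (xh a m : ℕ)),
    hOK _ (Nat.le_add_right _ _) _ _ _⟩

/-- the lattice points of level `m` -/
def xD (a m : ℕ) : Set X :=
  {x | ((xh (a + 1) m : ℕ) : ℤ) ∣ x.p.1 ∧ ((xh a m : ℕ) : ℤ) ∣ x.p.2}

theorem mem_xD {a m : ℕ} {x : X} : x ∈ xD a m ↔
    ((xh (a + 1) m : ℕ) : ℤ) ∣ x.p.1 ∧ ((xh a m : ℕ) : ℤ) ∣ x.p.2 := Iff.rfl

/-- the label of the `Q` edge to the left of a corner, digit in `ZMod n` -/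
def leftZ (n : ℕ) (j : ZMod n) (σ : Star) : Label := if j = 0 then σ.Qb else { σ.Qb with u := .A }

theorem cast_eq_zero_iff {n : ℕ} (hn : 0 < n) (y : ℤ) : ((y : ℤ) : ZMod n) = 0 ↔ dg n y = 0 := by
  rw [ZMod.intCast_zmod_eq_zero_iff_dvd, dg_eq_zero hn]

/-- the level structure of part F on the concrete space -/
def xLev {a : ℕ} (ha : 3 ≤ a) (hOK : AllOK a) (m : ℕ) : K.Lev X Label Star where
  w := (xh (a + 1) m : ℕ)
  h := (xh a m : ℕ)
  n := 3 * (a + 2 * m)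
  D := xD a m
  dig := xdig a m
  Pf x := (xst hOK m x).Pf
  Qf x := (xst hOK m x).Qf
  st := xst hOK m
  sPf := Star.Pf
  sPb := Star.Pb
  sQf := Star.Qf
  lft := leftZ _
  w_pos := by exact_mod_cast xh_pos (by omega) m
  h_pos := by exact_mod_cast xh_pos (by omega) m
  n_pos := by omega
  D_iff := by
    rintro x ⟨h1, h2⟩ v
    show (_ ∣ (v +ᵥ x).p.1 ∧ _ ∣ (v +ᵥ x).p.2) ↔ _
    rw [X.vadd_p]
    show (_ ∣ v.1 + x.p.1 ∧ _ ∣ v.2 + x.p.2) ↔ _
    rw [Int.dvd_add_left h1, Int.dvd_add_left h2]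
  cover := by
    intro y
    have hw : (0 : ℤ) < ((xh (a + 1) m : ℕ) : ℤ) := by exact_mod_cast xh_pos (by omega) m
    have hh : (0 : ℤ) < ((xh a m : ℕ) : ℤ) := by exact_mod_cast xh_pos (by omega) m
    refine ⟨(y.p.1 % ((xh (a + 1) m : ℕ) : ℤ), y.p.2 % ((xh a m : ℕ) : ℤ)),
      ⟨(y.p.1 - y.p.1 % ((xh (a + 1) m : ℕ) : ℤ), y.p.2 - y.p.2 % ((xh a m : ℕ) : ℤ)), y.s⟩,
      ⟨Int.dvd_self_sub_emod, Int.dvd_self_sub_emod⟩,
      Int.emod_nonneg _ hw.ne', Int.emod_lt_of_pos _ hw, Int.emod_nonneg _ hh.ne',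
      Int.emod_lt_of_pos _ hh, ?_⟩
    apply X.ext
    · rw [X.vadd_p]
      apply Prod.ext <;> simp
    · rfl
  free := by
    intro v x h
    have h1 := congrArg X.p h
    rw [X.vadd_p] at h1
    exact add_eq_right.1 h1
  dig_q := by
    intro x _
    unfold xdig
    rw [X.vadd_p]
    simp
  dig_p := by
    intro x _
    have hh : ((xh a m : ℕ) : ℤ) ≠ 0 := by exact_mod_cast (xh_pos (by omega) m).ne'
    unfold xdig
    rw [X.vadd_p]
    have e : (((xh a m : ℕ) : ℤ) + x.p.2) / ((xh a m : ℕ) : ℤ) = x.p.2 / ((xh a m : ℕ) : ℤ) + 1 := by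
      rw [add_comm, Int.add_ediv_of_dvd_right (dvd_refl _), Int.ediv_self hh]
    have e2 := congrArg (fun z : ℤ => (z : ZMod (3 * (a + 2 * m)))) e
    simpa using e2
  Pf_st _ _ := rfl
  Pb_st := by
    intro x hx
    have hh : ((xh a m : ℕ) : ℤ) ≠ 0 := by exact_mod_cast (xh_pos (by omega) m).ne'
    show V (a + 2 * m) x.s ((0 + x.p.1) / _) ((-((xh a m : ℕ) : ℤ) + x.p.2) / _) =
      V (a + 2 * m) x.s (x.p.1 / _) (x.p.2 / _ - 1)
    rw [zero_add]
    congr 1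
    obtain ⟨k, hk⟩ := hx.2
    rw [hk, show -((xh a m : ℕ) : ℤ) + ((xh a m : ℕ) : ℤ) * k = ((xh a m : ℕ) : ℤ) * (k - 1) by ring,
      Int.mul_ediv_cancel_left _ hh, Int.mul_ediv_cancel_left _ hh]
  Qf_st _ _ := rfl
  lft_st := by
    intro x hx
    have hw : ((xh (a + 1) m : ℕ) : ℤ) ≠ 0 := by exact_mod_cast (xh_pos (by omega) m).ne'
    obtain ⟨k, hk⟩ := hx.1
    show Hf (a + 2 * m) x.s ((-((xh (a + 1) m : ℕ) : ℤ) + x.p.1) / _) ((0 + x.p.2) / _) =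
      leftZ _ (xdig a m x) (xst hOK m x)
    have e1 : (-((xh (a + 1) m : ℕ) : ℤ) + x.p.1) / ((xh (a + 1) m : ℕ) : ℤ) =
        x.p.1 / ((xh (a + 1) m : ℕ) : ℤ) - 1 := by
      rw [hk, show -((xh (a + 1) m : ℕ) : ℤ) + ((xh (a + 1) m : ℕ) : ℤ) * k =
        ((xh (a + 1) m : ℕ) : ℤ) * (k - 1) by ring,
        Int.mul_ediv_cancel_left _ hw, Int.mul_ediv_cancel_left _ hw]
    rw [e1, zero_add]
    unfold leftZ xdig
    show _ = if _ then Hb _ _ _ _ else { Hb _ _ _ _ with u := _ }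
    by_cases h0 : dg (3 * (a + 2 * m)) (x.p.2 / ((xh a m : ℕ) : ℤ)) = 0
    · rw [if_pos ((cast_eq_zero_iff (by omega) _).2 h0), Hf, Hb, if_pos h0, if_pos h0]
    · rw [if_neg (fun h => h0 ((cast_eq_zero_iff (by omega) _).1 h)), Hf, Hb, if_neg h0, if_neg h0]

/-! ### the count in `ZMod n` form -/

/-- the star `σ` occurs at level `m` with digit `j` -/
def XOcc {a : ℕ} (hOK : AllOK a) (m : ℕ) (j : ZMod (3 * (a + 2 * m))) (σ : Star) : Prop :=
  ∃ x ∈ xD a m, xdig a m x = j ∧ xst hOK m x = σ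

/-- relation (VC) at all occurring corners -/
def VCz {a : ℕ} (hOK : AllOK a) (m : ℕ) (sP sQ : ZMod (3 * (a + 2 * m)) → Label → ZMod 2) : Prop :=
  ∀ (j : ZMod (3 * (a + 2 * m))) (σ : Star), XOcc hOK m j σ →
    sP j σ.Pf + sP (j - 1) σ.Pb + sQ j σ.Qf + sQ j (leftZ _ j σ) = 0

/-- normalisation of the rows `j ≠ 0` -/
def Normalz (a m : ℕ) (sQ : ZMod (3 * (a + 2 * m)) → Label → ZMod 2) : Prop :=
  ∀ j : ZMod (3 * (a + 2 * m)), j ≠ 0 → sQ j (qLab (a + 2 * m) j.val 0) = 0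

/-- change of `sQ` under the toggles of the faces `j` with `t j = 1` -/
def togglez {n : ℕ} (t : ZMod n → ZMod 2) (sQ : ZMod n → Label → ZMod 2) : ZMod n → Label → ZMod 2 :=
  fun j L => sQ j L + t j + t (j - 1)

theorem xocc_iff {a : ℕ} (ha : 3 ≤ a) (hOK : AllOK a) (m : ℕ) {j : ℕ} (hj : j < 3 * (a + 2 * m))
    (σ : Star) : XOcc hOK m (j : ZMod (3 * (a + 2 * m))) σ ↔ occX (a + 2 * m) j σ := by
  have hw : ((xh (a + 1) m : ℕ) : ℤ) ≠ 0 := by exact_mod_cast (xh_pos (by omega) m).ne'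
  have hh : ((xh a m : ℕ) : ℤ) ≠ 0 := by exact_mod_cast (xh_pos (by omega) m).ne'
  have key : ∀ y : ℤ, ((y : ℤ) : ZMod (3 * (a + 2 * m))) = (j : ZMod (3 * (a + 2 * m))) ↔
      dg (3 * (a + 2 * m)) y = j := by
    intro y
    have h1 : (j : ZMod (3 * (a + 2 * m))) = (((j : ℕ) : ℤ) : ZMod (3 * (a + 2 * m))) := by
      push_cast; rfl
    rw [h1, ZMod.intCast_eq_intCast_iff]
    constructor
    · intro h
      have : dg (3 * (a + 2 * m)) y = dg (3 * (a + 2 * m)) ((j : ℕ) : ℤ) := dg_eq_of_emod h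
      rw [this, dg_natCast hj]
    · intro h
      have h2 := dg_cast (n := 3 * (a + 2 * m)) (by omega) y
      rw [h] at h2
      show y % _ = (j : ℤ) % _
      rw [← h2]
      exact (Int.emod_eq_of_lt (by positivity) (by exact_mod_cast hj)).symm
  constructor
  · rintro ⟨x, hx, hd, hs⟩
    refine ⟨x.s, x.p.1 / (xh (a + 1) m : ℕ), x.p.2 / (xh a m : ℕ), (key _).1 hd, ?_⟩
    exact congrArg Subtype.val hs
  · rintro ⟨s, x, y, hd, hs⟩
    refine ⟨⟨(((xh (a + 1) m : ℕ) : ℤ) * x, ((xh a m : ℕ) : ℤ) * y), s⟩,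
      ⟨dvd_mul_right _ _, dvd_mul_right _ _⟩, ?_, ?_⟩
    · show (((((xh a m : ℕ) : ℤ) * y) / ((xh a m : ℕ) : ℤ) : ℤ) : ZMod (3 * (a + 2 * m))) = _
      rw [Int.mul_ediv_cancel_left _ hh]
      exact (key _).2 hd
    · apply Subtype.ext
      show rstar (a + 2 * m) s (((xh (a + 1) m : ℕ) : ℤ) * x / ((xh (a + 1) m : ℕ) : ℤ))
        (((xh a m : ℕ) : ℤ) * y / ((xh a m : ℕ) : ℤ)) = σ.1
      rw [Int.mul_ediv_cancel_left _ hw, Int.mul_ediv_cancel_left _ hh]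
      exact hs

theorem natCast_ne_zero {n j : ℕ} (h1 : 1 ≤ j) (h2 : j < n) : (j : ZMod n) ≠ 0 := by
  intro h
  have := (ZMod.natCast_eq_zero_iff _ _).1 h
  have := Nat.le_of_dvd (by omega) this
  omega

theorem VC_of_VCz {a : ℕ} (ha : 3 ≤ a) (hOK : AllOK a) (m : ℕ)
    {sP sQ : ZMod (3 * (a + 2 * m)) → Label → ZMod 2} (h : VCz hOK m sP sQ) :
    VC (a + 2 * m) (occX (a + 2 * m)) (fun j => sP (j : ZMod _)) (fun j => sQ (j : ZMod _)) := by
  intro j h1 h2 σ ho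
  have h3 := h (j : ZMod _) σ ((xocc_iff ha hOK m h2 σ).2 ho)
  have e1 : ((j : ZMod (3 * (a + 2 * m))) - 1) = ((j - 1 : ℕ) : ZMod (3 * (a + 2 * m))) := by
    rw [Nat.cast_sub h1]; simp
  have e2 : leftZ (3 * (a + 2 * m)) (j : ZMod _) σ = leftLab j σ := by
    unfold leftZ leftLab
    rw [if_neg (natCast_ne_zero h1 h2), if_neg (by omega)]
  rw [e1, e2] at h3
  exact h3

theorem Normal_of_Normalz {a : ℕ} (m : ℕ) {sQ : ZMod (3 * (a + 2 * m)) → Label → ZMod 2}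
    (h : Normalz a m sQ) : Normal (a + 2 * m) (fun j => sQ (j : ZMod _)) := by
  intro j h1 h2
  have h3 := h (j : ZMod _) (natCast_ne_zero h1 h2)
  rw [ZMod.val_natCast_of_lt h2] at h3
  exact h3

/-- **K6**, final form.  Two solutions of (VC), normalised, which agree on row `0`, agree at all
occurring `(digit, label)`. -/
theorem agreez {a : ℕ} (ha : 3 ≤ a) (hOK : AllOK a) (m : ℕ)
    {sP sQ sP' sQ' : ZMod (3 * (a + 2 * m)) → Label → ZMod 2}
    (h : VCz hOK m sP sQ) (h' : VCz hOK m sP' sQ') (hn : Normalz a m sQ) (hn' : Normalz a m sQ')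
    (hP : ∀ L, sP 0 L = sP' 0 L) (hQ : ∀ L, sQ 0 L = sQ' 0 L) :
    ∀ (j : ZMod (3 * (a + 2 * m))) (σ : Star), XOcc hOK m j σ →
      sP j σ.Pf = sP' j σ.Pf ∧ sQ j σ.Qf = sQ' j σ.Qf := by
  intro j σ ho
  have : NeZero (3 * (a + 2 * m)) := ⟨by omega⟩
  by_cases h0 : j = 0
  · subst h0
    exact ⟨hP _, hQ _⟩
  · have hj : ((j.val : ℕ) : ZMod (3 * (a + 2 * m))) = j := ZMod.natCast_zmod_val j
    have h1 : 1 ≤ j.val := by
      rcases Nat.eq_zero_or_pos j.val with h2 | h2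
      · exact absurd ((ZMod.val_eq_zero j).1 h2) h0
      · exact h2
    have h2 : j.val < 3 * (a + 2 * m) := ZMod.val_lt j
    have ho' : occX (a + 2 * m) j.val σ := by
      rw [← xocc_iff ha hOK m h2, hj]; exact ho
    have hb : 2 ≤ a + 2 * m := by omega
    have hr : Rich (a + 2 * m) (occX (a + 2 * m)) := Rich_occX hb (hOK _ (Nat.le_add_right _ _))
    have := agree_corner (a := a + 2 * m) (by omega) hr (Tame_occX hb) (VC_of_VCz ha hOK m h)
      (VC_of_VCz ha hOK m h') (Normal_of_Normalz m hn) (Normal_of_Normalz m hn')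
      (fun lam _ => by simpa using hP lam) j.val h1 h2 σ ho'
    obtain ⟨g1, _, g3, _⟩ := this
    simp only [hj] at g1 g3
    exact ⟨g1, g3⟩

/-- (VC) is invariant under toggles -/
theorem togglez_VCz {a : ℕ} (hOK : AllOK a) (m : ℕ)
    {sP sQ : ZMod (3 * (a + 2 * m)) → Label → ZMod 2} (h : VCz hOK m sP sQ)
    (t : ZMod (3 * (a + 2 * m)) → ZMod 2) : VCz hOK m sP (togglez t sQ) := by
  intro j σ ho
  have aux : ∀ x y z w u v : ZMod 2, x + y + z + w = 0 →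
      x + y + (z + u + v) + (w + u + v) = 0 := by decide
  exact aux _ _ _ _ _ _ (h j σ ho)

/-- toggles normalise -/
theorem exists_normalz (a m : ℕ) (ha : 1 ≤ a) (sQ : ZMod (3 * (a + 2 * m)) → Label → ZMod 2) :
    ∃ t : ZMod (3 * (a + 2 * m)) → ZMod 2, t (-1) = 0 ∧ Normalz a m (togglez t sQ) := by
  have : NeZero (3 * (a + 2 * m)) := ⟨by omega⟩
  obtain ⟨t, h0, ht⟩ := exists_toggle (3 * (a + 2 * m))
    (fun j => sQ (j : ZMod _) (qLab (a + 2 * m) j 0))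
  have hv : ∀ j : ZMod (3 * (a + 2 * m)), ((j.val : ℕ) : ZMod (3 * (a + 2 * m))) = j :=
    fun j => ZMod.natCast_zmod_val j
  refine ⟨fun j => t j.val, ?_, ?_⟩
  · have : (-1 : ZMod (3 * (a + 2 * m))).val = 3 * (a + 2 * m) - 1 := by
      obtain ⟨k, hk⟩ : ∃ k, 3 * (a + 2 * m) = k + 1 := ⟨3 * (a + 2 * m) - 1, by omega⟩
      rw [hk]
      exact ZMod.val_neg_one k
    show t (-1 : ZMod (3 * (a + 2 * m))).val = 0
    rw [this]; exact h0
  · intro j hj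
    have h1 : 1 ≤ j.val := by
      rcases Nat.eq_zero_or_pos j.val with h2 | h2
      · exact absurd ((ZMod.val_eq_zero j).1 h2) hj
      · exact h2
    have h2 : j.val < 3 * (a + 2 * m) := ZMod.val_lt j
    have h3 := ht j.val h1 h2
    simp only [hv] at h3
    have h4 : (j - 1).val = j.val - 1 := by
      have e1 : j - 1 = ((j.val - 1 : ℕ) : ZMod (3 * (a + 2 * m))) := by
        rw [Nat.cast_sub h1, hv]; simp
      rw [e1, ZMod.val_natCast_of_lt (by omega)]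
    show sQ j (qLab (a + 2 * m) j.val 0) + t j.val + t (j - 1).val = 0
    rw [h4]
    exact h3

end

end Crest.Agent.R189
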