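import Crest.Agent.R189.KCtx
import Crest.Agent.R189.XLev

/-!
# Row 189, part F (kernel), M1: the count (helper260)

* `VCL L a b`: the vertex relation at all corners of the level `L`.
* `Count L`: a normalisation of the right signs by toggles, such that a normalised solution of the
  vertex relation is determined by row `0` at the occurring indices.
* `countX : Count (xLev ..)`.
* `Ctx.card_le_aux`: at most `|(Lab → ZMod 2)²|` kernel elements are represented.
-/

set_option autoImplicit false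
set_option linter.unusedSectionVars false

namespace Crest.Agent.R189.K

open Equiv Equiv.Perm

variable {X Lab Sta C T : Type*} [AddAction (ℤ × ℤ) X] [Fintype C] [DecidableEq C] [Group T]

/-- the vertex relation at all corners -/
def VCL (L : Lev X Lab Sta) (a b : ZMod L.n × Lab → ZMod 2) : Prop :=
  ∀ x ∈ L.D, a (L.dig x, L.sPf (L.st x)) + a (L.dig x - 1, L.sPb (L.st x)) +
    b (L.dig x, L.sQf (L.st x)) + b (L.dig x, L.lft (L.dig x) (L.st x)) = 0

/-- counting data of a level -/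
structure Count (L : Lev X Lab Sta) where
  Nrm : (ZMod L.n × Lab → ZMod 2) → Prop
  ex : ∀ b : ZMod L.n × Lab → ZMod 2, ∃ t : ZMod L.n → ZMod 2,
    Nrm (fun i => b i + t i.1 + t (i.1 - 1))
  inj : ∀ a b a' b' : ZMod L.n × Lab → ZMod 2, VCL L a b → VCL L a' b' → Nrm b → Nrm b' →
    (∀ l, a (0, l) = a' (0, l)) → (∀ l, b (0, l) = b' (0, l)) →
    (∀ x ∈ L.D, a (L.kP x) = a' (L.kP x)) ∧ (∀ x ∈ L.D, b (L.kQ x) = b' (L.kQ x))

/-- the counting data of the concrete levels -/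
def countX {a : ℕ} (ha : 3 ≤ a) (hOK : AllOK a) (m : ℕ) : Count (xLev ha hOK m) where
  Nrm b := Normalz a m (fun j l => b (j, l))
  ex b := by
    obtain ⟨t, _, ht⟩ := exists_normalz a m (by omega) (fun j l => b (j, l))
    exact ⟨t, ht⟩
  inj sP sQ sP' sQ' h h' hn hn' hP hQ := by
    have key : ∀ u v : ZMod (3 * (a + 2 * m)) × Label → ZMod 2, VCL (xLev ha hOK m) u v →
        VCz hOK m (fun j l => u (j, l)) (fun j l => v (j, l)) := by
      rintro u v h j σ ⟨x, hx, hd, hs⟩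
      have h1 := h x hx
      rw [← hd, ← hs]
      exact h1
    have := agreez ha hOK m (key _ _ h) (key _ _ h') hn hn' hP hQ
    refine ⟨fun x hx => ?_, fun x hx => ?_⟩
    · exact (this _ _ ⟨x, hx, rfl, rfl⟩).1
    · exact (this _ _ ⟨x, hx, rfl, rfl⟩).2

variable {L : Lev X Lab Sta} {q : T →* Equiv.Perm (X × C)}

/-- **K7**: the count of represented elements, from R2 - R5 -/
theorem Ctx.card_le_aux (M : Ctx L C q) [Finite Lab] (N : Count L) (K : Set T)
    (hK : ∀ w ∈ K, ∃ a b, M.Rep w a b)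
    (R2 : ∀ w ∈ K, ∀ (a b : ZMod L.n × Lab → ZMod 2), M.Rep w a b → ∀ t : ZMod L.n → ZMod 2,
      M.Rep w a (fun i => b i + t i.1 + t (i.1 - 1)))
    (R4 : ∀ w ∈ K, ∀ (a b : ZMod L.n × Lab → ZMod 2), M.Rep w a b → VCL L a b)
    (R3 : ∀ w ∈ K, ∀ w' ∈ K, ∀ (a b : ZMod L.n × Lab → ZMod 2), M.Rep w a b → M.Rep w' a b →
      w = w')
    (R5 : ∀ w ∈ K, ∀ (a b a' b' : ZMod L.n × Lab → ZMod 2), M.Rep w a b →
      (∀ x ∈ L.D, a (L.kP x) = a' (L.kP x)) → (∀ x ∈ L.D, b (L.kQ x) = b' (L.kQ x)) →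
      M.Rep w a' b') :
    K.Finite ∧ K.ncard ≤ Nat.card ((Lab → ZMod 2) × (Lab → ZMod 2)) := by
  have h1 : ∀ w : K, ∃ ab : (ZMod L.n × Lab → ZMod 2) × (ZMod L.n × Lab → ZMod 2),
      M.Rep w.1 ab.1 ab.2 ∧ N.Nrm ab.2 := by
    rintro ⟨w, hw⟩
    obtain ⟨a, b, h⟩ := hK w hw
    obtain ⟨t, ht⟩ := N.ex b
    exact ⟨(a, _), R2 w hw a b h t, ht⟩
  choose f hf hN using h1
  have hinj : Function.Injective (fun w : K =>
      ((fun l => (f w).1 (0, l), fun l => (f w).2 (0, l)) : (Lab → ZMod 2) × (Lab → ZMod 2))) := by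
    intro w w' he
    simp only [Prod.mk.injEq] at he
    obtain ⟨g1, g2⟩ := N.inj _ _ _ _ (R4 _ w.2 _ _ (hf w)) (R4 _ w'.2 _ _ (hf w')) (hN w) (hN w')
      (fun l => congrFun he.1 l) (fun l => congrFun he.2 l)
    have h2 := R5 _ w.2 _ _ _ _ (hf w) g1 g2
    exact Subtype.ext (R3 _ w.2 _ w'.2 _ _ h2 (hf w'))
  have : Finite K := Finite.of_injective _ hinj
  exact ⟨Set.toFinite K, Nat.card_le_card_of_injective _ hinj⟩

end Crest.Agent.R189.K
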