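import Crest.Agent.R189.KWord2
import Crest.Agent.R189.KFin

/-!
# Row 189, part F: the kernel is finitely generated, given the count (helper834)
-/

set_option autoImplicit false
set_option linter.unusedSectionVars false

namespace Crest.Agent.R189.K

open Equiv Equiv.Perm Filter

variable {X Lab Sta A T C : Type*} [AddAction (ℤ × ℤ) X] [Fintype C] [DecidableEq C]
  [Group T]
variable {q : T →* Equiv.Perm (X × C)} [Finite Lab] [Finite Sta]

/-- the kernel of `q` is finitely generated -/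
theorem kernel_fg_of_count {letter : X → A} (G : GenSys q letter)
    (hK : q.ker ≤ Subgroup.center T) (L : ℕ → Lev X Lab Sta)
    (LL : ∀ k, LevLet (L k) letter) (SF : ∀ k, SecSys (L k) C q (L k).dig)
    (SP : ∀ k, SecSys (L k) C q (L k).kP) (SQ : ∀ k, SecSys (L k) C q (L k).kQ)
    (SV : ∀ k, SecSys (L k) C q (L k).kV) {c0 c1 : C} (hc : c0 ≠ c1)
    (hw : Tendsto (fun k => (L k).w) atTop atTop) (hh : Tendsto (fun k => (L k).h) atTop atTop)
    (hD : ∀ k, (L k).D.Nonempty) (N : ℕ)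
    (hcnt : ∀ k (M0 : Ctx (L k) C q) (K : Set T),
      (∀ w ∈ K, q w = 1 ∧ ∃ a b, M0.Rep w a b) → K.ncard ≤ N) : Group.FG q.ker := by
  let R := (q.comp G.tau).ker
  let p : R →* q.ker := (G.tau.comp R.subtype).codRestrict q.ker (fun x => by
    have := x.2
    rw [MonoidHom.mem_ker] at this ⊢
    exact this)
  have hp : Function.Surjective p := by
    rintro ⟨w, hw⟩
    obtain ⟨x, hx⟩ := G.tau_surj w
    refine ⟨⟨x, ?_⟩, ?_⟩
    · rw [MonoidHom.mem_ker, MonoidHom.comp_apply, hx]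
      exact hw
    · apply Subtype.ext
      exact hx
  have hR : ∀ x : R, q (G.tau x.1) = 1 := fun x => x.2
  refine KFin.fg_of_flux p hp (fun k x => G.circ L LL k x.1) ?_ ?_ N ?_
  · intro x
    exact G.circ_bdd hK L LL SF SP SQ SV hc hw hh hD x.1 (hR x)
  · intro x y
    exact G.circ_add hK L LL SF SP SQ SV hc hw hh hD x.1 y.1 (hR x) (hR y)
  · intro S hS
    have h1 := G.circ_rep hK L LL SF SP SQ SV hc hw hh hD (Subtype.val '' S) (hS.image _)
      (by rintro _ ⟨x, _, rfl⟩; exact hR x)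
    filter_upwards [h1] with k hk hz
    obtain ⟨M0, hM0⟩ := hk (by rintro _ ⟨x, hx, rfl⟩; exact hz x hx)
    have h2 := hcnt k M0 (Subtype.val '' (p '' S)) ?_
    · rwa [Set.ncard_image_of_injective _ Subtype.val_injective] at h2
    · rintro _ ⟨_, ⟨x, hx, rfl⟩, rfl⟩
      exact ⟨hR x, hM0 x.1 ⟨x, hx, rfl⟩⟩

/-- finite presentability of the image -/
theorem kernel_fp_of_count {letter : X → A} (G : GenSys q letter)
    [Group.IsFinitelyPresented T] {G' : Type*} [Group G'] (q' : T →* G')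
    (hq' : Function.Surjective q') (hker : q'.ker = q.ker)
    (hK : q.ker ≤ Subgroup.center T) (L : ℕ → Lev X Lab Sta)
    (LL : ∀ k, LevLet (L k) letter) (SF : ∀ k, SecSys (L k) C q (L k).dig)
    (SP : ∀ k, SecSys (L k) C q (L k).kP) (SQ : ∀ k, SecSys (L k) C q (L k).kQ)
    (SV : ∀ k, SecSys (L k) C q (L k).kV) {c0 c1 : C} (hc : c0 ≠ c1)
    (hw : Tendsto (fun k => (L k).w) atTop atTop) (hh : Tendsto (fun k => (L k).h) atTop atTop)
    (hD : ∀ k, (L k).D.Nonempty) (N : ℕ)
    (hcnt : ∀ k (M0 : Ctx (L k) C q) (K : Set T),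
      (∀ w ∈ K, q w = 1 ∧ ∃ a b, M0.Rep w a b) → K.ncard ≤ N) :
    Group.IsFinitelyPresented G' := by
  have h1 : Group.FG q'.ker := by
    rw [hker]
    exact kernel_fg_of_count G hK L LL SF SP SQ SV hc hw hh hD N hcnt
  exact Group.IsFinitelyPresented.of_surjective q' hq'
    (Subgroup.IsFinitelyNormallyGenerated.of_FG q'.ker)

end Crest.Agent.R189.K
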