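import Crest.Agent.R189.KDefs
import Crest.Agent.R189.KFlux

/-!
# Row 189, part F: local relations of the decomposition (helper834)

From `F f * P eP * Q eQ * V v = 1` in `Perm (X × C)`: the face permutations `f j` are trivial in
the middle of the cell, the edge permutations are `(f j)⁻¹` (resp. its translate from the other
side of the line) on the middle part of the edges, hence `(f j)⁻¹` is annular and the circulation
is the same for all faces.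
-/

set_option autoImplicit false
set_option linter.unusedSectionVars false

namespace Crest.Agent.R189.K

open Finset

/-- corner window `[-t,t)²` -/
noncomputable def WV (t : ℤ) : Finset (ℤ × ℤ) := Finset.Ico (-t) t ×ˢ Finset.Ico (-t) t

lemma mem_WV {t : ℤ} {u : ℤ × ℤ} :
    u ∈ WV t ↔ (-t ≤ u.1 ∧ u.1 < t) ∧ (-t ≤ u.2 ∧ u.2 < t) := by
  simp [WV, Finset.mem_product, Finset.mem_Ico]

lemma not_dvd_of {a b : ℤ} (h1 : 0 < b) (h2 : b < a) : ¬ a ∣ b := by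
  intro h
  have := Int.le_of_dvd h1 h
  omega

namespace Lev

variable {X Lab Sta C : Type*} [AddAction (ℤ × ℤ) X] (L : Lev X Lab Sta)

/-- the cell `[0,w) × [0,h)` -/
noncomputable def WF : Finset (ℤ × ℤ) := Finset.Ico 0 L.w ×ˢ Finset.Ico 0 L.h

/-- the window of a `P` edge -/
noncomputable def WP (s t0 : ℤ) : Finset (ℤ × ℤ) := Finset.Ico (-s) s ×ˢ Finset.Ico t0 (L.h - t0)

/-- the window of a `Q` edge -/
noncomputable def WQ (s t0 : ℤ) : Finset (ℤ × ℤ) := Finset.Ico t0 (L.w - t0) ×ˢ Finset.Ico (-s) s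

variable {L}

lemma mem_WF {u : ℤ × ℤ} :
    u ∈ L.WF ↔ (0 ≤ u.1 ∧ u.1 < L.w) ∧ (0 ≤ u.2 ∧ u.2 < L.h) := by
  simp [WF, Finset.mem_product, Finset.mem_Ico]

lemma mem_WP {s t0 : ℤ} {u : ℤ × ℤ} :
    u ∈ L.WP s t0 ↔ (-s ≤ u.1 ∧ u.1 < s) ∧ (t0 ≤ u.2 ∧ u.2 < L.h - t0) := by
  simp [WP, Finset.mem_product, Finset.mem_Ico]

lemma mem_WQ {s t0 : ℤ} {u : ℤ × ℤ} :
    u ∈ L.WQ s t0 ↔ (t0 ≤ u.1 ∧ u.1 < L.w - t0) ∧ (-s ≤ u.2 ∧ u.2 < s) := by
  simp [WQ, Finset.mem_product, Finset.mem_Ico]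

/-- a criterion for `Dist`: the window has width `≤ w` and height `≤ h` -/
lemma dist_of {W : Finset (ℤ × ℤ)} {a b : ℤ}
    (h1 : ∀ v ∈ W, a ≤ v.1 ∧ v.1 < a + L.w) (h2 : ∀ v ∈ W, b ≤ v.2 ∧ v.2 < b + L.h) :
    L.Dist W := by
  have key : ∀ (m x y c : ℤ), c ≤ x → x < c + m → c ≤ y → y < c + m → m ∣ x - y → x = y := by
    intro m x y c g1 g2 g3 g4 g5
    rcases lt_trichotomy (x - y) 0 with h | h | h
    · exfalso
      exact not_dvd_of (a := m) (b := y - x) (by omega) (by omega)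
        (by rw [← neg_sub]; exact (dvd_neg).2 g5)
    · omega
    · exfalso
      exact not_dvd_of (a := m) (b := x - y) h (by omega) g5
  intro v hv v' hv' g1 g2
  ext
  · exact key L.w v.1 v'.1 a (h1 v hv).1 (h1 v hv).2 (h1 v' hv').1 (h1 v' hv').2 g1
  · exact key L.h v.2 v'.2 b (h2 v hv).1 (h2 v hv).2 (h2 v' hv').1 (h2 v' hv').2 g2

lemma dist_WF : L.Dist L.WF := by
  apply dist_of (a := 0) (b := 0)
  · intro v hv; rw [mem_WF] at hv; omega
  · intro v hv; rw [mem_WF] at hv; omega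

lemma dist_WP {s t0 : ℤ} (hs : 2 * s ≤ L.w) (ht : 0 ≤ t0) : L.Dist (L.WP s t0) := by
  apply dist_of (a := -s) (b := 0)
  · intro v hv; rw [mem_WP] at hv; omega
  · intro v hv; rw [mem_WP] at hv; omega

lemma dist_WQ {s t0 : ℤ} (hs : 2 * s ≤ L.h) (ht : 0 ≤ t0) : L.Dist (L.WQ s t0) := by
  apply dist_of (a := 0) (b := -s)
  · intro v hv; rw [mem_WQ] at hv; omega
  · intro v hv; rw [mem_WQ] at hv; omega

lemma dist_WV {t : ℤ} (h1 : 2 * t ≤ L.w) (h2 : 2 * t ≤ L.h) : L.Dist (WV t) := by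
  apply dist_of (a := -t) (b := -t)
  · intro v hv; rw [mem_WV] at hv; omega
  · intro v hv; rw [mem_WV] at hv; omega

lemma free_iff (L : Lev X Lab Sta) {x : X} {u v : ℤ × ℤ} : u +ᵥ x = v +ᵥ x ↔ u = v := by
  constructor
  · intro h
    have := L.free (u - v) (v +ᵥ x) (by rw [vadd_vadd, sub_add_cancel, h])
    exact sub_eq_zero.1 this
  · rintro rfl; rfl

lemma mem_D_add {x : X} (hx : x ∈ L.D) {v : ℤ × ℤ} (h1 : L.w ∣ v.1) (h2 : L.h ∣ v.2) :
    v +ᵥ x ∈ L.D := (L.D_iff x hx v).2 ⟨h1, h2⟩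

/-- left neighbour of a corner -/
lemma left_mem {x : X} (hx : x ∈ L.D) : ((-L.w, 0) : ℤ × ℤ) +ᵥ x ∈ L.D :=
  mem_D_add hx (by simp) (by simp)

lemma right_mem {x : X} (hx : x ∈ L.D) : ((L.w, 0) : ℤ × ℤ) +ᵥ x ∈ L.D :=
  mem_D_add hx (by simp) (by simp)

lemma down_mem {x : X} (hx : x ∈ L.D) : ((0, -L.h) : ℤ × ℤ) +ᵥ x ∈ L.D :=
  mem_D_add hx (by simp) (by simp)

lemma up_mem {x : X} (hx : x ∈ L.D) : ((0, L.h) : ℤ × ℤ) +ᵥ x ∈ L.D :=
  mem_D_add hx (by simp) (by simp)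

lemma dig_left {x : X} (hx : x ∈ L.D) : L.dig (((-L.w, 0) : ℤ × ℤ) +ᵥ x) = L.dig x := by
  have h := L.dig_q _ (left_mem hx)
  rw [vadd_vadd] at h
  have e : ((L.w, 0) + (-L.w, 0) : ℤ × ℤ) = 0 := by simp
  rw [e, zero_vadd] at h
  exact h.symm

lemma dig_down {x : X} (hx : x ∈ L.D) : L.dig (((0, -L.h) : ℤ × ℤ) +ᵥ x) = L.dig x - 1 := by
  have h := L.dig_p _ (down_mem hx)
  rw [vadd_vadd] at h
  have e : ((0, L.h) + (0, -L.h) : ℤ × ℤ) = 0 := by simp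
  rw [e, zero_vadd] at h
  rw [h]; ring

section

variable [Fintype C] [DecidableEq C] {ι : Type*}

/-- the family does not move a point whose position is not in the window modulo the lattice -/
lemma real_off {W : Finset (ℤ × ℤ)} (hc : Cell L.D W) (κ : X → ι) (z : ι → PermOn (win C W))
    {x : X} (hx : x ∈ L.D) {u : ℤ × ℤ} (h : ∀ v ∈ W, ¬ (L.w ∣ u.1 - v.1 ∧ L.h ∣ u.2 - v.2))
    (c : C) : realFam hc κ z (u +ᵥ x, c) = (u +ᵥ x, c) := by
  apply realFam_off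
  intro v hv hm
  apply h v hv
  have h1 : -v +ᵥ (u +ᵥ x) = (u - v) +ᵥ x := by rw [vadd_vadd, neg_add_eq_sub]
  rw [h1] at hm
  exact (L.D_iff x hx _).1 hm

variable {s t0 t : ℤ}

/-- value of a cell family -/
lemma face_apply (f : ZMod L.n → PermOn (win C L.WF)) {x : X} (hx : x ∈ L.D) {u : ℤ × ℤ}
    (hu : u ∈ L.WF) (c : C) :
    realFam (dist_WF (L := L)).cell L.dig f (u +ᵥ x, c) =
      (((f (L.dig x) : Equiv.Perm (Om C)) (u, c)).1 +ᵥ x,
        ((f (L.dig x) : Equiv.Perm (Om C)) (u, c)).2) :=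
  realFam_apply _ _ _ hu hx c

lemma face_mem (f : ZMod L.n → PermOn (win C L.WF)) (j : ZMod L.n) {u : ℤ × ℤ}
    (hu : u ∈ L.WF) (c : C) : ((f j : Equiv.Perm (Om C)) (u, c)).1 ∈ L.WF := by
  have h1 := (on_mem_iff (f j).2 (u, c)).2 (by simpa using hu)
  simpa using h1

/-- The decomposition hypothesis. -/
structure Dec (L : Lev X Lab Sta) (C : Type*) [Fintype C] [DecidableEq C] (s t0 t : ℤ) where
  f : ZMod L.n → PermOn (win C L.WF)
  eP : ZMod L.n × Lab → PermOn (win C (L.WP s t0))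
  eQ : ZMod L.n × Lab → PermOn (win C (L.WQ s t0))
  v : ZMod L.n × Sta → PermOn (win C (WV t))
  s_pos : 0 < s
  s_le : s ≤ t0
  t0_le : t0 ≤ t
  w_le : 2 * t ≤ L.w
  h_le : 2 * t ≤ L.h
  dP : L.Dist (L.WP s t0)
  dQ : L.Dist (L.WQ s t0)
  dV : L.Dist (WV t)
  one : realFam (dist_WF (L := L)).cell L.dig f *
      realFam dP.cell (fun x => (L.dig x, L.Pf x)) eP *
      realFam dQ.cell (fun x => (L.dig x, L.Qf x)) eQ *
      realFam dV.cell (fun x => (L.dig x, L.st x)) v = 1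

namespace Dec

variable (d : Dec L C s t0 t)

/-- evaluation of the identity at a point -/
lemma eval (p : X × C) :
    realFam (dist_WF (L := L)).cell L.dig d.f
      (realFam d.dP.cell (fun x => (L.dig x, L.Pf x)) d.eP
        (realFam d.dQ.cell (fun x => (L.dig x, L.Qf x)) d.eQ
          (realFam d.dV.cell (fun x => (L.dig x, L.st x)) d.v p))) = p := by
  have := congrArg (fun g : Equiv.Perm (X × C) => g p) d.one
  simpa using this

lemma offV {x : X} (hx : x ∈ L.D) {u : ℤ × ℤ} (c : C)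
    (h : (t ≤ u.1 ∧ u.1 < L.w - t) ∨ (t ≤ u.2 ∧ u.2 < L.h - t)) :
    realFam d.dV.cell (fun x => (L.dig x, L.st x)) d.v (u +ᵥ x, c) = (u +ᵥ x, c) := by
  apply real_off _ _ _ hx
  rintro v hv ⟨h1, h2⟩
  rw [mem_WV] at hv
  rcases h with h | h
  · exact not_dvd_of (a := L.w) (b := u.1 - v.1) (by omega) (by omega) h1
  · exact not_dvd_of (a := L.h) (b := u.2 - v.2) (by omega) (by omega) h2

lemma offQ {x : X} (hx : x ∈ L.D) {u : ℤ × ℤ} (c : C) (h : s ≤ u.2 ∧ u.2 < L.h - s) :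
    realFam d.dQ.cell (fun x => (L.dig x, L.Qf x)) d.eQ (u +ᵥ x, c) = (u +ᵥ x, c) := by
  apply real_off _ _ _ hx
  rintro v hv ⟨h1, h2⟩
  rw [mem_WQ] at hv
  exact not_dvd_of (a := L.h) (b := u.2 - v.2) (by omega) (by omega) h2

lemma offP {x : X} (hx : x ∈ L.D) {u : ℤ × ℤ} (c : C) (h : s ≤ u.1 ∧ u.1 < L.w - s) :
    realFam d.dP.cell (fun x => (L.dig x, L.Pf x)) d.eP (u +ᵥ x, c) = (u +ᵥ x, c) := by
  apply real_off _ _ _ hx
  rintro v hv ⟨h1, h2⟩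
  rw [mem_WP] at hv
  exact not_dvd_of (a := L.w) (b := u.1 - v.1) (by omega) (by omega) h1

/-- the face permutations are trivial in the middle -/
theorem mid {x : X} (hx : x ∈ L.D) {u : ℤ × ℤ} (c : C)
    (h : (t ≤ u.1 ∧ u.1 < L.w - t ∧ s ≤ u.2 ∧ u.2 < L.h - s) ∨
      (t ≤ u.2 ∧ u.2 < L.h - t ∧ s ≤ u.1 ∧ u.1 < L.w - s)) :
    (d.f (L.dig x) : Equiv.Perm (Om C)) (u, c) = (u, c) := by
  have hs := d.s_pos
  have h1 := d.s_le
  have h2 := d.t0_le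
  have hu : u ∈ L.WF := by rw [mem_WF]; omega
  have e := d.eval (u +ᵥ x, c)
  rw [d.offV hx c (by omega), d.offQ hx c (by omega), d.offP hx c (by omega),
    face_apply _ hx hu] at e
  rw [Prod.ext_iff] at e
  rw [Prod.ext_iff]
  exact ⟨(free_iff L).1 e.1, e.2⟩

/-- auxiliary: the face family maps `(u' + x, c')` to `(u + x, c)` -/
lemma face_solve (f : ZMod L.n → PermOn (win C L.WF)) {x : X} (hx : x ∈ L.D) {u u' : ℤ × ℤ}
    {c c' : C} (hu' : u' ∈ L.WF)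
    (e : realFam (dist_WF (L := L)).cell L.dig f (u' +ᵥ x, c') = (u +ᵥ x, c)) :
    u ∈ L.WF ∧ (f (L.dig x) : Equiv.Perm (Om C)) (u', c') = (u, c) := by
  rw [face_apply _ hx hu', Prod.ext_iff] at e
  have e1 := (free_iff L).1 e.1
  refine ⟨?_, Prod.ext e1 e.2⟩
  rw [← e1]
  exact face_mem f _ hu' _

lemma winP_mem (j : ZMod L.n × Lab) {u : ℤ × ℤ} (hu : u ∈ L.WP s t0) (c : C) :
    ((d.eP j : Equiv.Perm (Om C)) (u, c)).1 ∈ L.WP s t0 := by
  have h1 := (on_mem_iff (d.eP j).2 (u, c)).2 (by simpa using hu)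
  simpa using h1

lemma winQ_mem (j : ZMod L.n × Lab) {u : ℤ × ℤ} (hu : u ∈ L.WQ s t0) (c : C) :
    ((d.eQ j : Equiv.Perm (Om C)) (u, c)).1 ∈ L.WQ s t0 := by
  have h1 := (on_mem_iff (d.eQ j).2 (u, c)).2 (by simpa using hu)
  simpa using h1

/-- right half of a `P` edge -/
theorem P1 {x : X} (hx : x ∈ L.D) {u : ℤ × ℤ} (c : C)
    (h1 : 0 ≤ u.1) (h2 : u.1 < s) (h3 : t ≤ u.2) (h4 : u.2 < L.h - t) :
    (d.eP (L.dig x, L.Pf x) : Equiv.Perm (Om C)) (u, c) =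
      (d.f (L.dig x) : Equiv.Perm (Om C))⁻¹ (u, c) := by
  have hs := d.s_pos
  have g1 := d.s_le
  have g2 := d.t0_le
  have g3 := d.w_le
  have g4 := d.h_le
  have huP : u ∈ L.WP s t0 := by rw [mem_WP]; omega
  have e := d.eval (u +ᵥ x, c)
  rw [d.offV hx c (by omega), d.offQ hx c (by omega), realFam_apply _ _ _ huP hx] at e
  have hm := mem_WP.1 (d.winP_mem (L.dig x, L.Pf x) huP c)
  generalize (d.eP (L.dig x, L.Pf x) : Equiv.Perm (Om C)) (u, c) = r at e hm ⊢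
  obtain ⟨u', c'⟩ := r
  simp only at e hm
  by_cases hneg : u'.1 < 0
  · exfalso
    have e2 : u' +ᵥ x = (u' + (L.w, 0)) +ᵥ (((-L.w, 0) : ℤ × ℤ) +ᵥ x) := by
      rw [vadd_vadd]; congr 1; ext <;> simp
    have e3 : u +ᵥ x = (u + (L.w, 0)) +ᵥ (((-L.w, 0) : ℤ × ℤ) +ᵥ x) := by
      rw [vadd_vadd]; congr 1; ext <;> simp
    rw [e2, e3] at e
    have h5 := (face_solve d.f (left_mem hx) (by rw [mem_WF]; simp; omega) e).1
    rw [mem_WF] at h5
    simp at h5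
    omega
  · have h5 := (face_solve d.f hx (by rw [mem_WF]; omega) e).2
    rw [eq_comm, Equiv.Perm.inv_eq_iff_eq]
    exact h5.symm

/-- left half of a `P` edge -/
theorem P2 {x : X} (hx : x ∈ L.D) {u : ℤ × ℤ} (c : C)
    (h1 : -s ≤ u.1) (h2 : u.1 < 0) (h3 : t ≤ u.2) (h4 : u.2 < L.h - t) :
    (d.eP (L.dig x, L.Pf x) : Equiv.Perm (Om C)) (u, c) =
      sh (-L.w, 0) (d.f (L.dig x) : Equiv.Perm (Om C))⁻¹ (u, c) := by
  have hs := d.s_pos
  have g1 := d.s_le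
  have g2 := d.t0_le
  have g3 := d.w_le
  have g4 := d.h_le
  have huP : u ∈ L.WP s t0 := by rw [mem_WP]; omega
  have e := d.eval (u +ᵥ x, c)
  rw [d.offV hx c (by omega), d.offQ hx c (by omega), realFam_apply _ _ _ huP hx] at e
  have hm := mem_WP.1 (d.winP_mem (L.dig x, L.Pf x) huP c)
  generalize (d.eP (L.dig x, L.Pf x) : Equiv.Perm (Om C)) (u, c) = r at e hm ⊢
  obtain ⟨u', c'⟩ := r
  simp only at e hm
  by_cases hneg : u'.1 < 0
  · have e2 : u' +ᵥ x = (u' + (L.w, 0)) +ᵥ (((-L.w, 0) : ℤ × ℤ) +ᵥ x) := by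
      rw [vadd_vadd]; congr 1; ext <;> simp
    have e3 : u +ᵥ x = (u + (L.w, 0)) +ᵥ (((-L.w, 0) : ℤ × ℤ) +ᵥ x) := by
      rw [vadd_vadd]; congr 1; ext <;> simp
    rw [e2, e3] at e
    have h5 := (face_solve d.f (left_mem hx) (by rw [mem_WF]; simp; omega) e).2
    rw [dig_left hx] at h5
    have h6 : (d.f (L.dig x) : Equiv.Perm (Om C))⁻¹ (u + (L.w, 0), c) = (u' + (L.w, 0), c') := by
      rw [Equiv.Perm.inv_eq_iff_eq]; exact h5.symm
    rw [sh_apply]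
    have h7 : ((u, c).1 - (-L.w, 0), (u, c).2) = (u + (L.w, 0), c) := by
      ext <;> simp
    rw [h7, h6]
    ext <;> simp
  · exfalso
    have h5 := (face_solve d.f hx (by rw [mem_WF]; omega) e).1
    rw [mem_WF] at h5
    omega

/-- upper half of a `Q` edge -/
theorem Q1 {x : X} (hx : x ∈ L.D) {u : ℤ × ℤ} (c : C)
    (h1 : 0 ≤ u.2) (h2 : u.2 < s) (h3 : t ≤ u.1) (h4 : u.1 < L.w - t) :
    (d.eQ (L.dig x, L.Qf x) : Equiv.Perm (Om C)) (u, c) =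
      (d.f (L.dig x) : Equiv.Perm (Om C))⁻¹ (u, c) := by
  have hs := d.s_pos
  have g1 := d.s_le
  have g2 := d.t0_le
  have g3 := d.w_le
  have g4 := d.h_le
  have huQ : u ∈ L.WQ s t0 := by rw [mem_WQ]; omega
  have e := d.eval (u +ᵥ x, c)
  rw [d.offV hx c (by omega), realFam_apply _ _ _ huQ hx] at e
  have hm := mem_WQ.1 (d.winQ_mem (L.dig x, L.Qf x) huQ c)
  generalize (d.eQ (L.dig x, L.Qf x) : Equiv.Perm (Om C)) (u, c) = r at e hm ⊢
  obtain ⟨u', c'⟩ := r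
  simp only at e hm
  rw [d.offP hx c' (by omega)] at e
  by_cases hneg : u'.2 < 0
  · exfalso
    have e2 : u' +ᵥ x = (u' + (0, L.h)) +ᵥ (((0, -L.h) : ℤ × ℤ) +ᵥ x) := by
      rw [vadd_vadd]; congr 1; ext <;> simp
    have e3 : u +ᵥ x = (u + (0, L.h)) +ᵥ (((0, -L.h) : ℤ × ℤ) +ᵥ x) := by
      rw [vadd_vadd]; congr 1; ext <;> simp
    rw [e2, e3] at e
    have h5 := (face_solve d.f (down_mem hx) (by rw [mem_WF]; simp; omega) e).1
    rw [mem_WF] at h5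
    simp at h5
    omega
  · have h5 := (face_solve d.f hx (by rw [mem_WF]; omega) e).2
    rw [eq_comm, Equiv.Perm.inv_eq_iff_eq]
    exact h5.symm

/-- lower half of a `Q` edge -/
theorem Q2 {x : X} (hx : x ∈ L.D) {u : ℤ × ℤ} (c : C)
    (h1 : -s ≤ u.2) (h2 : u.2 < 0) (h3 : t ≤ u.1) (h4 : u.1 < L.w - t) :
    (d.eQ (L.dig x, L.Qf x) : Equiv.Perm (Om C)) (u, c) =
      sh (0, -L.h) (d.f (L.dig x - 1) : Equiv.Perm (Om C))⁻¹ (u, c) := by
  have hs := d.s_pos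
  have g1 := d.s_le
  have g2 := d.t0_le
  have g3 := d.w_le
  have g4 := d.h_le
  have huQ : u ∈ L.WQ s t0 := by rw [mem_WQ]; omega
  have e := d.eval (u +ᵥ x, c)
  rw [d.offV hx c (by omega), realFam_apply _ _ _ huQ hx] at e
  have hm := mem_WQ.1 (d.winQ_mem (L.dig x, L.Qf x) huQ c)
  generalize (d.eQ (L.dig x, L.Qf x) : Equiv.Perm (Om C)) (u, c) = r at e hm ⊢
  obtain ⟨u', c'⟩ := r
  simp only at e hm
  rw [d.offP hx c' (by omega)] at e
  by_cases hneg : u'.2 < 0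
  · have e2 : u' +ᵥ x = (u' + (0, L.h)) +ᵥ (((0, -L.h) : ℤ × ℤ) +ᵥ x) := by
      rw [vadd_vadd]; congr 1; ext <;> simp
    have e3 : u +ᵥ x = (u + (0, L.h)) +ᵥ (((0, -L.h) : ℤ × ℤ) +ᵥ x) := by
      rw [vadd_vadd]; congr 1; ext <;> simp
    rw [e2, e3] at e
    have h5 := (face_solve d.f (down_mem hx) (by rw [mem_WF]; simp; omega) e).2
    rw [dig_down hx] at h5
    have h6 : (d.f (L.dig x - 1) : Equiv.Perm (Om C))⁻¹ (u + (0, L.h), c) =
        (u' + (0, L.h), c') := by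
      rw [Equiv.Perm.inv_eq_iff_eq]; exact h5.symm
    rw [sh_apply]
    have h7 : ((u, c).1 - (0, -L.h), (u, c).2) = (u + (0, L.h), c) := by
      ext <;> simp
    rw [h7, h6]
    ext <;> simp
  · exfalso
    have h5 := (face_solve d.f hx (by rw [mem_WF]; omega) e).1
    rw [mem_WF] at h5
    omega

/-! ### circulation -/

open KFlux

/-- the inverse face permutation is annular -/
theorem ann {Dd : ℤ} {x : X} (hx : x ∈ L.D)
    (hd : ∀ z : Om C, |((d.f (L.dig x) : Equiv.Perm (Om C)) z).1.1 - z.1.1| ≤ Dd ∧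
      |((d.f (L.dig x) : Equiv.Perm (Om C)) z).1.2 - z.1.2| ≤ Dd) :
    Ann L.w L.h s t Dd (d.f (L.dig x) : Equiv.Perm (Om C))⁻¹ := by
  have hA : Ann L.w L.h s t Dd (d.f (L.dig x) : Equiv.Perm (Om C)) := by
    refine ⟨?_, fun z _ => (hd z).1, fun z _ => (hd z).2, ?_, ?_⟩
    · intro z hz
      rw [mem_bx] at hz ⊢
      have := face_mem d.f (L.dig x) (u := z.1) (by rw [mem_WF]; exact hz) z.2
      rw [mem_WF] at this
      exact this
    · intro z hz a b c' e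
      exact d.mid hx z.2 (u := z.1) (Or.inl ⟨a, b, c', e⟩)
    · intro z hz a b c' e
      exact d.mid hx z.2 (u := z.1) (Or.inr ⟨a, b, c', e⟩)
  exact hA.inv

/-- one step of the constancy of the circulation -/
theorem kap_step {Dd x0 y0 : ℤ} {x : X} (hx : x ∈ L.D)
    (hd : ∀ j, ∀ z : Om C, |((d.f j : Equiv.Perm (Om C)) z).1.1 - z.1.1| ≤ Dd ∧
      |((d.f j : Equiv.Perm (Om C)) z).1.2 - z.1.2| ≤ Dd)
    (hdQ : ∀ j, ∀ z : Om C, |((d.eQ j : Equiv.Perm (Om C)) z).1.1 - z.1.1| ≤ Dd)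
    (hm : Mid L.w L.h s t Dd x0 y0) :
    kap L.w s x0 ((d.f (L.dig x) : Equiv.Perm (Om C))⁻¹ : Equiv.Perm (Om C)) =
      kap L.w s x0 ((d.f (L.dig x - 1) : Equiv.Perm (Om C))⁻¹ : Equiv.Perm (Om C)) := by
  have hs := d.s_pos
  have g1 := d.s_le
  have g2 := d.t0_le
  have hA := d.ann hx (hd (L.dig x))
  have hA' : Ann L.w L.h s t Dd (d.f (L.dig x - 1) : Equiv.Perm (Om C))⁻¹ := by
    have := d.ann (down_mem hx) (hd _)
    rwa [dig_down hx] at this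
  refine edge_Q (e := (d.eQ (L.dig x, L.Qf x) : Equiv.Perm (Om C))) (t0 := t0) hA hA' hm
    (by omega) g2 ?_ (fun z _ => hdQ _ z) ?_ ?_
  · intro z hz
    rw [mem_bx] at hz ⊢
    have := d.winQ_mem (L.dig x, L.Qf x) (u := z.1) (by rw [mem_WQ]; exact hz) z.2
    rw [mem_WQ] at this
    exact this
  · intro z hz
    rw [mem_bx] at hz
    exact d.Q1 hx z.2 (u := z.1) hz.2.1 hz.2.2 hz.1.1 hz.1.2
  · intro z hz
    rw [mem_bx] at hz
    have := d.Q2 hx z.2 (u := z.1) hz.2.1 hz.2.2 hz.1.1 hz.1.2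
    rw [Prod.mk.eta] at this
    rw [this, sh_apply]
    simp only [KFlux.sh]
    have h7 : (z.1 - (0, -L.h), z.2) = ((z.1.1 + 0, z.1.2 + L.h), z.2) := by
      ext <;> simp
    rw [h7]
    ext <;> simp

/-- CONSTANCY: the circulation is the same for the digits `dig x` of all `x ∈ D` in a column -/
theorem kap_const {Dd x0 y0 : ℤ}
    (hd : ∀ j, ∀ z : Om C, |((d.f j : Equiv.Perm (Om C)) z).1.1 - z.1.1| ≤ Dd ∧
      |((d.f j : Equiv.Perm (Om C)) z).1.2 - z.1.2| ≤ Dd)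
    (hdQ : ∀ j, ∀ z : Om C, |((d.eQ j : Equiv.Perm (Om C)) z).1.1 - z.1.1| ≤ Dd)
    (hm : Mid L.w L.h s t Dd x0 y0) (hD : L.D.Nonempty) (j : ZMod L.n) :
    (∃ x ∈ L.D, L.dig x = j) ∧
    Ann L.w L.h s t Dd (d.f j : Equiv.Perm (Om C))⁻¹ ∧
    kap L.w s x0 ((d.f j : Equiv.Perm (Om C))⁻¹ : Equiv.Perm (Om C)) =
      kap L.w s x0 ((d.f 0 : Equiv.Perm (Om C))⁻¹ : Equiv.Perm (Om C)) := by
  have : NeZero L.n := ⟨L.n_pos.ne'⟩
  obtain ⟨x, hx⟩ := hD
  -- all digits occur, and the circulation is constant going down from `x`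
  have key : ∀ m : ℕ, ∃ y ∈ L.D, L.dig y = L.dig x - m ∧
      kap L.w s x0 ((d.f (L.dig y) : Equiv.Perm (Om C))⁻¹ : Equiv.Perm (Om C)) =
      kap L.w s x0 ((d.f (L.dig x) : Equiv.Perm (Om C))⁻¹ : Equiv.Perm (Om C)) := by
    intro m
    induction m with
    | zero => exact ⟨x, hx, by simp, rfl⟩
    | succ m ih =>
      obtain ⟨y, hy, h1, h2⟩ := ih
      refine ⟨_, down_mem hy, ?_, ?_⟩
      · rw [dig_down hy, h1]; push_cast; ring
      · rw [dig_down hy, ← d.kap_step hy hd hdQ hm, h2]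
  have key2 : ∀ i : ZMod L.n, ∃ y ∈ L.D, L.dig y = i ∧
      kap L.w s x0 ((d.f i : Equiv.Perm (Om C))⁻¹ : Equiv.Perm (Om C)) =
      kap L.w s x0 ((d.f (L.dig x) : Equiv.Perm (Om C))⁻¹ : Equiv.Perm (Om C)) := by
    intro i
    obtain ⟨y, hy, h1, h2⟩ := key (L.dig x - i).val
    rw [ZMod.natCast_zmod_val, sub_sub_cancel] at h1
    rw [h1] at h2
    exact ⟨y, hy, h1, h2⟩
  obtain ⟨y, hy, h1, h2⟩ := key2 j
  obtain ⟨y', hy', h1', h2'⟩ := key2 0
  refine ⟨⟨y, hy, h1⟩, ?_, h2.trans h2'.symm⟩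
  rw [← h1]
  exact d.ann hy (hd _)

end Dec

end

end Lev

end Crest.Agent.R189.K
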