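import Crest.Agent.R189.XGeo

/-!
Row 189 (S0289), helper869.  The window lemma: around a lattice point at which the level `2m+2`
star is `s`, the configuration looks like the configuration with corner star `s` around `(0,0)`.
-/

set_option autoImplicit false

namespace Crest.Agent.R189

theorem add_div_of_small {h : ℕ} (hh0 : 0 < h) (Y y : ℤ) :
    ((h : ℤ) * Y + y) / (h : ℤ) = Y + y / (h : ℤ) := by
  rw [add_comm, Int.add_mul_ediv_left _ _ (by exact_mod_cast hh0.ne')]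
  ring

theorem div_eq_neg_one {h : ℕ} {y : ℤ} (h1 : -(h : ℤ) ≤ y) (h2 : y < 0) :
    y / (h : ℤ) = -1 := by
  have hp : (0 : ℤ) < h := by omega
  have e : y = (y + h) + (h : ℤ) * (-1) := by ring
  rw [e, Int.add_mul_ediv_left _ _ hp.ne', Int.ediv_eq_zero_of_lt (by omega) (by omega)]
  ring

theorem not_dvd_of_small {h : ℕ} {y : ℤ} (h1 : -(h : ℤ) < y) (h2 : y < h) (h0 : y ≠ 0) :
    ¬ (h : ℤ) ∣ y := by
  intro hd
  exact h0 (Int.eq_zero_of_abs_lt_dvd hd (abs_lt.2 ⟨h1, h2⟩))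

theorem not_dvd_add {h w : ℕ} (hw : h ∣ w) {X y : ℤ} (h0 : ¬ (h : ℤ) ∣ y) :
    ¬ (h : ℤ) ∣ (w : ℤ) * X + y := by
  intro hd
  apply h0
  have : (h : ℤ) ∣ (w : ℤ) * X := Dvd.dvd.mul_right (by exact_mod_cast hw) X
  exact (Int.dvd_add_right this).1 hd

section Window

variable {a : ℕ} (ha : 2 ≤ a) (m : ℕ) (t s : Star) (X Y : ℤ)
  (hst : rstar (a + 2 * (m + 1)) t X Y = s.1)

include ha hst

theorem V_window {x y : ℤ} (hx1 : -((xh (a + 1) m : ℕ) : ℤ) < x)
    (hx2 : x < (xh (a + 1) m : ℕ)) (hy1 : -((xh a (m + 1) : ℕ) : ℤ) ≤ y)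
    (hy2 : y < (xh a (m + 1) : ℕ)) :
    V a t ((xh (a + 1) (m + 1) : ℕ) * X + x) ((xh a (m + 1) : ℕ) * Y + y) = V a s x y := by
  by_cases hx : x = 0
  · subst hx
    rw [add_zero, V_inflate (by omega), add_div_of_small (xh_pos (by omega) _), V_zero]
    by_cases hy : 0 ≤ y
    · rw [Int.ediv_eq_zero_of_lt hy hy2, add_zero, if_pos hy]
      exact congrArg RStar.Pf hst
    · rw [div_eq_neg_one hy1 (by omega), if_neg hy]
      exact congrArg RStar.Pb hst
  · apply V_congr (by omega) m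
    · exact not_dvd_add (xh_dvd_succ _ _) (not_dvd_of_small hx1 hx2 hx)
    · rw [add_sub_cancel_right]
      exact Dvd.dvd.mul_right (by exact_mod_cast xh_dvd_succ _ _) X
    · rw [add_sub_cancel_right]
      exact Dvd.intro _ rfl

/-- labels along the row through the lattice point -/
theorem row_window {x : ℤ} (hx1 : -((xh (a + 1) m : ℕ) : ℤ) ≤ x)
    (hx2 : x < (xh (a + 1) m : ℕ)) :
    V (a + 1) t.flip ((xh (a + 1 + 1) m : ℕ) * Y) ((xh (a + 1) (m + 1) : ℕ) * X + x)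
      = if 0 ≤ x then s.Qf else s.Qb := by
  have hp := xh_pos (a := a + 1) (by omega) m
  have key : ∀ z : ℤ, -((xh (a + 1) m : ℕ) : ℤ) ≤ z → z < (xh (a + 1) m : ℕ) →
      V (a + 1) t.flip ((xh (a + 1 + 1) m : ℕ) * Y) ((xh (a + 1) (m + 1) : ℕ) * X + z)
      = V (a + 1 + 2 * m) t.flip Y ((3 * (a + 1 + 2 * m) : ℕ) * X + if 0 ≤ z then 0 else -1) := by
    intro z hz1 hz2
    rw [V_inflate (by omega), xh_succ' (a + 1) m]
    congr 1
    have e : ((xh (a + 1) m * (3 * (a + 1 + 2 * m)) : ℕ) : ℤ) * X + z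
        = ((xh (a + 1) m : ℕ) : ℤ) * (((3 * (a + 1 + 2 * m) : ℕ) : ℤ) * X) + z := by
      push_cast; ring
    rw [e, add_div_of_small hp]
    by_cases hz : 0 ≤ z
    · rw [Int.ediv_eq_zero_of_lt hz hz2, if_pos hz]
    · rw [div_eq_neg_one hz1 (by omega), if_neg hz]
  have hY : ((xh a (m + 1) : ℕ) : ℤ) * Y = ((3 * a : ℕ) : ℤ) * ((xh (a + 1 + 1) m : ℕ) * Y) := by
    rw [xh_succ]; push_cast; ring
  have hinf := rstar_inflate ha t (m + 1) X Y
  rw [hst] at hinf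
  have hQf : Hf a t ((xh (a + 1) (m + 1) : ℕ) * X) ((xh a (m + 1) : ℕ) * Y) = s.Qf :=
    congrArg RStar.Qf hinf
  have hQb : Hb a t ((xh (a + 1) (m + 1) : ℕ) * X) ((xh a (m + 1) : ℕ) * Y) = s.Qb :=
    congrArg RStar.Qb hinf
  rw [hY, Hf_mul (by omega)] at hQf
  rw [hY, Hb_mul (by omega)] at hQb
  rw [key x hx1 hx2]
  by_cases hx : 0 ≤ x
  · rw [if_pos hx, if_pos hx]
    have := key 0 (by omega) (by exact_mod_cast hp)
    rw [if_pos le_rfl, add_zero] at this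
    rw [← this, hQf]
  · rw [if_neg hx, if_neg hx]
    have := key (-1) (by omega) (by omega)
    rw [if_neg (by omega)] at this
    rw [← this, ← hQb]
    rfl

theorem Hf_window {x y : ℤ} (hx1 : -((xh (a + 1) m : ℕ) : ℤ) ≤ x)
    (hx2 : x < (xh (a + 1) m : ℕ)) (hy1 : -((xh a (m + 1) : ℕ) : ℤ) < y)
    (hy2 : y < (xh a (m + 1) : ℕ)) :
    Hf a t ((xh (a + 1) (m + 1) : ℕ) * X + x) ((xh a (m + 1) : ℕ) * Y + y) = Hf a s x y := by
  by_cases hy : y = 0
  · subst hy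
    have hY : ((xh a (m + 1) : ℕ) : ℤ) * Y = ((3 * a : ℕ) : ℤ) * ((xh (a + 1 + 1) m : ℕ) * Y) := by
      rw [xh_succ]; push_cast; ring
    rw [add_zero, hY, Hf_mul (by omega), row_window ha m t s X Y hst hx1 hx2]
    have := Hf_mul (a := a) (by omega) s x 0
    rw [mul_zero] at this
    rw [this, V_zero]
    rfl
  · apply Hf_congr (by omega) (m + 1)
    · exact not_dvd_add dvd_rfl (not_dvd_of_small hy1 hy2 hy)
    · rw [add_sub_cancel_right]; exact Dvd.intro _ rfl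
    · rw [add_sub_cancel_right]; exact Dvd.intro _ rfl

theorem Hb_window {x y : ℤ} (hx1 : -((xh (a + 1) m : ℕ) : ℤ) < x)
    (hx2 : x < (xh (a + 1) m : ℕ)) (hy1 : -((xh a (m + 1) : ℕ) : ℤ) < y)
    (hy2 : y < (xh a (m + 1) : ℕ)) :
    Hb a t ((xh (a + 1) (m + 1) : ℕ) * X + x) ((xh a (m + 1) : ℕ) * Y + y) = Hb a s x y := by
  by_cases hy : y = 0
  · subst hy
    have hY : ((xh a (m + 1) : ℕ) : ℤ) * Y = ((3 * a : ℕ) : ℤ) * ((xh (a + 1 + 1) m : ℕ) * Y) := by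
      rw [xh_succ]; push_cast; ring
    rw [add_zero, hY, Hb_mul (by omega), add_sub_assoc,
      row_window ha m t s X Y hst (by omega) (by omega)]
    have := Hb_mul (a := a) (by omega) s x 0
    rw [mul_zero] at this
    rw [this, V_zero]
    rfl
  · apply Hb_congr (by omega) (m + 1)
    · exact not_dvd_add dvd_rfl (not_dvd_of_small hy1 hy2 hy)
    · rw [add_sub_cancel_right]; exact Dvd.intro _ rfl
    · rw [add_sub_cancel_right]; exact Dvd.intro _ rfl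

theorem dom_window {x y : ℤ} (hx1 : -((xh (a + 1) m : ℕ) : ℤ) < x)
    (hx2 : x < (xh (a + 1) m : ℕ)) (hy1 : -((xh a (m + 1) : ℕ) : ℤ) < y)
    (hy2 : y < (xh a (m + 1) : ℕ)) :
    dom a t ((xh (a + 1) (m + 1) : ℕ) * X + x) ((xh a (m + 1) : ℕ) * Y + y) = dom a s x y := by
  by_cases h : x = 0 ∧ y = 0
  · obtain ⟨rfl, rfl⟩ := h
    rw [add_zero, add_zero, dom_zero]
    have hinf := rstar_inflate ha t (m + 1) X Y
    rw [hst] at hinf
    exact congrArg RStar.domP hinf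
  · have hle : (xh (a + 1) m : ℤ) ≤ (xh (a + 1) (m + 1) : ℕ) := by
      exact_mod_cast Nat.le_of_dvd (xh_pos (by omega) _) (xh_dvd_succ (a + 1) m)
    apply dom_congr (by omega) (m + 1)
    · by_cases hy : y = 0
      · right
        have hx : x ≠ 0 := fun hx => h ⟨hx, hy⟩
        exact not_dvd_add dvd_rfl (not_dvd_of_small (by omega) (by omega) hx)
      · left
        exact not_dvd_add dvd_rfl (not_dvd_of_small hy1 hy2 hy)
    · rw [add_sub_cancel_right]; exact Dvd.intro _ rfl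
    · rw [add_sub_cancel_right]; exact Dvd.intro _ rfl

/-- WINDOW LEMMA -/
theorem rstar_window {x y : ℤ} (hx1 : -((xh (a + 1) m : ℕ) : ℤ) < x)
    (hx2 : x < (xh (a + 1) m : ℕ)) (hy1 : -((xh a (m + 1) : ℕ) : ℤ) < y)
    (hy2 : y < (xh a (m + 1) : ℕ)) :
    rstar a t ((xh (a + 1) (m + 1) : ℕ) * X + x) ((xh a (m + 1) : ℕ) * Y + y)
      = rstar a s x y := by
  unfold rstar
  rw [dom_window ha m t s X Y hst hx1 hx2 hy1 hy2, Hf_window ha m t s X Y hst hx1.le hx2 hy1 hy2,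
    Hb_window ha m t s X Y hst hx1 hx2 hy1 hy2,
    V_window ha m t s X Y hst hx1 hx2 hy1.le hy2, add_sub_assoc,
    V_window ha m t s X Y hst hx1 hx2 (by omega) (by omega)]

end Window

/-- digits of the window -/
theorem dg_window {a : ℕ} (m : ℕ) (Y y : ℤ) :
    dg (3 * a) ((xh a (m + 1) : ℕ) * Y + y) = dg (3 * a) y := by
  apply dg_congr (Dvd.intro _ (xh_succ a m).symm)
  rw [add_sub_cancel_right]; exact Dvd.intro _ rfl

/-- stars at points on lines of small order are determined by digits -/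
theorem rstar_congr {a : ℕ} (ha : 2 ≤ a) (m : ℕ) (s s' : Star) {x x' y y' : ℤ}
    (hx : ¬ ((xh (a + 1) m : ℕ) : ℤ) ∣ x) (hy : ¬ ((xh a m : ℕ) : ℤ) ∣ y)
    (hxx : ((xh (a + 1) (m + 1) : ℕ) : ℤ) ∣ x - x')
    (hyy : ((xh a (m + 1) : ℕ) : ℤ) ∣ y - y') : rstar a s x y = rstar a s' x' y' := by
  have hd1 : ((xh (a + 1) m : ℕ) : ℤ) ∣ x - x' :=
    dvd_trans (by exact_mod_cast xh_dvd_succ _ _) hxx
  have hd2 : ((xh a m : ℕ) : ℤ) ∣ y - y' := dvd_trans (by exact_mod_cast xh_dvd_succ _ _) hyy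
  unfold rstar
  rw [dom_congr (by omega) m s s' (Or.inl hy) hd2 hd1,
    Hf_congr (by omega) m s s' hy hd2 hd1, Hb_congr (by omega) m s s' hy hd2 hd1,
    V_congr (by omega) m s s' hx hd1 hyy,
    V_congr (by omega) m s s' hx hd1 (y := y - 1) (y' := y' - 1) (by rwa [sub_sub_sub_cancel_right])]

end Crest.Agent.R189
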