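import Crest.Agent.R189.XLev
import Crest.Agent.R189.XWin
import Crest.Agent.R189.KLayer
import Crest.Agent.R189.StarOf

/-!
Row 189 (S0289), helper781.  The letter functions of the concrete space at the even levels:
`LevLet (xLev le_rfl (allOK le_rfl) m) letter` .
-/

set_option autoImplicit false

namespace Crest.Agent.R189

namespace XLetAux

/-- the labels along a `Q` line of level `a+1`, seen one level below -/
theorem V_row {a : ℕ} (ha : 1 ≤ a) (s : Star) (X Y : ℤ) {c : ℤ} (h0 : 0 ≤ c)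
    (h1 : c < ((3 * a : ℕ) : ℤ)) :
    V a s.flip Y (((3 * a : ℕ) : ℤ) * X + c) =
      if dg (3 * (a + 1)) Y = 0 then Hf (a + 1) s X Y
      else { Hf (a + 1) s X Y with u := umem a (dg (3 * a) c) (dg (3 * (a + 1)) Y) } := by
  have hz : (((3 * a : ℕ) : ℤ) * X + c) / ((3 * a : ℕ) : ℤ) = X := by
    rw [add_div_of_small (by omega), Int.ediv_eq_zero_of_lt h0 h1, add_zero]
  by_cases h : dg (3 * (a + 1)) Y = 0
  · rw [if_pos h]
    obtain ⟨Y, rfl⟩ := (dg_eq_zero (by omega)).1 h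
    rw [V_mul ha, Hf_mul (by omega), hz]
  · rw [if_neg h, V_of_ne _ _ h, Hf, if_neg h, hz, dg_add_mul']

theorem V_row' {a : ℕ} (ha : 1 ≤ a) (s : Star) (X Y : ℤ) {c : ℤ} (h0 : 0 ≤ c)
    (h1 : c < ((3 * a : ℕ) : ℤ)) :
    V a s.flip Y (((3 * a : ℕ) : ℤ) * (X - 1) + c) =
      if dg (3 * (a + 1)) Y = 0 then Hb (a + 1) s X Y
      else { Hb (a + 1) s X Y with u := umem a (dg (3 * a) c) (dg (3 * (a + 1)) Y) } := by
  rw [V_row ha s (X - 1) Y h0 h1]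
  by_cases h : dg (3 * (a + 1)) Y = 0
  · rw [if_pos h, if_pos h, Hf, Hb, if_pos h, if_pos h]
  · rw [if_neg h, if_neg h, Hf, Hb, if_neg h, if_neg h]

/-- the labels of a row of order `≥ 2m+2` -/
theorem Hf_row {a : ℕ} (ha : 1 ≤ a) (m : ℕ) (s : Star) (x Y : ℤ) :
    Hf a s x ((xh a (m + 1) : ℕ) * Y) =
      V (a + 1 + 2 * m) s.flip Y (x / (xh (a + 1) m : ℕ)) := by
  have e : ((xh a (m + 1) : ℕ) : ℤ) * Y = ((3 * a : ℕ) : ℤ) * ((xh (a + 1 + 1) m : ℕ) * Y) := by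
    rw [xh_succ]; push_cast; ring
  rw [e, Hf_mul ha, V_inflate (by omega)]

theorem Hb_row {a : ℕ} (ha : 1 ≤ a) (m : ℕ) (s : Star) (x Y : ℤ) :
    Hb a s x ((xh a (m + 1) : ℕ) * Y) =
      V (a + 1 + 2 * m) s.flip Y ((x - 1) / (xh (a + 1) m : ℕ)) := by
  have e : ((xh a (m + 1) : ℕ) : ℤ) * Y = ((3 * a : ℕ) : ℤ) * ((xh (a + 1 + 1) m : ℕ) * Y) := by
    rw [xh_succ]; push_cast; ring
  rw [e, Hb_mul ha, V_inflate (by omega)]

/-- splitting `v + w X` with `w = h * n` -/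
theorem split_div {h n : ℕ} (hh : 0 < h) (X v : ℤ) :
    (((h * n : ℕ) : ℤ) * X + v) / (h : ℤ) = (n : ℤ) * X + v / (h : ℤ) := by
  have e : ((h * n : ℕ) : ℤ) * X + v = (h : ℤ) * ((n : ℤ) * X) + v := by push_cast; ring
  rw [e, add_div_of_small hh]

/-- the row of the `Q` line of level `2m+2`, right of the corner -/
theorem rowR {a : ℕ} (ha : 1 ≤ a) (m : ℕ) (s : Star) (X Y : ℤ) {v : ℤ} (h0 : 0 ≤ v)
    (h1 : v < (xh (a + 1) (m + 1) : ℕ)) :
    V (a + 1 + 2 * m) s.flip Y ((((xh (a + 1) (m + 1) : ℕ) : ℤ) * X + v) / (xh (a + 1) m : ℕ)) =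
      if dg (3 * (a + 1 + 2 * m + 1)) Y = 0 then Hf (a + 1 + 2 * m + 1) s X Y
      else { Hf (a + 1 + 2 * m + 1) s X Y with
        u := umem (a + 1 + 2 * m) (dg (3 * (a + 1 + 2 * m)) (v / (xh (a + 1) m : ℕ)))
          (dg (3 * (a + 1 + 2 * m + 1)) Y) } := by
  have hp := xh_pos (a := a + 1) (by omega) m
  rw [xh_succ'] at h1 ⊢
  rw [split_div hp]
  apply V_row (by omega)
  · exact Int.ediv_nonneg h0 (by positivity)
  · apply Int.ediv_lt_of_lt_mul (by exact_mod_cast hp)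
    push_cast at h1 ⊢
    linarith [h1]

/-- the row of the `Q` line of level `2m+2`, left of the corner -/
theorem rowL {a : ℕ} (ha : 1 ≤ a) (m : ℕ) (s : Star) (X Y : ℤ) {v : ℤ}
    (h0 : -((xh (a + 1) (m + 1) : ℕ) : ℤ) ≤ v) (h1 : v < 0) :
    V (a + 1 + 2 * m) s.flip Y ((((xh (a + 1) (m + 1) : ℕ) : ℤ) * X + v) / (xh (a + 1) m : ℕ)) =
      if dg (3 * (a + 1 + 2 * m + 1)) Y = 0 then Hb (a + 1 + 2 * m + 1) s X Y
      else { Hb (a + 1 + 2 * m + 1) s X Y with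
        u := umem (a + 1 + 2 * m)
          (dg (3 * (a + 1 + 2 * m)) ((v + (xh (a + 1) (m + 1) : ℕ)) / (xh (a + 1) m : ℕ)))
          (dg (3 * (a + 1 + 2 * m + 1)) Y) } := by
  have hp := xh_pos (a := a + 1) (by omega) m
  have e : ((xh (a + 1) (m + 1) : ℕ) : ℤ) * X + v =
      ((xh (a + 1) (m + 1) : ℕ) : ℤ) * (X - 1) + (v + (xh (a + 1) (m + 1) : ℕ)) := by ring
  rw [e]
  have h2 : (0 : ℤ) ≤ v + (xh (a + 1) (m + 1) : ℕ) := by omega
  have h3 : v + (xh (a + 1) (m + 1) : ℕ) < (xh (a + 1) (m + 1) : ℕ) := by omega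
  generalize v + (xh (a + 1) (m + 1) : ℕ) = c at h2 h3 ⊢
  rw [xh_succ'] at h3 ⊢
  rw [split_div hp]
  apply V_row' (by omega)
  · exact Int.ediv_nonneg h2 (by positivity)
  · apply Int.ediv_lt_of_lt_mul (by exact_mod_cast hp)
    push_cast at h3 ⊢
    linarith [h3]

section cong

variable {a : ℕ} (ha : 3 ≤ a) (m : ℕ) {s s' : Star} {X X' Y Y' : ℤ}
  (hd : ((3 * (a + 2 * m) : ℕ) : ℤ) ∣ Y - Y')

include hd in
theorem row_dvd (v : ℤ) : ((xh a (m + 1) : ℕ) : ℤ) ∣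
    (v + (xh a m : ℕ) * Y) - (v + (xh a m : ℕ) * Y') := by
  rw [xh_succ']
  obtain ⟨k, hk⟩ := hd
  refine ⟨k, ?_⟩
  push_cast at hk ⊢
  linear_combination (xh a m : ℤ) * hk

include ha hd in
/-- interior of the faces -/
theorem rstar_F {v₁ v₂ : ℤ} (h1 : ¬ ((xh (a + 1) m : ℕ) : ℤ) ∣ v₁)
    (h2 : ¬ ((xh a m : ℕ) : ℤ) ∣ v₂) :
    rstar a s (v₁ + (xh (a + 1) m : ℕ) * X) (v₂ + (xh a m : ℕ) * Y) =
      rstar a s' (v₁ + (xh (a + 1) m : ℕ) * X') (v₂ + (xh a m : ℕ) * Y') := by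
  have hx : ¬ ((xh (a + 1) m : ℕ) : ℤ) ∣ v₁ + (xh (a + 1) m : ℕ) * X := by
    rwa [Int.dvd_add_left (Dvd.intro _ rfl)]
  have hy : ¬ ((xh a m : ℕ) : ℤ) ∣ v₂ + (xh a m : ℕ) * Y := by
    rwa [Int.dvd_add_left (Dvd.intro _ rfl)]
  have hxx : ((xh (a + 1) m : ℕ) : ℤ) ∣
      (v₁ + (xh (a + 1) m : ℕ) * X) - (v₁ + (xh (a + 1) m : ℕ) * X') := ⟨X - X', by ring⟩
  have hyy : ((xh a m : ℕ) : ℤ) ∣
      (v₂ + (xh a m : ℕ) * Y) - (v₂ + (xh a m : ℕ) * Y') := ⟨Y - Y', by ring⟩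
  have hyy' := row_dvd (a := a) m hd v₂
  unfold rstar
  rw [dom_congr (by omega) m s s' (Or.inl hy) hyy hxx,
    Hf_congr (by omega) m s s' hy hyy hxx, Hb_congr (by omega) m s s' hy hyy hxx,
    V_congr (by omega) m s s' hx hxx hyy',
    V_congr (by omega) m s s' hx hxx (y := v₂ + (xh a m : ℕ) * Y - 1)
      (y' := v₂ + (xh a m : ℕ) * Y' - 1) (by rwa [sub_sub_sub_cancel_right])]

include ha in
/-- upper half of the `P` line -/
theorem rstar_Pf {v₂ : ℤ} (h0 : 0 < v₂) (h1 : v₂ < (xh a m : ℕ))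
    (hV : V (a + 2 * m) s X Y = V (a + 2 * m) s' X' Y') :
    rstar a s ((xh (a + 1) m : ℕ) * X) (v₂ + (xh a m : ℕ) * Y) =
      rstar a s' ((xh (a + 1) m : ℕ) * X') (v₂ + (xh a m : ℕ) * Y') := by
  have hp := xh_pos (a := a) (by omega) m
  have hy : ¬ ((xh a m : ℕ) : ℤ) ∣ v₂ + (xh a m : ℕ) * Y := by
    rw [Int.dvd_add_left (Dvd.intro _ rfl)]
    exact not_dvd_of_small (by omega) h1 h0.ne'
  have hxx : ((xh (a + 1) m : ℕ) : ℤ) ∣
      ((xh (a + 1) m : ℕ) * X) - ((xh (a + 1) m : ℕ) * X') := ⟨X - X', by ring⟩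
  have hyy : ((xh a m : ℕ) : ℤ) ∣
      (v₂ + (xh a m : ℕ) * Y) - (v₂ + (xh a m : ℕ) * Y') := ⟨Y - Y', by ring⟩
  have key : ∀ (s : Star) (X Y c : ℤ), 0 ≤ c → c < (xh a m : ℕ) →
      V a s ((xh (a + 1) m : ℕ) * X) ((xh a m : ℕ) * Y + c) = V (a + 2 * m) s X Y := by
    intro s X Y c h2 h3
    rw [V_inflate (by omega), add_div_of_small hp, Int.ediv_eq_zero_of_lt h2 h3, add_zero]
  have e1 : ∀ Y : ℤ, v₂ + (xh a m : ℕ) * Y = (xh a m : ℕ) * Y + v₂ := fun Y => add_comm _ _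
  have e2 : ∀ Y : ℤ, v₂ + (xh a m : ℕ) * Y - 1 = (xh a m : ℕ) * Y + (v₂ - 1) := fun Y => by ring
  unfold rstar
  rw [dom_congr (by omega) m s s' (Or.inl hy) hyy hxx,
    Hf_congr (by omega) m s s' hy hyy hxx, Hb_congr (by omega) m s s' hy hyy hxx, e2, e2, e1, e1,
    key s X Y _ (by omega) (by omega), key s X Y _ (by omega) (by omega),
    key s' X' Y' _ (by omega) (by omega), key s' X' Y' _ (by omega) (by omega), hV]

include ha in
/-- lower half of the `P` line -/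
theorem rstar_Pb {v₂ : ℤ} (h0 : -((xh a m : ℕ) : ℤ) < v₂) (h1 : v₂ < 0)
    (hV : V (a + 2 * m) s X (Y - 1) = V (a + 2 * m) s' X' (Y' - 1)) :
    rstar a s ((xh (a + 1) m : ℕ) * X) (v₂ + (xh a m : ℕ) * Y) =
      rstar a s' ((xh (a + 1) m : ℕ) * X') (v₂ + (xh a m : ℕ) * Y') := by
  have e : ∀ Y : ℤ, v₂ + (xh a m : ℕ) * Y = (v₂ + (xh a m : ℕ)) + (xh a m : ℕ) * (Y - 1) :=
    fun Y => by ring
  have hp := xh_pos (a := a) (by omega) m
  have hy : ¬ ((xh a m : ℕ) : ℤ) ∣ v₂ + (xh a m : ℕ) * Y := by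
    rw [Int.dvd_add_left (Dvd.intro _ rfl)]
    exact not_dvd_of_small h0 (by omega) h1.ne
  have hxx : ((xh (a + 1) m : ℕ) : ℤ) ∣
      ((xh (a + 1) m : ℕ) * X) - ((xh (a + 1) m : ℕ) * X') := ⟨X - X', by ring⟩
  have hyy : ((xh a m : ℕ) : ℤ) ∣
      (v₂ + (xh a m : ℕ) * Y) - (v₂ + (xh a m : ℕ) * Y') := ⟨Y - Y', by ring⟩
  have key : ∀ (s : Star) (X Y c : ℤ), -((xh a m : ℕ) : ℤ) ≤ c → c < 0 →
      V a s ((xh (a + 1) m : ℕ) * X) ((xh a m : ℕ) * Y + c) = V (a + 2 * m) s X (Y - 1) := by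
    intro s X Y c h2 h3
    rw [V_inflate (by omega), add_div_of_small hp, div_eq_neg_one h2 h3, Int.sub_eq_add_neg]
  have e1 : ∀ Y : ℤ, v₂ + (xh a m : ℕ) * Y = (xh a m : ℕ) * Y + v₂ := fun Y => add_comm _ _
  have e2 : ∀ Y : ℤ, v₂ + (xh a m : ℕ) * Y - 1 = (xh a m : ℕ) * Y + (v₂ - 1) := fun Y => by ring
  unfold rstar
  rw [dom_congr (by omega) m s s' (Or.inl hy) hyy hxx,
    Hf_congr (by omega) m s s' hy hyy hxx, Hb_congr (by omega) m s s' hy hyy hxx, e2, e2, e1, e1,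
    key s X Y _ (by omega) (by omega), key s X Y _ (by omega) (by omega),
    key s' X' Y' _ (by omega) (by omega), key s' X' Y' _ (by omega) (by omega), hV]

include ha hd in
/-- right half of the `Q` line -/
theorem rstar_Qf {v₁ : ℤ} (h0 : 0 < v₁) (h1 : v₁ < (xh (a + 1) m : ℕ))
    (hV : Hf (a + 2 * m) s X Y = Hf (a + 2 * m) s' X' Y') :
    rstar a s (v₁ + (xh (a + 1) m : ℕ) * X) ((xh a m : ℕ) * Y) =
      rstar a s' (v₁ + (xh (a + 1) m : ℕ) * X') ((xh a m : ℕ) * Y') := by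
  have hdg : dg (3 * (a + 2 * m)) Y = dg (3 * (a + 2 * m)) Y' := dg_congr dvd_rfl hd
  have hx : ¬ ((xh (a + 1) m : ℕ) : ℤ) ∣ v₁ + (xh (a + 1) m : ℕ) * X := by
    rw [Int.dvd_add_left (Dvd.intro _ rfl)]
    exact not_dvd_of_small (by omega) h1 h0.ne'
  have hxx : ((xh (a + 1) m : ℕ) : ℤ) ∣
      (v₁ + (xh (a + 1) m : ℕ) * X) - (v₁ + (xh (a + 1) m : ℕ) * X') := ⟨X - X', by ring⟩
  have hyy : ((xh a m : ℕ) : ℤ) ∣ ((xh a m : ℕ) * Y) - ((xh a m : ℕ) * Y') := ⟨Y - Y', by ring⟩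
  have hyy' := row_dvd (a := a) m hd 0
  rw [zero_add, zero_add] at hyy'
  have e1 : ∀ X : ℤ, v₁ + (xh (a + 1) m : ℕ) * X = (xh (a + 1) m : ℕ) * X + v₁ :=
    fun X => add_comm _ _
  have e2 : ∀ X : ℤ, v₁ + (xh (a + 1) m : ℕ) * X - 1 = (xh (a + 1) m : ℕ) * X + (v₁ - 1) :=
    fun X => by ring
  cases m with
  | zero => simp at h1; omega
  | succ m =>
    have ea : a + 2 * (m + 1) = a + 1 + 2 * m + 1 := by ring
    rw [ea] at hV hdg
    unfold rstar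
    rw [dom_congr (by omega) (m + 1) s s' (Or.inr hx) hyy hxx,
      V_congr (by omega) (m + 1) s s' hx hxx hyy',
      V_congr (by omega) (m + 1) s s' hx hxx (y := (xh a (m + 1) : ℕ) * Y - 1)
        (y' := (xh a (m + 1) : ℕ) * Y' - 1) (by rwa [sub_sub_sub_cancel_right]),
      Hf_row (by omega), Hf_row (by omega), Hb_row (by omega), Hb_row (by omega), e2, e2,
      e1, e1, rowR (by omega) m s X Y (by omega) (by omega),
      rowR (by omega) m s X Y (by omega) (by omega),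
      rowR (by omega) m s' X' Y' (by omega) (by omega),
      rowR (by omega) m s' X' Y' (by omega) (by omega), hV, hdg]

include ha hd in
/-- left half of the `Q` line -/
theorem rstar_Qb {v₁ : ℤ} (h0 : -((xh (a + 1) m : ℕ) : ℤ) < v₁) (h1 : v₁ < 0)
    (hV : Hb (a + 2 * m) s X Y = Hb (a + 2 * m) s' X' Y') :
    rstar a s (v₁ + (xh (a + 1) m : ℕ) * X) ((xh a m : ℕ) * Y) =
      rstar a s' (v₁ + (xh (a + 1) m : ℕ) * X') ((xh a m : ℕ) * Y') := by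
  have hdg : dg (3 * (a + 2 * m)) Y = dg (3 * (a + 2 * m)) Y' := dg_congr dvd_rfl hd
  have hx : ¬ ((xh (a + 1) m : ℕ) : ℤ) ∣ v₁ + (xh (a + 1) m : ℕ) * X := by
    rw [Int.dvd_add_left (Dvd.intro _ rfl)]
    exact not_dvd_of_small h0 (by omega) h1.ne
  have hxx : ((xh (a + 1) m : ℕ) : ℤ) ∣
      (v₁ + (xh (a + 1) m : ℕ) * X) - (v₁ + (xh (a + 1) m : ℕ) * X') := ⟨X - X', by ring⟩
  have hyy : ((xh a m : ℕ) : ℤ) ∣ ((xh a m : ℕ) * Y) - ((xh a m : ℕ) * Y') := ⟨Y - Y', by ring⟩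
  have hyy' := row_dvd (a := a) m hd 0
  rw [zero_add, zero_add] at hyy'
  have e1 : ∀ X : ℤ, v₁ + (xh (a + 1) m : ℕ) * X = (xh (a + 1) m : ℕ) * X + v₁ :=
    fun X => add_comm _ _
  have e2 : ∀ X : ℤ, v₁ + (xh (a + 1) m : ℕ) * X - 1 = (xh (a + 1) m : ℕ) * X + (v₁ - 1) :=
    fun X => by ring
  cases m with
  | zero => simp at h0; omega
  | succ m =>
    have ea : a + 2 * (m + 1) = a + 1 + 2 * m + 1 := by ring
    rw [ea] at hV hdg
    unfold rstar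
    rw [dom_congr (by omega) (m + 1) s s' (Or.inr hx) hyy hxx,
      V_congr (by omega) (m + 1) s s' hx hxx hyy',
      V_congr (by omega) (m + 1) s s' hx hxx (y := (xh a (m + 1) : ℕ) * Y - 1)
        (y' := (xh a (m + 1) : ℕ) * Y' - 1) (by rwa [sub_sub_sub_cancel_right]),
      Hf_row (by omega), Hf_row (by omega), Hb_row (by omega), Hb_row (by omega), e2, e2,
      e1, e1, rowL (by omega) m s X Y (by omega) (by omega),
      rowL (by omega) m s X Y (by omega) (by omega),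
      rowL (by omega) m s' X' Y' (by omega) (by omega),
      rowL (by omega) m s' X' Y' (by omega) (by omega), hV, hdg]

end cong

/-- the star of level `m` in terms of coordinates -/
theorem coords {a : ℕ} (ha : 3 ≤ a) {m : ℕ} {y : X} (hy : y ∈ xD a m) :
    ∃ X Y : ℤ, y.p.1 = (xh (a + 1) m : ℕ) * X ∧ y.p.2 = (xh a m : ℕ) * Y ∧
      (xst (allOK ha) m y).1 = rstar (a + 2 * m) y.s X Y ∧
      xdig a m y = ((Y : ℤ) : ZMod (3 * (a + 2 * m))) := by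
  obtain ⟨X, hX⟩ := hy.1
  obtain ⟨Y, hY⟩ := hy.2
  have hw : ((xh (a + 1) m : ℕ) : ℤ) ≠ 0 := by exact_mod_cast (xh_pos (by omega) m).ne'
  have hh : ((xh a m : ℕ) : ℤ) ≠ 0 := by exact_mod_cast (xh_pos (by omega) m).ne'
  refine ⟨X, Y, hX, hY, ?_, ?_⟩
  · show rstar (a + 2 * m) y.s (y.p.1 / _) (y.p.2 / _) = _
    rw [hX, hY, Int.mul_ediv_cancel_left _ hw, Int.mul_ediv_cancel_left _ hh]
  · unfold xdig
    rw [hY, Int.mul_ediv_cancel_left _ hh]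

/-- letters agree when the data agree -/
theorem letter_eq {m : ℕ} {y y' : X} (hy : y ∈ xD 3 m) (hy' : y' ∈ xD 3 m)
    (hdig : xdig 3 m y = xdig 3 m y') {v : ℤ × ℤ}
    (h1 : -((xh 4 m : ℕ) : ℤ) < v.1) (h2 : v.1 < (xh 4 m : ℕ))
    (h3 : -((xh 3 m : ℕ) : ℤ) < v.2) (h4 : v.2 < (xh 3 m : ℕ))
    (hPf : v.1 = 0 → 0 < v.2 → (xst (allOK le_rfl) m y).Pf = (xst (allOK le_rfl) m y').Pf)
    (hPb : v.1 = 0 → v.2 < 0 → (xst (allOK le_rfl) m y).Pb = (xst (allOK le_rfl) m y').Pb)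
    (hQf : v.2 = 0 → 0 < v.1 → (xst (allOK le_rfl) m y).Qf = (xst (allOK le_rfl) m y').Qf)
    (hQb : v.2 = 0 → v.1 < 0 → (xst (allOK le_rfl) m y).Qb = (xst (allOK le_rfl) m y').Qb)
    (hV : v.1 = 0 → v.2 = 0 → xst (allOK le_rfl) m y = xst (allOK le_rfl) m y') :
    letter (v +ᵥ y) = letter (v +ᵥ y') := by
  obtain ⟨X, Y, hX, hY, hs, hdg⟩ := coords le_rfl hy
  obtain ⟨X', Y', hX', hY', hs', hdg'⟩ := coords le_rfl hy'
  rw [hdg, hdg', ZMod.intCast_eq_intCast_iff_dvd_sub] at hdig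
  have hd : ((3 * (3 + 2 * m) : ℕ) : ℤ) ∣ Y - Y' := by
    rw [← Int.dvd_neg, neg_sub]; exact hdig
  have e1 : (v +ᵥ y).p = (v.1 + (xh 4 m : ℕ) * X, v.2 + (xh 3 m : ℕ) * Y) := by
    rw [R189.X.vadd_p]
    exact Prod.ext (by rw [Prod.fst_add, hX]) (by rw [Prod.snd_add, hY])
  have e2 : (v +ᵥ y').p = (v.1 + (xh 4 m : ℕ) * X', v.2 + (xh 3 m : ℕ) * Y') := by
    rw [R189.X.vadd_p]
    exact Prod.ext (by rw [Prod.fst_add, hX']) (by rw [Prod.snd_add, hY'])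
  rw [letter_eq_iff, e1, e2, R189.X.vadd_s, R189.X.vadd_s]
  constructor
  · apply dg_congr (N := xh 3 (m + 1)) _ (row_dvd m hd v.2)
    exact xh_dvd (a := 3) (m := 1) (m' := m + 1) (by omega)
  · show rstar 3 y.s (v.1 + (xh 4 m : ℕ) * X) (v.2 + (xh 3 m : ℕ) * Y) =
      rstar 3 y'.s (v.1 + (xh 4 m : ℕ) * X') (v.2 + (xh 3 m : ℕ) * Y')
    rcases eq_or_ne v.1 0 with hv1 | hv1
    · rcases lt_trichotomy v.2 0 with hv2 | hv2 | hv2
      · rw [hv1, zero_add, zero_add]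
        refine rstar_Pb (a := 3) le_rfl m h3 hv2 ?_
        have := hPb hv1 hv2
        show (rstar (3 + 2 * m) y.s X Y).Pb = (rstar (3 + 2 * m) y'.s X' Y').Pb
        rw [← hs, ← hs']; exact this
      · rw [hv1, hv2, zero_add, zero_add, zero_add, zero_add]
        rw [rstar_inflate (a := 3) (by omega), rstar_inflate (a := 3) (by omega), ← hs, ← hs',
          hV hv1 hv2]
      · rw [hv1, zero_add, zero_add]
        refine rstar_Pf (a := 3) le_rfl m hv2 h4 ?_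
        have := hPf hv1 hv2
        show (rstar (3 + 2 * m) y.s X Y).Pf = (rstar (3 + 2 * m) y'.s X' Y').Pf
        rw [← hs, ← hs']; exact this
    · rcases eq_or_ne v.2 0 with hv2 | hv2
      · rw [hv2, zero_add, zero_add]
        rcases lt_or_gt_of_ne hv1 with hv | hv
        · refine rstar_Qb (a := 3) le_rfl m hd h1 hv ?_
          have := hQb hv2 hv
          show (rstar (3 + 2 * m) y.s X Y).Qb = (rstar (3 + 2 * m) y'.s X' Y').Qb
          rw [← hs, ← hs']; exact this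
        · refine rstar_Qf (a := 3) le_rfl m hd hv h2 ?_
          have := hQf hv2 hv
          show (rstar (3 + 2 * m) y.s X Y).Qf = (rstar (3 + 2 * m) y'.s X' Y').Qf
          rw [← hs, ← hs']; exact this
      · exact rstar_F (a := 3) le_rfl m hd (not_dvd_of_small h1 h2 hv1)
          (not_dvd_of_small h3 h4 hv2)

open Classical in
/-- a function chosen through a key -/
noncomputable def pick {κ : Type} (D : Set X) (k : X → κ) (i : κ) (v : ℤ × ℤ) : Fin 9 × Star :=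
  if h : ∃ y ∈ D, k y = i then letter (v +ᵥ h.choose) else letter ⟨0, quietStar ⟨.f0, none, .A⟩ rfl⟩

theorem pick_eq {κ : Type} {D : Set X} {k : X → κ} {y : X} (hy : y ∈ D) {v : ℤ × ℤ}
    (h : ∀ y' ∈ D, k y = k y' → letter (v +ᵥ y) = letter (v +ᵥ y')) :
    letter (v +ᵥ y) = pick D k (k y) v := by
  have he : ∃ y' ∈ D, k y' = k y := ⟨y, hy, rfl⟩
  unfold pick
  rw [dif_pos he]
  exact h _ he.choose_spec.1 he.choose_spec.2.symm

end XLetAux

/-- **The letter functions of the even levels.** -/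
noncomputable def levLet (m : ℕ) : K.LevLet (xLev (a := 3) le_rfl (allOK le_rfl) m) letter where
  aF := XLetAux.pick (xD 3 m) (xLev (a := 3) le_rfl (allOK le_rfl) m).dig
  aP := XLetAux.pick (xD 3 m) (xLev (a := 3) le_rfl (allOK le_rfl) m).kP
  aQ := XLetAux.pick (xD 3 m) (xLev (a := 3) le_rfl (allOK le_rfl) m).kQ
  aV := XLetAux.pick (xD 3 m) (xLev (a := 3) le_rfl (allOK le_rfl) m).kV
  hF y hy v h1 h2 h3 h4 := by
    refine XLetAux.pick_eq hy fun y' hy' hk => ?_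
    replace h2 : v.1 < (xh 4 m : ℕ) := h2
    replace h4 : v.2 < (xh 3 m : ℕ) := h4
    exact XLetAux.letter_eq hy hy' hk (by omega) h2 (by omega) h4 (by omega) (by omega) (by omega)
      (by omega) (by omega)
  hP y hy v h1 h2 h3 h4 := by
    refine XLetAux.pick_eq hy fun y' hy' hk => ?_
    replace h1 : -((xh 4 m : ℕ) : ℤ) < v.1 := h1
    replace h2 : v.1 < (xh 4 m : ℕ) := h2
    replace h4 : v.2 < (xh 3 m : ℕ) := h4
    exact XLetAux.letter_eq hy hy' (congrArg Prod.fst hk) h1 h2 (by omega) h4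
      (fun _ _ => congrArg Prod.snd hk) (by omega) (by omega) (by omega) (by omega)
  hQ y hy v h1 h2 h3 h4 := by
    refine XLetAux.pick_eq hy fun y' hy' hk => ?_
    replace h2 : v.1 < (xh 4 m : ℕ) := h2
    replace h3 : -((xh 3 m : ℕ) : ℤ) < v.2 := h3
    replace h4 : v.2 < (xh 3 m : ℕ) := h4
    exact XLetAux.letter_eq hy hy' (congrArg Prod.fst hk) (by omega) h2 h3 h4
      (by omega) (by omega) (fun _ _ => congrArg Prod.snd hk) (by omega) (by omega)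
  hV y hy v h1 h2 h3 h4 := by
    refine XLetAux.pick_eq hy fun y' hy' hk => ?_
    replace h1 : -((xh 4 m : ℕ) : ℤ) < v.1 := h1
    replace h2 : v.1 < (xh 4 m : ℕ) := h2
    replace h3 : -((xh 3 m : ℕ) : ℤ) < v.2 := h3
    replace h4 : v.2 < (xh 3 m : ℕ) := h4
    have hs : xst (allOK le_rfl) m y = xst (allOK le_rfl) m y' := congrArg Prod.snd hk
    exact XLetAux.letter_eq hy hy' (congrArg Prod.fst hk) h1 h2 h3 h4
      (fun _ _ => by rw [hs]) (fun _ _ => by rw [hs]) (fun _ _ => by rw [hs])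
      (fun _ _ => by rw [hs]) (fun _ _ => hs)

end Crest.Agent.R189
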