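import Crest.Agent.R189.FPGenSys
import Crest.Agent.R189.FPAsm
import Crest.Agent.R189.KMainA
import Crest.Agent.R189.KCnt
import Crest.Agent.R189.XLet

/-!
# Row 189 (S0289), helper396: finite presentability of `GG` from the count
-/

set_option autoImplicit false

namespace Crest.Agent.R189.FPMain

open K

theorem hCol : 30 ≤ Fintype.card Col := by simp

/-- the kernel of `T → Gp` is finitely generated, given the count -/
theorem fg_ker_of_count (N : ℕ)
    (hcnt : ∀ k (M0 : Ctx (LX k) Col qTL) (K : Set (TGrp MD Col)),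
      (∀ w ∈ K, qTL w = 1 ∧ ∃ a b, M0.Rep w a b) → K.ncard ≤ N) :
    Group.FG (qTL).ker :=
  K.kernel_fg_of_count (gsX hCol) (ker_le_center hCol) LX levLet
    (fun k => Classical.choice (secSys hCol k).1)
    (fun k => Classical.choice (secSys hCol k).2.1)
    (fun k => Classical.choice (secSys hCol k).2.2.1)
    (fun k => Classical.choice (secSys hCol k).2.2.2)
    (c0 := (0 : Col)) (c1 := (1 : Col)) (by decide)
    tendsto_LX_w tendsto_LX_h LX_D_nonempty N hcnt

/-- the group is finitely presented, given the count -/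
theorem GG_fp_of_count (N : ℕ)
    (hcnt : ∀ k (M0 : Ctx (LX k) Col qTL) (K : Set (TGrp MD Col)),
      (∀ w ∈ K, qTL w = 1 ∧ ∃ a b, M0.Rep w a b) → K.ncard ≤ N) :
    Group.IsFinitelyPresented GG :=
  fp_of_FG_ker (fg_ker_of_count N hcnt)

end Crest.Agent.R189.FPMain
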