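import Mathlib

/-!
# Row 189, part F: sign of finitely supported permutations of an infinite type

`PermOn S` / `AltOn S` (`S : Finset Ω`): the permutations of `Ω` which are the identity off `S`
(and even).  `sgn` is the sign of a finitely supported permutation (junk value `1` otherwise).
-/

set_option autoImplicit false
set_option linter.unusedSectionVars false

namespace Crest.Agent.R189.K

open Equiv Equiv.Perm

variable {Ω : Type*} [DecidableEq Ω]

/-- permutations which are the identity off `S` -/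
def PermOn (S : Finset Ω) : Subgroup (Equiv.Perm Ω) where
  carrier := {π | ∀ x, x ∉ S → π x = x}
  one_mem' := by intro x _; rfl
  mul_mem' := by
    intro a b ha hb x hx
    have h1 : b x = x := hb x hx
    simp only [Equiv.Perm.coe_mul, Function.comp_apply, h1]
    exact ha x hx
  inv_mem' := by
    intro a ha x hx
    rw [Equiv.Perm.inv_eq_iff_eq]
    exact (ha x hx).symm

lemma mem_PermOn {S : Finset Ω} {π : Equiv.Perm Ω} :
    π ∈ PermOn S ↔ ∀ x, x ∉ S → π x = x := Iff.rfl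

lemma PermOn_mono {S T : Finset Ω} (h : S ⊆ T) : PermOn S ≤ PermOn T :=
  fun _ hπ x hx => hπ x (fun h' => hx (h h'))

lemma on_mem_iff {S : Finset Ω} {π : Equiv.Perm Ω} (h : π ∈ PermOn S) (x : Ω) :
    π x ∈ S ↔ x ∈ S := by
  constructor
  · intro hx
    by_contra hn
    rw [h x hn] at hx
    exact hn hx
  · intro hx
    by_contra hn
    have h1 := h (π x) hn
    have h2 : π x = x := π.injective h1
    rw [h2] at hn
    exact hn hx

/-- the restriction of a permutation to an invariant finset (junk `1` if not invariant) -/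
noncomputable def res (S : Finset Ω) (π : Equiv.Perm Ω) : Equiv.Perm {x // x ∈ S} :=
  open Classical in
  if h : ∀ x, π x ∈ S ↔ x ∈ S then π.subtypePerm (p := fun x => x ∈ S) h else 1

lemma res_of {S : Finset Ω} {π : Equiv.Perm Ω} (h : ∀ x, π x ∈ S ↔ x ∈ S) :
    res S π = π.subtypePerm (p := fun x => x ∈ S) h := by
  unfold res; rw [dif_pos h]

lemma res_apply {S : Finset Ω} {π : Equiv.Perm Ω} (h : ∀ x, π x ∈ S ↔ x ∈ S) (x : {x // x ∈ S}) :
    (res S π x : Ω) = π x := by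
  rw [res_of h]; rfl

lemma res_mul {S : Finset Ω} {π ρ : Equiv.Perm Ω} (h : ∀ x, π x ∈ S ↔ x ∈ S)
    (h' : ∀ x, ρ x ∈ S ↔ x ∈ S) : res S (π * ρ) = res S π * res S ρ := by
  have h2 : ∀ x, (π * ρ) x ∈ S ↔ x ∈ S := fun x => (h _).trans (h' x)
  rw [res_of h, res_of h', res_of h2]
  rfl

/-- `PermOn S` is the full symmetric group of `S` -/
noncomputable def resEquiv (S : Finset Ω) : PermOn S ≃* Equiv.Perm {x // x ∈ S} where
  toFun π := res S π.1
  invFun ρ := ⟨Equiv.Perm.ofSubtype ρ, fun x hx => Equiv.Perm.ofSubtype_apply_of_not_mem ρ hx⟩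
  left_inv := by
    rintro ⟨π, hπ⟩
    apply Subtype.ext
    apply Equiv.ext
    intro x
    by_cases hx : x ∈ S
    · change Equiv.Perm.ofSubtype (res S π) x = π x
      rw [Equiv.Perm.ofSubtype_apply_of_mem (p := fun x => x ∈ S) _ hx]
      exact res_apply (on_mem_iff hπ) ⟨x, hx⟩
    · change Equiv.Perm.ofSubtype (res S π) x = π x
      rw [Equiv.Perm.ofSubtype_apply_of_not_mem (p := fun x => x ∈ S) _ hx, hπ x hx]
  right_inv := by
    intro ρ
    have hm : (Equiv.Perm.ofSubtype ρ : Equiv.Perm Ω) ∈ PermOn S :=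
      fun x hx => Equiv.Perm.ofSubtype_apply_of_not_mem ρ hx
    apply Equiv.ext
    rintro ⟨x, hx⟩
    apply Subtype.ext
    change (res S (Equiv.Perm.ofSubtype ρ) ⟨x, hx⟩ : Ω) = _
    rw [res_apply (on_mem_iff hm)]
    change Equiv.Perm.ofSubtype ρ x = _
    rw [Equiv.Perm.ofSubtype_apply_of_mem (p := fun x => x ∈ S) ρ hx]
  map_mul' := by
    rintro ⟨π, hπ⟩ ⟨ρ, hρ⟩
    exact res_mul (on_mem_iff hπ) (on_mem_iff hρ)

lemma resEquiv_symm_coe (S : Finset Ω) (ρ : Equiv.Perm {x // x ∈ S}) :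
    ((resEquiv S).symm ρ : Equiv.Perm Ω) = Equiv.Perm.ofSubtype ρ := rfl

lemma resEquiv_apply (S : Finset Ω) (π : PermOn S) : resEquiv S π = res S π.1 := rfl

/-- finitely supported permutations -/
abbrev FinPerm (π : Equiv.Perm Ω) : Prop := {x | π x ≠ x}.Finite

/-- the support as a finset -/
noncomputable def supp (π : Equiv.Perm Ω) : Finset Ω :=
  open Classical in if h : FinPerm π then h.toFinset else ∅

lemma mem_supp {π : Equiv.Perm Ω} (h : FinPerm π) {x : Ω} : x ∈ supp π ↔ π x ≠ x := by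
  unfold supp; rw [dif_pos h, Set.Finite.mem_toFinset]; rfl

lemma on_fin {S : Finset Ω} {π : Equiv.Perm Ω} (h : π ∈ PermOn S) : FinPerm π := by
  refine S.finite_toSet.subset ?_
  intro x hx
  by_contra hn
  exact hx (h x hn)

lemma FinPerm.mem_PermOn {π : Equiv.Perm Ω} (h : FinPerm π) : π ∈ PermOn (supp π) := by
  intro x hx
  by_contra hn
  exact hx ((mem_supp h).2 hn)

lemma supp_subset {S : Finset Ω} {π : Equiv.Perm Ω} (h : π ∈ PermOn S) : supp π ⊆ S := by
  intro x hx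
  rw [mem_supp (on_fin h)] at hx
  by_contra hn
  exact hx (h x hn)

/-- the sign of a finitely supported permutation -/
noncomputable def sgn (π : Equiv.Perm Ω) : ℤˣ := Equiv.Perm.sign (res (supp π) π)

lemma sign_res_eq {S T : Finset Ω} (hST : S ⊆ T) {π : Equiv.Perm Ω} (h : π ∈ PermOn S) :
    Equiv.Perm.sign (res S π) = Equiv.Perm.sign (res T π) := by
  have hT : π ∈ PermOn T := PermOn_mono hST h
  refine Equiv.Perm.sign_bij (fun x _ => ⟨x.1, hST x.2⟩) ?_ ?_ ?_
  · intro x hx hx'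
    apply Subtype.ext
    change ((res S π x : {x // x ∈ S}) : Ω) = _
    rw [res_apply (on_mem_iff h), res_apply (on_mem_iff hT)]
  · intro x y _ _ hxy
    apply Subtype.ext
    exact congrArg (fun z : {x // x ∈ T} => z.1) hxy
  · intro y hy
    have hy' : π y.1 ≠ y.1 := by
      intro h'
      apply hy
      apply Subtype.ext
      rw [res_apply (on_mem_iff hT)]
      exact h'
    have hyS : y.1 ∈ S := by
      by_contra hn
      exact hy' (h _ hn)
    refine ⟨⟨y.1, hyS⟩, ?_, rfl⟩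
    intro h'
    apply hy'
    have h2 := congrArg (fun z : {x // x ∈ S} => z.1) h'
    simp only at h2
    rw [res_apply (on_mem_iff h)] at h2
    exact h2

lemma sgn_eq {S : Finset Ω} {π : Equiv.Perm Ω} (h : π ∈ PermOn S) :
    sgn π = Equiv.Perm.sign (res S π) :=
  sign_res_eq (supp_subset h) (on_fin h).mem_PermOn

lemma sgn_mul_on {S : Finset Ω} {π ρ : Equiv.Perm Ω} (h : π ∈ PermOn S) (h' : ρ ∈ PermOn S) :
    sgn (π * ρ) = sgn π * sgn ρ := by
  rw [sgn_eq h, sgn_eq h', sgn_eq ((PermOn S).mul_mem h h'), res_mul (on_mem_iff h) (on_mem_iff h'), map_mul]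

lemma sgn_mul {S T : Finset Ω} {π ρ : Equiv.Perm Ω} (h : π ∈ PermOn S) (h' : ρ ∈ PermOn T) :
    sgn (π * ρ) = sgn π * sgn ρ :=
  sgn_mul_on (S := S ∪ T) (PermOn_mono Finset.subset_union_left h)
    (PermOn_mono Finset.subset_union_right h')

@[simp] lemma sgn_one : sgn (1 : Equiv.Perm Ω) = 1 := by
  have h : (1 : Equiv.Perm Ω) ∈ PermOn (∅ : Finset Ω) := (PermOn ∅).one_mem
  have := sgn_mul_on h h
  rw [mul_one] at this
  exact (mul_eq_left.1 this.symm)

lemma sgn_inv {S : Finset Ω} {π : Equiv.Perm Ω} (h : π ∈ PermOn S) : sgn π⁻¹ = sgn π := by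
  have h1 := sgn_mul_on h ((PermOn S).inv_mem h)
  rw [mul_inv_cancel, sgn_one] at h1
  have h2 : sgn π * sgn π = 1 := Int.units_mul_self _
  exact mul_left_cancel (h1.symm.trans h2.symm)

lemma swap_mem_PermOn {S : Finset Ω} {x y : Ω} (hx : x ∈ S) (hy : y ∈ S) :
    Equiv.swap x y ∈ PermOn S := by
  intro z hz
  apply Equiv.swap_apply_of_ne_of_ne
  · rintro rfl; exact hz hx
  · rintro rfl; exact hz hy

lemma sgn_swap {x y : Ω} (h : x ≠ y) : sgn (Equiv.swap x y) = -1 := by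
  have hm : Equiv.swap x y ∈ PermOn ({x, y} : Finset Ω) :=
    swap_mem_PermOn (by simp) (by simp)
  rw [sgn_eq hm]
  have : res ({x, y} : Finset Ω) (Equiv.swap x y)
      = Equiv.swap ⟨x, by simp⟩ ⟨y, by simp⟩ := by
    apply Equiv.ext
    intro z
    apply Subtype.ext
    rw [res_apply (on_mem_iff hm), Equiv.swap_apply_def, Equiv.swap_apply_def]
    split_ifs with h1 h2 h3 h4 h5 <;> simp_all [Subtype.ext_iff]
  rw [this, Equiv.Perm.sign_swap]
  intro h'
  exact h (congrArg Subtype.val h')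

/-- even permutations which are the identity off `S` -/
noncomputable def AltOn (S : Finset Ω) : Subgroup (Equiv.Perm Ω) where
  carrier := {π | π ∈ PermOn S ∧ sgn π = 1}
  one_mem' := ⟨(PermOn S).one_mem, sgn_one⟩
  mul_mem' := by
    rintro a b ⟨ha, ha'⟩ ⟨hb, hb'⟩
    exact ⟨(PermOn S).mul_mem ha hb, by rw [sgn_mul_on ha hb, ha', hb', one_mul]⟩
  inv_mem' := by
    rintro a ⟨ha, ha'⟩
    exact ⟨(PermOn S).inv_mem ha, by rw [sgn_inv ha, ha']⟩

lemma mem_AltOn {S : Finset Ω} {π : Equiv.Perm Ω} :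
    π ∈ AltOn S ↔ π ∈ PermOn S ∧ sgn π = 1 := Iff.rfl

lemma AltOn_le_PermOn (S : Finset Ω) : AltOn S ≤ PermOn S := fun _ h => h.1

lemma AltOn_mono {S T : Finset Ω} (h : S ⊆ T) : AltOn S ≤ AltOn T :=
  fun _ hπ => ⟨PermOn_mono h hπ.1, hπ.2⟩

/-- `AltOn S` is the alternating group of `S` -/
noncomputable def altEquiv (S : Finset Ω) : AltOn S ≃* alternatingGroup {x // x ∈ S} where
  toFun π := ⟨res S π.1, by
    rw [Equiv.Perm.mem_alternatingGroup, ← sgn_eq π.2.1]; exact π.2.2⟩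
  invFun ρ := ⟨Equiv.Perm.ofSubtype ρ.1, by
    have hm : (Equiv.Perm.ofSubtype ρ.1 : Equiv.Perm Ω) ∈ PermOn S :=
      fun x hx => Equiv.Perm.ofSubtype_apply_of_not_mem ρ.1 hx
    refine ⟨hm, ?_⟩
    rw [sgn_eq hm]
    have h1 : res S (Equiv.Perm.ofSubtype ρ.1) = ρ.1 := (resEquiv S).apply_symm_apply ρ.1
    rw [h1]
    exact Equiv.Perm.mem_alternatingGroup.1 ρ.2⟩
  left_inv := by
    rintro ⟨π, hπ, h'⟩
    apply Subtype.ext
    have h1 := congrArg Subtype.val ((resEquiv S).symm_apply_apply ⟨π, hπ⟩)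
    exact h1
  right_inv := by
    rintro ⟨ρ, hρ⟩
    apply Subtype.ext
    exact (resEquiv S).apply_symm_apply ρ
  map_mul' := by
    rintro ⟨π, hπ, _⟩ ⟨ρ, hρ, _⟩
    apply Subtype.ext
    exact res_mul (on_mem_iff hπ) (on_mem_iff hρ)

lemma altEquiv_coe (S : Finset Ω) (π : AltOn S) :
    (altEquiv S π : Equiv.Perm {x // x ∈ S}) = res S π.1 := rfl

lemma altEquiv_symm_coe (S : Finset Ω) (ρ : alternatingGroup {x // x ∈ S}) :
    ((altEquiv S).symm ρ : Equiv.Perm Ω) = Equiv.Perm.ofSubtype ρ.1 := rfl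

/-- permutations with disjoint supports commute -/
lemma commute_of_disjoint {S T : Finset Ω} (h : Disjoint S T) {π ρ : Equiv.Perm Ω}
    (hπ : π ∈ PermOn S) (hρ : ρ ∈ PermOn T) : Commute π ρ := by
  apply Equiv.ext
  intro x
  change π (ρ x) = ρ (π x)
  by_cases hx : x ∈ S
  · have hx' : x ∉ T := Finset.disjoint_left.1 h hx
    have hp : π x ∈ S := (on_mem_iff hπ x).2 hx
    rw [hρ x hx', hρ (π x) (Finset.disjoint_left.1 h hp)]
  · rw [hπ x hx]
    by_cases hx' : x ∈ T
    · have hp : ρ x ∈ T := (on_mem_iff hρ x).2 hx'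
      exact hπ _ (Finset.disjoint_right.1 h hp)
    · rw [hρ x hx', hπ x hx]

/-! ### conjugation by a bijection (shift) -/

/-- the permutation `π` transported by the bijection `σ` -/
def conj (σ : Equiv.Perm Ω) (π : Equiv.Perm Ω) : Equiv.Perm Ω := σ * π * σ⁻¹

@[simp] lemma conj_apply (σ π : Equiv.Perm Ω) (x : Ω) : conj σ π (σ x) = σ (π x) := by
  simp [conj]

lemma conj_mul (σ π ρ : Equiv.Perm Ω) : conj σ (π * ρ) = conj σ π * conj σ ρ := by
  simp [conj, mul_assoc]

lemma conj_inv (σ π : Equiv.Perm Ω) : conj σ π⁻¹ = (conj σ π)⁻¹ := by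
  simp [conj, mul_assoc]

lemma conj_mem_PermOn {S : Finset Ω} {π : Equiv.Perm Ω} (h : π ∈ PermOn S) (σ : Equiv.Perm Ω) :
    conj σ π ∈ PermOn (S.map σ.toEmbedding) := by
  intro x hx
  have hx' : σ⁻¹ x ∉ S := by
    intro h'
    apply hx
    rw [Finset.mem_map]
    exact ⟨σ⁻¹ x, h', by simp⟩
  have := h _ hx'
  simp only [conj, Equiv.Perm.coe_mul, Function.comp_apply, this]
  simp

lemma sgn_conj {S : Finset Ω} {π : Equiv.Perm Ω} (h : π ∈ PermOn S) (σ : Equiv.Perm Ω) :
    sgn (conj σ π) = sgn π := by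
  rw [sgn_eq (conj_mem_PermOn h σ), sgn_eq h]
  have hc := conj_mem_PermOn h σ
  symm
  refine Equiv.Perm.sign_bij (fun x _ => ⟨σ x.1, by
    rw [Finset.mem_map]; exact ⟨x.1, x.2, rfl⟩⟩) ?_ ?_ ?_
  · intro x hx hx'
    apply Subtype.ext
    change σ (res S π x : Ω) = _
    rw [res_apply (on_mem_iff h), res_apply (on_mem_iff hc)]
    exact (conj_apply σ π x.1).symm
  · intro x y _ _ hxy
    apply Subtype.ext
    exact σ.injective (congrArg (fun z : {x // x ∈ S.map σ.toEmbedding} => z.1) hxy)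
  · intro y hy
    obtain ⟨x, hx, hxy⟩ := Finset.mem_map.1 y.2
    refine ⟨⟨x, hx⟩, ?_, Subtype.ext hxy⟩
    intro h'
    apply hy
    apply Subtype.ext
    rw [res_apply (on_mem_iff hc)]
    have h2 := congrArg Subtype.val h'
    rw [res_apply (on_mem_iff h)] at h2
    simp only at h2
    change σ x = y.1 at hxy
    rw [← hxy, conj_apply, h2]

lemma conj_mem_AltOn {S : Finset Ω} {π : Equiv.Perm Ω} (h : π ∈ AltOn S) (σ : Equiv.Perm Ω) :
    conj σ π ∈ AltOn (S.map σ.toEmbedding) :=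
  ⟨conj_mem_PermOn h.1 σ, by rw [sgn_conj h.1 σ, h.2]⟩

/-! ### splitting along an invariant set -/

/-- the part of `π` on the invariant finset `S` -/
noncomputable def part (S : Finset Ω) (π : Equiv.Perm Ω) : Equiv.Perm Ω :=
  Equiv.Perm.ofSubtype (res S π)

lemma part_mem (S : Finset Ω) (π : Equiv.Perm Ω) : part S π ∈ PermOn S :=
  fun x hx => Equiv.Perm.ofSubtype_apply_of_not_mem (p := fun x => x ∈ S) _ hx

lemma part_apply {S : Finset Ω} {π : Equiv.Perm Ω} (h : ∀ x, π x ∈ S ↔ x ∈ S) {x : Ω}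
    (hx : x ∈ S) : part S π x = π x := by
  unfold part
  rw [Equiv.Perm.ofSubtype_apply_of_mem (p := fun x => x ∈ S) _ hx]
  exact res_apply h ⟨x, hx⟩

/-- invariance follows from one inclusion (finite set) -/
lemma inv_of_maps {S : Finset Ω} {π : Equiv.Perm Ω} (h : ∀ x ∈ S, π x ∈ S) (x : Ω) :
    π x ∈ S ↔ x ∈ S := by
  refine ⟨fun hx => ?_, h x⟩
  have hs : S.map π.toEmbedding = S := by
    apply Finset.eq_of_subset_of_card_le
    · intro y hy
      obtain ⟨z, hz, rfl⟩ := Finset.mem_map.1 hy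
      exact h z hz
    · rw [Finset.card_map]
  rw [← hs] at hx
  obtain ⟨z, hz, hzx⟩ := Finset.mem_map.1 hx
  exact (π.injective hzx) ▸ hz

end Crest.Agent.R189.K
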