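import Mathlib
import Crest.Agent.R189.KSgn

/-!
# Row 189, part F (F4, parities of F5): peeling

Abstract lemmas about a finite set `S = lo ∪ mid ∪ up` (a strip with its two ends).
-/

set_option autoImplicit false
set_option linter.unusedSectionVars false

namespace Crest.Agent.R189.K

open Equiv Equiv.Perm

variable {Ω : Type*} [DecidableEq Ω]

/-- an injective self map of a finset is a permutation -/
lemma exists_perm_of_injOn {S : Finset Ω} (G : Ω → Ω) (hm : ∀ x ∈ S, G x ∈ S)
    (hi : ∀ x ∈ S, ∀ y ∈ S, G x = G y → x = y) :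
    ∃ g : Equiv.Perm Ω, g ∈ PermOn S ∧ ∀ x ∈ S, g x = G x := by
  let F : {x // x ∈ S} → {x // x ∈ S} := fun x => ⟨G x.1, hm x.1 x.2⟩
  have hF : Function.Injective F := by
    intro x y hxy
    apply Subtype.ext
    exact hi x.1 x.2 y.1 y.2 (congrArg Subtype.val hxy)
  let e : Equiv.Perm {x // x ∈ S} := Equiv.ofBijective F (Finite.injective_iff_bijective.1 hF)
  refine ⟨Equiv.Perm.ofSubtype e, fun x hx => Equiv.Perm.ofSubtype_apply_of_not_mem e hx, ?_⟩
  intro x hx
  rw [Equiv.Perm.ofSubtype_apply_of_mem (p := fun x => x ∈ S) e hx]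
  rfl

/-- a partial matching of two finsets of the same cardinality -/
lemma exists_inj_of_card {A B : Finset Ω} (h : A.card = B.card) :
    ∃ G : Ω → Ω, (∀ x ∈ A, G x ∈ B) ∧ ∀ x ∈ A, ∀ y ∈ A, G x = G y → x = y := by
  classical
  let e : {x // x ∈ A} ≃ {x // x ∈ B} := Finset.equivOfCardEq h
  refine ⟨fun x => if hx : x ∈ A then (e ⟨x, hx⟩).1 else x, ?_, ?_⟩
  · intro x hx
    simp only [hx, dif_pos]
    exact (e ⟨x, hx⟩).2
  · intro x hx y hy hxy
    simp only [hx, hy, dif_pos] at hxy
    have := e.injective (Subtype.ext hxy)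
    exact congrArg Subtype.val this

/-- Data of a strip with two ends. -/
structure Strip (S lo mid up : Finset Ω) (low : Ω → Prop) : Prop where
  eq : ∀ x, x ∈ S ↔ x ∈ lo ∨ x ∈ mid ∨ x ∈ up
  lm : Disjoint lo mid
  mu : Disjoint mid up
  lo_low : ∀ x ∈ lo, low x
  up_low : ∀ x ∈ up, ¬ low x

section strip
variable {S lo mid up : Finset Ω} {low : Ω → Prop} [DecidablePred low]

lemma Strip.lu (H : Strip S lo mid up low) : Disjoint lo up := by
  rw [Finset.disjoint_left]
  intro x hx hx'
  exact H.up_low x hx' (H.lo_low x hx)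

/-- EXTENSION: an injection of the middle part with zero flux extends to a permutation of the strip
which sends the lower end to the lower half and the upper end to the upper half. -/
lemma Strip.exists_ext (H : Strip S lo mid up low) (φ : Ω → Ω)
    (hφ : ∀ x ∈ mid, φ x ∈ S) (hi : ∀ x ∈ mid, ∀ y ∈ mid, φ x = φ y → x = y)
    (hflux : (mid.filter (fun x => low (φ x))).card = (mid.filter (fun x => low x)).card) :
    ∃ g : Equiv.Perm Ω, g ∈ PermOn S ∧ (∀ x ∈ mid, g x = φ x) ∧ (∀ x ∈ lo, low (g x)) ∧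
      (∀ x ∈ up, ¬ low (g x)) := by
  classical
  have hlo : lo ⊆ S := fun x hx => (H.eq x).2 (Or.inl hx)
  have hmid : mid ⊆ S := fun x hx => (H.eq x).2 (Or.inr (Or.inl hx))
  have hup : up ⊆ S := fun x hx => (H.eq x).2 (Or.inr (Or.inr hx))
  set I := mid.image φ with hI
  have hIS : I ⊆ S := by
    intro y hy
    obtain ⟨x, hx, rfl⟩ := Finset.mem_image.1 hy
    exact hφ x hx
  have hinj : Set.InjOn φ mid := fun x hx y hy h => hi x hx y hy h
  -- cardinalities of the halves
  have e1 : (S.filter (fun x => low x)).card = lo.card + (mid.filter (fun x => low x)).card := by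
    rw [← Finset.card_union_of_disjoint]
    · congr 1
      ext x
      simp only [Finset.mem_filter, Finset.mem_union, H.eq x]
      constructor
      · rintro ⟨h1 | h1 | h1, h2⟩
        · exact Or.inl h1
        · exact Or.inr ⟨h1, h2⟩
        · exact absurd h2 (H.up_low x h1)
      · rintro (h1 | ⟨h1, h2⟩)
        · exact ⟨Or.inl h1, H.lo_low x h1⟩
        · exact ⟨Or.inr (Or.inl h1), h2⟩
    · exact Finset.disjoint_of_subset_right (Finset.filter_subset _ _) H.lm
  have e2 : (S.filter (fun x => ¬ low x)).card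
      = up.card + (mid.filter (fun x => ¬ low x)).card := by
    rw [← Finset.card_union_of_disjoint]
    · congr 1
      ext x
      simp only [Finset.mem_filter, Finset.mem_union, H.eq x]
      constructor
      · rintro ⟨h1 | h1 | h1, h2⟩
        · exact absurd (H.lo_low x h1) h2
        · exact Or.inr ⟨h1, h2⟩
        · exact Or.inl h1
      · rintro (h1 | ⟨h1, h2⟩)
        · exact ⟨Or.inr (Or.inr h1), H.up_low x h1⟩
        · exact ⟨Or.inr (Or.inl h1), h2⟩
    · exact Finset.disjoint_of_subset_right (Finset.filter_subset _ _) H.mu.symm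
  have e3 : (I.filter (fun x => low x)).card = (mid.filter (fun x => low (φ x))).card := by
    rw [hI, Finset.filter_image, Finset.card_image_of_injOn]
    exact hinj.mono (fun x hx => (Finset.mem_filter.1 hx).1)
  have e4 : (I.filter (fun x => ¬ low x)).card = (mid.filter (fun x => ¬ low (φ x))).card := by
    rw [hI, Finset.filter_image, Finset.card_image_of_injOn]
    exact hinj.mono (fun x hx => (Finset.mem_filter.1 hx).1)
  have e5 := Finset.card_filter_add_card_filter_not (s := mid) (fun x => low x)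
  have e6 := Finset.card_filter_add_card_filter_not (s := mid) (fun x => low (φ x))
  have c1 : ((S.filter (fun x => low x)) \ (I.filter (fun x => low x))).card = lo.card := by
    rw [Finset.card_sdiff_of_subset (Finset.filter_subset_filter _ hIS), e1, e3, hflux]
    omega
  have c2 : ((S.filter (fun x => ¬ low x)) \ (I.filter (fun x => ¬ low x))).card = up.card := by
    rw [Finset.card_sdiff_of_subset (Finset.filter_subset_filter _ hIS), e2, e4]
    omega
  obtain ⟨G1, hG1, hG1i⟩ := exists_inj_of_card c1.symm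
  obtain ⟨G2, hG2, hG2i⟩ := exists_inj_of_card c2.symm
  let G : Ω → Ω := fun x => if x ∈ lo then G1 x else if x ∈ up then G2 x else φ x
  have Glo : ∀ x ∈ lo, G x = G1 x := fun x hx => by simp [G, hx]
  have Gup : ∀ x ∈ up, G x = G2 x := fun x hx => by
    have : x ∉ lo := Finset.disjoint_right.1 H.lu hx
    simp [G, hx, this]
  have Gmid : ∀ x ∈ mid, G x = φ x := fun x hx => by
    have h1 : x ∉ lo := Finset.disjoint_right.1 H.lm hx
    have h2 : x ∉ up := Finset.disjoint_left.1 H.mu hx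
    simp [G, h1, h2]
  have l1 : ∀ x ∈ lo, G x ∈ S ∧ low (G x) ∧ G x ∉ I := by
    intro x hx
    have h := hG1 x hx
    rw [Finset.mem_sdiff, Finset.mem_filter] at h
    rw [Glo x hx]
    exact ⟨h.1.1, h.1.2, fun h' => h.2 (Finset.mem_filter.2 ⟨h', h.1.2⟩)⟩
  have l2 : ∀ x ∈ up, G x ∈ S ∧ ¬ low (G x) ∧ G x ∉ I := by
    intro x hx
    have h := hG2 x hx
    rw [Finset.mem_sdiff, Finset.mem_filter] at h
    rw [Gup x hx]
    exact ⟨h.1.1, h.1.2, fun h' => h.2 (Finset.mem_filter.2 ⟨h', h.1.2⟩)⟩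
  have l3 : ∀ x ∈ mid, G x ∈ S ∧ G x ∈ I := by
    intro x hx
    rw [Gmid x hx]
    exact ⟨hφ x hx, Finset.mem_image_of_mem _ hx⟩
  obtain ⟨g, hg, hgG⟩ := exists_perm_of_injOn (S := S) G (by
    intro x hx
    rcases (H.eq x).1 hx with h | h | h
    · exact (l1 x h).1
    · exact (l3 x h).1
    · exact (l2 x h).1) (by
    intro x hx y hy hxy
    rcases (H.eq x).1 hx with h | h | h <;> rcases (H.eq y).1 hy with h' | h' | h'
    · rw [Glo x h, Glo y h'] at hxy; exact hG1i x h y h' hxy
    · exact absurd (hxy ▸ (l3 y h').2) (l1 x h).2.2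
    · exact absurd (hxy ▸ (l1 x h).2.1) (l2 y h').2.1
    · exact absurd (hxy ▸ (l3 x h).2) (l1 y h').2.2
    · rw [Gmid x h, Gmid y h'] at hxy; exact hi x h y h' hxy
    · exact absurd (hxy ▸ (l3 x h).2) (l2 y h').2.2
    · exact absurd (hxy ▸ (l2 x h).2.1) (not_not.2 (l1 y h').2.1)
    · exact absurd (hxy ▸ (l3 y h').2) (l2 x h).2.2
    · rw [Gup x h, Gup y h'] at hxy; exact hG2i x h y h' hxy)
  refine ⟨g, hg, ?_, ?_, ?_⟩
  · intro x hx; rw [hgG x (hmid hx), Gmid x hx]
  · intro x hx; rw [hgG x (hlo hx)]; exact (l1 x hx).2.1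
  · intro x hx; rw [hgG x (hup hx)]; exact (l2 x hx).2.1

/-- the extension can be chosen even, if the lower end has two points -/
lemma Strip.exists_ext_even (H : Strip S lo mid up low) (φ : Ω → Ω)
    (hφ : ∀ x ∈ mid, φ x ∈ S) (hi : ∀ x ∈ mid, ∀ y ∈ mid, φ x = φ y → x = y)
    (hflux : (mid.filter (fun x => low (φ x))).card = (mid.filter (fun x => low x)).card)
    {a b : Ω} (ha : a ∈ lo) (hb : b ∈ lo) (hab : a ≠ b) :
    ∃ g : Equiv.Perm Ω, g ∈ AltOn S ∧ (∀ x ∈ mid, g x = φ x) ∧ (∀ x ∈ lo, low (g x)) ∧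
      (∀ x ∈ up, ¬ low (g x)) := by
  obtain ⟨g, hg, h1, h2, h3⟩ := H.exists_ext φ hφ hi hflux
  have hlo : lo ⊆ S := fun x hx => (H.eq x).2 (Or.inl hx)
  have hsw : Equiv.swap a b ∈ PermOn lo := swap_mem_PermOn ha hb
  rcases Int.units_eq_one_or (sgn g) with hs | hs
  · exact ⟨g, ⟨hg, hs⟩, h1, h2, h3⟩
  · refine ⟨g * Equiv.swap a b, ⟨(PermOn S).mul_mem hg (PermOn_mono hlo hsw), ?_⟩, ?_, ?_, ?_⟩
    · rw [sgn_mul_on hg (PermOn_mono hlo hsw), hs, sgn_swap hab]; rfl
    · intro x hx
      have : Equiv.swap a b x = x := hsw x (Finset.disjoint_right.1 H.lm hx)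
      simp only [Equiv.Perm.coe_mul, Function.comp_apply, this]
      exact h1 x hx
    · intro x hx
      simp only [Equiv.Perm.coe_mul, Function.comp_apply]
      exact h2 _ ((on_mem_iff hsw x).2 hx)
    · intro x hx
      have : Equiv.swap a b x = x := hsw x (Finset.disjoint_right.1 H.lu hx)
      simp only [Equiv.Perm.coe_mul, Function.comp_apply, this]
      exact h3 x hx

/-- `g` is a good filling of the strip for the (injective) map `φ`. -/
structure Filling (S lo mid up : Finset Ω) (low : Ω → Prop) (φ : Ω → Ω) (g : Equiv.Perm Ω) :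
    Prop where
  mem : g ∈ PermOn S
  mid : ∀ x ∈ mid, g x = φ x
  lo : ∀ x ∈ lo, low (g x)
  up : ∀ x ∈ up, ¬ low (g x)

/-- toggling a filling by permutations of the two ends -/
lemma Filling.toggle (H : Strip S lo mid up low) {φ : Ω → Ω} {g : Equiv.Perm Ω}
    (hg : Filling S lo mid up low φ g) {σ τ : Equiv.Perm Ω} (hσ : σ ∈ PermOn lo)
    (hτ : τ ∈ PermOn up) : Filling S lo mid up low φ (g * (σ * τ)) := by
  have hlo : lo ⊆ S := fun x hx => (H.eq x).2 (Or.inl hx)
  have hup : up ⊆ S := fun x hx => (H.eq x).2 (Or.inr (Or.inr hx))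
  refine ⟨(PermOn S).mul_mem hg.mem ((PermOn S).mul_mem (PermOn_mono hlo hσ)
    (PermOn_mono hup hτ)), ?_, ?_, ?_⟩
  · intro x hx
    have h1 : τ x = x := hτ x (Finset.disjoint_left.1 H.mu hx)
    have h2 : σ x = x := hσ x (Finset.disjoint_right.1 H.lm hx)
    simp only [Equiv.Perm.coe_mul, Function.comp_apply, h1, h2]
    exact hg.mid x hx
  · intro x hx
    have h1 : τ x = x := hτ x (Finset.disjoint_left.1 H.lu hx)
    simp only [Equiv.Perm.coe_mul, Function.comp_apply, h1]
    exact hg.lo _ ((on_mem_iff hσ x).2 hx)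
  · intro x hx
    have h1 : τ x ∈ up := (on_mem_iff hτ x).2 hx
    have h2 : σ (τ x) = τ x := hσ _ (Finset.disjoint_right.1 H.lu h1)
    simp only [Equiv.Perm.coe_mul, Function.comp_apply, h2]
    exact hg.up _ h1

/-- EDGE LEMMA (abstract): `e` and the filling `g` agree in the middle and `e` keeps the two ends in
their halves; then `g⁻¹ e = l u`. -/
lemma Filling.edge (H : Strip S lo mid up low) {φ : Ω → Ω} {g e : Equiv.Perm Ω}
    (hg : Filling S lo mid up low φ g) (he : e ∈ PermOn S) (hem : ∀ x ∈ mid, e x = φ x)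
    (hel : ∀ x ∈ lo, low (e x)) (heu : ∀ x ∈ up, ¬ low (e x)) :
    (∀ x ∈ mid, (g⁻¹ * e) x = x) ∧ (∀ x ∈ lo, (g⁻¹ * e) x ∈ lo) ∧
      (∀ x ∈ up, (g⁻¹ * e) x ∈ up) := by
  have hr : g⁻¹ * e ∈ PermOn S := (PermOn S).mul_mem ((PermOn S).inv_mem hg.mem) he
  have hlo : lo ⊆ S := fun x hx => (H.eq x).2 (Or.inl hx)
  have hup : up ⊆ S := fun x hx => (H.eq x).2 (Or.inr (Or.inr hx))
  have h1 : ∀ x ∈ mid, (g⁻¹ * e) x = x := by
    intro x hx
    simp only [Equiv.Perm.coe_mul, Function.comp_apply, hem x hx, ← hg.mid x hx]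
    simp
  have key : ∀ x, g ((g⁻¹ * e) x) = e x := by intro x; simp
  refine ⟨h1, ?_, ?_⟩
  · intro x hx
    have hS : (g⁻¹ * e) x ∈ S := (on_mem_iff hr x).2 (hlo hx)
    rcases (H.eq _).1 hS with h | h | h
    · exact h
    · have h2 := h1 _ h
      have h3 := (g⁻¹ * e).injective h2
      rw [h3] at h
      exact absurd h (Finset.disjoint_left.1 H.lm hx)
    · exact absurd (hel x hx) (by rw [← key x]; exact hg.up _ h)
  · intro x hx
    have hS : (g⁻¹ * e) x ∈ S := (on_mem_iff hr x).2 (hup hx)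
    rcases (H.eq _).1 hS with h | h | h
    · exact absurd (by rw [← key x]; exact hg.lo _ h) (heu x hx)
    · have h2 := h1 _ h
      have h3 := (g⁻¹ * e).injective h2
      rw [h3] at h
      exact absurd h (Finset.disjoint_right.1 H.mu hx)
    · exact h

end strip

/-- a permutation of `A ∪ B` (disjoint) preserving both is the product of its parts -/
lemma eq_part_mul_part {A B : Finset Ω} (hAB : Disjoint A B) {π : Equiv.Perm Ω}
    (h : π ∈ PermOn (A ∪ B)) (hA : ∀ x ∈ A, π x ∈ A) (hB : ∀ x ∈ B, π x ∈ B) :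
    π = part A π * part B π := by
  have iA := inv_of_maps hA
  have iB := inv_of_maps hB
  apply Equiv.ext
  intro x
  simp only [Equiv.Perm.coe_mul, Function.comp_apply]
  by_cases hx : x ∈ B
  · rw [part_apply iB hx]
    exact (part_mem A π _ (Finset.disjoint_right.1 hAB (hB x hx))).symm
  · rw [part_mem B π x hx]
    by_cases hx' : x ∈ A
    · rw [part_apply iA hx']
    · rw [part_mem A π x hx']
      exact h x (by simp [hx, hx'])

/-- the conclusion of the edge lemma as a factorisation -/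
lemma Filling.edge_factor {S lo mid up : Finset Ω} {low : Ω → Prop} [DecidablePred low]
    (H : Strip S lo mid up low) {φ : Ω → Ω} {g e : Equiv.Perm Ω}
    (hg : Filling S lo mid up low φ g) (he : e ∈ PermOn S) (hem : ∀ x ∈ mid, e x = φ x)
    (hel : ∀ x ∈ lo, low (e x)) (heu : ∀ x ∈ up, ¬ low (e x)) :
    ∃ l ∈ PermOn lo, ∃ u ∈ PermOn up, g⁻¹ * e = l * u := by
  obtain ⟨h1, h2, h3⟩ := hg.edge H he hem hel heu
  have hr : g⁻¹ * e ∈ PermOn S := (PermOn S).mul_mem ((PermOn S).inv_mem hg.mem) he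
  refine ⟨part lo (g⁻¹ * e), part_mem _ _, part up (g⁻¹ * e), part_mem _ _, ?_⟩
  apply eq_part_mul_part H.lu _ h2 h3
  intro x hx
  by_cases hS : x ∈ S
  · rcases (H.eq x).1 hS with h | h | h
    · exact absurd (Finset.mem_union_left _ h) hx
    · exact h1 x h
    · exact absurd (Finset.mem_union_right _ h) hx
  · exact hr x hS

end Crest.Agent.R189.K
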