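import Mathlib
import Crest.Agent.R189.KPeel
import Crest.Agent.R189.KDefs
import Crest.Agent.R189.KFlux

/-!
# Row 189, part F (F4, parities of F5): FACE LEMMA, EDGE LEMMAS, TOGGLE

Everything lives in `Equiv.Perm ((ℤ × ℤ) × C)`.
-/

set_option autoImplicit false
set_option linter.unusedSectionVars false
set_option linter.unusedVariables false
set_option linter.unusedSimpArgs false

noncomputable section

namespace Crest.Agent.R189.K

open Equiv Equiv.Perm

/-! ### sign on an invariant piece -/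

section inv
variable {Ω : Type*} [DecidableEq Ω]

/-- `A` is invariant under `π` -/
def Invt (A : Finset Ω) (π : Equiv.Perm Ω) : Prop := ∀ x, π x ∈ A ↔ x ∈ A

/-- sign of `π` on the invariant finset `A` -/
def sgnP (A : Finset Ω) (π : Equiv.Perm Ω) : ℤˣ := Equiv.Perm.sign (res A π)

lemma Invt.mul {A : Finset Ω} {π ρ : Equiv.Perm Ω} (h : Invt A π) (h' : Invt A ρ) : Invt A (π * ρ) :=
  fun x => (h (ρ x)).trans (h' x)

lemma sgnP_mul {A : Finset Ω} {π ρ : Equiv.Perm Ω} (h : Invt A π) (h' : Invt A ρ) :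
    sgnP A (π * ρ) = sgnP A π * sgnP A ρ := by
  unfold sgnP
  rw [res_mul h h', map_mul]

lemma inv_of_sub {A T : Finset Ω} (h : T ⊆ A) {π : Equiv.Perm Ω} (hπ : π ∈ PermOn T) :
    Invt A π := on_mem_iff (PermOn_mono h hπ)

lemma inv_of_disj {A T : Finset Ω} (h : Disjoint T A) {π : Equiv.Perm Ω} (hπ : π ∈ PermOn T) :
    Invt A π := by
  apply inv_of_maps
  intro x hx
  rw [hπ x (Finset.disjoint_right.1 h hx)]
  exact hx

lemma sgnP_of_sub {A T : Finset Ω} (h : T ⊆ A) {π : Equiv.Perm Ω} (hπ : π ∈ PermOn T) :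
    sgnP A π = sgn π := by
  rw [sgn_eq (PermOn_mono h hπ)]; rfl

lemma sgnP_of_disj {A T : Finset Ω} (h : Disjoint T A) {π : Equiv.Perm Ω} (hπ : π ∈ PermOn T) :
    sgnP A π = 1 := by
  have : res A π = 1 := by
    apply Equiv.ext
    intro x
    apply Subtype.ext
    rw [res_apply (inv_of_disj h hπ)]
    exact hπ x (Finset.disjoint_right.1 h x.2)
  unfold sgnP
  rw [this, map_one]

lemma sgn_part {A : Finset Ω} {π : Equiv.Perm Ω} (h : Invt A π) : sgn (part A π) = sgnP A π := by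
  rw [sgn_eq (part_mem A π)]
  unfold sgnP
  congr 1
  apply Equiv.ext
  intro x
  apply Subtype.ext
  rw [res_apply (on_mem_iff (part_mem A π)), res_apply h, part_apply h x.2]

end inv

/-! ### the plane -/

variable {C : Type*} [Fintype C] [DecidableEq C]

open KFlux (bx mem_bx)

lemma sh_mem_bx {u : ℤ × ℤ} {x1 x2 y1 y2 : ℤ} {z : Equiv.Perm ((ℤ × ℤ) × C)}
    (h : z ∈ PermOn (bx C x1 x2 y1 y2)) :
    sh u z ∈ PermOn (bx C (x1 + u.1) (x2 + u.1) (y1 + u.2) (y2 + u.2)) := by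
  intro x hx
  have h1 : ((x.1 - u, x.2) : (ℤ × ℤ) × C) ∉ bx C x1 x2 y1 y2 := by
    intro h'
    apply hx
    rw [mem_bx] at h' ⊢
    simp only [Prod.fst_sub, Prod.snd_sub] at h'
    omega
  rw [sh_apply, h _ h1]
  ext <;> simp

lemma sgn_sh' {u : ℤ × ℤ} {S : Finset ((ℤ × ℤ) × C)} {z : Equiv.Perm ((ℤ × ℤ) × C)}
    (h : z ∈ PermOn S) : sgn (sh u z) = sgn z := sgn_conj h _

/-- displacement at most `d` -/
def Disp (d : ℤ) (z : Equiv.Perm ((ℤ × ℤ) × C)) : Prop :=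
  ∀ x, ((z x).1.1 ≤ x.1.1 + d ∧ x.1.1 - d ≤ (z x).1.1) ∧
    ((z x).1.2 ≤ x.1.2 + d ∧ x.1.2 - d ≤ (z x).1.2)

lemma Disp.inv {d : ℤ} {z : Equiv.Perm ((ℤ × ℤ) × C)} (h : Disp d z) : Disp d z⁻¹ := by
  intro x
  have := h (z⁻¹ x)
  have h1 : z (z⁻¹ x) = x := z.apply_symm_apply x
  rw [h1] at this
  omega

/-- numerical parameters of the peeling: cell `[0,w) × [0,h)`, strips of half width `s`, strips
start at distance `t0` of the corners, corner squares of radius `t`, displacement `d`, middle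
heights `mx`, `my`. -/
structure Geo where
  (w h s t0 t d mx my : ℤ)
  (d0 : 0 ≤ d) (s0 : 0 < s) (hst : s ≤ t0) (htd : t0 + d ≤ t) (hsd : s + d ≤ t) (ht0 : t0 < t)
  (m1 : t + d ≤ mx) (m2 : mx + d ≤ w - t) (m3 : t + d ≤ my) (m4 : my + d ≤ h - t)

namespace Geo

/-- vertical strip with abscissas in `[a,b)`: whole, lower end, middle, upper end -/
def vS (C : Type*) [Fintype C] (P : Geo) (a b : ℤ) := bx C a b P.t0 (P.h - P.t0)
def vlo (C : Type*) [Fintype C] (P : Geo) (a b : ℤ) := bx C a b P.t0 P.t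
def vmid (C : Type*) [Fintype C] (P : Geo) (a b : ℤ) := bx C a b P.t (P.h - P.t)
def vup (C : Type*) [Fintype C] (P : Geo) (a b : ℤ) := bx C a b (P.h - P.t) (P.h - P.t0)
/-- lower half plane -/
def vlow (C : Type*) (P : Geo) (x : (ℤ × ℤ) × C) : Prop := x.1.2 < P.my
/-- horizontal strip with ordinates in `[a,b)` -/
def hS (C : Type*) [Fintype C] (P : Geo) (a b : ℤ) := bx C P.t0 (P.w - P.t0) a b
def hlo (C : Type*) [Fintype C] (P : Geo) (a b : ℤ) := bx C P.t0 P.t a b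
def hmid (C : Type*) [Fintype C] (P : Geo) (a b : ℤ) := bx C P.t (P.w - P.t) a b
def hup (C : Type*) [Fintype C] (P : Geo) (a b : ℤ) := bx C (P.w - P.t) (P.w - P.t0) a b
/-- left half plane -/
def hlow (C : Type*) (P : Geo) (x : (ℤ × ℤ) × C) : Prop := x.1.1 < P.mx

instance (P : Geo) : DecidablePred (P.vlow C) := fun x => inferInstanceAs (Decidable (x.1.2 < P.my))
instance (P : Geo) : DecidablePred (P.hlow C) := fun x => inferInstanceAs (Decidable (x.1.1 < P.mx))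

/-- the four corner squares of the cell -/
def c00 (C : Type*) [Fintype C] (P : Geo) := bx C 0 P.t 0 P.t
def c10 (C : Type*) [Fintype C] (P : Geo) := bx C (P.w - P.t) P.w 0 P.t
def c01 (C : Type*) [Fintype C] (P : Geo) := bx C 0 P.t (P.h - P.t) P.h
def c11 (C : Type*) [Fintype C] (P : Geo) := bx C (P.w - P.t) P.w (P.h - P.t) P.h

variable (P : Geo)

lemma vstrip (a b : ℤ) : Strip (P.vS C a b) (P.vlo C a b) (P.vmid C a b) (P.vup C a b)
    (P.vlow C) := by
  have := P.d0; have := P.m3; have := P.m4; have := P.htd; have := P.ht0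
  refine ⟨?_, ?_, ?_, ?_, ?_⟩
  · intro x; simp only [vS, vlo, vmid, vup, mem_bx]; omega
  · rw [Finset.disjoint_left]; intro x; simp only [vlo, vmid, mem_bx]; omega
  · rw [Finset.disjoint_left]; intro x; simp only [vmid, vup, mem_bx]; omega
  · intro x; simp only [vlo, vlow, mem_bx]; omega
  · intro x; simp only [vup, vlow, mem_bx]; omega

lemma hstrip (a b : ℤ) : Strip (P.hS C a b) (P.hlo C a b) (P.hmid C a b) (P.hup C a b)
    (P.hlow C) := by
  have := P.d0; have := P.m1; have := P.m2; have := P.htd; have := P.ht0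
  refine ⟨?_, ?_, ?_, ?_, ?_⟩
  · intro x; simp only [hS, hlo, hmid, hup, mem_bx]; omega
  · rw [Finset.disjoint_left]; intro x; simp only [hlo, hmid, mem_bx]; omega
  · rw [Finset.disjoint_left]; intro x; simp only [hmid, hup, mem_bx]; omega
  · intro x; simp only [hlo, hlow, mem_bx]; omega
  · intro x; simp only [hup, hlow, mem_bx]; omega

/-- the hypotheses on the face permutation `f` -/
structure FaceHyp (f : Equiv.Perm ((ℤ × ℤ) × C)) : Prop where
  mem : f ∈ AltOn (bx C 0 P.w 0 P.h)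
  disp : Disp P.d f
  triv : ∀ x, x ∉ P.vmid C 0 P.s → x ∉ P.vmid C (P.w - P.s) P.w → x ∉ P.hmid C 0 P.s →
    x ∉ P.hmid C (P.h - P.s) P.h → x ∉ P.c00 C → x ∉ P.c10 C → x ∉ P.c01 C → x ∉ P.c11 C →
    f x = x
  stL : ∀ x ∈ P.vmid C 0 P.s, (f⁻¹ x).1.1 < P.s
  stR : ∀ x ∈ P.vmid C (P.w - P.s) P.w, P.w - P.s ≤ (f⁻¹ x).1.1
  stB : ∀ x ∈ P.hmid C 0 P.s, (f⁻¹ x).1.2 < P.s
  stT : ∀ x ∈ P.hmid C (P.h - P.s) P.h, P.h - P.s ≤ (f⁻¹ x).1.2
  flL : ((P.vmid C 0 P.s).filter (fun x => P.vlow C (f⁻¹ x))).card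
    = ((P.vmid C 0 P.s).filter (fun x => P.vlow C x)).card
  flR : ((P.vmid C (P.w - P.s) P.w).filter (fun x => P.vlow C (f⁻¹ x))).card
    = ((P.vmid C (P.w - P.s) P.w).filter (fun x => P.vlow C x)).card
  flB : ((P.hmid C 0 P.s).filter (fun x => P.hlow C (f⁻¹ x))).card
    = ((P.hmid C 0 P.s).filter (fun x => P.hlow C x)).card
  flT : ((P.hmid C (P.h - P.s) P.h).filter (fun x => P.hlow C (f⁻¹ x))).card
    = ((P.hmid C (P.h - P.s) P.h).filter (fun x => P.hlow C x)).card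

/-- four good fillings for the face permutation `f` (without the parity conditions) -/
structure PreFace (f gL gR gB gT : Equiv.Perm ((ℤ × ℤ) × C)) : Prop where
  L : Filling (P.vS C 0 P.s) (P.vlo C 0 P.s) (P.vmid C 0 P.s) (P.vup C 0 P.s) (P.vlow C) (fun x => f⁻¹ x) gL
  R : Filling (P.vS C (P.w - P.s) P.w) (P.vlo C (P.w - P.s) P.w) (P.vmid C (P.w - P.s) P.w)
    (P.vup C (P.w - P.s) P.w) (P.vlow C) (fun x => f⁻¹ x) gR
  B : Filling (P.hS C 0 P.s) (P.hlo C 0 P.s) (P.hmid C 0 P.s) (P.hup C 0 P.s) (P.hlow C) (fun x => f⁻¹ x) gB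
  T : Filling (P.hS C (P.h - P.s) P.h) (P.hlo C (P.h - P.s) P.h) (P.hmid C (P.h - P.s) P.h)
    (P.hup C (P.h - P.s) P.h) (P.hlow C) (fun x => f⁻¹ x) gT
  sL : sgn gL = 1
  sR : sgn gR = 1
  sB : sgn gB = 1
  sT : sgn gT = 1

/-- the peeled face permutation -/
def fpeel (f gL gR gB gT : Equiv.Perm ((ℤ × ℤ) × C)) : Equiv.Perm ((ℤ × ℤ) × C) :=
  f * (gL * gR * gB * gT)

/-- FACE DATA: the peeled permutation is even on every corner square -/
structure Face (f gL gR gB gT : Equiv.Perm ((ℤ × ℤ) × C)) : Prop extends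
    PreFace P f gL gR gB gT where
  e00 : sgnP (P.c00 C) (fpeel f gL gR gB gT) = 1
  e10 : sgnP (P.c10 C) (fpeel f gL gR gB gT) = 1
  e01 : sgnP (P.c01 C) (fpeel f gL gR gB gT) = 1
  e11 : sgnP (P.c11 C) (fpeel f gL gR gB gT) = 1


/-! ### action of the product of the four fillings -/

section act
variable {P}
variable {f gL gR gB gT : Equiv.Perm ((ℤ × ℤ) × C)}

lemma PreFace.apply_L (H : PreFace P f gL gR gB gT) {x : (ℤ × ℤ) × C} (hx : x ∈ P.vS C 0 P.s) :
    (gL * gR * gB * gT) x = gL x := by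
  have := P.d0; have := P.m1; have := P.m2; have := P.htd; have := P.ht0; have := P.hst
  have := P.m3; have := P.m4; have := P.s0; have := P.hsd
  have h1 : gT x = x := H.T.mem x (by simp only [vS, hS, mem_bx] at hx ⊢; omega)
  have h2 : gB x = x := H.B.mem x (by simp only [vS, hS, mem_bx] at hx ⊢; omega)
  have h3 : gR x = x := H.R.mem x (by simp only [vS, hS, mem_bx] at hx ⊢; omega)
  simp only [Equiv.Perm.coe_mul, Function.comp_apply, h1, h2, h3]

lemma PreFace.apply_R (H : PreFace P f gL gR gB gT) {x : (ℤ × ℤ) × C}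
    (hx : x ∈ P.vS C (P.w - P.s) P.w) : (gL * gR * gB * gT) x = gR x := by
  have := P.d0; have := P.m1; have := P.m2; have := P.htd; have := P.ht0; have := P.hst
  have := P.m3; have := P.m4; have := P.s0; have := P.hsd
  have h1 : gT x = x := H.T.mem x (by simp only [vS, hS, mem_bx] at hx ⊢; omega)
  have h2 : gB x = x := H.B.mem x (by simp only [vS, hS, mem_bx] at hx ⊢; omega)
  have h4 : gR x ∈ P.vS C (P.w - P.s) P.w := (on_mem_iff H.R.mem x).2 hx
  have h3 : gL (gR x) = gR x := H.L.mem _ (by simp only [vS, hS, mem_bx] at h4 ⊢; omega)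
  simp only [Equiv.Perm.coe_mul, Function.comp_apply, h1, h2, h3]

lemma PreFace.apply_B (H : PreFace P f gL gR gB gT) {x : (ℤ × ℤ) × C}
    (hx : x ∈ P.hS C 0 P.s) : (gL * gR * gB * gT) x = gB x := by
  have := P.d0; have := P.m1; have := P.m2; have := P.htd; have := P.ht0; have := P.hst
  have := P.m3; have := P.m4; have := P.s0; have := P.hsd
  have h1 : gT x = x := H.T.mem x (by simp only [vS, hS, mem_bx] at hx ⊢; omega)
  have h4 : gB x ∈ P.hS C 0 P.s := (on_mem_iff H.B.mem x).2 hx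
  have h2 : gR (gB x) = gB x := H.R.mem _ (by simp only [vS, hS, mem_bx] at h4 ⊢; omega)
  have h3 : gL (gB x) = gB x := H.L.mem _ (by simp only [vS, hS, mem_bx] at h4 ⊢; omega)
  simp only [Equiv.Perm.coe_mul, Function.comp_apply, h1, h2, h3]

lemma PreFace.apply_T (H : PreFace P f gL gR gB gT) {x : (ℤ × ℤ) × C}
    (hx : x ∈ P.hS C (P.h - P.s) P.h) : (gL * gR * gB * gT) x = gT x := by
  have := P.d0; have := P.m1; have := P.m2; have := P.htd; have := P.ht0; have := P.hst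
  have := P.m3; have := P.m4; have := P.s0; have := P.hsd
  have h4 : gT x ∈ P.hS C (P.h - P.s) P.h := (on_mem_iff H.T.mem x).2 hx
  have h1 : gB (gT x) = gT x := H.B.mem _ (by simp only [vS, hS, mem_bx] at h4 ⊢; omega)
  have h2 : gR (gT x) = gT x := H.R.mem _ (by simp only [vS, hS, mem_bx] at h4 ⊢; omega)
  have h3 : gL (gT x) = gT x := H.L.mem _ (by simp only [vS, hS, mem_bx] at h4 ⊢; omega)
  simp only [Equiv.Perm.coe_mul, Function.comp_apply, h1, h2, h3]

lemma PreFace.apply_else (H : PreFace P f gL gR gB gT) {x : (ℤ × ℤ) × C}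
    (h1 : x ∉ P.vS C 0 P.s) (h2 : x ∉ P.vS C (P.w - P.s) P.w) (h3 : x ∉ P.hS C 0 P.s)
    (h4 : x ∉ P.hS C (P.h - P.s) P.h) : (gL * gR * gB * gT) x = x := by
  simp only [Equiv.Perm.coe_mul, Function.comp_apply, H.T.mem x h4, H.B.mem x h3, H.R.mem x h2,
    H.L.mem x h1]

/-- the peeled permutation is supported on the four corner squares -/
lemma PreFace.peel_mem (hf : FaceHyp P f) (H : PreFace P f gL gR gB gT) :
    fpeel f gL gR gB gT ∈ PermOn (P.c00 C ∪ P.c10 C ∪ P.c01 C ∪ P.c11 C) := by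
  have := P.d0; have := P.m1; have := P.m2; have := P.htd; have := P.ht0; have := P.hst
  have := P.m3; have := P.m4; have := P.s0; have := P.hsd
  intro x hx
  simp only [Finset.mem_union, not_or] at hx
  obtain ⟨⟨⟨x1, x2⟩, x3⟩, x4⟩ := hx
  change f ((gL * gR * gB * gT) x) = x
  have key : ∀ y, f (f⁻¹ y) = y := fun y => f.apply_symm_apply y
  by_cases h1 : x ∈ P.vmid C 0 P.s
  · rw [H.apply_L (by simp only [vS, vmid, mem_bx] at h1 ⊢; omega), H.L.mid x h1, key]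
  by_cases h2 : x ∈ P.vmid C (P.w - P.s) P.w
  · rw [H.apply_R (by simp only [vS, vmid, mem_bx] at h2 ⊢; omega), H.R.mid x h2, key]
  by_cases h3 : x ∈ P.hmid C 0 P.s
  · rw [H.apply_B (by simp only [hS, hmid, mem_bx] at h3 ⊢; omega), H.B.mid x h3, key]
  by_cases h4 : x ∈ P.hmid C (P.h - P.s) P.h
  · rw [H.apply_T (by simp only [hS, hmid, mem_bx] at h4 ⊢; omega), H.T.mid x h4, key]
  rw [H.apply_else, hf.triv x h1 h2 h3 h4 x1 x2 x3 x4]
  all_goals
    simp only [vS, hS, vmid, hmid, c00, c10, c01, c11, mem_bx] at h1 h2 h3 h4 x1 x2 x3 x4 ⊢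
    omega

/-- where the product of the fillings sends a point of a corner square -/
lemma PreFace.loc (H : PreFace P f gL gR gB gT) (x : (ℤ × ℤ) × C) :
    ((gL * gR * gB * gT) x = x) ∨
    (x ∈ P.vlo C 0 P.s ∧ (gL * gR * gB * gT) x ∈ P.vS C 0 P.s ∧
      ((gL * gR * gB * gT) x).1.2 < P.my) ∨
    (x ∈ P.vup C 0 P.s ∧ (gL * gR * gB * gT) x ∈ P.vS C 0 P.s ∧
      P.my ≤ ((gL * gR * gB * gT) x).1.2) ∨
    (x ∈ P.vlo C (P.w - P.s) P.w ∧ (gL * gR * gB * gT) x ∈ P.vS C (P.w - P.s) P.w ∧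
      ((gL * gR * gB * gT) x).1.2 < P.my) ∨
    (x ∈ P.vup C (P.w - P.s) P.w ∧ (gL * gR * gB * gT) x ∈ P.vS C (P.w - P.s) P.w ∧
      P.my ≤ ((gL * gR * gB * gT) x).1.2) ∨
    (x ∈ P.hlo C 0 P.s ∧ (gL * gR * gB * gT) x ∈ P.hS C 0 P.s ∧
      ((gL * gR * gB * gT) x).1.1 < P.mx) ∨
    (x ∈ P.hup C 0 P.s ∧ (gL * gR * gB * gT) x ∈ P.hS C 0 P.s ∧
      P.mx ≤ ((gL * gR * gB * gT) x).1.1) ∨
    (x ∈ P.hlo C (P.h - P.s) P.h ∧ (gL * gR * gB * gT) x ∈ P.hS C (P.h - P.s) P.h ∧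
      ((gL * gR * gB * gT) x).1.1 < P.mx) ∨
    (x ∈ P.hup C (P.h - P.s) P.h ∧ (gL * gR * gB * gT) x ∈ P.hS C (P.h - P.s) P.h ∧
      P.mx ≤ ((gL * gR * gB * gT) x).1.1) ∨
    (x ∈ P.vmid C 0 P.s ∨ x ∈ P.vmid C (P.w - P.s) P.w ∨ x ∈ P.hmid C 0 P.s ∨
      x ∈ P.hmid C (P.h - P.s) P.h) := by
  by_cases h1 : x ∈ P.vS C 0 P.s
  · have hm : gL x ∈ P.vS C 0 P.s := (on_mem_iff H.L.mem x).2 h1
    rw [H.apply_L h1]
    rcases ((P.vstrip (C := C) 0 P.s).eq x).1 h1 with h | h | h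
    · exact Or.inr (Or.inl ⟨h, hm, H.L.lo x h⟩)
    · simp only [h, true_or, or_true]
    · exact Or.inr (Or.inr (Or.inl ⟨h, hm, not_lt.1 (H.L.up x h)⟩))
  by_cases h2 : x ∈ P.vS C (P.w - P.s) P.w
  · have hm : gR x ∈ P.vS C (P.w - P.s) P.w := (on_mem_iff H.R.mem x).2 h2
    rw [H.apply_R h2]
    rcases ((P.vstrip (C := C) (P.w - P.s) P.w).eq x).1 h2 with h | h | h
    · exact Or.inr (Or.inr (Or.inr (Or.inl ⟨h, hm, H.R.lo x h⟩)))
    · simp only [h, true_or, or_true]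
    · exact Or.inr (Or.inr (Or.inr (Or.inr (Or.inl ⟨h, hm, not_lt.1 (H.R.up x h)⟩))))
  by_cases h3 : x ∈ P.hS C 0 P.s
  · have hm : gB x ∈ P.hS C 0 P.s := (on_mem_iff H.B.mem x).2 h3
    rw [H.apply_B h3]
    rcases ((P.hstrip (C := C) 0 P.s).eq x).1 h3 with h | h | h
    · exact Or.inr (Or.inr (Or.inr (Or.inr (Or.inr (Or.inl ⟨h, hm, H.B.lo x h⟩)))))
    · simp only [h, true_or, or_true]
    · exact Or.inr (Or.inr (Or.inr (Or.inr (Or.inr (Or.inr (Or.inl
        ⟨h, hm, not_lt.1 (H.B.up x h)⟩))))))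
  by_cases h4 : x ∈ P.hS C (P.h - P.s) P.h
  · have hm : gT x ∈ P.hS C (P.h - P.s) P.h := (on_mem_iff H.T.mem x).2 h4
    rw [H.apply_T h4]
    rcases ((P.hstrip (C := C) (P.h - P.s) P.h).eq x).1 h4 with h | h | h
    · exact Or.inr (Or.inr (Or.inr (Or.inr (Or.inr (Or.inr (Or.inr (Or.inl
        ⟨h, hm, H.T.lo x h⟩)))))))
    · simp only [h, true_or, or_true]
    · exact Or.inr (Or.inr (Or.inr (Or.inr (Or.inr (Or.inr (Or.inr (Or.inr (Or.inl
        ⟨h, hm, not_lt.1 (H.T.up x h)⟩))))))))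
  · exact Or.inl (H.apply_else h1 h2 h3 h4)

lemma PreFace.inv00 (hf : FaceHyp P f) (H : PreFace P f gL gR gB gT) :
    Invt (P.c00 C) (fpeel f gL gR gB gT) := by
  have := P.d0; have := P.m1; have := P.m2; have := P.htd; have := P.ht0; have := P.hst
  have := P.m3; have := P.m4; have := P.s0; have := P.hsd
  apply inv_of_maps
  intro x hx
  have h1 := (on_mem_iff (H.peel_mem hf) x).2 (by simp [hx])
  have h2 := H.loc x
  have h3 := hf.disp ((gL * gR * gB * gT) x)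
  change f ((gL * gR * gB * gT) x) ∈ _ at h1
  change f ((gL * gR * gB * gT) x) ∈ _
  generalize (gL * gR * gB * gT) x = y at *
  generalize f y = z at *
  simp only [vS, hS, vlo, hlo, vup, hup, vmid, hmid, c00, c10, c01, c11, mem_bx,
    Finset.mem_union] at hx h1 h2 h3 ⊢
  rcases h2 with rfl | h2 | h2 | h2 | h2 | h2 | h2 | h2 | h2 | h2
  all_goals omega

lemma PreFace.inv10 (hf : FaceHyp P f) (H : PreFace P f gL gR gB gT) :
    Invt (P.c10 C) (fpeel f gL gR gB gT) := by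
  have := P.d0; have := P.m1; have := P.m2; have := P.htd; have := P.ht0; have := P.hst
  have := P.m3; have := P.m4; have := P.s0; have := P.hsd
  apply inv_of_maps
  intro x hx
  have h1 := (on_mem_iff (H.peel_mem hf) x).2 (by simp [hx])
  have h2 := H.loc x
  have h3 := hf.disp ((gL * gR * gB * gT) x)
  change f ((gL * gR * gB * gT) x) ∈ _ at h1
  change f ((gL * gR * gB * gT) x) ∈ _
  generalize (gL * gR * gB * gT) x = y at *
  generalize f y = z at *
  simp only [vS, hS, vlo, hlo, vup, hup, vmid, hmid, c00, c10, c01, c11, mem_bx,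
    Finset.mem_union] at hx h1 h2 h3 ⊢
  rcases h2 with rfl | h2 | h2 | h2 | h2 | h2 | h2 | h2 | h2 | h2
  all_goals omega

lemma PreFace.inv01 (hf : FaceHyp P f) (H : PreFace P f gL gR gB gT) :
    Invt (P.c01 C) (fpeel f gL gR gB gT) := by
  have := P.d0; have := P.m1; have := P.m2; have := P.htd; have := P.ht0; have := P.hst
  have := P.m3; have := P.m4; have := P.s0; have := P.hsd
  apply inv_of_maps
  intro x hx
  have h1 := (on_mem_iff (H.peel_mem hf) x).2 (by simp [hx])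
  have h2 := H.loc x
  have h3 := hf.disp ((gL * gR * gB * gT) x)
  change f ((gL * gR * gB * gT) x) ∈ _ at h1
  change f ((gL * gR * gB * gT) x) ∈ _
  generalize (gL * gR * gB * gT) x = y at *
  generalize f y = z at *
  simp only [vS, hS, vlo, hlo, vup, hup, vmid, hmid, c00, c10, c01, c11, mem_bx,
    Finset.mem_union] at hx h1 h2 h3 ⊢
  rcases h2 with rfl | h2 | h2 | h2 | h2 | h2 | h2 | h2 | h2 | h2
  all_goals omega

lemma PreFace.inv11 (hf : FaceHyp P f) (H : PreFace P f gL gR gB gT) :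
    Invt (P.c11 C) (fpeel f gL gR gB gT) := by
  have := P.d0; have := P.m1; have := P.m2; have := P.htd; have := P.ht0; have := P.hst
  have := P.m3; have := P.m4; have := P.s0; have := P.hsd
  apply inv_of_maps
  intro x hx
  have h1 := (on_mem_iff (H.peel_mem hf) x).2 (by simp [hx])
  have h2 := H.loc x
  have h3 := hf.disp ((gL * gR * gB * gT) x)
  change f ((gL * gR * gB * gT) x) ∈ _ at h1
  change f ((gL * gR * gB * gT) x) ∈ _
  generalize (gL * gR * gB * gT) x = y at *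
  generalize f y = z at *
  simp only [vS, hS, vlo, hlo, vup, hup, vmid, hmid, c00, c10, c01, c11, mem_bx,
    Finset.mem_union] at hx h1 h2 h3 ⊢
  rcases h2 with rfl | h2 | h2 | h2 | h2 | h2 | h2 | h2 | h2 | h2
  all_goals omega

end act


/-! ### factorisation in four corner parts -/

lemma disj_0010 : Disjoint (P.c00 C) (P.c10 C) := by
  have := P.d0; have := P.m1; have := P.m2
  rw [Finset.disjoint_left]; intro x; simp only [c00, c10, mem_bx]; omega
lemma disj_0001 : Disjoint (P.c00 C) (P.c01 C) := by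
  have := P.d0; have := P.m3; have := P.m4
  rw [Finset.disjoint_left]; intro x; simp only [c00, c01, mem_bx]; omega
lemma disj_0011 : Disjoint (P.c00 C) (P.c11 C) := by
  have := P.d0; have := P.m3; have := P.m4
  rw [Finset.disjoint_left]; intro x; simp only [c00, c11, mem_bx]; omega
lemma disj_1001 : Disjoint (P.c10 C) (P.c01 C) := by
  have := P.d0; have := P.m3; have := P.m4
  rw [Finset.disjoint_left]; intro x; simp only [c10, c01, mem_bx]; omega
lemma disj_1011 : Disjoint (P.c10 C) (P.c11 C) := by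
  have := P.d0; have := P.m3; have := P.m4
  rw [Finset.disjoint_left]; intro x; simp only [c10, c11, mem_bx]; omega
lemma disj_0111 : Disjoint (P.c01 C) (P.c11 C) := by
  have := P.d0; have := P.m1; have := P.m2
  rw [Finset.disjoint_left]; intro x; simp only [c01, c11, mem_bx]; omega

lemma factor4 {π : Equiv.Perm ((ℤ × ℤ) × C)}
    (h : π ∈ PermOn (P.c00 C ∪ P.c10 C ∪ P.c01 C ∪ P.c11 C))
    (h00 : Invt (P.c00 C) π) (h10 : Invt (P.c10 C) π) (h01 : Invt (P.c01 C) π)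
    (h11 : Invt (P.c11 C) π) :
    π = part (P.c00 C) π * part (P.c10 C) π * part (P.c01 C) π * part (P.c11 C) π := by
  apply Equiv.ext
  intro x
  simp only [Equiv.Perm.coe_mul, Function.comp_apply]
  have dj1 := Finset.disjoint_left.1 (P.disj_0010 (C := C))
  have dj2 := Finset.disjoint_left.1 (P.disj_0001 (C := C))
  have dj3 := Finset.disjoint_left.1 (P.disj_0011 (C := C))
  have dj4 := Finset.disjoint_left.1 (P.disj_1001 (C := C))
  have dj5 := Finset.disjoint_left.1 (P.disj_1011 (C := C))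
  have dj6 := Finset.disjoint_left.1 (P.disj_0111 (C := C))
  by_cases x4 : x ∈ P.c11 C
  · have hx : π x ∈ P.c11 C := (h11 x).2 x4
    rw [part_apply h11 x4, part_mem _ π _ (fun h' => dj6 h' hx),
      part_mem _ π _ (fun h' => dj5 h' hx), part_mem _ π _ (fun h' => dj3 h' hx)]
  rw [part_mem (P.c11 C) π x x4]
  by_cases x3 : x ∈ P.c01 C
  · have hx : π x ∈ P.c01 C := (h01 x).2 x3
    rw [part_apply h01 x3, part_mem _ π _ (fun h' => dj4 h' hx),
      part_mem _ π _ (fun h' => dj2 h' hx)]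
  rw [part_mem (P.c01 C) π x x3]
  by_cases x2 : x ∈ P.c10 C
  · have hx : π x ∈ P.c10 C := (h10 x).2 x2
    rw [part_apply h10 x2, part_mem _ π _ (fun h' => dj1 h' hx)]
  rw [part_mem (P.c10 C) π x x2]
  by_cases x1 : x ∈ P.c00 C
  · rw [part_apply h00 x1]
  rw [part_mem (P.c00 C) π x x1]
  exact h x (by simp [x1, x2, x3, x4])

lemma sgn_factor4 {π : Equiv.Perm ((ℤ × ℤ) × C)}
    (h : π ∈ PermOn (P.c00 C ∪ P.c10 C ∪ P.c01 C ∪ P.c11 C))
    (h00 : Invt (P.c00 C) π) (h10 : Invt (P.c10 C) π) (h01 : Invt (P.c01 C) π)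
    (h11 : Invt (P.c11 C) π) :
    sgn π = sgnP (P.c00 C) π * sgnP (P.c10 C) π * sgnP (P.c01 C) π * sgnP (P.c11 C) π := by
  conv_lhs => rw [P.factor4 h h00 h10 h01 h11]
  have m1 := part_mem (P.c00 C) π
  have m2 := part_mem (P.c10 C) π
  have m3 := part_mem (P.c01 C) π
  have m4 := part_mem (P.c11 C) π
  have M1 := PermOn_mono (T := P.c00 C ∪ P.c10 C ∪ P.c01 C ∪ P.c11 C) (by
    intro x hx; simp [hx]) m1
  have M2 := PermOn_mono (T := P.c00 C ∪ P.c10 C ∪ P.c01 C ∪ P.c11 C) (by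
    intro x hx; simp [hx]) m2
  have M3 := PermOn_mono (T := P.c00 C ∪ P.c10 C ∪ P.c01 C ∪ P.c11 C) (by
    intro x hx; simp [hx]) m3
  have M4 := PermOn_mono (T := P.c00 C ∪ P.c10 C ∪ P.c01 C ∪ P.c11 C) (by
    intro x hx; simp [hx]) m4
  rw [sgn_mul_on (mul_mem (mul_mem M1 M2) M3) M4, sgn_mul_on (mul_mem M1 M2) M3,
    sgn_mul_on M1 M2, sgn_part h00, sgn_part h10, sgn_part h01, sgn_part h11]

/-! ### toggles -/

/-- permutations of the eight ends of the four strips of a cell -/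
structure Tog (σL τL σR τR σB τB σT τT : Equiv.Perm ((ℤ × ℤ) × C)) : Prop where
  sL : σL ∈ PermOn (P.vlo C 0 P.s)
  tL : τL ∈ PermOn (P.vup C 0 P.s)
  sR : σR ∈ PermOn (P.vlo C (P.w - P.s) P.w)
  tR : τR ∈ PermOn (P.vup C (P.w - P.s) P.w)
  sB : σB ∈ PermOn (P.hlo C 0 P.s)
  tB : τB ∈ PermOn (P.hup C 0 P.s)
  sT : σT ∈ PermOn (P.hlo C (P.h - P.s) P.h)
  tT : τT ∈ PermOn (P.hup C (P.h - P.s) P.h)

section tog
variable {P}
variable {f gL gR gB gT : Equiv.Perm ((ℤ × ℤ) × C)}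
variable {σL τL σR τR σB τB σT τT : Equiv.Perm ((ℤ × ℤ) × C)}

lemma vlo_sub (a b : ℤ) : P.vlo C a b ⊆ P.vS C a b := fun x hx =>
  ((P.vstrip a b).eq x).2 (Or.inl hx)
lemma vup_sub (a b : ℤ) : P.vup C a b ⊆ P.vS C a b := fun x hx =>
  ((P.vstrip a b).eq x).2 (Or.inr (Or.inr hx))
lemma hlo_sub (a b : ℤ) : P.hlo C a b ⊆ P.hS C a b := fun x hx =>
  ((P.hstrip a b).eq x).2 (Or.inl hx)
lemma hup_sub (a b : ℤ) : P.hup C a b ⊆ P.hS C a b := fun x hx =>
  ((P.hstrip a b).eq x).2 (Or.inr (Or.inr hx))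

lemma fpeel_tog (H : PreFace P f gL gR gB gT) (K : Tog P σL τL σR τR σB τB σT τT) :
    fpeel f (gL * (σL * τL)) (gR * (σR * τR)) (gB * (σB * τB)) (gT * (σT * τT))
      = fpeel f gL gR gB gT * ((σL * τL) * (σR * τR) * (σB * τB) * (σT * τT)) := by
  have := P.d0; have := P.m1; have := P.m2; have := P.htd; have := P.ht0; have := P.hst
  have := P.m3; have := P.m4; have := P.s0; have := P.hsd
  have dLR : Disjoint (P.vS C 0 P.s) (P.vS C (P.w - P.s) P.w) := by
    rw [Finset.disjoint_left]; intro x; simp only [vS, mem_bx]; omega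
  have dLB : Disjoint (P.vS C 0 P.s) (P.hS C 0 P.s) := by
    rw [Finset.disjoint_left]; intro x; simp only [vS, hS, mem_bx]; omega
  have dLT : Disjoint (P.vS C 0 P.s) (P.hS C (P.h - P.s) P.h) := by
    rw [Finset.disjoint_left]; intro x; simp only [vS, hS, mem_bx]; omega
  have dRB : Disjoint (P.vS C (P.w - P.s) P.w) (P.hS C 0 P.s) := by
    rw [Finset.disjoint_left]; intro x; simp only [vS, hS, mem_bx]; omega
  have dRT : Disjoint (P.vS C (P.w - P.s) P.w) (P.hS C (P.h - P.s) P.h) := by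
    rw [Finset.disjoint_left]; intro x; simp only [vS, hS, mem_bx]; omega
  have dBT : Disjoint (P.hS C 0 P.s) (P.hS C (P.h - P.s) P.h) := by
    rw [Finset.disjoint_left]; intro x; simp only [hS, mem_bx]; omega
  have mL : σL * τL ∈ PermOn (P.vS C 0 P.s) :=
    mul_mem (PermOn_mono (vlo_sub _ _) K.sL) (PermOn_mono (vup_sub _ _) K.tL)
  have mR : σR * τR ∈ PermOn (P.vS C (P.w - P.s) P.w) :=
    mul_mem (PermOn_mono (vlo_sub _ _) K.sR) (PermOn_mono (vup_sub _ _) K.tR)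
  have mB : σB * τB ∈ PermOn (P.hS C 0 P.s) :=
    mul_mem (PermOn_mono (hlo_sub _ _) K.sB) (PermOn_mono (hup_sub _ _) K.tB)
  have c1 : Commute (σL * τL) gR := commute_of_disjoint dLR mL H.R.mem
  have c2 : Commute (σL * τL) gB := commute_of_disjoint dLB mL H.B.mem
  have c3 : Commute (σL * τL) gT := commute_of_disjoint dLT mL H.T.mem
  have c4 : Commute (σR * τR) gB := commute_of_disjoint dRB mR H.B.mem
  have c5 : Commute (σR * τR) gT := commute_of_disjoint dRT mR H.T.mem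
  have c6 : Commute (σB * τB) gT := commute_of_disjoint dBT mB H.T.mem
  unfold fpeel
  generalize σL * τL = a at *
  generalize σR * τR = b at *
  generalize σB * τB = c at *
  generalize σT * τT = e at *
  have E : gL * a * (gR * b) * (gB * c) * (gT * e)
      = gL * gR * gB * gT * (a * b * c * e) := by
    have s1 : a * (gR * b) = gR * (a * b) := by rw [← mul_assoc, c1.eq, mul_assoc]
    have s2 : (a * b) * (gB * c) = gB * (a * b * c) := by
      rw [← mul_assoc, (c2.mul_left c4).eq, mul_assoc]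
    have s3 : (a * b * c) * (gT * e) = gT * (a * b * c * e) := by
      rw [← mul_assoc, ((c3.mul_left c5).mul_left c6).eq, mul_assoc]
    calc gL * a * (gR * b) * (gB * c) * (gT * e)
        = gL * (a * (gR * b)) * (gB * c) * (gT * e) := by simp only [mul_assoc]
      _ = gL * gR * ((a * b) * (gB * c)) * (gT * e) := by rw [s1]; simp only [mul_assoc]
      _ = gL * gR * gB * ((a * b * c) * (gT * e)) := by rw [s2]; simp only [mul_assoc]
      _ = gL * gR * gB * gT * (a * b * c * e) := by rw [s3]; simp only [mul_assoc]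
  rw [E]; simp only [mul_assoc]

/-- the toggle keeps `PreFace` if the toggles are even on every side -/
lemma PreFace.toggle (H : PreFace P f gL gR gB gT) (K : Tog P σL τL σR τR σB τB σT τT)
    (hL : sgn σL = sgn τL) (hR : sgn σR = sgn τR) (hB : sgn σB = sgn τB) (hT : sgn σT = sgn τT) :
    PreFace P f (gL * (σL * τL)) (gR * (σR * τR)) (gB * (σB * τB)) (gT * (σT * τT)) := by
  have mL : σL * τL ∈ PermOn (P.vS C 0 P.s) :=
    mul_mem (PermOn_mono (vlo_sub _ _) K.sL) (PermOn_mono (vup_sub _ _) K.tL)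
  have mR : σR * τR ∈ PermOn (P.vS C (P.w - P.s) P.w) :=
    mul_mem (PermOn_mono (vlo_sub _ _) K.sR) (PermOn_mono (vup_sub _ _) K.tR)
  have mB : σB * τB ∈ PermOn (P.hS C 0 P.s) :=
    mul_mem (PermOn_mono (hlo_sub _ _) K.sB) (PermOn_mono (hup_sub _ _) K.tB)
  have mT : σT * τT ∈ PermOn (P.hS C (P.h - P.s) P.h) :=
    mul_mem (PermOn_mono (hlo_sub _ _) K.sT) (PermOn_mono (hup_sub _ _) K.tT)
  refine ⟨H.L.toggle (P.vstrip _ _) K.sL K.tL, H.R.toggle (P.vstrip _ _) K.sR K.tR,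
    H.B.toggle (P.hstrip _ _) K.sB K.tB, H.T.toggle (P.hstrip _ _) K.sT K.tT, ?_, ?_, ?_, ?_⟩
  · rw [sgn_mul_on H.L.mem mL, sgn_mul K.sL K.tL, H.sL, hL, Int.units_mul_self, one_mul]
  · rw [sgn_mul_on H.R.mem mR, sgn_mul K.sR K.tR, H.sR, hR, Int.units_mul_self, one_mul]
  · rw [sgn_mul_on H.B.mem mB, sgn_mul K.sB K.tB, H.sB, hB, Int.units_mul_self, one_mul]
  · rw [sgn_mul_on H.T.mem mT, sgn_mul K.sT K.tT, H.sT, hT, Int.units_mul_self, one_mul]

/-- effect of a toggle on the corner signs -/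
lemma sgnP_tog (hf : FaceHyp P f) (H : PreFace P f gL gR gB gT)
    (K : Tog P σL τL σR τR σB τB σT τT) :
    sgnP (P.c00 C) (fpeel f (gL * (σL * τL)) (gR * (σR * τR)) (gB * (σB * τB)) (gT * (σT * τT)))
      = sgnP (P.c00 C) (fpeel f gL gR gB gT) * (sgn σL * sgn σB) ∧
    sgnP (P.c10 C) (fpeel f (gL * (σL * τL)) (gR * (σR * τR)) (gB * (σB * τB)) (gT * (σT * τT)))
      = sgnP (P.c10 C) (fpeel f gL gR gB gT) * (sgn σR * sgn τB) ∧
    sgnP (P.c01 C) (fpeel f (gL * (σL * τL)) (gR * (σR * τR)) (gB * (σB * τB)) (gT * (σT * τT)))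
      = sgnP (P.c01 C) (fpeel f gL gR gB gT) * (sgn τL * sgn σT) ∧
    sgnP (P.c11 C) (fpeel f (gL * (σL * τL)) (gR * (σR * τR)) (gB * (σB * τB)) (gT * (σT * τT)))
      = sgnP (P.c11 C) (fpeel f gL gR gB gT) * (sgn τR * sgn τT) := by
  have := P.d0; have := P.m1; have := P.m2; have := P.htd; have := P.ht0; have := P.hst
  have := P.m3; have := P.m4; have := P.s0; have := P.hsd
  have S : ∀ (A T : Finset ((ℤ × ℤ) × C)) (π : Equiv.Perm ((ℤ × ℤ) × C)), π ∈ PermOn T →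
      (∀ x ∈ T, x ∈ A) → Invt A π ∧ sgnP A π = sgn π :=
    fun A T π hπ h => ⟨inv_of_sub h hπ, sgnP_of_sub h hπ⟩
  have D : ∀ (A T : Finset ((ℤ × ℤ) × C)) (π : Equiv.Perm ((ℤ × ℤ) × C)), π ∈ PermOn T →
      (∀ x ∈ T, x ∉ A) → Invt A π ∧ sgnP A π = 1 :=
    fun A T π hπ h => ⟨inv_of_disj (Finset.disjoint_left.2 h) hπ,
      sgnP_of_disj (Finset.disjoint_left.2 h) hπ⟩
  have main : ∀ (A : Finset ((ℤ × ℤ) × C)) (hA : Invt A (fpeel f gL gR gB gT))
      {e1 e2 e3 e4 e5 e6 e7 e8 : ℤˣ}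
      (h1 : Invt A σL ∧ sgnP A σL = e1) (h2 : Invt A τL ∧ sgnP A τL = e2)
      (h3 : Invt A σR ∧ sgnP A σR = e3) (h4 : Invt A τR ∧ sgnP A τR = e4)
      (h5 : Invt A σB ∧ sgnP A σB = e5) (h6 : Invt A τB ∧ sgnP A τB = e6)
      (h7 : Invt A σT ∧ sgnP A σT = e7) (h8 : Invt A τT ∧ sgnP A τT = e8),
      sgnP A (fpeel f (gL * (σL * τL)) (gR * (σR * τR)) (gB * (σB * τB)) (gT * (σT * τT)))
        = sgnP A (fpeel f gL gR gB gT) * (e1 * e2 * (e3 * e4) * (e5 * e6) * (e7 * e8)) := by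
    intro A hA e1 e2 e3 e4 e5 e6 e7 e8 h1 h2 h3 h4 h5 h6 h7 h8
    rw [fpeel_tog H K, sgnP_mul hA ((((h1.1.mul h2.1).mul (h3.1.mul h4.1)).mul
      (h5.1.mul h6.1)).mul (h7.1.mul h8.1)),
      sgnP_mul (((h1.1.mul h2.1).mul (h3.1.mul h4.1)).mul (h5.1.mul h6.1)) (h7.1.mul h8.1),
      sgnP_mul ((h1.1.mul h2.1).mul (h3.1.mul h4.1)) (h5.1.mul h6.1),
      sgnP_mul (h1.1.mul h2.1) (h3.1.mul h4.1),
      sgnP_mul h1.1 h2.1, sgnP_mul h3.1 h4.1, sgnP_mul h5.1 h6.1, sgnP_mul h7.1 h8.1,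
      h1.2, h2.2, h3.2, h4.2, h5.2, h6.2, h7.2, h8.2]
  refine ⟨?_, ?_, ?_, ?_⟩
  · rw [main (P.c00 C) (H.inv00 hf)
      (S _ _ _ K.sL (by intro x; simp only [vlo, c00, mem_bx]; omega))
      (D _ _ _ K.tL (by intro x; simp only [vup, c00, mem_bx]; omega))
      (D _ _ _ K.sR (by intro x; simp only [vlo, c00, mem_bx]; omega))
      (D _ _ _ K.tR (by intro x; simp only [vup, c00, mem_bx]; omega))
      (S _ _ _ K.sB (by intro x; simp only [hlo, c00, mem_bx]; omega))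
      (D _ _ _ K.tB (by intro x; simp only [hup, c00, mem_bx]; omega))
      (D _ _ _ K.sT (by intro x; simp only [hlo, c00, mem_bx]; omega))
      (D _ _ _ K.tT (by intro x; simp only [hup, c00, mem_bx]; omega))]
    simp only [mul_one, one_mul]
  · rw [main (P.c10 C) (H.inv10 hf)
      (D _ _ _ K.sL (by intro x; simp only [vlo, c10, mem_bx]; omega))
      (D _ _ _ K.tL (by intro x; simp only [vup, c10, mem_bx]; omega))
      (S _ _ _ K.sR (by intro x; simp only [vlo, c10, mem_bx]; omega))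
      (D _ _ _ K.tR (by intro x; simp only [vup, c10, mem_bx]; omega))
      (D _ _ _ K.sB (by intro x; simp only [hlo, c10, mem_bx]; omega))
      (S _ _ _ K.tB (by intro x; simp only [hup, c10, mem_bx]; omega))
      (D _ _ _ K.sT (by intro x; simp only [hlo, c10, mem_bx]; omega))
      (D _ _ _ K.tT (by intro x; simp only [hup, c10, mem_bx]; omega))]
    simp only [mul_one, one_mul]
  · rw [main (P.c01 C) (H.inv01 hf)
      (D _ _ _ K.sL (by intro x; simp only [vlo, c01, mem_bx]; omega))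
      (S _ _ _ K.tL (by intro x; simp only [vup, c01, mem_bx]; omega))
      (D _ _ _ K.sR (by intro x; simp only [vlo, c01, mem_bx]; omega))
      (D _ _ _ K.tR (by intro x; simp only [vup, c01, mem_bx]; omega))
      (D _ _ _ K.sB (by intro x; simp only [hlo, c01, mem_bx]; omega))
      (D _ _ _ K.tB (by intro x; simp only [hup, c01, mem_bx]; omega))
      (S _ _ _ K.sT (by intro x; simp only [hlo, c01, mem_bx]; omega))
      (D _ _ _ K.tT (by intro x; simp only [hup, c01, mem_bx]; omega))]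
    simp only [mul_one, one_mul]
  · rw [main (P.c11 C) (H.inv11 hf)
      (D _ _ _ K.sL (by intro x; simp only [vlo, c11, mem_bx]; omega))
      (D _ _ _ K.tL (by intro x; simp only [vup, c11, mem_bx]; omega))
      (D _ _ _ K.sR (by intro x; simp only [vlo, c11, mem_bx]; omega))
      (S _ _ _ K.tR (by intro x; simp only [vup, c11, mem_bx]; omega))
      (D _ _ _ K.sB (by intro x; simp only [hlo, c11, mem_bx]; omega))
      (D _ _ _ K.tB (by intro x; simp only [hup, c11, mem_bx]; omega))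
      (D _ _ _ K.sT (by intro x; simp only [hlo, c11, mem_bx]; omega))
      (S _ _ _ K.tT (by intro x; simp only [hup, c11, mem_bx]; omega))]
    simp only [mul_one, one_mul]

/-- TOGGLE LEMMA: simultaneous odd toggles of all four sides keep the face data -/
theorem Face.toggle (hf : FaceHyp P f) (H : Face P f gL gR gB gT)
    (K : Tog P σL τL σR τR σB τB σT τT)
    (hL : sgn σL = -1) (hL' : sgn τL = -1) (hR : sgn σR = -1) (hR' : sgn τR = -1)
    (hB : sgn σB = -1) (hB' : sgn τB = -1) (hT : sgn σT = -1) (hT' : sgn τT = -1) :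
    Face P f (gL * (σL * τL)) (gR * (σR * τR)) (gB * (σB * τB)) (gT * (σT * τT)) := by
  obtain ⟨h1, h2, h3, h4⟩ := sgnP_tog hf H.toPreFace K
  refine ⟨H.toPreFace.toggle K (by rw [hL, hL']) (by rw [hR, hR']) (by rw [hB, hB'])
    (by rw [hT, hT']), ?_, ?_, ?_, ?_⟩
  · rw [h1, H.e00, hL, hB]; rfl
  · rw [h2, H.e10, hR, hB']; rfl
  · rw [h3, H.e01, hL', hT]; rfl
  · rw [h4, H.e11, hR', hT']; rfl

end tog


/-! ### existence of the face data -/

section exist
variable {P}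
variable {f gL gR gB gT : Equiv.Perm ((ℤ × ℤ) × C)}

lemma exists_preface (hf : FaceHyp P f) {c c' : C} (hc : c ≠ c') :
    ∃ gL gR gB gT : Equiv.Perm ((ℤ × ℤ) × C), PreFace P f gL gR gB gT := by
  have := P.d0; have := P.m1; have := P.m2; have := P.htd; have := P.ht0; have := P.hst
  have := P.m3; have := P.m4; have := P.s0; have := P.hsd
  have hi : ∀ (A : Finset ((ℤ × ℤ) × C)), ∀ x ∈ A, ∀ y ∈ A, f⁻¹ x = f⁻¹ y → x = y :=
    fun A x _ y _ h => f⁻¹.injective h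
  have hm : ∀ x, x ∈ bx C 0 P.w 0 P.h → f⁻¹ x ∈ bx C 0 P.w 0 P.h := fun x hx =>
    (on_mem_iff ((PermOn _).inv_mem hf.mem.1) x).2 hx
  have hd := hf.disp.inv
  have hne : ∀ v : ℤ × ℤ, ((v, c) : (ℤ × ℤ) × C) ≠ (v, c') := fun v h => hc (congrArg Prod.snd h)
  obtain ⟨gL, mL, L1, L2, L3⟩ := (P.vstrip (C := C) 0 P.s).exists_ext_even (fun x => f⁻¹ x)
    (by
      intro x hx
      have h1 := hm x (by simp only [vmid, mem_bx] at hx ⊢; omega)
      have h2 := hf.stL x hx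
      have h3 := hd x
      simp only [vmid, vS, mem_bx] at hx h1 ⊢
      omega) (hi _) hf.flL (a := ((0, P.t0), c)) (b := ((0, P.t0), c'))
    (by simp only [vlo, mem_bx]; omega) (by simp only [vlo, mem_bx]; omega) (hne _)
  obtain ⟨gR, mR, R1, R2, R3⟩ := (P.vstrip (C := C) (P.w - P.s) P.w).exists_ext_even
    (fun x => f⁻¹ x)
    (by
      intro x hx
      have h1 := hm x (by simp only [vmid, mem_bx] at hx ⊢; omega)
      have h2 := hf.stR x hx
      have h3 := hd x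
      simp only [vmid, vS, mem_bx] at hx h1 ⊢
      omega) (hi _) hf.flR (a := ((P.w - P.s, P.t0), c)) (b := ((P.w - P.s, P.t0), c'))
    (by simp only [vlo, mem_bx]; omega) (by simp only [vlo, mem_bx]; omega) (hne _)
  obtain ⟨gB, mB, B1, B2, B3⟩ := (P.hstrip (C := C) 0 P.s).exists_ext_even (fun x => f⁻¹ x)
    (by
      intro x hx
      have h1 := hm x (by simp only [hmid, mem_bx] at hx ⊢; omega)
      have h2 := hf.stB x hx
      have h3 := hd x
      simp only [hmid, hS, mem_bx] at hx h1 ⊢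
      omega) (hi _) hf.flB (a := ((P.t0, 0), c)) (b := ((P.t0, 0), c'))
    (by simp only [hlo, mem_bx]; omega) (by simp only [hlo, mem_bx]; omega) (hne _)
  obtain ⟨gT, mT, T1, T2, T3⟩ := (P.hstrip (C := C) (P.h - P.s) P.h).exists_ext_even
    (fun x => f⁻¹ x)
    (by
      intro x hx
      have h1 := hm x (by simp only [hmid, mem_bx] at hx ⊢; omega)
      have h2 := hf.stT x hx
      have h3 := hd x
      simp only [hmid, hS, mem_bx] at hx h1 ⊢
      omega) (hi _) hf.flT (a := ((P.t0, P.h - P.s), c)) (b := ((P.t0, P.h - P.s), c'))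
    (by simp only [hlo, mem_bx]; omega) (by simp only [hlo, mem_bx]; omega) (hne _)
  exact ⟨gL, gR, gB, gT, ⟨mL.1, L1, L2, L3⟩, ⟨mR.1, R1, R2, R3⟩, ⟨mB.1, B1, B2, B3⟩,
    ⟨mT.1, T1, T2, T3⟩, mL.2, mR.2, mB.2, mT.2⟩

lemma exists_sgn {A : Finset ((ℤ × ℤ) × C)} {x y : (ℤ × ℤ) × C} (hx : x ∈ A) (hy : y ∈ A)
    (h : x ≠ y) (e : ℤˣ) : ∃ σ ∈ PermOn A, sgn σ = e := by
  rcases Int.units_eq_one_or e with rfl | rfl
  · exact ⟨1, one_mem _, sgn_one⟩
  · exact ⟨Equiv.swap x y, swap_mem_PermOn hx hy, sgn_swap h⟩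

lemma units_aux1 : ∀ a e : ℤˣ, a * (e * (a * e)) = 1 := by decide
lemma units_aux2 : ∀ a b e : ℤˣ, b * (a * e * b * (a * e)) = 1 := by decide
lemma units_aux3 : ∀ e : ℤˣ, e * (e * 1) = 1 := by decide
lemma units_aux4 : ∀ a b e r : ℤˣ, a * b * e * r = 1 → r * (a * e * b * 1) = 1 := by decide

/-- FACE LEMMA -/
theorem exists_face (hf : FaceHyp P f) {c c' : C} (hc : c ≠ c') :
    ∃ gL gR gB gT : Equiv.Perm ((ℤ × ℤ) × C), Face P f gL gR gB gT := by
  obtain ⟨gL, gR, gB, gT, H⟩ := exists_preface hf hc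
  have := P.d0; have := P.m1; have := P.m2; have := P.htd; have := P.ht0; have := P.hst
  have := P.m3; have := P.m4; have := P.s0; have := P.hsd
  have hne : ∀ v : ℤ × ℤ, ((v, c) : (ℤ × ℤ) × C) ≠ (v, c') := fun v h => hc (congrArg Prod.snd h)
  have mem := H.peel_mem hf
  have i00 := H.inv00 hf
  have i10 := H.inv10 hf
  have i01 := H.inv01 hf
  have i11 := H.inv11 hf
  have hs := P.sgn_factor4 mem i00 i10 i01 i11
  have htot : sgn (fpeel f gL gR gB gT) = 1 := by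
    have sub : ∀ {x1 x2 y1 y2 : ℤ}, (0 ≤ x1 ∧ x2 ≤ P.w ∧ 0 ≤ y1 ∧ y2 ≤ P.h) →
        bx C x1 x2 y1 y2 ⊆ bx C 0 P.w 0 P.h := by
      intro x1 x2 y1 y2 h x
      simp only [mem_bx]; omega
    have m1 : gL ∈ AltOn (bx C 0 P.w 0 P.h) := ⟨PermOn_mono (sub (by omega)) H.L.mem, H.sL⟩
    have m2 : gR ∈ AltOn (bx C 0 P.w 0 P.h) := ⟨PermOn_mono (sub (by omega)) H.R.mem, H.sR⟩
    have m3 : gB ∈ AltOn (bx C 0 P.w 0 P.h) := ⟨PermOn_mono (sub (by omega)) H.B.mem, H.sB⟩
    have m4 : gT ∈ AltOn (bx C 0 P.w 0 P.h) := ⟨PermOn_mono (sub (by omega)) H.T.mem, H.sT⟩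
    exact (mul_mem hf.mem (mul_mem (mul_mem (mul_mem m1 m2) m3) m4)).2
  -- choose the toggles
  set a := sgnP (P.c00 C) (fpeel f gL gR gB gT) with ha
  set b := sgnP (P.c10 C) (fpeel f gL gR gB gT) with hb
  set e := sgnP (P.c01 C) (fpeel f gL gR gB gT) with he
  set r := sgnP (P.c11 C) (fpeel f gL gR gB gT) with hr
  -- side L has parity e, side B has parity a * e, side R has parity a * e * b
  obtain ⟨σL, mσL, sσL⟩ := exists_sgn (A := P.vlo C 0 P.s) (x := ((0, P.t0), c))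
    (y := ((0, P.t0), c')) (by simp only [vlo, mem_bx]; omega)
    (by simp only [vlo, mem_bx]; omega) (hne _) e
  obtain ⟨τL, mτL, sτL⟩ := exists_sgn (A := P.vup C 0 P.s) (x := ((0, P.h - P.t), c))
    (y := ((0, P.h - P.t), c')) (by simp only [vup, mem_bx]; omega)
    (by simp only [vup, mem_bx]; omega) (hne _) e
  obtain ⟨σB, mσB, sσB⟩ := exists_sgn (A := P.hlo C 0 P.s) (x := ((P.t0, 0), c))
    (y := ((P.t0, 0), c')) (by simp only [hlo, mem_bx]; omega)
    (by simp only [hlo, mem_bx]; omega) (hne _) (a * e)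
  obtain ⟨τB, mτB, sτB⟩ := exists_sgn (A := P.hup C 0 P.s) (x := ((P.w - P.t, 0), c))
    (y := ((P.w - P.t, 0), c')) (by simp only [hup, mem_bx]; omega)
    (by simp only [hup, mem_bx]; omega) (hne _) (a * e)
  obtain ⟨σR, mσR, sσR⟩ := exists_sgn (A := P.vlo C (P.w - P.s) P.w) (x := ((P.w - P.s, P.t0), c))
    (y := ((P.w - P.s, P.t0), c')) (by simp only [vlo, mem_bx]; omega)
    (by simp only [vlo, mem_bx]; omega) (hne _) (a * e * b)
  obtain ⟨τR, mτR, sτR⟩ := exists_sgn (A := P.vup C (P.w - P.s) P.w)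
    (x := ((P.w - P.s, P.h - P.t), c))
    (y := ((P.w - P.s, P.h - P.t), c')) (by simp only [vup, mem_bx]; omega)
    (by simp only [vup, mem_bx]; omega) (hne _) (a * e * b)
  have K : Tog P σL τL σR τR σB τB (1 : Equiv.Perm ((ℤ × ℤ) × C)) 1 :=
    ⟨mσL, mτL, mσR, mτR, mσB, mτB, one_mem _, one_mem _⟩
  obtain ⟨h1, h2, h3, h4⟩ := sgnP_tog hf H K
  have hprod : a * b * e * r = 1 := by rw [← htot, hs]
  refine ⟨_, _, _, _, H.toggle K (by rw [sσL, sτL]) (by rw [sσR, sτR]) (by rw [sσB, sτB]) rfl,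
    ?_, ?_, ?_, ?_⟩
  · rw [h1, ← ha, sσL, sσB]; exact units_aux1 a e
  · rw [h2, ← hb, sσR, sτB]; exact units_aux2 a b e
  · rw [h3, ← he, sτL, sgn_one]; exact units_aux3 e
  · rw [h4, ← hr, sτR, sgn_one]; exact units_aux4 a b e r hprod

/-- the peeled permutation is a product of four even corner parts -/
theorem Face.factor (hf : FaceHyp P f) (H : Face P f gL gR gB gT) :
    ∃ k00 ∈ AltOn (P.c00 C), ∃ k10 ∈ AltOn (P.c10 C), ∃ k01 ∈ AltOn (P.c01 C),
      ∃ k11 ∈ AltOn (P.c11 C), f * (gL * gR * gB * gT) = k00 * k10 * k01 * k11 := by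
  have i00 := H.toPreFace.inv00 hf
  have i10 := H.toPreFace.inv10 hf
  have i01 := H.toPreFace.inv01 hf
  have i11 := H.toPreFace.inv11 hf
  refine ⟨part (P.c00 C) (fpeel f gL gR gB gT), ⟨part_mem _ _, by rw [sgn_part i00, H.e00]⟩,
    part (P.c10 C) (fpeel f gL gR gB gT), ⟨part_mem _ _, by rw [sgn_part i10, H.e10]⟩,
    part (P.c01 C) (fpeel f gL gR gB gT), ⟨part_mem _ _, by rw [sgn_part i01, H.e01]⟩,
    part (P.c11 C) (fpeel f gL gR gB gT), ⟨part_mem _ _, by rw [sgn_part i11, H.e11]⟩, ?_⟩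
  exact P.factor4 (H.toPreFace.peel_mem hf) i00 i10 i01 i11

lemma Face.memL (H : Face P f gL gR gB gT) : gL ∈ AltOn (P.vS C 0 P.s) := ⟨H.L.mem, H.sL⟩
lemma Face.memR (H : Face P f gL gR gB gT) : gR ∈ AltOn (P.vS C (P.w - P.s) P.w) :=
  ⟨H.R.mem, H.sR⟩
lemma Face.memB (H : Face P f gL gR gB gT) : gB ∈ AltOn (P.hS C 0 P.s) := ⟨H.B.mem, H.sB⟩
lemma Face.memT (H : Face P f gL gR gB gT) : gT ∈ AltOn (P.hS C (P.h - P.s) P.h) :=
  ⟨H.T.mem, H.sT⟩

end exist

/-! ### the edge lemmas -/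

section edge
variable {P}
variable {f gL gR gB gT f' gL' gR' gB' gT' e : Equiv.Perm ((ℤ × ℤ) × C)}

lemma sh_mem_v {g : Equiv.Perm ((ℤ × ℤ) × C)} (h : g ∈ PermOn (P.vS C (P.w - P.s) P.w)) :
    sh (-P.w, 0) g ∈ PermOn (P.vS C (-P.s) 0) := by
  have := sh_mem_bx (u := (-P.w, 0)) h
  refine PermOn_mono ?_ this
  intro x; simp only [vS, mem_bx]; omega

lemma sh_mem_h {g : Equiv.Perm ((ℤ × ℤ) × C)} (h : g ∈ PermOn (P.hS C (P.h - P.s) P.h)) :
    sh (0, -P.h) g ∈ PermOn (P.hS C (-P.s) 0) := by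
  have := sh_mem_bx (u := (0, -P.h)) h
  refine PermOn_mono ?_ this
  intro x; simp only [hS, mem_bx]; omega

/-- the piece of a `P`-edge : `g_L * (g_R - q)` -/
def gamP (P : Geo) (gL gR : Equiv.Perm ((ℤ × ℤ) × C)) : Equiv.Perm ((ℤ × ℤ) × C) :=
  gL * sh (-P.w, 0) gR

/-- the piece of a `Q`-edge : `g_B * (g_T - p)` (`g_T` of the face below) -/
def gamQ (P : Geo) (gB gT : Equiv.Perm ((ℤ × ℤ) × C)) : Equiv.Perm ((ℤ × ℤ) × C) :=
  gB * sh (0, -P.h) gT

lemma gamP_mem (hL : gL ∈ AltOn (P.vS C 0 P.s)) (hR : gR ∈ AltOn (P.vS C (P.w - P.s) P.w)) :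
    gamP P gL gR ∈ AltOn (P.vS C (-P.s) P.s) := by
  have := P.s0
  refine mul_mem (AltOn_mono ?_ hL) (AltOn_mono ?_ ⟨sh_mem_v hR.1, ?_⟩)
  · intro x; simp only [vS, mem_bx]; omega
  · intro x; simp only [vS, mem_bx]; omega
  · rw [sgn_sh' hR.1, hR.2]

lemma gamQ_mem (hB : gB ∈ AltOn (P.hS C 0 P.s)) (hT : gT ∈ AltOn (P.hS C (P.h - P.s) P.h)) :
    gamQ P gB gT ∈ AltOn (P.hS C (-P.s) P.s) := by
  have := P.s0
  refine mul_mem (AltOn_mono ?_ hB) (AltOn_mono ?_ ⟨sh_mem_h hT.1, ?_⟩)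
  · intro x; simp only [hS, mem_bx]; omega
  · intro x; simp only [hS, mem_bx]; omega
  · rw [sgn_sh' hT.1, hT.2]

/-- `gamP` is a filling of the strip of the `P`-edge -/
lemma gamP_filling (H : PreFace P f gL gR gB gT) (φ : (ℤ × ℤ) × C → (ℤ × ℤ) × C)
    (h1 : ∀ x ∈ P.vmid C 0 P.s, φ x = f⁻¹ x)
    (h2 : ∀ x ∈ P.vmid C (-P.s) 0, φ x = sh (-P.w, 0) f⁻¹ x) :
    Filling (P.vS C (-P.s) P.s) (P.vlo C (-P.s) P.s) (P.vmid C (-P.s) P.s)
      (P.vup C (-P.s) P.s) (P.vlow C) φ (gamP P gL gR) := by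
  have := P.d0; have := P.m1; have := P.m2; have := P.htd; have := P.ht0; have := P.hst
  have := P.m3; have := P.m4; have := P.s0; have := P.hsd
  have mR := sh_mem_v H.R.mem
  -- value on the right half
  have vr : ∀ x, 0 ≤ x.1.1 → gamP P gL gR x = gL x := by
    intro x hx
    change gL (sh (-P.w, 0) gR x) = gL x
    rw [mR x (by simp only [vS, mem_bx]; omega)]
  have vl : ∀ x ∈ P.vS C (-P.s) 0, gamP P gL gR x = sh (-P.w, 0) gR x := by
    intro x hx
    have h3 : sh (-P.w, 0) gR x ∈ P.vS C (-P.s) 0 := (on_mem_iff mR x).2 hx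
    exact H.L.mem _ (by simp only [vS, mem_bx] at h3 ⊢; omega)
  refine ⟨?_, ?_, ?_, ?_⟩
  · refine mul_mem (PermOn_mono ?_ H.L.mem) (PermOn_mono ?_ mR)
    · intro x; simp only [vS, mem_bx]; omega
    · intro x; simp only [vS, mem_bx]; omega
  · intro x hx
    by_cases h0 : 0 ≤ x.1.1
    · have hx' : x ∈ P.vmid C 0 P.s := by simp only [vmid, mem_bx] at hx ⊢; omega
      rw [vr x h0, h1 x hx']; exact H.L.mid x hx'
    · have hx' : x ∈ P.vmid C (-P.s) 0 := by simp only [vmid, mem_bx] at hx ⊢; omega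
      rw [vl x (by simp only [vmid, vS, mem_bx] at hx' ⊢; omega), h2 x hx', sh_apply,
        sh_apply]
      have h4 : ((x.1 - (-P.w, 0), x.2) : (ℤ × ℤ) × C) ∈ P.vmid C (P.w - P.s) P.w := by
        simp only [vmid, mem_bx, Prod.fst_sub, Prod.snd_sub] at hx' ⊢; omega
      rw [H.R.mid _ h4]
  · intro x hx
    by_cases h0 : 0 ≤ x.1.1
    · have hx' : x ∈ P.vlo C 0 P.s := by simp only [vlo, mem_bx] at hx ⊢; omega
      rw [vr x h0]; exact H.L.lo x hx'
    · rw [vl x (by simp only [vlo, vS, mem_bx] at hx ⊢; omega), sh_apply]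
      have h4 : ((x.1 - (-P.w, 0), x.2) : (ℤ × ℤ) × C) ∈ P.vlo C (P.w - P.s) P.w := by
        simp only [vlo, mem_bx, Prod.fst_sub, Prod.snd_sub] at hx ⊢; omega
      have h5 := H.R.lo _ h4
      simp only [vlow, Prod.snd_add, add_zero] at h5 ⊢
      exact h5
  · intro x hx
    by_cases h0 : 0 ≤ x.1.1
    · have hx' : x ∈ P.vup C 0 P.s := by simp only [vup, mem_bx] at hx ⊢; omega
      rw [vr x h0]; exact H.L.up x hx'
    · rw [vl x (by simp only [vup, vS, mem_bx] at hx ⊢; omega), sh_apply]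
      have h4 : ((x.1 - (-P.w, 0), x.2) : (ℤ × ℤ) × C) ∈ P.vup C (P.w - P.s) P.w := by
        simp only [vup, mem_bx, Prod.fst_sub, Prod.snd_sub] at hx ⊢; omega
      have h5 := H.R.up _ h4
      simp only [vlow, Prod.snd_add, add_zero] at h5 ⊢
      exact h5

/-- `gamQ` is a filling of the strip of the `Q`-edge (`f'` is the face below) -/
lemma gamQ_filling (H : PreFace P f gL gR gB gT) (H' : PreFace P f' gL' gR' gB' gT')
    (φ : (ℤ × ℤ) × C → (ℤ × ℤ) × C)
    (h1 : ∀ x ∈ P.hmid C 0 P.s, φ x = f⁻¹ x)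
    (h2 : ∀ x ∈ P.hmid C (-P.s) 0, φ x = sh (0, -P.h) f'⁻¹ x) :
    Filling (P.hS C (-P.s) P.s) (P.hlo C (-P.s) P.s) (P.hmid C (-P.s) P.s)
      (P.hup C (-P.s) P.s) (P.hlow C) φ (gamQ P gB gT') := by
  have := P.d0; have := P.m1; have := P.m2; have := P.htd; have := P.ht0; have := P.hst
  have := P.m3; have := P.m4; have := P.s0; have := P.hsd
  have mT := sh_mem_h H'.T.mem
  have vr : ∀ x, 0 ≤ x.1.2 → gamQ P gB gT' x = gB x := by
    intro x hx
    change gB (sh (0, -P.h) gT' x) = gB x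
    rw [mT x (by simp only [hS, mem_bx]; omega)]
  have vl : ∀ x ∈ P.hS C (-P.s) 0, gamQ P gB gT' x = sh (0, -P.h) gT' x := by
    intro x hx
    have h3 : sh (0, -P.h) gT' x ∈ P.hS C (-P.s) 0 := (on_mem_iff mT x).2 hx
    exact H.B.mem _ (by simp only [hS, mem_bx] at h3 ⊢; omega)
  refine ⟨?_, ?_, ?_, ?_⟩
  · refine mul_mem (PermOn_mono ?_ H.B.mem) (PermOn_mono ?_ mT)
    · intro x; simp only [hS, mem_bx]; omega
    · intro x; simp only [hS, mem_bx]; omega
  · intro x hx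
    by_cases h0 : 0 ≤ x.1.2
    · have hx' : x ∈ P.hmid C 0 P.s := by simp only [hmid, mem_bx] at hx ⊢; omega
      rw [vr x h0, h1 x hx']; exact H.B.mid x hx'
    · have hx' : x ∈ P.hmid C (-P.s) 0 := by simp only [hmid, mem_bx] at hx ⊢; omega
      rw [vl x (by simp only [hmid, hS, mem_bx] at hx' ⊢; omega), h2 x hx', sh_apply,
        sh_apply]
      have h4 : ((x.1 - (0, -P.h), x.2) : (ℤ × ℤ) × C) ∈ P.hmid C (P.h - P.s) P.h := by
        simp only [hmid, mem_bx, Prod.fst_sub, Prod.snd_sub] at hx' ⊢; omega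
      rw [H'.T.mid _ h4]
  · intro x hx
    by_cases h0 : 0 ≤ x.1.2
    · have hx' : x ∈ P.hlo C 0 P.s := by simp only [hlo, mem_bx] at hx ⊢; omega
      rw [vr x h0]; exact H.B.lo x hx'
    · rw [vl x (by simp only [hlo, hS, mem_bx] at hx ⊢; omega), sh_apply]
      have h4 : ((x.1 - (0, -P.h), x.2) : (ℤ × ℤ) × C) ∈ P.hlo C (P.h - P.s) P.h := by
        simp only [hlo, mem_bx, Prod.fst_sub, Prod.snd_sub] at hx ⊢; omega
      have h5 := H'.T.lo _ h4
      simp only [hlow, Prod.fst_add, add_zero] at h5 ⊢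
      exact h5
  · intro x hx
    by_cases h0 : 0 ≤ x.1.2
    · have hx' : x ∈ P.hup C 0 P.s := by simp only [hup, mem_bx] at hx ⊢; omega
      rw [vr x h0]; exact H.B.up x hx'
    · rw [vl x (by simp only [hup, hS, mem_bx] at hx ⊢; omega), sh_apply]
      have h4 : ((x.1 - (0, -P.h), x.2) : (ℤ × ℤ) × C) ∈ P.hup C (P.h - P.s) P.h := by
        simp only [hup, mem_bx, Prod.fst_sub, Prod.snd_sub] at hx ⊢; omega
      have h5 := H'.T.up _ h4
      simp only [hlow, Prod.fst_add, add_zero] at h5 ⊢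
      exact h5

lemma units_eq_of_mul {a b : ℤˣ} (h : a * b = 1) : a = b := by
  rcases Int.units_eq_one_or a with q1 | q1 <;> rcases Int.units_eq_one_or b with q2 | q2 <;>
    simp_all

/-- EDGE LEMMA, `P`-edges -/
theorem edgeP (H : PreFace P f gL gR gB gT) (he : e ∈ AltOn (P.vS C (-P.s) P.s))
    (hd : Disp P.d e) (h1 : ∀ x ∈ P.vmid C 0 P.s, e x = f⁻¹ x)
    (h2 : ∀ x ∈ P.vmid C (-P.s) 0, e x = sh (-P.w, 0) f⁻¹ x) :
    ∃ l ∈ PermOn (P.vlo C (-P.s) P.s), ∃ u ∈ PermOn (P.vup C (-P.s) P.s),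
      (gamP P gL gR)⁻¹ * e = l * u ∧ sgn l = sgn u := by
  have := P.d0; have := P.m1; have := P.m2; have := P.htd; have := P.ht0; have := P.hst
  have := P.m3; have := P.m4; have := P.s0; have := P.hsd
  have hF := gamP_filling H e h1 h2
  obtain ⟨l, hl, u, hu, hlu⟩ := hF.edge_factor (P.vstrip _ _) he.1 (fun x _ => rfl)
    (by
      intro x hx
      have := hd x
      simp only [vlo, vlow, mem_bx] at hx ⊢
      omega)
    (by
      intro x hx
      have := hd x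
      simp only [vup, vlow, mem_bx] at hx ⊢
      omega)
  refine ⟨l, hl, u, hu, hlu, ?_⟩
  have hg := gamP_mem (P := P) (C := C) ⟨H.L.mem, H.sL⟩ ⟨H.R.mem, H.sR⟩
  have h3 := (mul_mem (inv_mem hg) he).2
  rw [hlu, sgn_mul hl hu] at h3
  exact units_eq_of_mul h3

/-- EDGE LEMMA, `Q`-edges (`f'` is the face below) -/
theorem edgeQ (H : PreFace P f gL gR gB gT) (H' : PreFace P f' gL' gR' gB' gT')
    (he : e ∈ AltOn (P.hS C (-P.s) P.s))
    (hd : Disp P.d e) (h1 : ∀ x ∈ P.hmid C 0 P.s, e x = f⁻¹ x)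
    (h2 : ∀ x ∈ P.hmid C (-P.s) 0, e x = sh (0, -P.h) f'⁻¹ x) :
    ∃ l ∈ PermOn (P.hlo C (-P.s) P.s), ∃ u ∈ PermOn (P.hup C (-P.s) P.s),
      (gamQ P gB gT')⁻¹ * e = l * u ∧ sgn l = sgn u := by
  have := P.d0; have := P.m1; have := P.m2; have := P.htd; have := P.ht0; have := P.hst
  have := P.m3; have := P.m4; have := P.s0; have := P.hsd
  have hF := gamQ_filling H H' e h1 h2
  obtain ⟨l, hl, u, hu, hlu⟩ := hF.edge_factor (P.hstrip _ _) he.1 (fun x _ => rfl)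
    (by
      intro x hx
      have := hd x
      simp only [hlo, hlow, mem_bx] at hx ⊢
      omega)
    (by
      intro x hx
      have := hd x
      simp only [hup, hlow, mem_bx] at hx ⊢
      omega)
  refine ⟨l, hl, u, hu, hlu, ?_⟩
  have hg := gamQ_mem (P := P) (C := C) ⟨H.B.mem, H.sB⟩ ⟨H'.T.mem, H'.sT⟩
  have h3 := (mul_mem (inv_mem hg) he).2
  rw [hlu, sgn_mul hl hu] at h3
  exact units_eq_of_mul h3

end edge

end Geo

end Crest.Agent.R189.K

end
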