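import Mathlib
import Crest.Agent.R189.KFace

/-!
# Row 189, part F (F4): the peeling for all faces and edges of a level

`FaceHyp.of_ann`: the hypotheses of the face lemma from `KFlux.Ann`, `kap = 0` and the edge
relations; `peel_family`: faces `j : ZMod n`, edges `(j, lam)`, `(j, mu)`.
-/

set_option autoImplicit false
set_option linter.unusedSectionVars false
set_option linter.unusedVariables false
set_option linter.unusedSimpArgs false

noncomputable section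

namespace Crest.Agent.R189.K

open Equiv Equiv.Perm
open KFlux (bx mem_bx Ann Mid kap cross_L cross_R cross_B cross_T)

variable {C : Type*} [Fintype C] [DecidableEq C]

lemma card_aux {α : Type*} (s : Finset α) (A B : α → Prop) [DecidablePred A]
    [DecidablePred B] (h : (s.filter (fun x => A x ∧ ¬ B x)).card
      = (s.filter (fun x => ¬ A x ∧ B x)).card) :
    (s.filter (fun x => B x)).card = (s.filter (fun x => A x)).card := by
  have h1 : (s.filter (fun x => B x)).card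
      = (s.filter (fun x => A x ∧ B x)).card + (s.filter (fun x => ¬ A x ∧ B x)).card := by
    rw [← Finset.card_filter_add_card_filter_not (s := s.filter (fun x => B x)) (fun x => A x),
      Finset.filter_filter, Finset.filter_filter]
    congr 2
    · ext x; simp only [Finset.mem_filter]; tauto
    · ext x; simp only [Finset.mem_filter]; tauto
  have h2 : (s.filter (fun x => A x)).card
      = (s.filter (fun x => A x ∧ B x)).card + (s.filter (fun x => A x ∧ ¬ B x)).card := by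
    rw [← Finset.card_filter_add_card_filter_not (s := s.filter (fun x => A x)) (fun x => B x),
      Finset.filter_filter, Finset.filter_filter]
  rw [h1, h2, h]

namespace Geo

variable {P : Geo} {f e : Equiv.Perm ((ℤ × ℤ) × C)}

lemma mid (P : Geo) : Mid P.w P.h P.s P.t P.d P.mx P.my := by
  have := P.d0; have := P.m1; have := P.m2; have := P.htd; have := P.ht0; have := P.hst
  have := P.m3; have := P.m4; have := P.s0; have := P.hsd
  exact ⟨by omega, by omega, by omega, by omega, by omega, by omega, by omega⟩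

lemma fl_of {A : Finset ((ℤ × ℤ) × C)} {π : (ℤ × ℤ) × C → (ℤ × ℤ) × C}
    {y : (ℤ × ℤ) × C → ℤ} {m : ℤ}
    (h : ((A.filter fun z => y z < m ∧ m ≤ y (π z)).card : ℤ)
      - ((A.filter fun z => m ≤ y z ∧ y (π z) < m).card : ℤ) = 0) :
    (A.filter (fun z => y (π z) < m)).card = (A.filter (fun z => y z < m)).card := by
  apply card_aux
  have h1 : (A.filter fun z => y z < m ∧ ¬ (y (π z) < m)).card
      = (A.filter fun z => y z < m ∧ m ≤ y (π z)).card := by
    congr 1; ext z; simp only [Finset.mem_filter, not_lt]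
  have h2 : (A.filter fun z => ¬ (y z < m) ∧ y (π z) < m).card
      = (A.filter fun z => m ≤ y z ∧ y (π z) < m).card := by
    congr 1; ext z; simp only [Finset.mem_filter, not_lt]
  rw [h1, h2]
  omega

/-- the hypotheses of the face lemma from the annular property and zero circulation -/
theorem faceHyp_of_ann (hm : f ∈ AltOn (bx C 0 P.w 0 P.h))
    (ha : Ann P.w P.h P.s P.t P.d f⁻¹) (hk : kap P.w P.s P.mx (f⁻¹ : Equiv.Perm _) = 0)
    (stL : ∀ x ∈ P.vmid C 0 P.s, (f⁻¹ x).1.1 < P.s)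
    (stR : ∀ x ∈ P.vmid C (P.w - P.s) P.w, P.w - P.s ≤ (f⁻¹ x).1.1)
    (stB : ∀ x ∈ P.hmid C 0 P.s, (f⁻¹ x).1.2 < P.s)
    (stT : ∀ x ∈ P.hmid C (P.h - P.s) P.h, P.h - P.s ≤ (f⁻¹ x).1.2) : P.FaceHyp f := by
  have := P.d0; have := P.m1; have := P.m2; have := P.htd; have := P.ht0; have := P.hst
  have := P.m3; have := P.m4; have := P.s0; have := P.hsd
  have hinv : f⁻¹ ∈ PermOn (bx C 0 P.w 0 P.h) := (PermOn _).inv_mem hm.1
  have hd : Disp P.d f⁻¹ := by
    intro x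
    by_cases hx : x ∈ bx C 0 P.w 0 P.h
    · have h1 := abs_le.1 (ha.dispx x hx)
      have h2 := abs_le.1 (ha.dispy x hx)
      omega
    · rw [hinv x hx]; omega
  have hfix : ∀ x, f⁻¹ x = x → f x = x := by
    intro x h
    have h1 : f (f⁻¹ x) = x := f.apply_symm_apply x
    rw [h] at h1; exact h1
  have M := P.mid
  refine ⟨hm, ?_, ?_, stL, stR, stB, stT, ?_, ?_, ?_, ?_⟩
  · have := hd.inv
    rwa [inv_inv] at this
  · intro x h1 h2 h3 h4 h5 h6 h7 h8
    by_cases hx : x ∈ bx C 0 P.w 0 P.h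
    · apply hfix
      simp only [vmid, hmid, c00, c10, c01, c11, mem_bx] at h1 h2 h3 h4 h5 h6 h7 h8
      have hx' := hx
      rw [mem_bx] at hx'
      by_cases k1 : P.t ≤ x.1.1 ∧ x.1.1 < P.w - P.t
      · exact ha.midx x hx k1.1 k1.2 (by omega) (by omega)
      · exact ha.midy x hx (by omega) (by omega) (by omega) (by omega)
    · exact hm.1 x hx
  · have := cross_L ha M
    rw [hk, neg_zero] at this
    exact fl_of (y := fun z => z.1.2) this
  · have := cross_R ha M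
    rw [hk] at this
    exact fl_of (y := fun z => z.1.2) this
  · have := cross_B ha M
    rw [hk] at this
    exact fl_of (y := fun z => z.1.1) this
  · have := cross_T ha M
    rw [hk, neg_zero] at this
    exact fl_of (y := fun z => z.1.1) this

/-- `f⁻¹` preserves the left and right strips, from the relation with a `P`-edge -/
lemma st_of_edgeP (he : e ∈ PermOn (P.vS C (-P.s) P.s))
    (h1 : ∀ x ∈ P.vmid C 0 P.s, e x = f⁻¹ x)
    (h2 : ∀ x ∈ P.vmid C (-P.s) 0, e x = sh (-P.w, 0) f⁻¹ x) :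
    (∀ x ∈ P.vmid C 0 P.s, (f⁻¹ x).1.1 < P.s) ∧
      (∀ x ∈ P.vmid C (P.w - P.s) P.w, P.w - P.s ≤ (f⁻¹ x).1.1) := by
  have := P.d0; have := P.m1; have := P.m2; have := P.htd; have := P.ht0; have := P.hst
  have := P.m3; have := P.m4; have := P.s0; have := P.hsd
  constructor
  · intro x hx
    have h3 := (on_mem_iff he x).2 (by simp only [vmid, vS, mem_bx] at hx ⊢; omega)
    rw [h1 x hx] at h3
    simp only [vS, mem_bx] at h3
    omega
  · intro x hx
    have hx' : ((x.1 + (-P.w, 0), x.2) : (ℤ × ℤ) × C) ∈ P.vmid C (-P.s) 0 := by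
      simp only [vmid, mem_bx, Prod.fst_add, Prod.snd_add] at hx ⊢; omega
    have h3 := (on_mem_iff he (x.1 + (-P.w, 0), x.2)).2 (by
      simp only [vmid, vS, mem_bx] at hx' ⊢; omega)
    rw [h2 _ hx', sh_apply] at h3
    simp only [add_sub_cancel_right, vS, mem_bx, Prod.fst_add, Prod.snd_add, Prod.mk.eta] at h3
    omega

/-- `f⁻¹` preserves the bottom strip, from the relation with its `Q`-edge -/
lemma st_of_edgeQ1 (he : e ∈ PermOn (P.hS C (-P.s) P.s))
    (h1 : ∀ x ∈ P.hmid C 0 P.s, e x = f⁻¹ x) :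
    ∀ x ∈ P.hmid C 0 P.s, (f⁻¹ x).1.2 < P.s := by
  have := P.d0; have := P.m1; have := P.m2; have := P.htd; have := P.ht0; have := P.hst
  have := P.m3; have := P.m4; have := P.s0; have := P.hsd
  intro x hx
  have h3 := (on_mem_iff he x).2 (by simp only [hmid, hS, mem_bx] at hx ⊢; omega)
  rw [h1 x hx] at h3
  simp only [hS, mem_bx] at h3
  omega

/-- `f⁻¹` preserves the top strip, from the relation with the `Q`-edge above -/
lemma st_of_edgeQ2 (he : e ∈ PermOn (P.hS C (-P.s) P.s))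
    (h2 : ∀ x ∈ P.hmid C (-P.s) 0, e x = sh (0, -P.h) f⁻¹ x) :
    ∀ x ∈ P.hmid C (P.h - P.s) P.h, P.h - P.s ≤ (f⁻¹ x).1.2 := by
  have := P.d0; have := P.m1; have := P.m2; have := P.htd; have := P.ht0; have := P.hst
  have := P.m3; have := P.m4; have := P.s0; have := P.hsd
  intro x hx
  have hx' : ((x.1 + (0, -P.h), x.2) : (ℤ × ℤ) × C) ∈ P.hmid C (-P.s) 0 := by
    simp only [hmid, mem_bx, Prod.fst_add, Prod.snd_add] at hx ⊢; omega
  have h3 := (on_mem_iff he (x.1 + (0, -P.h), x.2)).2 (by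
    simp only [hmid, hS, mem_bx] at hx' ⊢; omega)
  rw [h2 _ hx', sh_apply] at h3
  simp only [add_sub_cancel_right, hS, mem_bx, Prod.fst_add, Prod.snd_add, Prod.mk.eta] at h3
  omega

/-- PEELING OF ALL FACES AND EDGES.  Faces `j : ZMod n`, `P`-edges `(j, lam)` with `oP j lam`
(occurring), `Q`-edges `(j, mu)` with `oQ j mu`; the face below the `Q`-edge `(j, mu)` is
`j - 1`. -/
theorem peel_family (P : Geo) {n : ℕ} {Lab : Type*} {c c' : C} (hc : c ≠ c')
    (f : ZMod n → Equiv.Perm ((ℤ × ℤ) × C)) (eP eQ : ZMod n → Lab → Equiv.Perm ((ℤ × ℤ) × C))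
    (oP oQ : ZMod n → Lab → Prop) (hoP : ∀ j, ∃ l, oP j l) (hoQ : ∀ j, ∃ l, oQ j l)
    (hf : ∀ j, f j ∈ AltOn (bx C 0 P.w 0 P.h))
    (heP : ∀ j l, oP j l → eP j l ∈ AltOn (P.vS C (-P.s) P.s))
    (heQ : ∀ j l, oQ j l → eQ j l ∈ AltOn (P.hS C (-P.s) P.s))
    (dP : ∀ j l, oP j l → Disp P.d (eP j l)) (dQ : ∀ j l, oQ j l → Disp P.d (eQ j l))
    (ann : ∀ j, Ann P.w P.h P.s P.t P.d (f j)⁻¹)
    (hk : ∀ j, kap P.w P.s P.mx ((f j)⁻¹ : Equiv.Perm _) = 0)
    (P1 : ∀ j l, oP j l → ∀ x ∈ P.vmid C 0 P.s, eP j l x = (f j)⁻¹ x)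
    (P2 : ∀ j l, oP j l → ∀ x ∈ P.vmid C (-P.s) 0, eP j l x = sh (-P.w, 0) (f j)⁻¹ x)
    (Q1 : ∀ j l, oQ j l → ∀ x ∈ P.hmid C 0 P.s, eQ j l x = (f j)⁻¹ x)
    (Q2 : ∀ j l, oQ j l → ∀ x ∈ P.hmid C (-P.s) 0, eQ j l x = sh (0, -P.h) (f (j - 1))⁻¹ x) :
    ∃ gL gR gB gT k00 k10 k01 k11 : ZMod n → Equiv.Perm ((ℤ × ℤ) × C),
    ∃ lP uP lQ uQ : ZMod n → Lab → Equiv.Perm ((ℤ × ℤ) × C),
      (∀ j, P.FaceHyp (f j)) ∧ (∀ j, P.Face (f j) (gL j) (gR j) (gB j) (gT j)) ∧
      (∀ j, gL j ∈ AltOn (P.vS C 0 P.s)) ∧ (∀ j, gR j ∈ AltOn (P.vS C (P.w - P.s) P.w)) ∧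
      (∀ j, gB j ∈ AltOn (P.hS C 0 P.s)) ∧ (∀ j, gT j ∈ AltOn (P.hS C (P.h - P.s) P.h)) ∧
      (∀ j, k00 j ∈ AltOn (P.c00 C)) ∧ (∀ j, k10 j ∈ AltOn (P.c10 C)) ∧
      (∀ j, k01 j ∈ AltOn (P.c01 C)) ∧ (∀ j, k11 j ∈ AltOn (P.c11 C)) ∧
      (∀ j, f j * (gL j * gR j * gB j * gT j) = k00 j * k10 j * k01 j * k11 j) ∧
      (∀ j l, lP j l ∈ PermOn (P.vlo C (-P.s) P.s)) ∧
      (∀ j l, uP j l ∈ PermOn (P.vup C (-P.s) P.s)) ∧
      (∀ j l, lQ j l ∈ PermOn (P.hlo C (-P.s) P.s)) ∧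
      (∀ j l, uQ j l ∈ PermOn (P.hup C (-P.s) P.s)) ∧
      (∀ j l, sgn (lP j l) = sgn (uP j l)) ∧ (∀ j l, sgn (lQ j l) = sgn (uQ j l)) ∧
      (∀ j l, oP j l → (gamP P (gL j) (gR j))⁻¹ * eP j l = lP j l * uP j l) ∧
      (∀ j l, oQ j l → (gamQ P (gB j) (gT (j - 1)))⁻¹ * eQ j l = lQ j l * uQ j l) := by
  classical
  have FH : ∀ j, P.FaceHyp (f j) := by
    intro j
    obtain ⟨l, hl⟩ := hoP j
    obtain ⟨m, hm⟩ := hoQ j
    obtain ⟨m', hm'⟩ := hoQ (j + 1)
    have h1 := st_of_edgeP (heP j l hl).1 (P1 j l hl) (P2 j l hl)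
    have h2 := st_of_edgeQ1 (heQ j m hm).1 (Q1 j m hm)
    have h3 := Q2 (j + 1) m' hm'
    rw [add_sub_cancel_right] at h3
    have h4 := st_of_edgeQ2 (heQ (j + 1) m' hm').1 h3
    exact faceHyp_of_ann (hf j) (ann j) (hk j) h1.1 h1.2 h2 h4
  choose gL gR gB gT F using fun j => exists_face (FH j) hc
  choose k00 m00 k10 m10 k01 m01 k11 m11 hk4 using fun j => (F j).factor (FH j)
  have EP : ∀ j l, ∃ a ∈ PermOn (P.vlo C (-P.s) P.s), ∃ b ∈ PermOn (P.vup C (-P.s) P.s),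
      sgn a = sgn b ∧ (oP j l → (gamP P (gL j) (gR j))⁻¹ * eP j l = a * b) := by
    intro j l
    by_cases h : oP j l
    · obtain ⟨a, ha, b, hb, hab, hs⟩ := edgeP (F j).toPreFace (heP j l h) (dP j l h)
        (P1 j l h) (P2 j l h)
      exact ⟨a, ha, b, hb, hs, fun _ => hab⟩
    · exact ⟨1, one_mem _, 1, one_mem _, rfl, fun h' => absurd h' h⟩
  have EQ : ∀ j l, ∃ a ∈ PermOn (P.hlo C (-P.s) P.s), ∃ b ∈ PermOn (P.hup C (-P.s) P.s),
      sgn a = sgn b ∧ (oQ j l → (gamQ P (gB j) (gT (j - 1)))⁻¹ * eQ j l = a * b) := by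
    intro j l
    by_cases h : oQ j l
    · obtain ⟨a, ha, b, hb, hab, hs⟩ := edgeQ (F j).toPreFace (F (j - 1)).toPreFace
        (heQ j l h) (dQ j l h) (Q1 j l h) (Q2 j l h)
      exact ⟨a, ha, b, hb, hs, fun _ => hab⟩
    · exact ⟨1, one_mem _, 1, one_mem _, rfl, fun h' => absurd h' h⟩
  choose lP mlP uP muP sP hP using EP
  choose lQ mlQ uQ muQ sQ hQ using EQ
  exact ⟨gL, gR, gB, gT, k00, k10, k01, k11, lP, uP, lQ, uQ, FH, F, fun j => (F j).memL,
    fun j => (F j).memR, fun j => (F j).memB, fun j => (F j).memT, m00, m10, m01, m11, hk4,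
    mlP, muP, mlQ, muQ, sP, sQ, hP, hQ⟩

end Geo

end Crest.Agent.R189.K

end
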