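import Crest.Agent.R189.KSec
import Crest.Agent.R189.KRef
import Crest.Agent.R189.KLocal
import Crest.Agent.R189.KFam

/-!
# Row 189, part F (kernel): context at one level, transfers, reference elements (helper503)

`Ctx L C q`: geometry `P : Geo` (445) with `P.w = L.w`, `P.h = L.h`, the four systems of sections
`SF SP SQ SV` and two colours.  `M.Es a b = SP.val (famP a) * SQ.val (famQ b)` is the product of the
reference swaps, `M.Rep w a b`: `w = SV.val z * Es a b` for some even `z` in the ball `[-t,t)²`.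
-/

set_option autoImplicit false
set_option linter.unusedSectionVars false

namespace Crest.Agent.R189.K

open Equiv Equiv.Perm
open KFlux (bx mem_bx)

/-- box of positions -/
noncomputable abbrev bw (x0 x1 y0 y1 : ℤ) : Finset (ℤ × ℤ) := Finset.Ico x0 x1 ×ˢ Finset.Ico y0 y1

@[simp] lemma mem_bw {x0 x1 y0 y1 : ℤ} {v : ℤ × ℤ} :
    v ∈ bw x0 x1 y0 y1 ↔ (x0 ≤ v.1 ∧ v.1 < x1) ∧ (y0 ≤ v.2 ∧ v.2 < y1) := by
  simp [bw, Finset.mem_product, Finset.mem_Ico]

lemma bx_eq_win (C : Type*) [Fintype C] (x0 x1 y0 y1 : ℤ) :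
    bx C x0 x1 y0 y1 = win C (bw x0 x1 y0 y1) := rfl

/-- the swap of the colours `c0`, `c1` at the position `v` -/
def sw {C : Type*} [DecidableEq C] (c0 c1 : C) (v : ℤ × ℤ) : Equiv.Perm (Om C) :=
  swap (v, c0) (v, c1)

section sw
variable {C : Type*} [Fintype C] [DecidableEq C] {c0 c1 : C}

lemma sw_mul_self (v : ℤ × ℤ) : sw c0 c1 v * sw c0 c1 v = 1 := swap_mul_self _ _

lemma sw_mem_PermOn {W : Finset (ℤ × ℤ)} {v : ℤ × ℤ} (hv : v ∈ W) :
    sw c0 c1 v ∈ PermOn (win C W) :=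
  swap_mem_PermOn (by simpa using hv) (by simpa using hv)

lemma sgn_sw (h : c0 ≠ c1) (v : ℤ × ℤ) : sgn (sw c0 c1 v) = -1 :=
  sgn_swap (by simpa using h)

lemma sh_sw (u v : ℤ × ℤ) : sh u (sw c0 c1 v) = sw c0 c1 (v + u) := by
  simp only [sh, sw, conj]
  rw [Equiv.mul_swap_eq_swap_mul]
  simp

lemma sw_commute (v v' : ℤ × ℤ) : Commute (sw c0 c1 v) (sw c0 c1 v') := by
  by_cases h : v = v'
  · subst h; exact Commute.refl _
  · apply commute_of_disjoint (S := win C {v}) (T := win C {v'})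
    · rw [Finset.disjoint_left]
      intro p hp hp'
      rw [mem_win, Finset.mem_singleton] at hp hp'
      exact h (hp.symm.trans hp')
    · exact sw_mem_PermOn (by simp)
    · exact sw_mem_PermOn (by simp)

lemma sw_mul_sw_mem {W : Finset (ℤ × ℤ)} {v v' : ℤ × ℤ} (h : c0 ≠ c1) (hv : v ∈ W)
    (hv' : v' ∈ W) : sw c0 c1 v * sw c0 c1 v' ∈ AltOn (win C W) := by
  refine ⟨(PermOn _).mul_mem (sw_mem_PermOn hv) (sw_mem_PermOn hv'), ?_⟩
  rw [sgn_mul_on (sw_mem_PermOn hv) (sw_mem_PermOn hv'), sgn_sw h, sgn_sw h]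
  rfl

end sw

variable {X Lab Sta C T : Type*} [AddAction (ℤ × ℤ) X] [Fintype C] [DecidableEq C] [Group T]

lemma Lev.dist_bw {L : Lev X Lab Sta} {x0 x1 y0 y1 : ℤ} (h1 : x1 - x0 ≤ L.w)
    (h2 : y1 - y0 ≤ L.h) : L.Dist (bw x0 x1 y0 y1) := by
  apply Lev.dist_of (a := x0) (b := y0)
  · intro v hv; rw [mem_bw] at hv; omega
  · intro v hv; rw [mem_bw] at hv; omega

/-- geometry and sections at one level -/
structure Ctx (L : Lev X Lab Sta) (C : Type*) [Fintype C] [DecidableEq C]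
    (q : T →* Equiv.Perm (X × C)) where
  P : Geo
  hw : P.w = L.w
  hh : P.h = L.h
  SF : SecSys L C q L.dig
  SP : SecSys L C q L.kP
  SQ : SecSys L C q L.kQ
  SV : SecSys L C q L.kV
  c0 : C
  c1 : C
  hc : c0 ≠ c1

namespace Ctx

variable {L : Lev X Lab Sta} {q : T →* Equiv.Perm (X × C)} (M : Ctx L C q)

/-- lower reference swap of a `P` edge -/
def dn : Equiv.Perm (Om C) := sw M.c0 M.c1 (0, M.P.t0)
/-- upper reference swap of a `P` edge -/
def up : Equiv.Perm (Om C) := sw M.c0 M.c1 (0, M.P.h - M.P.t0 - 1)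
/-- left reference swap of a `Q` edge -/
def lf : Equiv.Perm (Om C) := sw M.c0 M.c1 (M.P.t0, 0)
/-- right reference swap of a `Q` edge -/
def rt : Equiv.Perm (Om C) := sw M.c0 M.c1 (M.P.w - M.P.t0 - 1, 0)

/-- the reference family of the `P` edges -/
def famP (a : ZMod L.n × Lab → ZMod 2) : ZMod L.n × Lab → Equiv.Perm (Om C) :=
  fun i => (M.dn * M.up) ^ (a i).val

/-- the reference family of the `Q` edges -/
def famQ (b : ZMod L.n × Lab → ZMod 2) : ZMod L.n × Lab → Equiv.Perm (Om C) :=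
  fun i => (M.lf * M.rt) ^ (b i).val

/-- reference element of the signs `(a, b)` -/
noncomputable def Es (a b : ZMod L.n × Lab → ZMod 2) : T :=
  M.SP.val (M.famP a) * M.SQ.val (M.famQ b)

/-- the window `[-t,t)²` of the corners -/
noncomputable abbrev WB : Finset (ℤ × ℤ) := bw (-M.P.t) M.P.t (-M.P.t) M.P.t

/-- `w = SV.val z * Es a b` with `z` even in the ball -/
def Rep (w : T) (a b : ZMod L.n × Lab → ZMod 2) : Prop :=
  ∃ z : ZMod L.n × Sta → Equiv.Perm (Om C), (∀ i, z i ∈ AltOn (win C M.WB)) ∧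
    w = M.SV.val z * M.Es a b

lemma dB : L.Dist M.WB := by
  have h1 := M.P.m1; have h2 := M.P.m2; have h3 := M.P.m3; have h4 := M.P.m4
  have h5 := M.P.d0; have hw := M.hw; have hh := M.hh
  exact Lev.dist_bw (by omega) (by omega)

lemma dWP : L.Dist (bw (-M.P.s) M.P.s M.P.t0 (M.P.h - M.P.t0)) := by
  have h1 := M.P.m1; have h2 := M.P.m2; have h3 := M.P.m3; have h4 := M.P.m4
  have h5 := M.P.d0; have hw := M.hw; have hh := M.hh; have h6 := M.P.hst; have h7 := M.P.ht0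
  have h8 := M.P.s0
  exact Lev.dist_bw (by omega) (by omega)

lemma dWQ : L.Dist (bw M.P.t0 (M.P.w - M.P.t0) (-M.P.s) M.P.s) := by
  have h1 := M.P.m1; have h2 := M.P.m2; have h3 := M.P.m3; have h4 := M.P.m4
  have h5 := M.P.d0; have hw := M.hw; have hh := M.hh; have h6 := M.P.hst; have h7 := M.P.ht0
  have h8 := M.P.s0
  exact Lev.dist_bw (by omega) (by omega)

lemma dWF : L.Dist (bw 0 M.P.w 0 M.P.h) := by
  have hw := M.hw; have hh := M.hh
  exact Lev.dist_bw (by omega) (by omega)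

/-! ### transfers -/

variable {W : Finset (ℤ × ℤ)} (hW : L.Dist W)
include hW

section transfer
variable [Finite Lab] [Finite Sta]

lemma val_FV {k : ZMod L.n → Equiv.Perm (Om C)} (hk : ∀ j, k j ∈ AltOn (win C W)) :
    M.SF.val k = M.SV.val (fun i => k i.1) := by
  have : NeZero L.n := ⟨L.n_pos.ne'⟩
  have := M.SF.val_move M.SV hW 0 (by simp) (fun i => i.1) (fun x _ => by simp [Lev.kV]) hk
  simpa using this

lemma val_FVq {k : ZMod L.n → Equiv.Perm (Om C)} (hk : ∀ j, k j ∈ AltOn (win C W)) :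
    M.SF.val k = M.SV.val (fun i => sh (-L.w, 0) (k i.1)) := by
  have : NeZero L.n := ⟨L.n_pos.ne'⟩
  have := M.SF.val_move M.SV hW (L.w, 0) (by simp) (fun i => i.1)
    (fun x hx => by simp [Lev.kV, L.dig_q x hx]) hk
  simpa using this

lemma val_FVp {k : ZMod L.n → Equiv.Perm (Om C)} (hk : ∀ j, k j ∈ AltOn (win C W)) :
    M.SF.val k = M.SV.val (fun i => sh (0, -L.h) (k (i.1 - 1))) := by
  have : NeZero L.n := ⟨L.n_pos.ne'⟩
  have := M.SF.val_move M.SV hW (0, L.h) (by simp) (fun i => i.1 - 1)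
    (fun x hx => by simp [Lev.kV, L.dig_p x hx]) hk
  simpa using this

lemma val_FVpq {k : ZMod L.n → Equiv.Perm (Om C)} (hk : ∀ j, k j ∈ AltOn (win C W)) :
    M.SF.val k = M.SV.val (fun i => sh (-L.w, -L.h) (k (i.1 - 1))) := by
  have : NeZero L.n := ⟨L.n_pos.ne'⟩
  have := M.SF.val_move M.SV hW (L.w, L.h) (by simp) (fun i => i.1 - 1)
    (fun x hx => by
      have h1 := L.dig_q _ (Lev.up_mem hx)
      rw [vadd_vadd] at h1
      have e : ((L.w, 0) + (0, L.h) : ℤ × ℤ) = (L.w, L.h) := by simp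
      rw [e] at h1
      simp [Lev.kV, h1, L.dig_p x hx]) hk
  simpa using this

lemma val_FP {k : ZMod L.n → Equiv.Perm (Om C)} (hk : ∀ j, k j ∈ AltOn (win C W)) :
    M.SF.val k = M.SP.val (fun i => k i.1) := by
  have : NeZero L.n := ⟨L.n_pos.ne'⟩
  have := M.SF.val_move M.SP hW 0 (by simp) (fun i => i.1) (fun x _ => by simp [Lev.kP]) hk
  simpa using this

lemma val_FPq {k : ZMod L.n → Equiv.Perm (Om C)} (hk : ∀ j, k j ∈ AltOn (win C W)) :
    M.SF.val k = M.SP.val (fun i => sh (-L.w, 0) (k i.1)) := by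
  have : NeZero L.n := ⟨L.n_pos.ne'⟩
  have := M.SF.val_move M.SP hW (L.w, 0) (by simp) (fun i => i.1)
    (fun x hx => by simp [Lev.kP, L.dig_q x hx]) hk
  simpa using this

lemma val_FQ {k : ZMod L.n → Equiv.Perm (Om C)} (hk : ∀ j, k j ∈ AltOn (win C W)) :
    M.SF.val k = M.SQ.val (fun i => k i.1) := by
  have : NeZero L.n := ⟨L.n_pos.ne'⟩
  have := M.SF.val_move M.SQ hW 0 (by simp) (fun i => i.1) (fun x _ => by simp [Lev.kQ]) hk
  simpa using this

lemma val_FQp {k : ZMod L.n → Equiv.Perm (Om C)} (hk : ∀ j, k j ∈ AltOn (win C W)) :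
    M.SF.val k = M.SQ.val (fun i => sh (0, -L.h) (k (i.1 - 1))) := by
  have : NeZero L.n := ⟨L.n_pos.ne'⟩
  have := M.SF.val_move M.SQ hW (0, L.h) (by simp) (fun i => i.1 - 1)
    (fun x hx => by simp [Lev.kQ, L.dig_p x hx]) hk
  simpa using this

lemma val_PV {k : ZMod L.n × Lab → Equiv.Perm (Om C)} (hk : ∀ j, k j ∈ AltOn (win C W)) :
    M.SP.val k = M.SV.val (fun i => k (i.1, L.sPf i.2)) := by
  have : NeZero L.n := ⟨L.n_pos.ne'⟩
  have := M.SP.val_move M.SV hW 0 (by simp) (fun i => (i.1, L.sPf i.2))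
    (fun x hx => by simp [Lev.kV, Lev.kP, L.Pf_st x hx]) hk
  simpa using this

lemma val_PVp {k : ZMod L.n × Lab → Equiv.Perm (Om C)} (hk : ∀ j, k j ∈ AltOn (win C W)) :
    M.SP.val k = M.SV.val (fun i => sh (0, -L.h) (k (i.1 - 1, L.sPb i.2))) := by
  have : NeZero L.n := ⟨L.n_pos.ne'⟩
  have := M.SP.val_move M.SV hW (0, L.h) (by simp) (fun i => (i.1 - 1, L.sPb i.2))
    (fun x hx => by
      have h1 := L.Pb_st _ (Lev.up_mem hx)
      rw [vadd_vadd] at h1
      have e : ((0, -L.h) + (0, L.h) : ℤ × ℤ) = 0 := by simp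
      rw [e, zero_vadd] at h1
      simp [Lev.kV, Lev.kP, L.dig_p x hx, ← h1]) hk
  simpa using this

lemma val_QV {k : ZMod L.n × Lab → Equiv.Perm (Om C)} (hk : ∀ j, k j ∈ AltOn (win C W)) :
    M.SQ.val k = M.SV.val (fun i => k (i.1, L.sQf i.2)) := by
  have : NeZero L.n := ⟨L.n_pos.ne'⟩
  have := M.SQ.val_move M.SV hW 0 (by simp) (fun i => (i.1, L.sQf i.2))
    (fun x hx => by simp [Lev.kV, Lev.kQ, L.Qf_st x hx]) hk
  simpa using this

lemma val_QVq {k : ZMod L.n × Lab → Equiv.Perm (Om C)} (hk : ∀ j, k j ∈ AltOn (win C W)) :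
    M.SQ.val k = M.SV.val (fun i => sh (-L.w, 0) (k (i.1, L.lft i.1 i.2))) := by
  have : NeZero L.n := ⟨L.n_pos.ne'⟩
  have := M.SQ.val_move M.SV hW (L.w, 0) (by simp) (fun i => (i.1, L.lft i.1 i.2))
    (fun x hx => by
      have h1 := L.lft_st _ (Lev.right_mem hx)
      rw [vadd_vadd] at h1
      have e : ((-L.w, 0) + (L.w, 0) : ℤ × ℤ) = 0 := by simp
      rw [e, zero_vadd] at h1
      rw [L.dig_q x hx] at h1
      simp [Lev.kV, Lev.kQ, h1, L.dig_q x hx]) hk
  simpa using this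

end transfer

/-! ### concrete transfers -/

omit [Group T] in
lemma rv_PV {k : ZMod L.n × Lab → Equiv.Perm (Om C)} (hk : ∀ j, k j ∈ PermOn (win C W)) :
    rv L L.kP k = rv L L.kV (fun i => k (i.1, L.sPf i.2)) := by
  have := rv_move (κ := L.kP) (κ' := L.kV) hW 0 (by simp) (fun i => (i.1, L.sPf i.2))
    (fun x hx => by simp [Lev.kV, Lev.kP, L.Pf_st x hx]) hk
  simpa using this

omit [Group T] in
lemma rv_PVp {k : ZMod L.n × Lab → Equiv.Perm (Om C)} (hk : ∀ j, k j ∈ PermOn (win C W)) :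
    rv L L.kP k = rv L L.kV (fun i => sh (0, -L.h) (k (i.1 - 1, L.sPb i.2))) := by
  have := rv_move (κ := L.kP) (κ' := L.kV) hW (0, L.h) (by simp)
    (fun i => (i.1 - 1, L.sPb i.2))
    (fun x hx => by
      have h1 := L.Pb_st _ (Lev.up_mem hx)
      rw [vadd_vadd] at h1
      have e : ((0, -L.h) + (0, L.h) : ℤ × ℤ) = 0 := by simp
      rw [e, zero_vadd] at h1
      simp [Lev.kV, Lev.kP, L.dig_p x hx, ← h1]) hk
  simpa using this

omit [Group T] in
lemma rv_QV {k : ZMod L.n × Lab → Equiv.Perm (Om C)} (hk : ∀ j, k j ∈ PermOn (win C W)) :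
    rv L L.kQ k = rv L L.kV (fun i => k (i.1, L.sQf i.2)) := by
  have := rv_move (κ := L.kQ) (κ' := L.kV) hW 0 (by simp) (fun i => (i.1, L.sQf i.2))
    (fun x hx => by simp [Lev.kV, Lev.kQ, L.Qf_st x hx]) hk
  simpa using this

omit [Group T] in
lemma rv_QVq {k : ZMod L.n × Lab → Equiv.Perm (Om C)} (hk : ∀ j, k j ∈ PermOn (win C W)) :
    rv L L.kQ k = rv L L.kV (fun i => sh (-L.w, 0) (k (i.1, L.lft i.1 i.2))) := by
  have := rv_move (κ := L.kQ) (κ' := L.kV) hW (L.w, 0) (by simp) (fun i => (i.1, L.lft i.1 i.2))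
    (fun x hx => by
      have h1 := L.lft_st _ (Lev.right_mem hx)
      rw [vadd_vadd] at h1
      have e : ((-L.w, 0) + (L.w, 0) : ℤ × ℤ) = 0 := by simp
      rw [e, zero_vadd] at h1
      rw [L.dig_q x hx] at h1
      simp [Lev.kV, Lev.kQ, h1, L.dig_q x hx]) hk
  simpa using this

end Ctx

end Crest.Agent.R189.K
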