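import Crest.Agent.R189.KLayer
import Crest.Agent.R189.KCtx

/-!
# Row 189, part F (M2): words in the small generators (helper781)

* `GenSys q letter`: small generators `phi g : Alt C →* T` over `q`; `G.tau`, `G.faceHom Z a`.
* `G.exists_word`: every element of the free group is a word `i ↦ (g i, z i)`, `i < M`.
* `Geo.std M w h`: standard geometry for words of length `M`.
* `G.layer_ctx`: the raw families `f, eP, eQ, v` of F1 over a context `M0 : Ctx L C q`.
-/

set_option autoImplicit false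
set_option linter.unusedSectionVars false

namespace Crest.Agent.R189.K

open Equiv Equiv.Perm

section prodN

variable {G : Type*} [Monoid G]

theorem prodN_succ' (f : ℕ → G) (M : ℕ) : prodN f (M + 1) = f 0 * prodN (fun i => f (i + 1)) M := by
  induction M with
  | zero => simp [prodN_succ]
  | succ M ih => rw [prodN_succ, ih, prodN_succ, mul_assoc]

theorem prodN_one {f : ℕ → G} {M : ℕ} (h : ∀ i < M, f i = 1) : prodN f M = 1 := by
  induction M with
  | zero => rfl
  | succ M ih => rw [prodN_succ, ih (fun i hi => h i (by omega)), h M (by omega), mul_one]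

theorem prodN_getD {β : Type*} (f : β → G) (d : β) (hd : f d = 1) (l : List β) :
    ∀ {M : ℕ}, l.length ≤ M → prodN (fun i => f (l.getD i d)) M = (l.map f).prod := by
  induction l with
  | nil =>
    intro M _
    exact prodN_one (fun i _ => by simpa using hd)
  | cons b l ih =>
    intro M hM
    obtain ⟨M, rfl⟩ : ∃ M', M = M' + 1 := ⟨M - 1, by simp at hM; omega⟩
    rw [prodN_succ', List.map_cons, List.prod_cons, ← ih (M := M) (by simpa using hM)]
    simp

end prodN

/-! ### displacement -/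

section disp

variable {C : Type*}

theorem Disp.one {d : ℤ} (hd : 0 ≤ d) : Disp d (1 : Perm ((ℤ × ℤ) × C)) := by
  intro x
  simp only [Perm.one_apply]
  omega

theorem Disp.mul {d d' : ℤ} {z z' : Perm ((ℤ × ℤ) × C)} (h : Disp d z) (h' : Disp d' z') :
    Disp (d + d') (z * z') := by
  intro x
  have h1 := h (z' x)
  have h2 := h' x
  rw [Perm.mul_apply]
  omega

theorem Disp.mono {d d' : ℤ} {z : Perm ((ℤ × ℤ) × C)} (h : Disp d z) (hd : d ≤ d') :
    Disp d' z := by
  intro x
  have h1 := h x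
  omega

theorem disp_lay {z : Perm C} {lam : C → ℤ × ℤ} (hlam : ∀ c, |(lam c).1| ≤ 1 ∧ |(lam c).2| ≤ 1)
    (F : Set (ℤ × ℤ)) : Disp 2 (lay z lam F) := by
  intro x
  have hb : ∀ c, z c ≠ c → |(lam (z c) - lam c).1| ≤ 2 ∧ |(lam (z c) - lam c).2| ≤ 2 := by
    intro c _
    have h1 := hlam c
    have h2 := hlam (z c)
    simp only [abs_le, Prod.fst_sub, Prod.snd_sub] at *
    omega
  have h := lay_disp (F := F) (by norm_num : (0 : ℤ) ≤ 2) hb x
  simp only [abs_le, Prod.fst_sub, Prod.snd_sub] at h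
  omega

theorem disp_prodN {f : ℕ → Perm ((ℤ × ℤ) × C)} {M : ℕ} (h : ∀ i < M, Disp 2 (f i)) :
    Disp (2 * (M : ℤ)) (prodN f M) := by
  induction M with
  | zero => exact Disp.one (by simp)
  | succ M ih =>
    rw [prodN_succ]
    have := (ih (fun i hi => h i (by omega))).mul (h M (by omega))
    exact this.mono (by push_cast; omega)

end disp

/-! ### generating systems -/

/-- a system of small generators of `T` over `q : T →* Perm (X × C)` -/
structure GenSys {X A C T : Type*} [AddAction (ℤ × ℤ) X] [Fintype C] [DecidableEq C] [Group T]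
    (q : T →* Perm (X × C)) (letter : X → A) where
  Gam : Type
  E : Gam → Set A
  lam : Gam → C → ℤ × ℤ
  hlam : ∀ g c, |(lam g c).1| ≤ 1 ∧ |(lam g c).2| ≤ 1
  phi : Gam → alternatingGroup C →* T
  hphi : ∀ g (z : alternatingGroup C),
    q (phi g z) = gev {x | letter x ∈ E g} (z : Perm C) (lam g)
  ne : Nonempty Gam
  surj : Function.Surjective
    (FreeGroup.lift (fun g : Gam × alternatingGroup C => phi g.1 g.2))

/-- the standard geometry for words of length `≤ M` -/
def Geo.std (M : ℕ) (w h : ℤ) (hw : 20 * M + 26 ≤ w) (hh : 20 * M + 26 ≤ h) : Geo where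
  w := w
  h := h
  s := 4 * M + 2
  t0 := 4 * M + 8
  t := 8 * M + 12
  d := 2 * M
  mx := w / 2
  my := h / 2
  d0 := by omega
  s0 := by omega
  hst := by omega
  htd := by omega
  hsd := by omega
  ht0 := by omega
  m1 := by omega
  m2 := by omega
  m3 := by omega
  m4 := by omega

namespace GenSys

variable {X A C T Lab Sta : Type*} [AddAction (ℤ × ℤ) X] [Fintype C] [DecidableEq C] [Group T]
variable {q : T →* Perm (X × C)} {letter : X → A} (G : GenSys q letter)

/-- evaluation of words -/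
noncomputable def tau : FreeGroup (G.Gam × alternatingGroup C) →* T :=
  FreeGroup.lift (fun g => G.phi g.1 g.2)

/-- the face permutation of a word, constant zone `Z`, letter function `a` -/
noncomputable def faceHom (Z : Set (ℤ × ℤ)) (a : ℤ × ℤ → A) :
    FreeGroup (G.Gam × alternatingGroup C) →* Perm (Om C) :=
  FreeGroup.lift (fun g => lay (g.2 : Perm C) (G.lam g.1) (Z ∩ {v | a v ∈ G.E g.1}))

theorem tau_surj : Function.Surjective G.tau := G.surj

@[simp] theorem tau_of (g : G.Gam × alternatingGroup C) :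
    G.tau (FreeGroup.of g) = G.phi g.1 g.2 := by simp [tau]

@[simp] theorem faceHom_of (Z : Set (ℤ × ℤ)) (a : ℤ × ℤ → A) (g : G.Gam × alternatingGroup C) :
    G.faceHom Z a (FreeGroup.of g) =
      lay (g.2 : Perm C) (G.lam g.1) (Z ∩ {v | a v ∈ G.E g.1}) := by simp [faceHom]

/-- every element of the free group is a positive word -/
theorem exists_list (w : FreeGroup (G.Gam × alternatingGroup C)) :
    ∃ l : List (G.Gam × alternatingGroup C),
      G.tau w = (l.map (fun g => G.phi g.1 g.2)).prod ∧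
      ∀ Z a, G.faceHom Z a w =
        (l.map (fun g => lay (g.2 : Perm C) (G.lam g.1) (Z ∩ {v | a v ∈ G.E g.1}))).prod := by
  induction w using FreeGroup.induction_on with
  | C1 => exact ⟨[], by simp, fun Z a => by simp⟩
  | of g => exact ⟨[g], by simp, fun Z a => by simp⟩
  | inv_of g _ =>
    refine ⟨[(g.1, g.2⁻¹)], ?_, fun Z a => ?_⟩
    · rw [map_inv, tau_of]; simp
    · rw [map_inv, faceHom_of, lay_inv]; simp
  | mul x y hx hy =>
    obtain ⟨l1, h1, h2⟩ := hx
    obtain ⟨l2, h3, h4⟩ := hy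
    refine ⟨l1 ++ l2, ?_, fun Z a => ?_⟩
    · rw [map_mul, h1, h3, List.map_append, List.prod_append]
    · rw [map_mul, h2, h4, List.map_append, List.prod_append]

/-- every element of the free group is a word of length `M'` for every large `M'` -/
theorem exists_word (w : FreeGroup (G.Gam × alternatingGroup C)) :
    ∃ (M : ℕ) (z : ℕ → alternatingGroup C) (g : ℕ → G.Gam), ∀ M' ≥ M,
      G.tau w = prodN (fun i => G.phi (g i) (z i)) M' ∧
      ∀ Z a, G.faceHom Z a w = prodN (fun i => lay (z i : Perm C) (G.lam (g i))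
        (Z ∩ {v | a v ∈ G.E (g i)})) M' := by
  obtain ⟨l, h1, h2⟩ := G.exists_list w
  obtain ⟨g0⟩ := G.ne
  refine ⟨l.length, fun i => (l.getD i (g0, 1)).2, fun i => (l.getD i (g0, 1)).1, ?_⟩
  intro M' hM'
  constructor
  · rw [h1]
    exact (prodN_getD (fun g : G.Gam × alternatingGroup C => G.phi g.1 g.2) (g0, 1)
      (by simp) l hM').symm
  · intro Z a
    rw [h2]
    exact (prodN_getD (fun g : G.Gam × alternatingGroup C =>
      lay (g.2 : Perm C) (G.lam g.1) (Z ∩ {v | a v ∈ G.E g.1})) (g0, 1)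
      (by simp) l hM').symm

variable {L : Lev X Lab Sta} [Finite Lab] [Finite Sta]

/-- radii of the standard schedule -/
def rs (i : ℕ) : ℤ := 4 * (i + 1)
/-- radii of the standard schedule -/
def rt (M i : ℕ) : ℤ := 4 * M + 10 + 4 * (i + 1)

/-- **F1 over a context.** -/
theorem layer_ctx (M0 : Ctx L C q) (LL : LevLet L letter) (M : ℕ)
    (hw : 20 * (M : ℤ) + 26 ≤ L.w) (hh : 20 * (M : ℤ) + 26 ≤ L.h)
    (hP : M0.P = Geo.std M L.w L.h hw hh) (z : ℕ → alternatingGroup C) (g : ℕ → G.Gam) :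
    ∃ (f : ZMod L.n → Perm (Om C)) (eP eQ : ZMod L.n × Lab → Perm (Om C))
      (v : ZMod L.n × Sta → Perm (Om C)),
      (∀ j, f j = prodN (fun i => lay (z i : Perm C) (G.lam (g i))
        (ZF L.w L.h (rs i) (rt M i) ∩ {v | LL.aF j v ∈ G.E (g i)})) M) ∧
      (∀ j, f j ∈ AltOn (win C (bw 0 M0.P.w 0 M0.P.h))) ∧
      (∀ j, eP j ∈ AltOn (win C (bw (-M0.P.s) M0.P.s M0.P.t0 (M0.P.h - M0.P.t0)))) ∧
      (∀ j, eQ j ∈ AltOn (win C (bw M0.P.t0 (M0.P.w - M0.P.t0) (-M0.P.s) M0.P.s))) ∧
      (∀ j, v j ∈ AltOn (win C M0.WB)) ∧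
      (∀ j, Disp M0.P.d (f j)) ∧ (∀ j, Disp M0.P.d (eP j)) ∧ (∀ j, Disp M0.P.d (eQ j)) ∧
      prodN (fun i => G.phi (g i) (z i)) M =
        M0.SF.val f * M0.SP.val eP * M0.SQ.val eQ * M0.SV.val v := by
  have : NeZero L.n := ⟨L.n_pos.ne'⟩
  have hPw : M0.P.w = L.w := M0.hw
  have hPh : M0.P.h = L.h := M0.hh
  have hPs : M0.P.s = 4 * M + 2 := by rw [hP]; rfl
  have hPt0 : M0.P.t0 = 4 * M + 8 := by rw [hP]; rfl
  have hPt : M0.P.t = 8 * M + 12 := by rw [hP]; rfl
  have hPd : M0.P.d = 2 * M := by rw [hP]; rfl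
  have dP : L.Dist (L.WP (4 * M + 2) (4 * M + 8)) := Lev.dist_WP (by omega) (by omega)
  have dQ : L.Dist (L.WQ (4 * M + 2) (4 * M + 8)) := Lev.dist_WQ (by omega) (by omega)
  have dV : L.Dist (WV (8 * M + 12)) := Lev.dist_WV (by omega) (by omega)
  let S : Secs4 q L (4 * M + 2) (4 * M + 8) (8 * M + 12) dP dQ dV :=
    { sF := M0.SF.s L.WF Lev.dist_WF
      sP := M0.SP.s _ dP
      sQ := M0.SQ.s _ dQ
      sV := M0.SV.s _ dV
      qF := fun z => M0.SF.q_s _ _ z
      qP := fun z => M0.SP.q_s _ _ z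
      qQ := fun z => M0.SQ.q_s _ _ z
      qV := fun z => M0.SV.q_s _ _ z }
  obtain ⟨f, eP, eQ, v, hf, heP, heQ, hv, hprod⟩ := layer M0.SF.cen M0.SF.five LL S
    (sched_std (w := L.w) (h := L.h) M (by omega) (by omega)) z (fun i => G.lam (g i))
    (fun i => G.E (g i)) (fun i c => G.hlam (g i) c) (fun i => G.phi (g i))
    (fun i z => G.hphi (g i) z)
  have hd : ∀ (F : ℕ → Set (ℤ × ℤ)), Disp M0.P.d
      (prodN (fun i => lay (z i : Perm C) (G.lam (g i)) (F i)) M) := by
    intro F
    rw [hPd]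
    exact disp_prodN (fun i _ => disp_lay (G.hlam (g i)) _)
  refine ⟨fun j => f j, fun j => eP j, fun j => eQ j, fun j => v j, hf, ?_, ?_, ?_, ?_, ?_, ?_,
    ?_, ?_⟩
  · intro j
    rw [hPw, hPh]
    exact (f j).2
  · intro j
    rw [hPh, hPs, hPt0]
    exact (eP j).2
  · intro j
    rw [hPw, hPs, hPt0]
    exact (eQ j).2
  · intro j
    have := (v j).2
    unfold Ctx.WB
    rw [hPt]
    exact this
  · intro j
    simp only [hf j]
    exact hd _
  · intro j
    simp only [heP j]
    exact hd _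
  · intro j
    simp only [heQ j]
    exact hd _
  · rw [hprod, M0.SF.val_eq Lev.dist_WF (fun j => (f j).2), M0.SP.val_eq dP (fun j => (eP j).2),
      M0.SQ.val_eq dQ (fun j => (eQ j).2), M0.SV.val_eq dV (fun j => (v j).2)]

end GenSys

end Crest.Agent.R189.K
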