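import Crest.Agent.R189.FPGen
import Crest.Agent.R189.KWord
import Crest.Agent.R189.FPMain
import Crest.Agent.R189.Cent
import Crest.Agent.R189.AtomOcc

/-!
# Row 189 (S0289), assembly of section 3 (helper396): the generating system of `T` for the kernel part,
centrality of the kernel
-/

set_option autoImplicit false

namespace Crest.Agent.R189.FPMain

section

variable {C : Type} [Fintype C] [DecidableEq C] [Nonempty C] (hC : 30 ≤ Fintype.card C)

/-- the generating system (M6) -/
noncomputable def gsX : K.GenSys (qT (C := C) letter MD letter_match) letter where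
  Gam := Gam C
  E := Gam.E
  lam := Gam.lam
  hlam := Gam.lam_le
  phi := Gam.phi hC
  hphi := Gam.q_phi hC
  ne := inferInstance
  surj := tau_surjective hC

include hC in
/-- **the kernel of `T → Gp` is central** -/
theorem ker_le_center : (qT (C := C) letter MD letter_match).ker ≤
    Subgroup.center (TGrp MD C) := by
  have := centreless_bar (C := C) hC
  rw [Cent.ker_qT_of_occ hC (centre_Gp C hC) (fun n κ =>
    AtomOcc.atom_occ hC (conc_qTbar letter MD letter_match (centre_Gp C hC)) (2 * n) κ)]

include hC in
/-- **the sections of the four kinds**, all even levels -/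
theorem secSys (m : ℕ) :
    Nonempty (K.SecSys (LX m) C (qT letter MD letter_match) (LX m).dig) ∧
    Nonempty (K.SecSys (LX m) C (qT letter MD letter_match) (LX m).kP) ∧
    Nonempty (K.SecSys (LX m) C (qT letter MD letter_match) (LX m).kQ) ∧
    Nonempty (K.SecSys (LX m) C (qT letter MD letter_match) (LX m).kV) :=
  secSys_LX hC (ker_le_center hC) m

end

/-- widths tend to infinity -/
theorem lt_LX_w (m : ℕ) : (m : ℤ) < (LX m).w := by
  have h := lt_xh (a := 4) (by norm_num) m
  have h2 : (m : ℤ) < ((xh 4 m : ℕ) : ℤ) := by exact_mod_cast h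
  exact h2

theorem lt_LX_h (m : ℕ) : (m : ℤ) < (LX m).h := by
  have h := lt_xh (a := 3) (by norm_num) m
  have h2 : (m : ℤ) < ((xh 3 m : ℕ) : ℤ) := by exact_mod_cast h
  exact h2

open Filter in
theorem tendsto_LX_w : Tendsto (fun m => (LX m).w) atTop atTop := by
  apply tendsto_atTop_mono (f := fun m : ℕ => (m : ℤ)) (fun m => (lt_LX_w m).le)
  exact tendsto_natCast_atTop_atTop

open Filter in
theorem tendsto_LX_h : Tendsto (fun m => (LX m).h) atTop atTop := by
  apply tendsto_atTop_mono (f := fun m : ℕ => (m : ℤ)) (fun m => (lt_LX_h m).le)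
  exact tendsto_natCast_atTop_atTop

theorem LX_D_nonempty (m : ℕ) : (LX m).D.Nonempty := by
  obtain ⟨s⟩ := asmNonemptyStar
  exact ⟨⟨0, s⟩, dvd_zero _, dvd_zero _⟩

end Crest.Agent.R189.FPMain
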