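import Crest.Agent.R189.XLev
import Crest.Agent.R189.HierGeo

/-!
# Row 189 (S0289), assembly of section 3 (helper396): geometry bridge `ww`/`hh` = `xh`
-/

set_option autoImplicit false

namespace Crest.Agent.R189

theorem ww_hh_two_mul (a m : ℕ) : ww a (2 * m) = xh (a + 1) m ∧ hh a (2 * m) = xh a m := by
  induction m with
  | zero => exact ⟨rfl, rfl⟩
  | succ m ih =>
    have he : Even (2 * m) := even_two_mul m
    have ho : ¬ Even (2 * m + 1) := by
      rw [Nat.even_add_one, not_not]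
      exact he
    have e : 2 * (m + 1) = 2 * m + 1 + 1 := by ring
    constructor
    · rw [e, ww_succ_odd ho, ww_succ_even he, ih.1, xh_succ', nn]
      ring
    · rw [e, hh_succ_odd ho, hh_succ_even he, ih.2, xh_succ', nn]
      ring

theorem ww_two_mul (a m : ℕ) : ww a (2 * m) = xh (a + 1) m := (ww_hh_two_mul a m).1

theorem hh_two_mul (a m : ℕ) : hh a (2 * m) = xh a m := (ww_hh_two_mul a m).2

theorem natCast_eq_intCast_iff_dg {n : ℕ} (hn : 0 < n) (y : ℤ) (j : ℕ) :
    ((y : ℤ) : ZMod n) = (j : ZMod n) ↔ dg n y = j % n := by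
  have h1 := dg_cast hn y
  have h2 : ((j % n : ℕ) : ℤ) = (j : ℤ) % (n : ℤ) := Int.natCast_mod j n
  have h3 : ((j : ℕ) : ZMod n) = (((j : ℕ) : ℤ) : ZMod n) := by push_cast; rfl
  rw [h3, ZMod.intCast_eq_intCast_iff' y (j : ℤ) n]
  constructor
  · intro h
    have : ((dg n y : ℕ) : ℤ) = ((j % n : ℕ) : ℤ) := by rw [h1, h2, h]
    exact_mod_cast this
  · intro h
    rw [← h1, ← h2, h]

end Crest.Agent.R189
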