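import Mathlib

/-!
# Row 189: finite presentability transfer lemmas (helper926)
-/

set_option autoImplicit false

namespace Crest.Agent.R189.FP

open Subgroup

/-- a surjection with finite kernel transfers finite presentability -/
theorem of_surjective_finite_ker {T G : Type*} [Group T] [Group G]
    [Group.IsFinitelyPresented T] (f : T →* G) (hf : Function.Surjective f)
    (hker : Finite f.ker) : Group.IsFinitelyPresented G :=
  Group.IsFinitelyPresented.of_surjective f hf (Subgroup.IsFinitelyNormallyGenerated.of_FG f.ker)

/-- the same with the kernel given as a finite set of elements -/
theorem of_surjective_finite_set {T G : Type*} [Group T] [Group G]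
    [Group.IsFinitelyPresented T] (f : T →* G) (hf : Function.Surjective f)
    (hker : {x | f x = 1}.Finite) : Group.IsFinitelyPresented G :=
  of_surjective_finite_ker f hf (Set.finite_coe_iff.mpr hker)

/-- a group given by finitely many generators (as a homomorphism from a free group on a finite
type) and a finite set of relators -/
theorem of_presentation {α G : Type*} [Finite α] [Group G] (f : FreeGroup α →* G)
    (hf : Function.Surjective f) (S : Set (FreeGroup α)) (hS : S.Finite)
    (hker : f.ker = Subgroup.normalClosure S) : Group.IsFinitelyPresented G :=
  Group.IsFinitelyPresented.of_surjective f hf ⟨S, hS, hker.symm⟩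

/-- a presented group with finitely many generators and relators -/
theorem presented {α : Type*} [Finite α] (S : Set (FreeGroup α)) (hS : S.Finite) :
    Group.IsFinitelyPresented (PresentedGroup S) := by
  have : Finite S := hS.to_subtype
  infer_instance

end Crest.Agent.R189.FP
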