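import Crest.Agent.R189.LETW1

/-!
# Row 189, M7 (E3): tiling, complements to `LETW1.lean` (lattice `Lat`, `LS.hD_inv`, `LS.hD_orth`)

For `h : LS D pZ qZ a c St`: translates of `hD k` by `Bx a k` (or by any set of representatives)
form a partition of `D`; `hc k j = ofAdd (j • pp a k) • hD (k+1)`.
-/

set_option autoImplicit false

namespace Crest.Agent.R189

namespace Romp

section bind
variable {E : Type*} [OMP E] {ι κ : Type*} {D : E}

theorem IsPart.bind [Finite ι] [Finite κ] {P : ι → E} (hP : IsPart P D) {Q : ι → κ → E}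
    (hQ : ∀ i, IsPart (Q i) (P i)) : IsPart (fun x : ι × κ => Q x.1 x.2) D := by
  refine IsPart.of_isLUB ?_ ⟨?_, ?_⟩
  · rintro ⟨i, k⟩ ⟨i', k'⟩ hne
    by_cases hi : i = i'
    · subst hi
      exact (hQ i).orth (fun h : k = k' => hne (by rw [h]))
    · exact (hP.orth hi).mono ((hQ i).le_total k) ((hQ i').le_total k')
  · rintro _ ⟨⟨i, k⟩, rfl⟩
    exact ((hQ i).le_total k).trans (hP.le_total i)
  · intro x hx
    rw [← hP.ev_univ]
    apply hP.ev_le
    intro i _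
    rw [← (hQ i).ev_univ]
    apply (hQ i).ev_le
    intro k _
    exact hx ⟨(i, k), rfl⟩

theorem IsPart.sigma [Finite ι] {κ : ι → Type*} [∀ i, Finite (κ i)] {P : ι → E}
    (hP : IsPart P D) {Q : ∀ i, κ i → E} (hQ : ∀ i, IsPart (Q i) (P i)) :
    IsPart (fun x : (i : ι) × κ i => Q x.1 x.2) D := by
  refine IsPart.of_isLUB ?_ ⟨?_, ?_⟩
  · rintro ⟨i, k⟩ ⟨i', k'⟩ hne
    by_cases hi : i = i'
    · subst hi
      exact (hQ i).orth (fun h : k = k' => hne (by rw [h]))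
    · exact (hP.orth hi).mono ((hQ i).le_total k) ((hQ i').le_total k')
  · rintro _ ⟨⟨i, k⟩, rfl⟩
    exact ((hQ i).le_total k).trans (hP.le_total i)
  · intro x hx
    rw [← hP.ev_univ]
    apply hP.ev_le
    intro i _
    rw [← (hQ i).ev_univ]
    apply (hQ i).ev_le
    intro k _
    exact hx ⟨⟨i, k⟩, rfl⟩

/-- a partition finer than another one -/
theorem IsPart.eq_ev_of_le [Finite ι] [Finite κ] {P : ι → E} (hP : IsPart P D) {Q : κ → E}
    (hQ : IsPart Q D) (f : ι → κ) (hle : ∀ i, P i ≤ Q (f i)) (x : κ) :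
    Q x = ev P {i | f i = x} := by
  have := (hP.map f).eq_of_le hQ (by
    intro y
    apply hP.ev_le
    intro i hi
    have hi' : f i = y := hi
    rw [← hi']
    exact hle i)
  exact (congrFun this x).symm

end bind

end Romp

open Romp

/-! ### the lattice -/

/-- reduction modulo the lattice into the box -/
def red (a k : ℕ) (v : ℤ × ℤ) : ℤ × ℤ := (v.1 % (ww a k : ℤ), v.2 % (hh a k : ℤ))

theorem red_mem {a : ℕ} (ha : 0 < a) (k : ℕ) (v : ℤ × ℤ) : red a k v ∈ Bx a k := by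
  have hw : (0 : ℤ) < ww a k := by exact_mod_cast ww_pos ha k
  have hh' : (0 : ℤ) < hh a k := by exact_mod_cast hh_pos ha k
  rw [mem_Bx]
  exact ⟨⟨Int.emod_nonneg _ hw.ne', Int.emod_lt_of_pos _ hw⟩,
    ⟨Int.emod_nonneg _ hh'.ne', Int.emod_lt_of_pos _ hh'⟩⟩

theorem sub_red_mem (a k : ℕ) (v : ℤ × ℤ) : Lat a k (v - red a k v) :=
  ⟨Int.dvd_self_sub_emod, Int.dvd_self_sub_emod⟩

theorem red_eq_red_iff {a k : ℕ} {v v' : ℤ × ℤ} : red a k v = red a k v' ↔ Lat a k (v - v') := by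
  rw [Lat, red, red, Prod.ext_iff]
  constructor
  · rintro ⟨h1, h2⟩
    exact ⟨Int.ModEq.dvd (Int.ModEq.symm h1), Int.ModEq.dvd (Int.ModEq.symm h2)⟩
  · rintro ⟨h1, h2⟩
    exact ⟨((Int.modEq_iff_dvd.2 h1 : (v'.1 ≡ v.1 [ZMOD (ww a k : ℤ)]))).symm,
      ((Int.modEq_iff_dvd.2 h2 : (v'.2 ≡ v.2 [ZMOD (hh a k : ℤ)]))).symm⟩

theorem red_of_mem {a k : ℕ} {v : ℤ × ℤ} (hv : v ∈ Bx a k) : red a k v = v := by
  rw [mem_Bx] at hv
  exact Prod.ext (Int.emod_eq_of_lt hv.1.1 hv.1.2) (Int.emod_eq_of_lt hv.2.1 hv.2.2)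

/-! ### tiling -/

section tiling
variable {E : Type*} [ROMP E] [OMPAct (Multiplicative (ℤ × ℤ)) E]
variable {D : E} {a : ℕ} {c : ℕ → E} {St : Star → E}

theorem LS.hD_red (h : LS D pZ qZ a c St) (k : ℕ) (v : ℤ × ℤ) :
    Multiplicative.ofAdd v • hD D pZ qZ a c St k =
      Multiplicative.ofAdd (red a k v) • hD D pZ qZ a c St k :=
  h.hD_congr k (sub_red_mem a k v)

/-- the digits are translates of the next base -/
theorem LS.hc_eq (h : LS D pZ qZ a c St) (k j : ℕ) :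
    hc pZ qZ a c St k j =
      Multiplicative.ofAdd ((j : ℤ) • pp a k) • hD D pZ qZ a c St (k + 1) := by
  rw [hD_succ, ← (h.lvl k).pow_c j, hP_eq, ← ofAdd_nsmul, natCast_zsmul]

theorem LS.smul_hc (h : LS D pZ qZ a c St) (k j : ℕ) (v : ℤ × ℤ) :
    Multiplicative.ofAdd v • hc pZ qZ a c St k j =
      Multiplicative.ofAdd (v + (j : ℤ) • pp a k) • hD D pZ qZ a c St (k + 1) := by
  rw [h.hc_eq, ← mul_smul, ← ofAdd_add]

/-- the equivalence `Bx k × Fin n_k ≃ Bx (k+1)` -/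
noncomputable def bxEquiv (ha : 0 < a) (k : ℕ) :
    (Bx a k) × Fin (3 * (a + k)) ≃ (Bx a (k + 1)) :=
  Equiv.ofBijective
    (fun x => ⟨(x.1 : ℤ × ℤ) + ((x.2 : ℕ) : ℤ) • pp a k,
      (Bx_succ ha k _).2 ⟨x.1, x.1.2, x.2, x.2.2, rfl⟩⟩)
    ⟨by
      rintro ⟨u, j⟩ ⟨u', j'⟩ hx
      have h1 := congrArg Subtype.val hx
      obtain ⟨h2, h3⟩ := Bx_unique ha u.2 u'.2 h1
      have h4 : j = j' := by ext; exact_mod_cast h3
      rw [Subtype.ext h2, h4],
    by
      rintro ⟨v, hv⟩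
      obtain ⟨u, hu, j, hj, rfl⟩ := (Bx_succ ha k v).1 hv
      exact ⟨(⟨u, hu⟩, ⟨j, hj⟩), rfl⟩⟩

theorem bxEquiv_apply (ha : 0 < a) (k : ℕ) (x : (Bx a k) × Fin (3 * (a + k))) :
    ((bxEquiv ha k x : Bx a (k + 1)) : ℤ × ℤ) = (x.1 : ℤ × ℤ) + ((x.2 : ℕ) : ℤ) • pp a k := rfl

/-- **tiling** -/
theorem LS.tiling (h : LS D pZ qZ a c St) (k : ℕ) :
    IsPart (fun v : Bx a k => Multiplicative.ofAdd (v : ℤ × ℤ) • hD D pZ qZ a c St k) D := by
  have ha : 0 < a := by have := h.three_le; omega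
  induction k with
  | zero =>
    have hs : ∀ v : Bx a 0, (v : ℤ × ℤ) = 0 := by
      rintro ⟨v, hv⟩
      rw [Bx_zero, Finset.mem_singleton] at hv
      exact hv
    have e1 : Multiplicative.ofAdd (0 : ℤ × ℤ) = 1 := rfl
    have e : (fun v : Bx a 0 => Multiplicative.ofAdd (v : ℤ × ℤ) • hD D pZ qZ a c St 0) =
        fun _ => D := by
      funext v; rw [hs v, e1, one_smul, hD_zero]
    rw [e]
    have h0 : (0 : ℤ × ℤ) ∈ Bx a 0 := by rw [Bx_zero, Finset.mem_singleton]; rfl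
    have : Nonempty (Bx a 0) := ⟨⟨0, h0⟩⟩
    refine IsPart.of_isLUB ?_ ?_
    · intro i j hij
      exact absurd (Subtype.ext ((hs i).trans (hs j).symm)) hij
    · rw [Set.range_const]; exact isLUB_singleton
  | succ k ih =>
    have h1 : IsPart (fun x : (Bx a k) × Fin (3 * (a + k)) =>
        Multiplicative.ofAdd (x.1 : ℤ × ℤ) • hc pZ qZ a c St k x.2) D :=
      ih.bind (fun u => ((h.lvl k).part_c).smul (Multiplicative.ofAdd (u : ℤ × ℤ)))
    have h2 := h1.reindex (bxEquiv ha k).symm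
    convert h2 using 2 with v
    rw [h.smul_hc, ← bxEquiv_apply ha, Equiv.apply_symm_apply]

/-- tiling by any set of representatives -/
theorem LS.tiling_of_bij (h : LS D pZ qZ a c St) (k : ℕ) {ι : Type*} (pos : ι → ℤ × ℤ)
    (hpos : Function.Bijective
      (fun i => (⟨red a k (pos i), red_mem (by have := h.three_le; omega) k (pos i)⟩ : Bx a k))) :
    IsPart (fun i => Multiplicative.ofAdd (pos i) • hD D pZ qZ a c St k) D := by
  have h2 := (h.tiling k).reindex (Equiv.ofBijective _ hpos)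
  convert h2 using 2 with i
  rw [h.hD_red]
  rfl

theorem LS.hD_le (h : LS D pZ qZ a c St) (k : ℕ) (v : ℤ × ℤ) :
    Multiplicative.ofAdd v • hD D pZ qZ a c St k ≤ D := by
  have ha : 0 < a := by have := h.three_le; omega
  rw [h.hD_red k v]
  exact (h.tiling k).le_total ⟨red a k v, red_mem ha k v⟩

/-- digits are invariant under the next lattice -/
theorem LS.hc_congr (h : LS D pZ qZ a c St) (k : ℕ) {j j' : ℕ} {v v' : ℤ × ℤ}
    (hv : Lat a (k + 1) ((v + (j : ℤ) • pp a k) - (v' + (j' : ℤ) • pp a k))) :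
    Multiplicative.ofAdd v • hc pZ qZ a c St k j =
      Multiplicative.ofAdd v' • hc pZ qZ a c St k j' := by
  rw [h.smul_hc, h.smul_hc, h.hD_congr (k + 1) hv]

theorem LS.hc_orth (h : LS D pZ qZ a c St) (k : ℕ) {j j' : ℕ} {v v' : ℤ × ℤ}
    (hv : ¬ Lat a (k + 1) ((v + (j : ℤ) • pp a k) - (v' + (j' : ℤ) • pp a k))) :
    Orth (Multiplicative.ofAdd v • hc pZ qZ a c St k j)
      (Multiplicative.ofAdd v' • hc pZ qZ a c St k j') := by
  rw [h.smul_hc, h.smul_hc]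
  exact h.hD_orth (k + 1) hv

/-- the partition into the cells `(v, j, s)` -/
theorem LS.tiling_cell (h : LS D pZ qZ a c St) (k : ℕ) {ι : Type*} [Finite ι] (pos : ι → ℤ × ℤ)
    (hpos : IsPart (fun i => Multiplicative.ofAdd (pos i) • hD D pZ qZ a c St k) D) :
    IsPart (fun x : ι × (Fin (3 * (a + k)) × Star) => Multiplicative.ofAdd (pos x.1) •
      (hc pZ qZ a c St k x.2.1 ⊓ₒ hSt pZ qZ a c St k x.2.2)) D := by
  have hl := h.lvl k
  have h1 : IsPart (fun x : Fin (3 * (a + k)) × Star =>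
      hc pZ qZ a c St k x.1 ⊓ₒ hSt pZ qZ a c St k x.2) (hD D pZ qZ a c St k) :=
    hl.part_c.prod hl.part_St (fun i s => hl.comm i i.2 s)
  exact hpos.bind (fun i => h1.smul (Multiplicative.ofAdd (pos i)))

end tiling

/-- level `0` letters form a partition -/
theorem LS.part_letters {G E : Type*} [CommGroup G] [ROMP E] [OMPAct G E] {D : E} {p q : G}
    {a : ℕ} {c : ℕ → E} {St : Star → E} (h : LS D p q a c St) :
    IsPart (fun x : Fin (3 * a) × Star => c x.1 ⊓ₒ St x.2) D :=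
  h.part_c.prod h.part_St (fun i s => h.comm i i.2 s)

end Crest.Agent.R189
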