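import Crest.Agent.R189.KRad

/-!
# Row 189, part F: the circulation as a function of words at all levels (helper834)

`kap0 w h π` = circulation without the strip parameter.  `AnnEv w h π`: the permutations `π k` of
the boxes `[0,w k) × [0,h k)` are annular with constants independent of `k`.  `AnnEv.add`,
`AnnEv.bdd` are the inputs of `KFin.fg_of_flux`.
-/

set_option autoImplicit false

namespace Crest.Agent.R189.KFlux

open Finset Crest.Agent.R189.K Filter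

section one

variable {C : Type*} [Fintype C] {w h s t D : ℤ} {π : Equiv.Perm ((ℤ × ℤ) × C)}

/-- circulation without strip parameter -/
noncomputable def kap0 (w h : ℤ) (π : (ℤ × ℤ) × C → (ℤ × ℤ) × C) : ℤ :=
  fl π (fun z => w / 2 ≤ z.1.1) (bx C 0 w 0 (h / 2))

theorem kap0_eq {y0 : ℤ} (hA : Ann w h s t D π) (hm : Mid w h s t D (w / 2) y0) :
    kap0 w h π = kap w s (w / 2) π := by
  classical
  obtain ⟨a1, a2, a3, a4, a5, a6, a7⟩ := hm
  unfold kap0 kap phiB fl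
  have hsub : bx C 0 w 0 s ⊆ bx C 0 w 0 (h / 2) := by
    intro z; rw [mem_bx, mem_bx]; omega
  symm
  apply Finset.sum_subset hsub
  intro z hz hz'
  rw [mem_bx] at hz hz'
  have hzb : z ∈ bx C 0 w 0 h := by rw [mem_bx]; omega
  obtain ⟨f1, f2, f3, f4, f5, f6⟩ := hA.facts hzb
  split_ifs <;> omega

omit [Fintype C] in
lemma Mid.mono {D' x0 y0 : ℤ} (h' : Mid w h s t D' x0 y0) (hD : 0 ≤ D) (hD' : D ≤ D') :
    Mid w h s t D x0 y0 :=
  ⟨h'.s0, h'.st, hD, by have := h'.xl; omega, by have := h'.xr; omega,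
    by have := h'.yl; omega, by have := h'.yr; omega⟩

lemma Ann.mono_st {s' t' : ℤ} (hA : Ann w h s t D π) (hs : s ≤ s') (ht : t ≤ t') :
    Ann w h s' t' D π where
  box := hA.box
  dispx := hA.dispx
  dispy := hA.dispy
  midx z hz a b c d := hA.midx z hz (by omega) (by omega) (by omega) (by omega)
  midy z hz a b c d := hA.midy z hz (by omega) (by omega) (by omega) (by omega)

theorem kap0_mul {D' y0 : ℤ} {π' : Equiv.Perm ((ℤ × ℤ) × C)} (hA : Ann w h s t D π)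
    (hA' : Ann w h s t D' π') (hD : 0 ≤ D) (hD' : 0 ≤ D')
    (hm : Mid w h s t (D + D') (w / 2) y0) :
    kap0 w h (π * π' : Equiv.Perm ((ℤ × ℤ) × C)) = kap0 w h π + kap0 w h π' := by
  rw [kap0_eq (hA.mul hA') hm, kap0_eq hA (hm.mono hD (by omega)),
    kap0_eq hA' (hm.mono hD' (by omega)), kap_mul hA hA' hm hD hD']

end one

section bound

variable {C : Type*} [Fintype C] {w h s t D : ℤ} {π : Equiv.Perm (Om C)}

theorem kap0_bound {y0 : ℤ} (hA : Ann w h s t D π) (hm : Mid w h s t D (w / 2) y0) :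
    |kap0 w h π| ≤ (2 * D + 1) * s * Fintype.card C := by
  rw [kap0_eq hA hm]
  exact kap_bound hA hm

end bound

section seq

variable {C : Type*} [Fintype C] {w h : ℕ → ℤ} {π π' : ℕ → Equiv.Perm (Om C)}

/-- uniformly annular for large `k` -/
def AnnEv (w h : ℕ → ℤ) (π : ℕ → Equiv.Perm (Om C)) : Prop :=
  ∃ s t D : ℤ, 0 < s ∧ s ≤ t ∧ 0 ≤ D ∧ ∀ᶠ k in atTop, Ann (w k) (h k) s t D (π k)

omit [Fintype C] in
lemma mid_ev (hw : Tendsto w atTop atTop) (hh : Tendsto h atTop atTop) {s t : ℤ} (D : ℤ)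
    (h1 : 0 < s) (h2 : s ≤ t) (h3 : 0 ≤ D) :
    ∀ᶠ k in atTop, Mid (w k) (h k) s t D (w k / 2) (h k / 2) := by
  have e1 := hw.eventually (eventually_ge_atTop (2 * (t + D) + 2))
  have e2 := hh.eventually (eventually_ge_atTop (2 * (t + D) + 2))
  filter_upwards [e1, e2] with k g1 g2
  exact ⟨h1, h2, h3, by omega, by omega, by omega, by omega⟩

lemma AnnEv.mul (hπ : AnnEv w h π) (hπ' : AnnEv w h π') : AnnEv w h (fun k => π k * π' k) := by
  obtain ⟨s, t, D, h1, h2, h3, h4⟩ := hπ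
  obtain ⟨s', t', D', h1', h2', h3', h4'⟩ := hπ'
  refine ⟨max s s', max t t', D + D', lt_max_of_lt_left h1, max_le_max h2 h2', by omega, ?_⟩
  filter_upwards [h4, h4'] with k g1 g2
  exact (g1.mono_st (le_max_left _ _) (le_max_left _ _)).mul
    (g2.mono_st (le_max_right _ _) (le_max_right _ _))

lemma AnnEv.inv (hπ : AnnEv w h π) : AnnEv w h (fun k => (π k)⁻¹) := by
  obtain ⟨s, t, D, h1, h2, h3, h4⟩ := hπ
  refine ⟨s, t, D, h1, h2, h3, ?_⟩
  filter_upwards [h4] with k g1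
  exact g1.inv

/-- additivity for large `k` -/
theorem AnnEv.add (hw : Tendsto w atTop atTop) (hh : Tendsto h atTop atTop)
    (hπ : AnnEv w h π) (hπ' : AnnEv w h π') :
    ∀ᶠ k in atTop, kap0 (w k) (h k) (π k * π' k : Equiv.Perm (Om C)) =
      kap0 (w k) (h k) (π k) + kap0 (w k) (h k) (π' k) := by
  obtain ⟨s, t, D, h1, h2, h3, h4⟩ := hπ
  obtain ⟨s', t', D', h1', h2', h3', h4'⟩ := hπ'
  have h5 := mid_ev hw hh (D + D') (lt_max_of_lt_left (b := s) (c := s') h1)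
    (max_le_max h2 h2') (by omega)
  filter_upwards [h4, h4', h5] with k g1 g2 g3
  exact kap0_mul (g1.mono_st (le_max_left _ _) (le_max_left _ _))
    (g2.mono_st (le_max_right _ _) (le_max_right _ _)) h3 h3' g3

/-- boundedness for large `k` -/
theorem AnnEv.bdd (hw : Tendsto w atTop atTop) (hh : Tendsto h atTop atTop)
    (hπ : AnnEv w h π) :
    ∃ B : ℤ, ∀ᶠ k in atTop, |kap0 (w k) (h k) (π k)| ≤ B := by
  obtain ⟨s, t, D, h1, h2, h3, h4⟩ := hπ
  refine ⟨(2 * D + 1) * s * Fintype.card C, ?_⟩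
  filter_upwards [h4, mid_ev hw hh D h1 h2 h3] with k g1 g2
  exact kap0_bound g1 g2

end seq

/-! ### words in small generators -/

/-- the `F`-zone -/
def FZ (w h rs rt : ℤ) : Set (ℤ × ℤ) :=
  {p | rs ≤ p.1 ∧ p.1 ≤ w - rs ∧ rs ≤ p.2 ∧ p.2 ≤ h - rs ∧
    ((rt ≤ p.1 ∧ p.1 ≤ w - rt) ∨ (rt ≤ p.2 ∧ p.2 ≤ h - rt))}

lemma FZ_int {w h rs rt : ℤ} (h2 : 2 ≤ rs) {v : ℤ × ℤ} (hv : v ∈ FZ w h rs rt) : Int1 w h v := by
  obtain ⟨a, b, c, d, _⟩ := hv
  unfold Int1
  omega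

lemma FZ_near {w h rs rt s' t' : ℤ} (h1 : rs < s') (h2 : rt < t') (h3 : rs ≤ rt)
    {v : ℤ × ℤ} (hv : v ∉ FZ w h rs rt) : NearB w h s' t' v := by
  constructor
  · intro h4
    apply hv
    refine ⟨?_, ?_, ?_, ?_, Or.inl ⟨?_, ?_⟩⟩ <;> omega
  · intro h4
    apply hv
    refine ⟨?_, ?_, ?_, ?_, Or.inr ⟨?_, ?_⟩⟩ <;> omega

section words

variable {A C : Type*} [Fintype C]

/-- nested zones against the constant zone: the constant-zone product is annular and has the same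
circulation.  `E i : Set A` letters of the `i`-th generator, `a v` = letter of the position `v`. -/
theorem kap_nested {w h s t D s' t' x0 y0 : ℤ} (M : ℕ) (z : ℕ → Equiv.Perm C)
    (lam : ℕ → C → ℤ × ℤ) (E : ℕ → Set A) (a : ℤ × ℤ → A) (rs rt : ℕ → ℤ)
    (hl : ∀ i < M, LamB (z i) (lam i))
    (hr : ∀ i < M, 2 ≤ rs i ∧ rs i ≤ rt i ∧ rs i < s' ∧ rt i < t')
    (hs : s' + 2 * M + 1 ≤ s) (ht : t' + 2 * M + 1 ≤ t)
    (hA : Ann w h s t D
      (wpN z lam (fun i => FZ w h (rs i) (rt i) ∩ {v | a v ∈ E i}) M))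
    (hm : Mid w h s t (8 * M + 4) x0 y0) (hw : 2 * t + 12 * M + 7 ≤ w) :
    Ann w h s t (2 * M) (wpN z lam (fun i => {v | Int1 w h v} ∩ {v | a v ∈ E i}) M) ∧
      kap w s x0 (wpN z lam (fun i => {v | Int1 w h v} ∩ {v | a v ∈ E i}) M) =
      kap w s x0 (wpN z lam (fun i => FZ w h (rs i) (rt i) ∩ {v | a v ∈ E i}) M) := by
  refine kap_rad (s' := s') (t' := t') M hl ?_ ?_ ?_ hs ht hA hm hw
  · intro i hi v hv
    exact ⟨FZ_int (hr i hi).1 hv.1, hv.2⟩
  · intro i _ v hv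
    exact hv.1
  · intro i hi v hv hv'
    obtain ⟨h1, h2, h3, h4⟩ := hr i hi
    apply FZ_near h3 h4 h2
    intro h5
    exact hv' ⟨h5, hv.2⟩

end words

end Crest.Agent.R189.KFlux
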