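import Crest.Agent.R189.KCtx

/-!
# Row 189, part F: (R3), (R5) (helper781, backup)
-/

set_option autoImplicit false
set_option linter.unusedSectionVars false

namespace Crest.Agent.R189.K

open Equiv Equiv.Perm

variable {X Lab Sta C T : Type*} [AddAction (ℤ × ℤ) X] [Fintype C] [DecidableEq C] [Group T]
variable {L : Lev X Lab Sta} {q : T →* Equiv.Perm (X × C)}

namespace Ctx

variable (M : Ctx L C q)

lemma famP_memb (a : ZMod L.n × Lab → ZMod 2) (i : ZMod L.n × Lab) :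
    M.famP a i ∈ AltOn (win C (bw (-M.P.s) M.P.s M.P.t0 (M.P.h - M.P.t0))) := by
  have g1 := M.P.m1; have g2 := M.P.m2; have g3 := M.P.m3; have g4 := M.P.m4
  have g5 := M.P.d0; have gw := M.hw; have gh := M.hh
  have g6 := M.P.hst; have g7 := M.P.ht0; have g8 := M.P.s0
  refine (AltOn _).pow_mem (sw_mul_sw_mem M.hc ?_ ?_) _ <;>
  · rw [mem_bw]; refine ⟨⟨?_, ?_⟩, ?_, ?_⟩ <;> simp <;> omega

lemma famQ_memb (b : ZMod L.n × Lab → ZMod 2) (i : ZMod L.n × Lab) :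
    M.famQ b i ∈ AltOn (win C (bw M.P.t0 (M.P.w - M.P.t0) (-M.P.s) M.P.s)) := by
  have g1 := M.P.m1; have g2 := M.P.m2; have g3 := M.P.m3; have g4 := M.P.m4
  have g5 := M.P.d0; have gw := M.hw; have gh := M.hh
  have g6 := M.P.hst; have g7 := M.P.ht0; have g8 := M.P.s0
  refine (AltOn _).pow_mem (sw_mul_sw_mem M.hc ?_ ?_) _ <;>
  · rw [mem_bw]; refine ⟨⟨?_, ?_⟩, ?_, ?_⟩ <;> simp <;> omega

theorem rep_uniqueb [Finite Lab] [Finite Sta] {w w' : T} {a b : ZMod L.n × Lab → ZMod 2}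
    (h : M.Rep w a b) (h' : M.Rep w' a b) (hq : q w = 1) (hq' : q w' = 1) : w = w' := by
  have : NeZero L.n := ⟨L.n_pos.ne'⟩
  obtain ⟨z, hz, rfl⟩ := h
  obtain ⟨z', hz', rfl⟩ := h'
  rw [map_mul] at hq hq'
  have e := mul_right_cancel (hq.trans hq'.symm)
  rw [M.SV.q_val M.dB hz, M.SV.q_val M.dB hz'] at e
  rw [M.SV.val_congr M.dB hz hz'
    (fun x hx => rv_inj M.dB (fun i => (hz i).1) (fun i => (hz' i).1) e hx)]

theorem rep_congrb [Finite Lab] [Finite Sta] {w : T} {a b a' b' : ZMod L.n × Lab → ZMod 2}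
    (h : M.Rep w a b) (ha : ∀ x ∈ L.D, a (L.kP x) = a' (L.kP x))
    (hb : ∀ x ∈ L.D, b (L.kQ x) = b' (L.kQ x)) : M.Rep w a' b' := by
  have : NeZero L.n := ⟨L.n_pos.ne'⟩
  obtain ⟨z, hz, rfl⟩ := h
  refine ⟨z, hz, ?_⟩
  rw [Es, Es, M.SP.val_congr M.dWP (M.famP_memb a) (M.famP_memb a') (fun x hx => by
      rw [famP, famP, ha x hx]),
    M.SQ.val_congr M.dWQ (M.famQ_memb b) (M.famQ_memb b') (fun x hx => by
      rw [famQ, famQ, hb x hx])]

end Ctx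

end Crest.Agent.R189.K
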