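import Crest.Agent.R189.KCnt
import Crest.Agent.R189.KTog
import Crest.Agent.R189.KVC
import Crest.Agent.R189.KUnib

/-!
# Row 189, part F (kernel), M1: the count, final form (helper260)
-/

set_option autoImplicit false
set_option linter.unusedSectionVars false

namespace Crest.Agent.R189.K

open Equiv Equiv.Perm

variable {X Lab Sta C T : Type*} [AddAction (ℤ × ℤ) X] [Fintype C] [DecidableEq C] [Group T]
variable {L : Lev X Lab Sta} {q : T →* Equiv.Perm (X × C)}

/-- **K7**: at most `|(Lab → ZMod 2)²|` kernel elements are represented -/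
theorem Ctx.finite_and_ncard_le (M : Ctx L C q) [Finite Lab] [Finite Sta]
    (hcen : q.ker ≤ Subgroup.center T) (N : Count L) (K : Set T)
    (hK : ∀ w ∈ K, q w = 1 ∧ ∃ a b, M.Rep w a b) :
    K.Finite ∧ K.ncard ≤ Nat.card ((Lab → ZMod 2) × (Lab → ZMod 2)) := by
  apply M.card_le_aux N K (fun w hw => (hK w hw).2)
  · intro w hw a b h t
    exact M.rep_toggle (hcen (MonoidHom.mem_ker.2 (hK w hw).1)) h t
  · intro w hw a b h x hx
    exact M.vertex (hK w hw).1 h hx
  · intro w hw w' hw' a b h h'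
    exact M.rep_uniqueb h h' (hK w hw).1 (hK w' hw').1
  · intro w hw a b a' b' h ha hb
    exact M.rep_congrb h ha hb

theorem Ctx.ncard_le (M : Ctx L C q) [Finite Lab] [Finite Sta]
    (hcen : q.ker ≤ Subgroup.center T) (N : Count L) (K : Set T)
    (hK : ∀ w ∈ K, q w = 1 ∧ ∃ a b, M.Rep w a b) :
    K.ncard ≤ Nat.card ((Lab → ZMod 2) × (Lab → ZMod 2)) :=
  (M.finite_and_ncard_le hcen N K hK).2

end Crest.Agent.R189.K
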