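import Crest.Agent.R189.Star

/-!
Row 189, kernel part F (note 8056), steps F6 and F7: the parity data `(sP, sQ)` is determined by its
values at the row `j = 0`.

* `pLab a j j' lam` : label of the `P` line with next-level digit `j'` on the edge between row `j` and
  row `j+1`, `lam` = its label on the edge above row `0` (this is (X1)).
* `VCrel a sP sQ` : relation (VC) at the corners `(j, star(j, j', lam))`, `1 ≤ j < 3a`.
* `Normal a sQ` : normalisation `sQ j (ref_j) = 0`, `1 ≤ j < 3a`, `ref_j = (tauOf a j, state a j 0, A)`.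
* `sP_eq`, `sQ_determined`, `agree` : the conclusion of F6.
* `exists_toggle` : the face toggles realise the normalisation.
* `finite_of_injOn` : F7.
-/

set_option autoImplicit false

namespace Crest.Agent.R189.KCount

open Crest.Agent.R189

/-- the label, on the edge between the rows `j` and `j+1`, of the `P` line with digit `j'`
and label `lam` on the edge above row `0` -/
def pLab (a j j' : ℕ) (lam : Label) : Label :=
  if j' = 0 then lam else ⟨lam.tau, lam.st, umem a j j'⟩

/-- the label of the row `j ≠ 0` to the right of the column with digit `j'` -/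
def qLab (a j j' : ℕ) : Label := ⟨tauOf a j, state a j j', .A⟩

/-- `lam` occurs as label (on the edge above row 0) of the `P` line with digit `j'` -/
def POcc (a j' : ℕ) (lam : Label) : Prop :=
  if j' = 0 then lam.Valid = true
  else ∃ j'', j'' < 3 * (a + 2) ∧ lam = ⟨tauOf (a + 1) j', state (a + 1) j' j'', .A⟩

/-- relation (VC) at the corners `(j, star(j,j',lam))` with `1 ≤ j < 3a` -/
def VCrel (a : ℕ) (sP sQ : ℕ → Label → ZMod 2) : Prop :=
  ∀ j, 1 ≤ j → j < 3 * a → ∀ j', j' < 3 * (a + 1) → ∀ lam, POcc a j' lam →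
    sP j (pLab a j j' lam) + sP (j - 1) (pLab a (j - 1) j' lam) +
      sQ j (qLab a j j') + sQ j (qLab a j (prev a j')) = 0

/-- normalisation of the parities of the rows `1 ≤ j < 3a` -/
def Normal (a : ℕ) (sQ : ℕ → Label → ZMod 2) : Prop :=
  ∀ j, 1 ≤ j → j < 3 * a → sQ j (qLab a j 0) = 0

theorem add_self2 (x : ZMod 2) : x + x = 0 := by
  revert x; decide

theorem eq_of_add_eq_zero2 {x y : ZMod 2} (h : x + y = 0) : x = y := by
  revert x y; decide

theorem pLab_zero (a j : ℕ) (lam : Label) : pLab a j 0 lam = lam := by simp [pLab]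

theorem mod_cases {a j' : ℕ} (h : j' < 3 * (a + 1)) :
    (j' < a + 1 ∧ j' % (a + 1) = j') ∨
    (a + 1 ≤ j' ∧ j' < 2 * (a + 1) ∧ j' % (a + 1) = j' - (a + 1)) ∨
    (2 * (a + 1) ≤ j' ∧ j' % (a + 1) = j' - 2 * (a + 1)) := by
  rcases Nat.lt_or_ge j' (a + 1) with h1 | h1
  · exact Or.inl ⟨h1, Nat.mod_eq_of_lt h1⟩
  rcases Nat.lt_or_ge j' (2 * (a + 1)) with h2 | h2
  · refine Or.inr (Or.inl ⟨h1, h2, ?_⟩)
    rw [Nat.mod_eq_sub_mod h1, Nat.mod_eq_of_lt (by omega)]
  · refine Or.inr (Or.inr ⟨h2, ?_⟩)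
    rw [Nat.mod_eq_sub_mod h1, Nat.mod_eq_sub_mod (by omega), Nat.mod_eq_of_lt (by omega)]
    omega

theorem sv_cases {a j' : ℕ} :
    (j' = 0 ∧ sv (a + 1) j' = .f) ∨ (j' = 3 * (a + 1) - 1 ∧ sv (a + 1) j' = .l) ∨
    (1 ≤ j' ∧ j' < a + 1 ∧ sv (a + 1) j' = .s0) ∨
    (a + 1 ≤ j' ∧ j' < 2 * (a + 1) ∧ sv (a + 1) j' = .s1) ∨
    (2 * (a + 1) ≤ j' ∧ j' ≠ 3 * (a + 1) - 1 ∧ sv (a + 1) j' = .s2) := by
  unfold sv
  by_cases h0 : j' = 0
  · exact Or.inl ⟨h0, by rw [if_pos h0]⟩
  by_cases h1 : j' = 3 * (a + 1) - 1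
  · exact Or.inr (Or.inl ⟨h1, by rw [if_neg h0, if_pos h1]⟩)
  rw [if_neg h0, if_neg h1]
  by_cases h2 : j' < a + 1
  · exact Or.inr (Or.inr (Or.inl ⟨by omega, h2, by rw [if_pos h2]⟩))
  rw [if_neg h2]
  by_cases h3 : j' < 2 * (a + 1)
  · exact Or.inr (Or.inr (Or.inr (Or.inl ⟨by omega, h3, by rw [if_pos h3]⟩)))
  rw [if_neg h3]
  exact Or.inr (Or.inr (Or.inr (Or.inr ⟨by omega, h1, rfl⟩)))

theorem validSt_state {a i j' : ℕ} (ha : 2 ≤ a) (h1 : 1 ≤ i) (h3 : j' < 3 * (a + 1)) :
    validSt (tauOf a i) (state a i j') = true := by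
  unfold state
  by_cases hact : a ≤ i ∧ i ≤ 2 * a
  · rw [if_pos hact]
    have hr := mod_cases h3
    rcases Nat.lt_trichotomy i a with hi | hi | hi
    · omega
    · have ht : tauOf a i = .t01 := by
        unfold tauOf
        rw [if_neg (by omega), if_neg (by omega), if_pos hi]
      rw [ht]
      rcases sv_cases (a := a) (j' := j') with ⟨g, e⟩ | ⟨g, e⟩ | ⟨g, g', e⟩ | ⟨g, g', e⟩ | ⟨g, g', e⟩ <;>
        rw [e] <;> unfold sgn pos
      · rw [if_neg (by omega), if_pos (by omega)]; rfl
      · rw [if_pos (by omega)]; rfl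
      · rw [if_pos (by omega)]; rfl
      · split_ifs <;> first | rfl | omega
      · split_ifs <;> first | rfl | omega
    · rcases Nat.lt_trichotomy i (2 * a) with hi2 | hi2 | hi2
      · have ht : tauOf a i = .t11 := by
          unfold tauOf
          rw [if_neg (by omega), if_neg (by omega), if_neg (by omega), if_pos hi2]
        rw [ht]
        rcases sv_cases (a := a) (j' := j') with ⟨g, e⟩ | ⟨g, e⟩ | ⟨g, g', e⟩ | ⟨g, g', e⟩ | ⟨g, g', e⟩ <;>
          rw [e] <;> unfold sgn pos
        · rw [if_neg (by omega), if_neg (by omega)]; rfl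
        · rw [if_pos (by omega)]; rfl
        · split_ifs <;> rfl
        · split_ifs <;> rfl
        · split_ifs <;> rfl
      · have ht : tauOf a i = .t12 := by
          unfold tauOf
          rw [if_neg (by omega), if_neg (by omega), if_neg (by omega), if_neg (by omega), if_pos hi2]
        rw [ht]
        rcases sv_cases (a := a) (j' := j') with ⟨g, e⟩ | ⟨g, e⟩ | ⟨g, g', e⟩ | ⟨g, g', e⟩ | ⟨g, g', e⟩ <;>
          rw [e] <;> unfold sgn pos
        · rw [if_neg (by omega), if_neg (by omega)]; rfl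
        · rw [if_neg (by omega), if_pos (by omega)]; rfl
        · split_ifs <;> first | rfl | omega
        · split_ifs <;> first | rfl | omega
        · split_ifs <;> first | rfl | omega
      · omega
  · rw [if_neg hact]
    have : (tauOf a i).cls = none := by
      unfold tauOf
      split_ifs <;> first | rfl | omega
    unfold validSt
    rw [this]

theorem POcc_zero {a : ℕ} {lam : Label} (h : lam.Valid = true) : POcc a 0 lam := by
  unfold POcc; rw [if_pos rfl]; exact h

theorem POcc_of_ne {a j' j'' : ℕ} (h : j' ≠ 0) (h2 : j'' < 3 * (a + 2)) :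
    POcc a j' ⟨tauOf (a + 1) j', state (a + 1) j' j'', .A⟩ := by
  unfold POcc; rw [if_neg h]; exact ⟨j'', h2, rfl⟩

theorem state_last {a j' : ℕ} (h1 : a + 1 ≤ j') (h2 : j' < 2 * a + 2) :
    state (a + 1) j' (a + 1) = some (.s0, .p) := by
  unfold state
  rw [if_pos ⟨h1, by omega⟩]
  unfold sv sgn pos
  rw [if_neg (by omega), if_neg (by omega), if_pos (by omega),
    Nat.mod_eq_of_lt (show a + 1 < a + 1 + 1 by omega), if_pos (by omega)]

/-- two special stages with equal consecutive states and unchanged memory -/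
theorem special (a : ℕ) (ha : 3 ≤ a) (j : ℕ) (h1 : a ≤ j) (h2 : j ≤ 2 * a) :
    ∃ j' u, 1 ≤ j' ∧ j' < 3 * (a + 1) ∧ tauOf (a + 1) j' = .t11 ∧
      state a j j' = state a j (j' - 1) ∧ umem a j j' = u ∧ umem a (j - 1) j' = u := by
  by_cases hj : a + 2 ≤ j
  · refine ⟨a + 2, .B, by omega, by omega, ?_, ?_, ?_, ?_⟩
    · unfold tauOf
      rw [if_neg (by omega), if_neg (by omega), if_neg (by omega), if_pos (by omega)]
    · have e1 : (a + 2) % (a + 1) = 1 := by
        rw [show a + 2 = 1 + (a + 1) by ring, Nat.add_mod_right, Nat.mod_eq_of_lt (by omega)]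
      have e2 : (a + 2 - 1) % (a + 1) = 0 := by
        rw [show a + 2 - 1 = a + 1 by omega, Nat.mod_self]
      unfold state
      rw [if_pos ⟨h1, h2⟩, if_pos ⟨h1, h2⟩]
      unfold sv pos sgn
      rw [e1, e2]
      rw [if_neg (by omega), if_neg (by omega), if_neg (by omega), if_pos (by omega),
        if_neg (by omega), if_neg (by omega), if_neg (by omega), if_neg (by omega),
        if_neg (by omega), if_pos (by omega), if_neg (by omega), if_neg (by omega)]
    · have e1 : (a + 2) % (a + 1) = 1 := by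
        rw [show a + 2 = 1 + (a + 1) by ring, Nat.add_mod_right, Nat.mod_eq_of_lt (by omega)]
      have e2 : (a + 2 - 1) % (a + 1) = 0 := by
        rw [show a + 2 - 1 = a + 1 by omega, Nat.mod_self]
      unfold umem pos
      rw [e1, e2, if_neg (by omega), if_neg (by omega), if_neg (by omega)]
    · have e1 : (a + 2) % (a + 1) = 1 := by
        rw [show a + 2 = 1 + (a + 1) by ring, Nat.add_mod_right, Nat.mod_eq_of_lt (by omega)]
      have e2 : (a + 2 - 1) % (a + 1) = 0 := by
        rw [show a + 2 - 1 = a + 1 by omega, Nat.mod_self]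
      unfold umem pos
      rw [e1, e2, if_neg (by omega), if_neg (by omega), if_neg (by omega)]
  · have e1 : (2 * a + 1) % (a + 1) = a := by
      rw [show 2 * a + 1 = a + (a + 1) by ring, Nat.add_mod_right, Nat.mod_eq_of_lt (by omega)]
    have e2 : (2 * a + 1 - 1) % (a + 1) = a - 1 := by
      rw [show 2 * a + 1 - 1 = (a - 1) + (a + 1) by omega, Nat.add_mod_right,
        Nat.mod_eq_of_lt (by omega)]
    refine ⟨2 * a + 1, .A, by omega, by omega, ?_, ?_, ?_, ?_⟩
    · unfold tauOf
      rw [if_neg (by omega), if_neg (by omega), if_neg (by omega), if_pos (by omega)]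
    · unfold state
      rw [if_pos ⟨h1, h2⟩, if_pos ⟨h1, h2⟩]
      unfold sv pos sgn
      rw [e1, e2]
      rw [if_neg (by omega), if_neg (by omega), if_neg (by omega), if_pos (by omega),
        if_pos (by omega), if_neg (by omega), if_neg (by omega), if_neg (by omega),
        if_pos (by omega), if_pos (by omega)]
    · unfold umem pos
      rw [e1, e2, if_neg (by omega), if_pos (by omega)]
    · unfold umem pos
      rw [e1, e2, if_neg (by omega), if_pos (by omega)]

/-- F6, first half: the parities of the `P` edges do not depend on the row -/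
theorem sP_step {a : ℕ} (ha : 3 ≤ a) {sP sQ : ℕ → Label → ZMod 2} (h : VCrel a sP sQ)
    {j : ℕ} (h1 : 1 ≤ j) (h2 : j < 3 * a) {lam : Label} (hl : lam.Valid = true) :
    sP j lam = sP (j - 1) lam := by
  have key : ∀ lam : Label, lam.Valid = true → sP j lam + sP (j - 1) lam +
      (sQ j (qLab a j 0) + sQ j (qLab a j (prev a 0))) = 0 := by
    intro lam hl
    have := h j h1 h2 0 (by omega) lam (POcc_zero hl)
    rw [pLab_zero, pLab_zero] at this
    rw [← this]; ring
  have hb : sQ j (qLab a j 0) + sQ j (qLab a j (prev a 0)) = 0 := by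
    by_cases hact : a ≤ j ∧ j ≤ 2 * a
    · obtain ⟨j', u, g1, g2, g3, g4, g5, g6⟩ := special a ha j hact.1 hact.2
      let l0 : Label := ⟨.t11, some (.s0, .p), .A⟩
      let l1 : Label := ⟨.t11, some (.s0, .p), u⟩
      have hl1 : l1.Valid = true := by
        simp only [l1]; cases u <;> rfl
      have hj' : a + 1 ≤ j' ∧ j' < 2 * a + 2 := by
        unfold tauOf at g3
        split_ifs at g3
        omega
      have hv := h j h1 h2 j' g2 l0 (by
        have := POcc_of_ne (a := a) (j' := j') (j'' := a + 1) (by omega) (by omega)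
        rwa [g3, state_last hj'.1 hj'.2] at this)
      have p1 : pLab a j j' l0 = l1 := by
        simp only [pLab, l0, l1, if_neg (show j' ≠ 0 by omega), g5]
      have p2 : pLab a (j - 1) j' l0 = l1 := by
        simp only [pLab, l0, l1, if_neg (show j' ≠ 0 by omega), g6]
      have p3 : qLab a j (prev a j') = qLab a j j' := by
        simp only [qLab, prev, if_neg (show j' ≠ 0 by omega), g4]
      rw [p1, p2, p3, add_assoc, add_self2, add_zero] at hv
      have hk := key l1 hl1
      rw [hv, zero_add] at hk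
      exact hk
    · have : ∀ i, qLab a j i = qLab a j 0 := by
        intro i
        simp only [qLab, state, if_neg hact]
      rw [this (prev a 0), add_self2]
  have hk := key lam hl
  rw [hb, add_zero] at hk
  exact eq_of_add_eq_zero2 hk

theorem sP_eq {a : ℕ} (ha : 3 ≤ a) {sP sQ : ℕ → Label → ZMod 2} (h : VCrel a sP sQ)
    {j : ℕ} (h2 : j < 3 * a) {lam : Label} (hl : lam.Valid = true) :
    sP j lam = sP 0 lam := by
  induction j with
  | zero => rfl
  | succ j ih =>
    rw [sP_step ha h (by omega) h2 hl, Nat.add_sub_cancel]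
    exact ih (by omega)

/-- all labels occurring along a column are valid -/
theorem valid_pLab {a : ℕ} (ha : 2 ≤ a) {j j' : ℕ} {lam : Label}
    (hl : POcc a j' lam) : (pLab a j j' lam).Valid = true := by
  unfold pLab
  unfold POcc at hl
  split_ifs with h0
  · rw [if_pos h0] at hl; exact hl
  · rw [if_neg h0] at hl
    obtain ⟨j'', h2, rfl⟩ := hl
    have hv1 := validSt_state (a := a + 1) (i := j') (j' := j'') (by omega) (by omega) (by omega)
    simp only [Label.Valid, Bool.and_eq_true]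
    refine ⟨hv1, ?_⟩
    unfold validU
    by_cases hr : (tauOf (a + 1) j').reset = true
    · have : j' % (a + 1) = 0 := by
        unfold tauOf at hr
        split_ifs at hr with q1 q2 q3 q4 q5 q6 <;> simp [Tau.reset] at hr
        · rw [q3, Nat.mod_self]
        · rw [q5, Nat.mul_mod_left]
      unfold umem
      rw [if_pos this]
      split_ifs <;> simp
    · simp [hr]

/-- F6, second half: the parities of the `Q` edges of the rows `j ≠ 0` are determined by those of the
`P` edges -/
theorem sQ_step {a : ℕ} (_ha : 3 ≤ a) {sP sQ : ℕ → Label → ZMod 2} (h : VCrel a sP sQ)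
    {j : ℕ} (h1 : 1 ≤ j) (h2 : j < 3 * a) {j' : ℕ} (h3 : j' + 1 < 3 * (a + 1)) {lam : Label}
    (hl : POcc a (j' + 1) lam) :
    sQ j (qLab a j (j' + 1)) = sQ j (qLab a j j') +
      (sP j (pLab a j (j' + 1) lam) + sP (j - 1) (pLab a (j - 1) (j' + 1) lam)) := by
  have hv := h j h1 h2 (j' + 1) h3 lam hl
  have hp : prev a (j' + 1) = j' := by simp [prev]
  rw [hp] at hv
  have aux : ∀ x y z w : ZMod 2, x + y + z + w = 0 → z = w + (x + y) := by decide
  exact aux _ _ _ _ hv

/-- F6: two normalised solutions of (VC) which agree on the valid `P` labels of row `0` agree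
everywhere on the occurring labels -/
theorem agree {a : ℕ} (ha : 3 ≤ a) {sP sQ sP' sQ' : ℕ → Label → ZMod 2}
    (h : VCrel a sP sQ) (h' : VCrel a sP' sQ') (hn : Normal a sQ) (hn' : Normal a sQ')
    (h0 : ∀ lam : Label, lam.Valid = true → sP 0 lam = sP' 0 lam) :
    (∀ j, j < 3 * a → ∀ lam : Label, lam.Valid = true → sP j lam = sP' j lam) ∧
    (∀ j, 1 ≤ j → j < 3 * a → ∀ j', j' < 3 * (a + 1) → sQ j (qLab a j j') = sQ' j (qLab a j j')) := by
  have hP : ∀ j, j < 3 * a → ∀ lam : Label, lam.Valid = true → sP j lam = sP' j lam := by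
    intro j hj lam hl
    rw [sP_eq ha h hj hl, sP_eq ha h' hj hl, h0 lam hl]
  refine ⟨hP, ?_⟩
  intro j h1 h2 j'
  induction j' with
  | zero => intro _; rw [hn j h1 h2, hn' j h1 h2]
  | succ j' ih =>
    intro h3
    have hl := POcc_of_ne (a := a) (j' := j' + 1) (j'' := 0) (by omega) (by omega)
    rw [sQ_step ha h h1 h2 h3 hl, sQ_step ha h' h1 h2 h3 hl, ih (by omega),
      hP j h2 _ (valid_pLab (by omega) hl), hP (j - 1) (by omega) _ (valid_pLab (by omega) hl)]

/-! ### interface with the stars occurring at the corners -/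

/-- the corner data of row `j` (`1 ≤ j < 3a`), column digit `j'`, column label `lam` above row `0` -/
def IsCorner (a j j' : ℕ) (lam : Label) (σ : Star) : Prop :=
  σ.domP = true ∧ σ.Pb = pLab a (j - 1) j' lam ∧ σ.Pf = pLab a j j' lam ∧
    σ.Qb = { qLab a j (prev a j') with u := .B } ∧ σ.Qf = qLab a j j'

/-- all corners `(j, j', lam)` with `1 ≤ j < 3a` occur -/
def Rich (a : ℕ) (occ : ℕ → Star → Prop) : Prop :=
  ∀ j, 1 ≤ j → j < 3 * a → ∀ j', j' < 3 * (a + 1) → ∀ lam, POcc a j' lam →
    ∃ σ : Star, occ j σ ∧ IsCorner a j j' lam σ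

/-- there are no other corners -/
def Tame (a : ℕ) (occ : ℕ → Star → Prop) : Prop :=
  ∀ j, 1 ≤ j → j < 3 * a → ∀ σ : Star, occ j σ →
    ∃ j' lam, j' < 3 * (a + 1) ∧ POcc a j' lam ∧ IsCorner a j j' lam σ

/-- the label of the `Q` edge to the left of a corner with digit `j` and star `σ` -/
def leftLab (j : ℕ) (σ : Star) : Label := if j = 0 then σ.Qb else { σ.Qb with u := .A }

/-- relation (VC) at the occurring corners with digit `1 ≤ j < 3a` -/
def VC (a : ℕ) (occ : ℕ → Star → Prop) (sP sQ : ℕ → Label → ZMod 2) : Prop :=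
  ∀ j, 1 ≤ j → j < 3 * a → ∀ σ : Star, occ j σ →
    sP j σ.Pf + sP (j - 1) σ.Pb + sQ j σ.Qf + sQ j (leftLab j σ) = 0

theorem IsCorner.leftLab_eq {a j j' : ℕ} {lam : Label} {σ : Star} (h : IsCorner a j j' lam σ)
    (hj : 1 ≤ j) : leftLab j σ = qLab a j (prev a j') := by
  unfold leftLab
  rw [if_neg (by omega), h.2.2.2.1]
  rfl

theorem VCrel_of_VC {a : ℕ} {occ : ℕ → Star → Prop} (hr : Rich a occ)
    {sP sQ : ℕ → Label → ZMod 2} (h : VC a occ sP sQ) : VCrel a sP sQ := by
  intro j h1 h2 j' h3 lam hl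
  obtain ⟨σ, ho, hc⟩ := hr j h1 h2 j' h3 lam hl
  have := h j h1 h2 σ ho
  rw [hc.leftLab_eq h1, hc.2.1, hc.2.2.1, hc.2.2.2.2] at this
  exact this

/-- **F6** (K6).  Two solutions `(sP, sQ)`, `(sP', sQ')` of (VC), normalised by
`sQ j (qLab a j 0) = 0` (`1 ≤ j < 3a`), which agree on the valid `P` labels of row `0`, agree on the
four edges of every occurring corner with digit `1 ≤ j < 3a`. -/
theorem agree_corner {a : ℕ} (ha : 3 ≤ a) {occ : ℕ → Star → Prop} (hr : Rich a occ)
    (ht : Tame a occ) {sP sQ sP' sQ' : ℕ → Label → ZMod 2}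
    (h : VC a occ sP sQ) (h' : VC a occ sP' sQ') (hn : Normal a sQ) (hn' : Normal a sQ')
    (h0 : ∀ lam : Label, lam.Valid = true → sP 0 lam = sP' 0 lam) :
    ∀ j, 1 ≤ j → j < 3 * a → ∀ σ : Star, occ j σ →
      sP j σ.Pf = sP' j σ.Pf ∧ sP (j - 1) σ.Pb = sP' (j - 1) σ.Pb ∧
        sQ j σ.Qf = sQ' j σ.Qf ∧ sQ j (leftLab j σ) = sQ' j (leftLab j σ) := by
  obtain ⟨hP, hQ⟩ := agree ha (VCrel_of_VC hr h) (VCrel_of_VC hr h') hn hn' h0
  intro j h1 h2 σ ho
  obtain ⟨j', lam, h3, hl, hc⟩ := ht j h1 h2 σ ho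
  rw [hc.leftLab_eq h1, hc.2.1, hc.2.2.1, hc.2.2.2.2]
  refine ⟨hP j h2 _ (valid_pLab (by omega) hl), hP (j - 1) (by omega) _ (valid_pLab (by omega) hl),
    hQ j h1 h2 j' h3, hQ j h1 h2 _ ?_⟩
  unfold prev
  split_ifs <;> omega

/-! ### toggles -/

/-- face toggles: toggling the four sides of face `j` adds `t j` to `sQ j` and to `sQ (j+1)`.
One can normalise all rows `1 ≤ j < n` using the faces `0, …, n-2`. -/
theorem exists_toggle (n : ℕ) (b : ℕ → ZMod 2) :
    ∃ t : ℕ → ZMod 2, t (n - 1) = 0 ∧ ∀ j, 1 ≤ j → j < n → b j + t j + t (j - 1) = 0 := by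
  refine ⟨fun i => ∑ j ∈ Finset.Ico (i + 1) n, b j, ?_, ?_⟩
  · simp only
    rw [Finset.Ico_eq_empty (by omega), Finset.sum_empty]
  · intro j h1 h2
    simp only
    rw [Nat.sub_add_cancel h1]
    have : ∑ i ∈ Finset.Ico j n, b i = b j + ∑ i ∈ Finset.Ico (j + 1) n, b i :=
      Finset.sum_eq_sum_Ico_succ_bot h2 b
    rw [this]
    have aux : ∀ x y : ZMod 2, x + y + (x + y) = 0 := by decide
    exact aux _ _

/-- toggling the faces `j` with `t j = 1`: `sQ j` is changed by `t j + t (j-1)`; (VC) is preserved -/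
def toggle (n : ℕ) (t : ℕ → ZMod 2) (sQ : ℕ → Label → ZMod 2) : ℕ → Label → ZMod 2 :=
  fun j L => sQ j L + t j + t (if j = 0 then n - 1 else j - 1)

theorem toggle_VC {a : ℕ} {occ : ℕ → Star → Prop} {sP sQ : ℕ → Label → ZMod 2}
    (h : VC a occ sP sQ) (t : ℕ → ZMod 2) : VC a occ sP (toggle (3 * a) t sQ) := by
  intro j h1 h2 σ ho
  have aux : ∀ x y z w u v : ZMod 2, x + y + z + w = 0 →
      x + y + (z + u + v) + (w + u + v) = 0 := by decide
  exact aux _ _ _ _ _ _ (h j h1 h2 σ ho)

/-- every `sQ` can be normalised by toggles of the faces `0, …, 3a-2` -/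
theorem exists_normal (a : ℕ) (sQ : ℕ → Label → ZMod 2) :
    ∃ t : ℕ → ZMod 2, t (3 * a - 1) = 0 ∧ Normal a (toggle (3 * a) t sQ) := by
  obtain ⟨t, h0, ht⟩ := exists_toggle (3 * a) (fun j => sQ j (qLab a j 0))
  refine ⟨t, h0, fun j h1 h2 => ?_⟩
  unfold toggle
  rw [if_neg (by omega)]
  exact ht j h1 h2

/-- F7: a set is finite as soon as each of its finite subsets injects into one fixed finite type -/
theorem finite_of_injOn {α D : Type*} [Finite D] (K : Set α)
    (h : ∀ F : Finset α, ↑F ⊆ K → ∃ f : α → D, Set.InjOn f ↑F) : K.Finite := by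
  classical
  have := Fintype.ofFinite D
  by_contra hK
  have hK : K.Infinite := hK
  obtain ⟨F, hF, hc⟩ := hK.exists_subset_card_eq (Fintype.card D + 1)
  obtain ⟨f, hf⟩ := h F hF
  have := Finset.card_le_card_of_injOn (t := (Finset.univ : Finset D)) f
    (fun _ _ => Finset.mem_univ _) hf
  rw [hc, Finset.card_univ] at this
  omega

end Crest.Agent.R189.KCount
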