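import Crest.Agent.R189.KLocal
import Crest.Agent.R189.KSec

/-!
# Row 189, part F: local relations for raw families (helper834)
-/

set_option autoImplicit false
set_option linter.unusedSectionVars false

namespace Crest.Agent.R189.K.Lev

open Finset KFlux

variable {X Lab Sta C : Type*} [AddAction (ℤ × ℤ) X] {L : Lev X Lab Sta}
variable [Fintype C] [DecidableEq C] {s t0 t : ℤ}

/-- the decomposition hypothesis for raw families -/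
structure DecR (L : Lev X Lab Sta) (C : Type*) [Fintype C] [DecidableEq C] (s t0 t : ℤ)
    (f : ZMod L.n → Equiv.Perm (Om C)) (eP eQ : ZMod L.n × Lab → Equiv.Perm (Om C))
    (v : ZMod L.n × Sta → Equiv.Perm (Om C)) : Prop where
  f_mem : ∀ j, f j ∈ PermOn (win C L.WF)
  eP_mem : ∀ j, eP j ∈ PermOn (win C (L.WP s t0))
  eQ_mem : ∀ j, eQ j ∈ PermOn (win C (L.WQ s t0))
  v_mem : ∀ j, v j ∈ PermOn (win C (WV t))
  s_pos : 0 < s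
  s_le : s ≤ t0
  t0_le : t0 ≤ t
  w_le : 2 * t ≤ L.w
  h_le : 2 * t ≤ L.h
  one : rv L L.dig f * rv L (fun x => (L.dig x, L.Pf x)) eP *
    rv L (fun x => (L.dig x, L.Qf x)) eQ * rv L (fun x => (L.dig x, L.st x)) v = 1

namespace DecR

variable {f : ZMod L.n → Equiv.Perm (Om C)} {eP eQ : ZMod L.n × Lab → Equiv.Perm (Om C)}
    {v : ZMod L.n × Sta → Equiv.Perm (Om C)}

/-- conversion to the bundled version -/
noncomputable def dec (d : DecR L C s t0 t f eP eQ v) : Dec L C s t0 t where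
  f j := ⟨f j, d.f_mem j⟩
  eP j := ⟨eP j, d.eP_mem j⟩
  eQ j := ⟨eQ j, d.eQ_mem j⟩
  v j := ⟨v j, d.v_mem j⟩
  s_pos := d.s_pos
  s_le := d.s_le
  t0_le := d.t0_le
  w_le := d.w_le
  h_le := d.h_le
  dP := dist_WP (by have := d.w_le; have := d.s_le; have := d.t0_le; omega)
    (by have := d.s_pos; have := d.s_le; omega)
  dQ := dist_WQ (by have := d.h_le; have := d.s_le; have := d.t0_le; omega)
    (by have := d.s_pos; have := d.s_le; omega)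
  dV := dist_WV d.w_le d.h_le
  one := by
    have h1 := d.one
    have g1 := d.w_le
    have g2 := d.h_le
    have g3 := d.s_le
    have g4 := d.t0_le
    have g5 := d.s_pos
    have dP : L.Dist (L.WP s t0) := dist_WP (by omega) (by omega)
    have dQ : L.Dist (L.WQ s t0) := dist_WQ (by omega) (by omega)
    rw [rv_eq (dist_WF (L := L)) d.f_mem, rv_eq dP d.eP_mem,
      rv_eq dQ d.eQ_mem, rv_eq (dist_WV d.w_le d.h_le) d.v_mem] at h1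
    exact h1

variable (d : DecR L C s t0 t f eP eQ v)

include d

theorem mid {x : X} (hx : x ∈ L.D) {u : ℤ × ℤ} (c : C)
    (h : (t ≤ u.1 ∧ u.1 < L.w - t ∧ s ≤ u.2 ∧ u.2 < L.h - s) ∨
      (t ≤ u.2 ∧ u.2 < L.h - t ∧ s ≤ u.1 ∧ u.1 < L.w - s)) :
    f (L.dig x) (u, c) = (u, c) := d.dec.mid hx c h

theorem P1 {x : X} (hx : x ∈ L.D) {u : ℤ × ℤ} (c : C)
    (h1 : 0 ≤ u.1) (h2 : u.1 < s) (h3 : t ≤ u.2) (h4 : u.2 < L.h - t) :
    eP (L.dig x, L.Pf x) (u, c) = (f (L.dig x))⁻¹ (u, c) := d.dec.P1 hx c h1 h2 h3 h4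

theorem P2 {x : X} (hx : x ∈ L.D) {u : ℤ × ℤ} (c : C)
    (h1 : -s ≤ u.1) (h2 : u.1 < 0) (h3 : t ≤ u.2) (h4 : u.2 < L.h - t) :
    eP (L.dig x, L.Pf x) (u, c) = sh (-L.w, 0) (f (L.dig x))⁻¹ (u, c) :=
  d.dec.P2 hx c h1 h2 h3 h4

theorem Q1 {x : X} (hx : x ∈ L.D) {u : ℤ × ℤ} (c : C)
    (h1 : 0 ≤ u.2) (h2 : u.2 < s) (h3 : t ≤ u.1) (h4 : u.1 < L.w - t) :
    eQ (L.dig x, L.Qf x) (u, c) = (f (L.dig x))⁻¹ (u, c) := d.dec.Q1 hx c h1 h2 h3 h4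

theorem Q2 {x : X} (hx : x ∈ L.D) {u : ℤ × ℤ} (c : C)
    (h1 : -s ≤ u.2) (h2 : u.2 < 0) (h3 : t ≤ u.1) (h4 : u.1 < L.w - t) :
    eQ (L.dig x, L.Qf x) (u, c) = sh (0, -L.h) (f (L.dig x - 1))⁻¹ (u, c) :=
  d.dec.Q2 hx c h1 h2 h3 h4

theorem ann {Dd : ℤ} {x : X} (hx : x ∈ L.D)
    (hd : ∀ z : Om C, |(f (L.dig x) z).1.1 - z.1.1| ≤ Dd ∧
      |(f (L.dig x) z).1.2 - z.1.2| ≤ Dd) :
    Ann L.w L.h s t Dd (f (L.dig x))⁻¹ := d.dec.ann hx hd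

theorem kap_const {Dd x0 y0 : ℤ}
    (hd : ∀ j, ∀ z : Om C, |(f j z).1.1 - z.1.1| ≤ Dd ∧ |(f j z).1.2 - z.1.2| ≤ Dd)
    (hdQ : ∀ j, ∀ z : Om C, |(eQ j z).1.1 - z.1.1| ≤ Dd)
    (hm : Mid L.w L.h s t Dd x0 y0) (hD : L.D.Nonempty) (j : ZMod L.n) :
    (∃ x ∈ L.D, L.dig x = j) ∧ Ann L.w L.h s t Dd (f j)⁻¹ ∧
    kap L.w s x0 ((f j)⁻¹ : Equiv.Perm (Om C)) = kap L.w s x0 ((f 0)⁻¹ : Equiv.Perm (Om C)) :=
  d.dec.kap_const hd hdQ hm hD j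

end DecR

end Crest.Agent.R189.K.Lev
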