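import Crest.Agent.R189.KCtx
import Crest.Agent.R189.KLocR

/-!
# Row 189, part F (R1x): the hypotheses of the peeling theorem (helper834)

From `w = SF.val f * SP.val eP * SQ.val eQ * SV.val v`, `q w = 1` and zero circulation of face `0`
all hypotheses of `Geo.peel_family`.
-/

set_option autoImplicit false
set_option linter.unusedSectionVars false

namespace Crest.Agent.R189.K

open Equiv Equiv.Perm
open KFlux (bx mem_bx Ann Mid kap)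

variable {X Lab Sta C T : Type*} [AddAction (ℤ × ℤ) X] [Fintype C] [DecidableEq C] [Group T]

namespace Ctx

variable {L : Lev X Lab Sta} {q : T →* Equiv.Perm (X × C)} (M : Ctx L C q)
variable [Finite Lab] [Finite Sta]

/-- hypotheses: a decomposition of a word -/
structure DecT (w : T) (f : ZMod L.n → Equiv.Perm (Om C))
    (eP eQ : ZMod L.n × Lab → Equiv.Perm (Om C)) (v : ZMod L.n × Sta → Equiv.Perm (Om C)) :
    Prop where
  hf : ∀ j, f j ∈ AltOn (win C (bw 0 M.P.w 0 M.P.h))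
  heP : ∀ i, eP i ∈ AltOn (win C (bw (-M.P.s) M.P.s M.P.t0 (M.P.h - M.P.t0)))
  heQ : ∀ i, eQ i ∈ AltOn (win C (bw M.P.t0 (M.P.w - M.P.t0) (-M.P.s) M.P.s))
  hv : ∀ i, v i ∈ AltOn (win C M.WB)
  df : ∀ j, Disp M.P.d (f j)
  dP : ∀ i, Disp M.P.d (eP i)
  dQ : ∀ i, Disp M.P.d (eQ i)
  hw1 : w = M.SF.val f * M.SP.val eP * M.SQ.val eQ * M.SV.val v

/-- peripheral occurrence of `P` labels -/
def oP (L : Lev X Lab Sta) (j : ZMod L.n) (l : Lab) : Prop := ∃ x ∈ L.D, L.kP x = (j, l)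
/-- occurrence of `Q` labels -/
def oQ (L : Lev X Lab Sta) (j : ZMod L.n) (l : Lab) : Prop := ∃ x ∈ L.D, L.kQ x = (j, l)

variable {M} {w : T} {f : ZMod L.n → Equiv.Perm (Om C)}
    {eP eQ : ZMod L.n × Lab → Equiv.Perm (Om C)} {v : ZMod L.n × Sta → Equiv.Perm (Om C)}

/-- the concrete identity -/
theorem DecT.rv_one (H : M.DecT w f eP eQ v) (hq : q w = 1) :
    rv L L.dig f * rv L L.kP eP * rv L L.kQ eQ * rv L L.kV v = 1 := by
  have hn : NeZero L.n := ⟨L.n_pos.ne'⟩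
  have h1 := congrArg q H.hw1
  rw [hq, map_mul, map_mul, map_mul, M.SF.q_val M.dWF H.hf, M.SP.q_val M.dWP H.heP,
    M.SQ.q_val M.dWQ H.heQ, M.SV.q_val M.dB H.hv] at h1
  exact h1.symm

theorem DecT.decR (H : M.DecT w f eP eQ v) (hq : q w = 1) :
    L.DecR C M.P.s M.P.t0 M.P.t f eP eQ v := by
  have h1 := M.P.m1; have h2 := M.P.m2; have h3 := M.P.m3; have h4 := M.P.m4
  have h5 := M.P.d0; have hw := M.hw; have hh := M.hh; have h6 := M.P.hst; have h7 := M.P.ht0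
  have h8 := M.P.s0
  refine ⟨?_, ?_, ?_, fun i => (H.hv i).1, M.P.s0, M.P.hst, by omega, by omega, by omega,
    H.rv_one hq⟩
  · intro j
    have := (H.hf j).1
    rw [hw, hh] at this
    exact this
  · intro i
    have := (H.heP i).1
    rw [hh] at this
    exact this
  · intro i
    have := (H.heQ i).1
    rw [hw] at this
    exact this

lemma disp_abs {d : ℤ} {z : Equiv.Perm (Om C)} (h : Disp d z) (x : Om C) :
    |(z x).1.1 - x.1.1| ≤ d ∧ |(z x).1.2 - x.1.2| ≤ d := by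
  obtain ⟨⟨h1, h2⟩, h3, h4⟩ := h x
  rw [abs_le, abs_le]
  omega

/-- every digit occurs -/
theorem dig_surj (L : Lev X Lab Sta) (hD : L.D.Nonempty) (j : ZMod L.n) :
    ∃ x ∈ L.D, L.dig x = j := by
  have hn : NeZero L.n := ⟨L.n_pos.ne'⟩
  obtain ⟨x, hx⟩ := hD
  have key : ∀ m : ℕ, ∃ y ∈ L.D, L.dig y = L.dig x + m := by
    intro m
    induction m with
    | zero => exact ⟨x, hx, by simp⟩
    | succ m ih =>
      obtain ⟨y, hy, h1⟩ := ih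
      refine ⟨_, Lev.up_mem hy, ?_⟩
      rw [L.dig_p y hy, h1]; push_cast; ring
  obtain ⟨y, hy, h1⟩ := key (j - L.dig x).val
  rw [ZMod.natCast_zmod_val, add_sub_cancel] at h1
  exact ⟨y, hy, h1⟩

theorem hoP (hD : L.D.Nonempty) (j : ZMod L.n) : ∃ l, oP L j l := by
  obtain ⟨x, hx, h⟩ := dig_surj L hD j
  exact ⟨L.Pf x, x, hx, by rw [Lev.kP, h]⟩

theorem hoQ (hD : L.D.Nonempty) (j : ZMod L.n) : ∃ l, oQ L j l := by
  obtain ⟨x, hx, h⟩ := dig_surj L hD j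
  exact ⟨L.Qf x, x, hx, by rw [Lev.kQ, h]⟩

theorem DecT.kap_all (H : M.DecT w f eP eQ v) (hq : q w = 1) (hD : L.D.Nonempty)
    (j : ZMod L.n) :
    Ann M.P.w M.P.h M.P.s M.P.t M.P.d (f j)⁻¹ ∧
    kap M.P.w M.P.s M.P.mx ((f j)⁻¹ : Equiv.Perm (Om C)) =
      kap M.P.w M.P.s M.P.mx ((f 0)⁻¹ : Equiv.Perm (Om C)) := by
  have hm := M.P.mid
  have h1 := (H.decR hq).kap_const (Dd := M.P.d) (x0 := M.P.mx) (y0 := M.P.my)
    (fun j z => disp_abs (H.df j) z) (fun j z => (disp_abs (H.dQ j) z).1)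
    (by rw [← M.hw, ← M.hh]; exact hm) hD j
  rw [← M.hw, ← M.hh] at h1
  exact h1.2

/-- ALL HYPOTHESES of `Geo.peel_family` -/
theorem DecT.peel_hyps (H : M.DecT w f eP eQ v) (hq : q w = 1) (hD : L.D.Nonempty)
    (hk : kap M.P.w M.P.s M.P.mx ((f 0)⁻¹ : Equiv.Perm (Om C)) = 0) :
    (∀ j, Ann M.P.w M.P.h M.P.s M.P.t M.P.d (f j)⁻¹) ∧
    (∀ j, kap M.P.w M.P.s M.P.mx ((f j)⁻¹ : Equiv.Perm (Om C)) = 0) ∧
    (∀ j l, oP L j l → ∀ x ∈ M.P.vmid C 0 M.P.s, eP (j, l) x = (f j)⁻¹ x) ∧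
    (∀ j l, oP L j l → ∀ x ∈ M.P.vmid C (-M.P.s) 0, eP (j, l) x = sh (-M.P.w, 0) (f j)⁻¹ x) ∧
    (∀ j l, oQ L j l → ∀ x ∈ M.P.hmid C 0 M.P.s, eQ (j, l) x = (f j)⁻¹ x) ∧
    (∀ j l, oQ L j l → ∀ x ∈ M.P.hmid C (-M.P.s) 0,
      eQ (j, l) x = sh (0, -M.P.h) (f (j - 1))⁻¹ x) := by
  have d := H.decR hq
  have hw := M.hw
  have hh := M.hh
  refine ⟨fun j => (H.kap_all hq hD j).1, fun j => by rw [(H.kap_all hq hD j).2, hk], ?_, ?_, ?_,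
    ?_⟩
  · rintro j l ⟨y, hy, hyl⟩ x hx
    simp only [Lev.kP, Prod.mk.injEq] at hyl
    obtain ⟨rfl, rfl⟩ := hyl
    simp only [Geo.vmid, mem_bx] at hx
    exact d.P1 hy x.2 (u := x.1) hx.1.1 hx.1.2 hx.2.1 (by omega)
  · rintro j l ⟨y, hy, hyl⟩ x hx
    simp only [Lev.kP, Prod.mk.injEq] at hyl
    obtain ⟨rfl, rfl⟩ := hyl
    simp only [Geo.vmid, mem_bx] at hx
    rw [hw]
    exact d.P2 hy x.2 (u := x.1) hx.1.1 hx.1.2 hx.2.1 (by omega)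
  · rintro j l ⟨y, hy, hyl⟩ x hx
    simp only [Lev.kQ, Prod.mk.injEq] at hyl
    obtain ⟨rfl, rfl⟩ := hyl
    simp only [Geo.hmid, mem_bx] at hx
    exact d.Q1 hy x.2 (u := x.1) hx.2.1 hx.2.2 hx.1.1 (by omega)
  · rintro j l ⟨y, hy, hyl⟩ x hx
    simp only [Lev.kQ, Prod.mk.injEq] at hyl
    obtain ⟨rfl, rfl⟩ := hyl
    simp only [Geo.hmid, mem_bx] at hx
    rw [hh]
    exact d.Q2 hy x.2 (u := x.1) hx.2.1 hx.2.2 hx.1.1 (by omega)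

/-- the peeling theorem applied to a decomposition with zero circulation -/
theorem DecT.peel (H : M.DecT w f eP eQ v) (hq : q w = 1) (hD : L.D.Nonempty)
    (hk : kap M.P.w M.P.s M.P.mx ((f 0)⁻¹ : Equiv.Perm (Om C)) = 0) :
    ∃ gL gR gB gT k00 k10 k01 k11 : ZMod L.n → Equiv.Perm (Om C),
    ∃ lP uP lQ uQ : ZMod L.n → Lab → Equiv.Perm (Om C),
      (∀ j, M.P.FaceHyp (f j)) ∧ (∀ j, M.P.Face (f j) (gL j) (gR j) (gB j) (gT j)) ∧
      (∀ j, gL j ∈ AltOn (M.P.vS C 0 M.P.s)) ∧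
      (∀ j, gR j ∈ AltOn (M.P.vS C (M.P.w - M.P.s) M.P.w)) ∧
      (∀ j, gB j ∈ AltOn (M.P.hS C 0 M.P.s)) ∧
      (∀ j, gT j ∈ AltOn (M.P.hS C (M.P.h - M.P.s) M.P.h)) ∧
      (∀ j, k00 j ∈ AltOn (M.P.c00 C)) ∧ (∀ j, k10 j ∈ AltOn (M.P.c10 C)) ∧
      (∀ j, k01 j ∈ AltOn (M.P.c01 C)) ∧ (∀ j, k11 j ∈ AltOn (M.P.c11 C)) ∧
      (∀ j, f j * (gL j * gR j * gB j * gT j) = k00 j * k10 j * k01 j * k11 j) ∧
      (∀ j l, lP j l ∈ PermOn (M.P.vlo C (-M.P.s) M.P.s)) ∧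
      (∀ j l, uP j l ∈ PermOn (M.P.vup C (-M.P.s) M.P.s)) ∧
      (∀ j l, lQ j l ∈ PermOn (M.P.hlo C (-M.P.s) M.P.s)) ∧
      (∀ j l, uQ j l ∈ PermOn (M.P.hup C (-M.P.s) M.P.s)) ∧
      (∀ j l, sgn (lP j l) = sgn (uP j l)) ∧ (∀ j l, sgn (lQ j l) = sgn (uQ j l)) ∧
      (∀ j l, oP L j l → (Geo.gamP M.P (gL j) (gR j))⁻¹ * eP (j, l) = lP j l * uP j l) ∧
      (∀ j l, oQ L j l →
        (Geo.gamQ M.P (gB j) (gT (j - 1)))⁻¹ * eQ (j, l) = lQ j l * uQ j l) := by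
  obtain ⟨h1, h2, h3, h4, h5, h6⟩ := H.peel_hyps hq hD hk
  exact Geo.peel_family M.P M.hc f (fun j l => eP (j, l)) (fun j l => eQ (j, l))
    (oP L) (oQ L) (hoP hD) (hoQ hD) H.hf (fun j l _ => H.heP (j, l)) (fun j l _ => H.heQ (j, l))
    (fun j l _ => H.dP (j, l)) (fun j l _ => H.dQ (j, l)) h1 h2 h3 h4 h5 h6

end Ctx

end Crest.Agent.R189.K
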