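import Crest.Agent.R189.KFlux
import Crest.Agent.R189.KLay

/-!
# Row 189, part F: radius independence of the circulation `kap`

`wpN z lam F M = lay (z 0) (lam 0) (F 0) * ... * lay (z (M-1)) (lam (M-1)) (F (M-1))`.
`kap_rad`: shrinking the zones by sets near the boundary does not change `kap`.
`kap_bound`: `|kap| ≤ (2D+1) s |C|`.
-/

set_option autoImplicit false

namespace Crest.Agent.R189.KFlux

open Finset Crest.Agent.R189.K

variable {C : Type*} [Fintype C]

/-- ordered product of layers -/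
noncomputable def wpN (z : ℕ → Equiv.Perm C) (lam : ℕ → C → ℤ × ℤ) (F : ℕ → Set (ℤ × ℤ)) :
    ℕ → Equiv.Perm (Om C)
  | 0 => 1
  | M + 1 => wpN z lam F M * lay (z M) (lam M) (F M)

/-- preserves the box and moves by at most `m` -/
structure Bd (w h m : ℤ) (π : Equiv.Perm (Om C)) : Prop where
  box : ∀ q ∈ bx C 0 w 0 h, π q ∈ bx C 0 w 0 h
  disp : ∀ q, |(π q).1.1 - q.1.1| ≤ m ∧ |(π q).1.2 - q.1.2| ≤ m

variable {w h s t D x0 y0 m : ℤ}

lemma box_symm_of {π : Equiv.Perm (Om C)} (hb : ∀ q ∈ bx C 0 w 0 h, π q ∈ bx C 0 w 0 h)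
    {q : Om C} (hq : q ∈ bx C 0 w 0 h) : π.symm q ∈ bx C 0 w 0 h := by
  have himg : (bx C 0 w 0 h).map π.toEmbedding = bx C 0 w 0 h := by
    apply Finset.eq_of_subset_of_card_le
    · intro z hz
      obtain ⟨u, hu, rfl⟩ := Finset.mem_map.1 hz
      exact hb u hu
    · rw [Finset.card_map]
  rw [← himg] at hq
  obtain ⟨u, hu, rfl⟩ := Finset.mem_map.1 hq
  simpa using hu

lemma Bd.one (hm : 0 ≤ m) : Bd w h m (1 : Equiv.Perm (Om C)) where
  box q hq := hq
  disp q := by simpa using hm

lemma Bd.mono {m' : ℤ} {π : Equiv.Perm (Om C)} (hπ : Bd w h m π) (hm : m ≤ m') :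
    Bd w h m' π where
  box := hπ.box
  disp q := ⟨(hπ.disp q).1.trans hm, (hπ.disp q).2.trans hm⟩

lemma Bd.mul {m' : ℤ} {π π' : Equiv.Perm (Om C)} (hπ : Bd w h m π) (hπ' : Bd w h m' π') :
    Bd w h (m + m') (π * π') where
  box q hq := hπ.box _ (hπ'.box q hq)
  disp q := by
    have h1 := hπ.disp (π' q)
    have h2 := hπ'.disp q
    rw [Equiv.Perm.mul_apply]
    simp only [abs_le] at *
    omega

lemma Bd.inv {π : Equiv.Perm (Om C)} (hπ : Bd w h m π) : Bd w h m π⁻¹ where
  box q hq := box_symm_of hπ.box hq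
  disp q := by
    have h1 := hπ.disp (π.symm q)
    rw [Equiv.apply_symm_apply, abs_sub_comm, abs_sub_comm q.1.2] at h1
    exact h1

/-- numeric bound on `lam` over the moved colours -/
def LamB (z : Equiv.Perm C) (lam : C → ℤ × ℤ) : Prop :=
  ∀ c, z c ≠ c → |(lam c).1| ≤ 1 ∧ |(lam c).2| ≤ 1

/-- interior of the box -/
def Int1 (w h : ℤ) (v : ℤ × ℤ) : Prop := 1 ≤ v.1 ∧ v.1 < w - 1 ∧ 1 ≤ v.2 ∧ v.2 < h - 1

omit [Fintype C] in
/-- a moved cell of a layer and its image are within `1` of a point of the zone -/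
lemma lay_near {z : Equiv.Perm C} {lam : C → ℤ × ℤ} {F : Set (ℤ × ℤ)} (hl : LamB z lam)
    {q : Om C} (hq : lay z lam F q ≠ q) :
    ∃ v ∈ F, (|q.1.1 - v.1| ≤ 1 ∧ |q.1.2 - v.2| ≤ 1) ∧
      (|(lay z lam F q).1.1 - v.1| ≤ 1 ∧ |(lay z lam F q).1.2 - v.2| ≤ 1) := by
  obtain ⟨p, c⟩ := q
  obtain ⟨h1, h2⟩ := lay_ne hq
  refine ⟨p - lam c, h1, ?_, ?_⟩
  · have := hl c h2
    simpa using this
  · rw [lay_mem h1]
    have := hl (z c) (fun e => h2 (z.injective e))
    simpa using this

lemma lay_Bd {z : Equiv.Perm C} {lam : C → ℤ × ℤ} {F : Set (ℤ × ℤ)} (hl : LamB z lam)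
    (hF : ∀ v ∈ F, Int1 w h v) : Bd w h 2 (lay z lam F) where
  box q hq := by
    by_cases hne : lay z lam F q = q
    · rwa [hne]
    · obtain ⟨v, hv, _, h2⟩ := lay_near hl hne
      have h3 := hF v hv
      simp only [Int1, abs_le] at *
      rw [mem_bx]
      omega
  disp q := by
    by_cases hne : lay z lam F q = q
    · rw [hne]; simp
    · obtain ⟨v, hv, h1, h2⟩ := lay_near hl hne
      simp only [abs_le] at *
      omega

/-- near the boundary (outside the middle region) -/
def NearB (w h s t : ℤ) (v : ℤ × ℤ) : Prop :=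
  ¬ (t ≤ v.1 ∧ v.1 < w - t ∧ s ≤ v.2 ∧ v.2 < h - s) ∧
  ¬ (t ≤ v.2 ∧ v.2 < h - t ∧ s ≤ v.1 ∧ v.1 < w - s)

/-- conjugated finite layer -/
lemma gad_supp {z : Equiv.Perm C} {lam : C → ℤ × ℤ} {G : Set (ℤ × ℤ)} (hl : LamB z lam)
    {B : Equiv.Perm (Om C)} (hB : Bd w h m B) {q : Om C}
    (hq : (B⁻¹ * lay z lam G * B) q ≠ q) :
    ∃ v ∈ G, (|q.1.1 - v.1| ≤ m + 1 ∧ |q.1.2 - v.2| ≤ m + 1) ∧
      (|((B⁻¹ * lay z lam G * B) q).1.1 - v.1| ≤ m + 1 ∧
        |((B⁻¹ * lay z lam G * B) q).1.2 - v.2| ≤ m + 1) := by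
  have h1 : lay z lam G (B q) ≠ B q := by
    intro e
    apply hq
    rw [Equiv.Perm.mul_apply, Equiv.Perm.mul_apply, e]
    exact B.symm_apply_apply q
  obtain ⟨v, hv, h2, h3⟩ := lay_near hl h1
  refine ⟨v, hv, ?_, ?_⟩
  · have h4 := hB.disp q
    simp only [abs_le] at *
    omega
  · rw [Equiv.Perm.mul_apply, Equiv.Perm.mul_apply]
    have h4 := hB.inv.disp (lay z lam G (B q))
    simp only [abs_le] at *
    omega

lemma gad_Bd {z : Equiv.Perm C} {lam : C → ℤ × ℤ} {G : Set (ℤ × ℤ)} (hl : LamB z lam)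
    (hG : ∀ v ∈ G, Int1 w h v)
    {B : Equiv.Perm (Om C)} (hB : Bd w h m B) : Bd w h (2 * m + 2) (B⁻¹ * lay z lam G * B) := by
  have := (hB.inv.mul (lay_Bd hl hG)).mul hB
  exact this.mono (by omega)

lemma gad_Ann {z : Equiv.Perm C} {lam : C → ℤ × ℤ} {G : Set (ℤ × ℤ)} (hl : LamB z lam)
    (hG : ∀ v ∈ G, Int1 w h v) {s' t' : ℤ} (hN : ∀ v ∈ G, NearB w h s' t' v)
    {B : Equiv.Perm (Om C)} (hB : Bd w h m B) (hs : s' + m + 1 ≤ s) (ht : t' + m + 1 ≤ t) :
    Ann w h s t (2 * m + 2) (B⁻¹ * lay z lam G * B) := by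
  have h1 := gad_Bd hl hG hB
  refine ⟨h1.box, fun q _ => (h1.disp q).1, fun q _ => (h1.disp q).2, ?_, ?_⟩
  · intro q hq a b c d
    by_contra hne
    obtain ⟨v, hv, h2, _⟩ := gad_supp hl hB hne
    have h3 := (hN v hv).1
    simp only [abs_le] at *
    omega
  · intro q hq a b c d
    by_contra hne
    obtain ⟨v, hv, h2, _⟩ := gad_supp hl hB hne
    have h3 := (hN v hv).2
    simp only [abs_le] at *
    omega

/-- one gadget has no circulation -/
lemma gad_kap_one {z : Equiv.Perm C} {lam : C → ℤ × ℤ} {v : ℤ × ℤ} (hl : LamB z lam)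
    (hG : Int1 w h v) {s' t' : ℤ} (hN : NearB w h s' t' v)
    {B : Equiv.Perm (Om C)} (hB : Bd w h m B) (hs : s' + m + 1 ≤ s) (ht : t' + m + 1 ≤ t)
    (hm : Mid w h s t (2 * m + 2) x0 y0)
    (hw : 2 * t + 2 * (2 * m + 2) + 2 * m + 3 ≤ w) :
    kap w s x0 (B⁻¹ * lay z lam {v} * B : Equiv.Perm (Om C)) = 0 := by
  have hA := gad_Ann (s := s) (t := t) hl (G := {v}) (by rintro u rfl; exact hG)
    (by rintro u rfl; exact hN) hB hs ht
  have key : ∀ x1, (m + 1 < |v.1 - x1|) → kap w s x1
      (B⁻¹ * lay z lam {v} * B : Equiv.Perm (Om C)) = 0 := by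
    intro x1 hx1
    unfold kap phiB fl
    refine Finset.sum_eq_zero fun q _ => ?_
    by_cases hne : (B⁻¹ * lay z lam {v} * B : Equiv.Perm (Om C)) q = q
    · rw [hne, sub_self]
    · obtain ⟨u, hu, h2, h3⟩ := gad_supp hl hB hne
      obtain rfl : u = v := hu
      rw [lt_abs] at hx1
      simp only [abs_le] at h2 h3
      split_ifs <;> omega
  by_cases hv : m + 1 < |v.1 - (t + (2 * m + 2))|
  · have hm1 : Mid w h s t (2 * m + 2) (t + (2 * m + 2)) y0 :=
      ⟨hm.s0, hm.st, hm.D0, le_refl _, by have := hm.D0; omega, hm.yl, hm.yr⟩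
    rw [kap_indep hA hm hm1]
    exact key _ hv
  · have hm1 : Mid w h s t (2 * m + 2) (w - t - (2 * m + 2)) y0 :=
      ⟨hm.s0, hm.st, hm.D0, by have := hm.D0; omega, le_refl _, hm.yl, hm.yr⟩
    rw [kap_indep hA hm hm1]
    apply key
    rw [not_lt, abs_le] at hv
    rw [lt_abs]
    omega

/-- gadgets over a finite set have no circulation -/
lemma gad_kap {z : Equiv.Perm C} {lam : C → ℤ × ℤ} (G : Finset (ℤ × ℤ)) (hl : LamB z lam)
    (hG : ∀ v ∈ G, Int1 w h v) {s' t' : ℤ} (hN : ∀ v ∈ G, NearB w h s' t' v)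
    {B : Equiv.Perm (Om C)} (hB : Bd w h m B) (hs : s' + m + 1 ≤ s) (ht : t' + m + 1 ≤ t)
    (hm : Mid w h s t (2 * m + 2 + (2 * m + 2)) x0 y0) (hm0 : 0 ≤ m)
    (hw : 2 * t + 2 * (2 * m + 2) + 2 * m + 3 ≤ w) :
    kap w s x0 (B⁻¹ * lay z lam (G : Set (ℤ × ℤ)) * B : Equiv.Perm (Om C)) = 0 := by
  classical
  induction G using Finset.induction_on with
  | empty =>
    rw [Finset.coe_empty, lay_empty, mul_one, inv_mul_cancel, kap_one]
  | insert v G hv ih =>
    have e1 : (B⁻¹ * lay z lam ((insert v G : Finset (ℤ × ℤ)) : Set (ℤ × ℤ)) * B :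
        Equiv.Perm (Om C)) =
        (B⁻¹ * lay z lam {v} * B) * (B⁻¹ * lay z lam (G : Set (ℤ × ℤ)) * B) := by
      have hd : Disjoint ({v} : Set (ℤ × ℤ)) (G : Set (ℤ × ℤ)) := by
        rw [Set.disjoint_singleton_left]
        simpa using hv
      rw [Finset.coe_insert, Set.insert_eq, lay_union z lam hd]
      group
    rw [e1, kap_mul (D := 2 * m + 2) (D' := 2 * m + 2) (h := h) (t := t) (y0 := y0), ih, add_zero]
    · refine gad_kap_one (h := h) (t := t) (y0 := y0) hl (hG v (Finset.mem_insert_self _ _))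
        (hN v (Finset.mem_insert_self _ _)) hB hs ht ?_ hw
      exact ⟨hm.s0, hm.st, by omega, by have := hm.xl; omega, by have := hm.xr; omega,
        by have := hm.yl; omega, by have := hm.yr; omega⟩
    · exact fun u hu => hG u (Finset.mem_insert_of_mem hu)
    · exact fun u hu => hN u (Finset.mem_insert_of_mem hu)
    · exact gad_Ann hl (by rintro u rfl; exact hG _ (Finset.mem_insert_self _ _))
        (by rintro u rfl; exact hN _ (Finset.mem_insert_self _ _)) hB hs ht
    · exact gad_Ann hl (fun u hu => hG u (Finset.mem_insert_of_mem (Finset.mem_coe.1 hu)))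
        (fun u hu => hN u (Finset.mem_insert_of_mem (Finset.mem_coe.1 hu))) hB hs ht
    · exact hm
    · omega
    · omega

/-! ### words -/

variable {z : ℕ → Equiv.Perm C} {lam : ℕ → C → ℤ × ℤ} {F F' : ℕ → Set (ℤ × ℤ)}

lemma wpN_Bd (M : ℕ) (hl : ∀ i < M, LamB (z i) (lam i)) (hF : ∀ i < M, ∀ v ∈ F i, Int1 w h v) :
    Bd w h (2 * M) (wpN z lam F M) := by
  induction M with
  | zero => exact Bd.one (by simp)
  | succ M ih =>
    have h1 := ih (fun i hi => hl i (by omega)) (fun i hi => hF i (by omega))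
    have h2 := lay_Bd (hl M (by omega)) (hF M (by omega))
    exact (h1.mul h2).mono (by push_cast; omega)

omit [Fintype C] in
/-- the product at a cell only depends on the zones near that cell -/
lemma wpN_agree (M : ℕ) (hl : ∀ i < M, LamB (z i) (lam i)) (q : Om C)
    (hF : ∀ i < M, ∀ v : ℤ × ℤ, |v.1 - q.1.1| ≤ 2 * M → |v.2 - q.1.2| ≤ 2 * M →
      (v ∈ F i ↔ v ∈ F' i)) :
    wpN z lam F M q = wpN z lam F' M q := by
  induction M generalizing q with
  | zero => rfl
  | succ M ih =>
    have e1 : lay (z M) (lam M) (F M) q = lay (z M) (lam M) (F' M) q := by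
      obtain ⟨p, c⟩ := q
      by_cases hc : z M c = c
      · rw [lay_fix hc, lay_fix hc]
      · have h1 := hl M (by omega) c hc
        have h2 := hF M (by omega) (p - lam M c)
          (by simp only [Prod.fst_sub, sub_sub_cancel_left, abs_neg]; push_cast; omega)
          (by simp only [Prod.snd_sub, sub_sub_cancel_left, abs_neg]; push_cast; omega)
        by_cases h3 : p - lam M c ∈ F M
        · rw [lay_mem h3, lay_mem (h2.1 h3)]
        · rw [lay_not_mem h3, lay_not_mem (fun h4 => h3 (h2.2 h4))]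
    show wpN z lam F M (lay (z M) (lam M) (F M) q) = wpN z lam F' M (lay (z M) (lam M) (F' M) q)
    rw [← e1]
    apply ih (fun i hi => hl i (by omega))
    intro i hi v hv1 hv2
    apply hF i (by omega) v
    · have hd : |(lay (z M) (lam M) (F M) q).1.1 - q.1.1| ≤ 2 := by
        by_cases hne : lay (z M) (lam M) (F M) q = q
        · rw [hne]; simp
        · obtain ⟨u, _, h1, h2⟩ := lay_near (hl M (by omega)) hne
          simp only [abs_le] at *
          omega
      simp only [abs_le] at *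
      push_cast
      omega
    · have hd : |(lay (z M) (lam M) (F M) q).1.2 - q.1.2| ≤ 2 := by
        by_cases hne : lay (z M) (lam M) (F M) q = q
        · rw [hne]; simp
        · obtain ⟨u, _, h1, h2⟩ := lay_near (hl M (by omega)) hne
          simp only [abs_le] at *
          omega
      simp only [abs_le] at *
      push_cast
      omega

/-- changing one zone multiplies the product by a conjugated gadget on the right -/
lemma wpN_update (i M : ℕ) (hi : i < M) (G : Set (ℤ × ℤ)) (hG : G ⊆ F i)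
    (hl : ∀ j < M, LamB (z j) (lam j)) (hF : ∀ j < M, ∀ v ∈ F j, Int1 w h v) :
    ∃ B : Equiv.Perm (Om C), Bd w h (2 * M) B ∧
      wpN z lam F M = wpN z lam (Function.update F i G) M *
        (B⁻¹ * lay (z i) (lam i) (F i \ G) * B) := by
  induction M with
  | zero => omega
  | succ M ih =>
    rcases Nat.lt_or_ge i M with h1 | h1
    · obtain ⟨B, hB, e⟩ := ih h1 (fun j hj => hl j (by omega)) (fun j hj => hF j (by omega))
      refine ⟨B * lay (z M) (lam M) (F M), ?_, ?_⟩
      · have h2 := lay_Bd (hl M (by omega)) (hF M (by omega))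
        exact (hB.mul h2).mono (by push_cast; omega)
      · show wpN z lam F M * lay (z M) (lam M) (F M) =
          wpN z lam (Function.update F i G) M *
            lay (z M) (lam M) (Function.update F i G M) * _
        rw [Function.update_of_ne (by omega), e]
        group
    · obtain rfl : i = M := by omega
      refine ⟨1, Bd.one (by positivity), ?_⟩
      have h2 : wpN z lam (Function.update F i G) i = wpN z lam F i := by
        have : ∀ N, N ≤ i → wpN z lam (Function.update F i G) N = wpN z lam F N := by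
          intro N
          induction N with
          | zero => intro _; rfl
          | succ N ihN =>
            intro hN
            show wpN z lam (Function.update F i G) N *
              lay (z N) (lam N) (Function.update F i G N) = wpN z lam F N * _
            rw [ihN (by omega), Function.update_of_ne (by omega)]
        exact this i le_rfl
      show wpN z lam F i * lay (z i) (lam i) (F i) =
          wpN z lam (Function.update F i G) i *
            lay (z i) (lam i) (Function.update F i G i) * _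
      rw [h2, Function.update_self]
      have h3 : lay (z i) (lam i) (F i) =
          lay (z i) (lam i) G * lay (z i) (lam i) (F i \ G) := by
        rw [← lay_union _ _ Set.disjoint_sdiff_right, Set.union_sdiff_cancel hG]
      rw [h3]
      group

/-- a word which agrees with an annular one near the middle is annular -/
lemma Ann_of_agree (M : ℕ) (hl : ∀ i < M, LamB (z i) (lam i))
    (hF : ∀ i < M, ∀ v ∈ F i, Int1 w h v)
    (hdiff : ∀ i < M, ∀ v : ℤ × ℤ, (v ∈ F i ↔ v ∈ F' i) ∨ NearB w h (s - 2 * M) (t - 2 * M) v)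
    (hA : Ann w h s t D (wpN z lam F' M)) :
    Ann w h s t (2 * M) (wpN z lam F M) := by
  have h1 := wpN_Bd (w := w) (h := h) M hl hF
  refine ⟨h1.box, fun q _ => (h1.disp q).1, fun q _ => (h1.disp q).2, ?_, ?_⟩
  · intro q hq a b c d
    rw [wpN_agree (F' := F') M hl q, hA.midx q hq a b c d]
    intro i hi v hv1 hv2
    rcases hdiff i hi v with h2 | h2
    · exact h2
    · exfalso
      apply h2.1
      rw [abs_le] at hv1 hv2
      omega
  · intro q hq a b c d
    rw [wpN_agree (F' := F') M hl q, hA.midy q hq a b c d]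
    intro i hi v hv1 hv2
    rcases hdiff i hi v with h2 | h2
    · exact h2
    · exfalso
      apply h2.2
      rw [abs_le] at hv1 hv2
      omega

/-- finiteness of the interior of the box -/
lemma Int1_finite (w h : ℤ) : {v : ℤ × ℤ | Int1 w h v}.Finite := by
  apply (Finset.finite_toSet (Finset.Ico 0 w ×ˢ Finset.Ico 0 h)).subset
  intro v hv
  obtain ⟨h1, h2, h3, h4⟩ := hv
  simp only [Finset.coe_product, Finset.coe_Ico, Set.mem_prod, Set.mem_Ico]
  omega

/-- shrinking ONE zone by a set near the boundary does not change the circulation -/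
lemma kap_update (i M : ℕ) (hi : i < M) (G : Set (ℤ × ℤ)) (hG : G ⊆ F i)
    (hl : ∀ j < M, LamB (z j) (lam j)) (hF : ∀ j < M, ∀ v ∈ F j, Int1 w h v)
    {s' t' : ℤ} (hN : ∀ v ∈ F i, v ∉ G → NearB w h s' t' v)
    (hs : s' + 2 * M + 1 ≤ s) (ht : t' + 2 * M + 1 ≤ t)
    (hA : Ann w h s t (2 * M) (wpN z lam (Function.update F i G) M))
    (hm : Mid w h s t (8 * M + 4) x0 y0) (hw : 2 * t + 12 * M + 7 ≤ w) :
    kap w s x0 (wpN z lam F M) = kap w s x0 (wpN z lam (Function.update F i G) M) := by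
  obtain ⟨B, hB, e⟩ := wpN_update (w := w) (h := h) i M hi G hG hl hF
  have hfin : (F i \ G).Finite := (Int1_finite w h).subset fun v hv => hF i hi v hv.1
  have e2 : (F i \ G) = ((hfin.toFinset : Finset (ℤ × ℤ)) : Set (ℤ × ℤ)) := by simp
  have hI : ∀ v ∈ F i \ G, Int1 w h v := fun v hv => hF i hi v hv.1
  have hNN : ∀ v ∈ F i \ G, NearB w h s' t' v := fun v hv => hN v hv.1 hv.2
  obtain ⟨m1, m2, m3, m4, m5, m6, m7⟩ := hm
  have hgA := gad_Ann (s := s) (t := t) (hl i hi) hI hNN hB hs ht
  rw [e, kap_mul (h := h) (t := t) (y0 := y0) hA hgA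
    ⟨m1, m2, by omega, by omega, by omega, by omega, by omega⟩ (by omega) (by omega)]
  rw [e2, gad_kap (h := h) (t := t) (y0 := y0) (s' := s') (t' := t') hfin.toFinset (hl i hi)
    ?_ ?_ hB hs ht ⟨m1, m2, by omega, by omega, by omega, by omega, by omega⟩ (by omega)
    (by omega), add_zero]
  · intro v hv; exact hI v (by simpa using hv)
  · intro v hv; exact hNN v (by simpa using hv)

/-- RADIUS INDEPENDENCE: shrinking all zones by sets near the boundary does not change the
circulation -/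
theorem kap_rad (M : ℕ) (hl : ∀ i < M, LamB (z i) (lam i))
    (hsub : ∀ i < M, F' i ⊆ F i) (hF : ∀ i < M, ∀ v ∈ F i, Int1 w h v)
    {s' t' : ℤ} (hN : ∀ i < M, ∀ v ∈ F i, v ∉ F' i → NearB w h s' t' v)
    (hs : s' + 2 * M + 1 ≤ s) (ht : t' + 2 * M + 1 ≤ t)
    (hA : Ann w h s t D (wpN z lam F' M))
    (hm : Mid w h s t (8 * M + 4) x0 y0) (hw : 2 * t + 12 * M + 7 ≤ w) :
    Ann w h s t (2 * M) (wpN z lam F M) ∧
      kap w s x0 (wpN z lam F M) = kap w s x0 (wpN z lam F' M) := by
  -- hybrids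
  set Hy : ℕ → ℕ → Set (ℤ × ℤ) := fun k i => if i < k then F' i else F i with hHy
  have hHI : ∀ k, ∀ i < M, ∀ v ∈ Hy k i, Int1 w h v := by
    intro k i hi v hv
    simp only [hHy] at hv
    split_ifs at hv
    · exact hF i hi v (hsub i hi hv)
    · exact hF i hi v hv
  have hHA : ∀ k, Ann w h s t (2 * M) (wpN z lam (Hy k) M) := by
    intro k
    refine Ann_of_agree (F' := F') M hl (hHI k) ?_ hA
    intro i hi v
    simp only [hHy]
    split_ifs with h1
    · exact Or.inl Iff.rfl
    · by_cases h2 : v ∈ F' i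
      · exact Or.inl ⟨fun _ => h2, fun _ => hsub i hi h2⟩
      · by_cases h3 : v ∈ F i
        · right
          obtain ⟨h4, h5⟩ := hN i hi v h3 h2
          refine ⟨fun h6 => h4 ?_, fun h6 => h5 ?_⟩ <;> omega
        · exact Or.inl ⟨fun h4 => absurd h4 h3, fun h4 => absurd h4 h2⟩
  have h0 : Hy 0 = F := by
    funext i; simp [hHy]
  have hMM : wpN z lam (Hy M) M = wpN z lam F' M := by
    have : ∀ N, N ≤ M → wpN z lam (Hy M) N = wpN z lam F' N := by
      intro N
      induction N with
      | zero => intro _; rfl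
      | succ N ih =>
        intro hN'
        show wpN z lam (Hy M) N * lay (z N) (lam N) (Hy M N) = wpN z lam F' N * _
        rw [ih (by omega)]
        have : Hy M N = F' N := by
          simp only [hHy]; rw [if_pos (by omega)]
        rw [this]
    exact this M le_rfl
  have hstep : ∀ k, k ≤ M → kap w s x0 (wpN z lam F M) = kap w s x0 (wpN z lam (Hy k) M) := by
    intro k
    induction k with
    | zero => intro _; rw [h0]
    | succ k ih =>
      intro hk
      rw [ih (by omega)]
      have hup : Hy (k + 1) = Function.update (Hy k) k (F' k) := by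
        funext i
        by_cases hik : i = k
        · subst hik
          rw [Function.update_self]
          simp [hHy]
        · rw [Function.update_of_ne hik]
          simp only [hHy]
          by_cases h1 : i < k
          · rw [if_pos (by omega), if_pos h1]
          · rw [if_neg (by omega), if_neg h1]
      rw [hup]
      have hHk : Hy k k = F k := by simp [hHy]
      apply kap_update (h := h) (t := t) (y0 := y0) (s' := s') (t' := t') k M (by omega) (F' k)
        (by rw [hHk]; exact hsub k (by omega)) hl (hHI k) _ hs ht _ hm hw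
      · intro v hv hv'
        rw [hHk] at hv
        exact hN k (by omega) v hv hv'
      · rw [← hup]; exact hHA (k + 1)
  refine ⟨by rw [← h0]; exact hHA 0, ?_⟩
  rw [hstep M le_rfl, hMM]

/-- bound of the circulation -/
theorem kap_bound {π : Equiv.Perm (Om C)} (hπ : Ann w h s t D π) (hm : Mid w h s t D x0 y0) :
    |kap w s x0 π| ≤ (2 * D + 1) * s * Fintype.card C := by
  classical
  obtain ⟨a1, a2, a3, a4, a5, a6, a7⟩ := hm
  have e1 : kap w s x0 π = ∑ q ∈ bx C (x0 - D) (x0 + D + 1) 0 s,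
      ((if x0 ≤ (π q).1.1 then (1 : ℤ) else 0) - (if x0 ≤ q.1.1 then 1 else 0)) := by
    unfold kap phiB fl
    symm
    have hsub : bx C (x0 - D) (x0 + D + 1) 0 s ⊆ bx C 0 w 0 s := by
      intro q; rw [mem_bx, mem_bx]; omega
    rw [← Finset.sum_subset hsub]
    intro q hq hq'
    rw [mem_bx] at hq hq'
    have hqb : q ∈ bx C 0 w 0 h := by rw [mem_bx]; omega
    obtain ⟨f1, f2, f3, f4, f5, f6⟩ := hπ.facts hqb
    split_ifs <;> omega
  rw [e1]
  refine (Finset.abs_sum_le_sum_abs _ _).trans ?_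
  have h2 : ∀ q ∈ bx C (x0 - D) (x0 + D + 1) 0 s,
      |((if x0 ≤ (π q).1.1 then (1 : ℤ) else 0) - (if x0 ≤ q.1.1 then 1 else 0))| ≤ 1 := by
    intro q _
    split_ifs <;> simp
  refine (Finset.sum_le_sum h2).trans ?_
  rw [Finset.sum_const, nsmul_one]
  have h3 : ((bx C (x0 - D) (x0 + D + 1) 0 s).card : ℤ) = (2 * D + 1) * s * Fintype.card C := by
    rw [bx, Finset.card_product, Finset.card_product, Int.card_Ico, Int.card_Ico,
      Finset.card_univ]
    push_cast
    rw [Int.toNat_of_nonneg (by omega), Int.toNat_of_nonneg (by omega)]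
    ring
  exact h3.le

end Crest.Agent.R189.KFlux
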