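import Crest.Agent.R189.KSgn
import Crest.Agent.R189.GpTower

/-!
# Row 189, part F (K1): the concrete groups `Alt(W × C)_κ` inside `Perm (X × C)`

`D : Set X` (base set), `W : Finset V` (window; the translates `v + D`, `v ∈ W`, are pairwise
disjoint: `Win D W`), `kap : X → ι` (kind/index function), `z : ι → Perm (V × C)` with
`z i ∈ PermOn (box C W)`.
`realFam D W kap z` acts on `(v + y, c)` (`y ∈ D`, `v ∈ W`) as `z (kap y)` on `(v, c)`, and is the
identity elsewhere.
-/

set_option autoImplicit false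
set_option linter.unusedSectionVars false

namespace Crest.Agent.R189.KR

open Crest.Agent.R189.K

open Equiv

section Defs

variable {V X C ι : Type*} [AddCommGroup V] [AddAction V X]

/-- the translates `v + D`, `v ∈ W`, are pairwise disjoint -/
def Win (D : Set X) (W : Finset V) : Prop :=
  ∀ v ∈ W, ∀ v' ∈ W, ∀ y ∈ D, ∀ y' ∈ D, v +ᵥ y = v' +ᵥ y' → v = v'

/-- window × colours -/
abbrev box (C : Type*) [Fintype C] (W : Finset V) : Finset (V × C) := W ×ˢ Finset.univ

/-- `g` acts on `(v+y,c)` (`v ∈ W`, `y ∈ D`) as `z (kap y)` on `(v,c)` and trivially elsewhere -/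
structure IsReal (D : Set X) (W : Finset V) (kap : X → ι) (z : ι → Perm (V × C))
    (g : Perm (X × C)) : Prop where
  act : ∀ v ∈ W, ∀ y ∈ D, ∀ c,
    g (v +ᵥ y, c) = ((z (kap y) (v, c)).1 +ᵥ y, (z (kap y) (v, c)).2)
  fix : ∀ x c, (∀ v ∈ W, ∀ y ∈ D, x ≠ v +ᵥ y) → g (x, c) = (x, c)

open Classical in
/-- the concrete permutation attached to the family `z` -/
noncomputable def realFam (D : Set X) (W : Finset V) (kap : X → ι) (z : ι → Perm (V × C)) :
    Perm (X × C) :=
  if h : ∃ g, IsReal D W kap z g then h.choose else 1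

/-- shift of a permutation of `V × C` by `u`: `(v,c) ↦ z(v-u,c)+u` -/
def shift (u : V) (z : Perm (V × C)) : Perm (V × C) where
  toFun p := ((z (p.1 - u, p.2)).1 + u, (z (p.1 - u, p.2)).2)
  invFun p := ((z.symm (p.1 - u, p.2)).1 + u, (z.symm (p.1 - u, p.2)).2)
  left_inv p := by simp
  right_inv p := by simp

theorem shift_apply (u : V) (z : Perm (V × C)) (v : V) (c : C) :
    shift u z (v, c) = ((z (v - u, c)).1 + u, (z (v - u, c)).2) := rfl

@[simp] theorem shift_one (u : V) : shift u (1 : Perm (V × C)) = 1 := by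
  apply Equiv.ext
  rintro ⟨v, c⟩
  simp [shift_apply]

theorem shift_mul (u : V) (z z' : Perm (V × C)) : shift u (z * z') = shift u z * shift u z' := by
  apply Equiv.ext
  rintro ⟨v, c⟩
  simp [shift_apply]

theorem shift_inv (u : V) (z : Perm (V × C)) : shift u z⁻¹ = (shift u z)⁻¹ := by
  rw [eq_inv_iff_mul_eq_one, ← shift_mul, inv_mul_cancel, shift_one]

theorem shift_shift (u u' : V) (z : Perm (V × C)) : shift u (shift u' z) = shift (u + u') z := by
  apply Equiv.ext
  rintro ⟨v, c⟩
  simp only [shift_apply, sub_sub, add_assoc]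
  rw [add_comm u' u]

@[simp] theorem shift_zero (z : Perm (V × C)) : shift 0 z = z := by
  apply Equiv.ext
  rintro ⟨v, c⟩
  simp [shift_apply]

/-- the translation of positions as a permutation -/
def trans (C : Type*) (u : V) : Perm (V × C) := (Equiv.addRight u).prodCongr (Equiv.refl C)

@[simp] theorem trans_apply (u : V) (v : V) (c : C) : trans C u (v, c) = (v + u, c) := rfl

theorem trans_inv_apply (u : V) (v : V) (c : C) : (trans C u)⁻¹ (v, c) = (v - u, c) := by
  rw [Perm.inv_eq_iff_eq]; simp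

theorem shift_eq_conj (u : V) (z : Perm (V × C)) : shift u z = K.conj (trans C u) z := by
  apply Equiv.ext
  rintro ⟨v, c⟩
  simp only [K.conj, Perm.mul_apply, trans_inv_apply]
  rfl

end Defs

section Real

variable {V X C ι : Type*} [AddCommGroup V] [AddAction V X]
variable {D : Set X} {W : Finset V} {kap : X → ι} {z z' : ι → Perm (V × C)} {g g' : Perm (X × C)}

theorem IsReal.unique (h : IsReal D W kap z g) (h' : IsReal D W kap z g') : g = g' := by
  apply Equiv.ext
  rintro ⟨x, c⟩
  by_cases hx : ∀ v ∈ W, ∀ y ∈ D, x ≠ v +ᵥ y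
  · rw [h.fix x c hx, h'.fix x c hx]
  · push Not at hx
    obtain ⟨v, hv, y, hy, rfl⟩ := hx
    rw [h.act v hv y hy, h'.act v hv y hy]

theorem realFam_eq (h : IsReal D W kap z g) : realFam D W kap z = g := by
  have he : ∃ g, IsReal D W kap z g := ⟨g, h⟩
  unfold realFam
  rw [dif_pos he]
  exact he.choose_spec.unique h

variable [Fintype C] [DecidableEq V] [DecidableEq C]

theorem PermOn.box_mem {π : Perm (V × C)} (h : π ∈ PermOn (box C W)) {v : V} (hv : v ∈ W) (c : C) :
    (π (v, c)).1 ∈ W := by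
  have h1 : π (v, c) ∈ box C W := (on_mem_iff h (v, c)).2 (by simp [hv])
  simpa using h1

theorem exists_real (hW : Win D W) (hz : ∀ i, z i ∈ PermOn (box C W)) :
    ∃ g, IsReal D W kap z g := by
  classical
  let f : (ι → Perm (V × C)) → X × C → X × C := fun z p =>
    if h : ∃ v ∈ W, ∃ y ∈ D, p.1 = v +ᵥ y then
      let v := h.choose
      let y := -v +ᵥ p.1
      ((z (kap y) (v, p.2)).1 +ᵥ y, (z (kap y) (v, p.2)).2)
    else p
  have key : ∀ z : ι → Perm (V × C), ∀ v ∈ W, ∀ y ∈ D, ∀ c,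
      f z (v +ᵥ y, c) = ((z (kap y) (v, c)).1 +ᵥ y, (z (kap y) (v, c)).2) := by
    intro z v hv y hy c
    have h : ∃ v' ∈ W, ∃ y' ∈ D, (v +ᵥ y, c).1 = v' +ᵥ y' := ⟨v, hv, y, hy, rfl⟩
    have h1 : h.choose = v := by
      obtain ⟨h2, y', hy', h3⟩ := h.choose_spec
      exact hW _ h2 _ hv y' hy' y hy h3.symm
    simp only [f]
    rw [dif_pos h]
    simp only [h1, neg_vadd_vadd]
  have key2 : ∀ z : ι → Perm (V × C), ∀ x c, (∀ v ∈ W, ∀ y ∈ D, x ≠ v +ᵥ y) →
      f z (x, c) = (x, c) := by
    intro z x c h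
    have h' : ¬ ∃ v ∈ W, ∃ y ∈ D, (x, c).1 = v +ᵥ y := by
      rintro ⟨v, hv, y, hy, he⟩
      exact h v hv y hy he
    simp only [f]
    rw [dif_neg h']
  have comp : ∀ z z' : ι → Perm (V × C), (∀ i, z' i ∈ PermOn (box C W)) →
      (∀ i, z i * z' i = 1) → ∀ p, f z (f z' p) = p := by
    rintro z z' hz' hzz ⟨x, c⟩
    by_cases hx : ∀ v ∈ W, ∀ y ∈ D, x ≠ v +ᵥ y
    · rw [key2 z' x c hx, key2 z x c hx]
    · push Not at hx
      obtain ⟨v, hv, y, hy, rfl⟩ := hx
      rw [key z' v hv y hy, key z _ (PermOn.box_mem (hz' _) hv c) y hy]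
      have : z (kap y) (z' (kap y) (v, c)) = (v, c) := by
        rw [← Perm.mul_apply, hzz]; rfl
      rw [Prod.mk.eta, this]
  refine ⟨⟨f z, f (fun i => (z i)⁻¹), ?_, ?_⟩, ?_, ?_⟩
  · exact comp _ _ hz (fun i => inv_mul_cancel _)
  · exact comp _ _ (fun i => (PermOn _).inv_mem (hz i)) (fun i => mul_inv_cancel _)
  · intro v hv y hy c
    exact key z v hv y hy c
  · intro x c hx
    exact key2 z x c hx

theorem realFam_spec (hW : Win D W) (hz : ∀ i, z i ∈ PermOn (box C W)) :
    IsReal D W kap z (realFam D W kap z) := by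
  obtain ⟨g, hg⟩ := exists_real (kap := kap) hW hz
  rw [realFam_eq hg]
  exact hg

theorem realFam_act (hW : Win D W) (hz : ∀ i, z i ∈ PermOn (box C W)) {v : V} (hv : v ∈ W)
    {y : X} (hy : y ∈ D) (c : C) : realFam D W kap z (v +ᵥ y, c) =
      ((z (kap y) (v, c)).1 +ᵥ y, (z (kap y) (v, c)).2) :=
  (realFam_spec hW hz).act v hv y hy c

theorem realFam_fix (hW : Win D W) (hz : ∀ i, z i ∈ PermOn (box C W)) {x : X} {c : C}
    (h : ∀ v ∈ W, ∀ y ∈ D, x ≠ v +ᵥ y) : realFam D W kap z (x, c) = (x, c) :=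
  (realFam_spec hW hz).fix x c h

theorem realFam_mul (hW : Win D W) (hz : ∀ i, z i ∈ PermOn (box C W))
    (hz' : ∀ i, z' i ∈ PermOn (box C W)) :
    realFam D W kap (fun i => z i * z' i) = realFam D W kap z * realFam D W kap z' := by
  apply realFam_eq
  constructor
  · intro v hv y hy c
    rw [Perm.mul_apply, realFam_act hW hz' hv hy,
      realFam_act hW hz (PermOn.box_mem (hz' _) hv c) hy]
    rfl
  · intro x c hx
    rw [Perm.mul_apply, realFam_fix hW hz' hx, realFam_fix hW hz hx]

@[simp] theorem realFam_one (D : Set X) (W : Finset V) (kap : X → ι) :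
    realFam D W kap (fun _ => (1 : Perm (V × C))) = 1 := by
  apply realFam_eq
  constructor
  · intro v hv y hy c; rfl
  · intro x c hx; rfl

theorem realFam_inv (hW : Win D W) (hz : ∀ i, z i ∈ PermOn (box C W)) :
    realFam D W kap (fun i => (z i)⁻¹) = (realFam D W kap z)⁻¹ := by
  rw [eq_inv_iff_mul_eq_one, ← realFam_mul hW (fun i => (PermOn _).inv_mem (hz i)) hz]
  simp

/-- `realFam` as a homomorphism on families of permutations of the window -/
noncomputable def realHom (hW : Win D W) (kap : X → ι) :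
    (ι → PermOn (box C W)) →* Perm (X × C) where
  toFun z := realFam D W kap (fun i => (z i : Perm (V × C)))
  map_one' := by simp
  map_mul' z z' := by
    rw [← realFam_mul hW (fun i => (z i).2) (fun i => (z' i).2)]
    rfl

/-- `realFam` as a homomorphism on families of even permutations of the window -/
noncomputable def realAlt (hW : Win D W) (kap : X → ι) :
    (ι → AltOn (box C W)) →* Perm (X × C) where
  toFun z := realFam D W kap (fun i => (z i : Perm (V × C)))
  map_one' := by simp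
  map_mul' z z' := by
    rw [← realFam_mul hW (fun i => (z i).2.1) (fun i => (z' i).2.1)]
    rfl

theorem realAlt_apply (hW : Win D W) (kap : X → ι) (z : ι → AltOn (box C W)) :
    realAlt hW kap z = realFam D W kap (fun i => (z i : Perm (V × C))) := rfl

theorem realHom_apply (hW : Win D W) (kap : X → ι) (z : ι → PermOn (box C W)) :
    realHom hW kap z = realFam D W kap (fun i => (z i : Perm (V × C))) := rfl

/-- injectivity over the occurring indices (the action of `V` is free) -/
theorem realFam_inj (hfree : ∀ (v v' : V) (x : X), v +ᵥ x = v' +ᵥ x → v = v') (hW : Win D W)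
    (hz : ∀ i, z i ∈ PermOn (box C W)) (hz' : ∀ i, z' i ∈ PermOn (box C W))
    (h : realFam D W kap z = realFam D W kap z') {y : X} (hy : y ∈ D) :
    z (kap y) = z' (kap y) := by
  apply Equiv.ext
  rintro ⟨v, c⟩
  by_cases hv : v ∈ W
  · have h1 := realFam_act (kap := kap) hW hz hv hy c
    rw [h, realFam_act (kap := kap) hW hz' hv hy c] at h1
    simp only [Prod.mk.injEq] at h1
    exact (Prod.ext (hfree _ _ _ h1.1) h1.2).symm
  · have hb : (v, c) ∉ box C W := by simp [hv]
    rw [hz _ _ hb, hz' _ _ hb]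

/-- general change of data: window, index function, base point shifted by `u` -/
theorem realFam_change {ι' : Type*} {D' : Set X} {W' : Finset V} {kap' : X → ι'}
    {z' : ι' → Perm (V × C)} (u : V) (hW : Win D W) (hW' : Win D' W')
    (hz : ∀ i, z i ∈ PermOn (box C W)) (hz' : ∀ i, z' i ∈ PermOn (box C W'))
    (hD : ∀ y, y ∈ D ↔ u +ᵥ y ∈ D')
    (hzz : ∀ y ∈ D, z' (kap' (u +ᵥ y)) = shift (-u) (z (kap y))) :
    realFam D W kap z = realFam D' W' kap' z' := by
  apply realFam_eq
  have hsym : ∀ y ∈ D, ∀ v c, z' (kap' (u +ᵥ y)) (v - u, c) =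
      ((z (kap y) (v, c)).1 - u, (z (kap y) (v, c)).2) := by
    intro y hy v c
    rw [hzz y hy, shift_apply]
    simp [sub_eq_add_neg]
  have hpt : ∀ (v : V) (y : X), v +ᵥ y = (v - u) +ᵥ (u +ᵥ y) := by
    intro v y; rw [vadd_vadd]; simp
  constructor
  · intro v hv y hy c
    by_cases hv' : v - u ∈ W'
    · rw [hpt v y, realFam_act hW' hz' hv' ((hD y).1 hy), hsym y hy, ← hpt]
    · have h1 : z' (kap' (u +ᵥ y)) (v - u, c) = (v - u, c) := hz' _ _ (by simp [hv'])
      rw [hsym y hy] at h1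
      have h2 : z (kap y) (v, c) = (v, c) := by
        simp only [Prod.mk.injEq, sub_left_inj] at h1
        exact Prod.ext h1.1 h1.2
      rw [h2]
      by_cases hx : ∀ v' ∈ W', ∀ y' ∈ D', v +ᵥ y ≠ v' +ᵥ y'
      · exact realFam_fix hW' hz' hx
      · push Not at hx
        obtain ⟨v', hv'', y', hy', he⟩ := hx
        -- `v' + u` is a position of `y1 = -u + y'`
        obtain ⟨y1, rfl⟩ : ∃ y1, y' = u +ᵥ y1 := ⟨-u +ᵥ y', by simp⟩
        have hy1 : y1 ∈ D := (hD y1).2 hy'
        have he' : v +ᵥ y = (v' + u) +ᵥ y1 := by rw [he, vadd_vadd]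
        by_cases hv3 : v' + u ∈ W
        · have := hW v hv _ hv3 y hy y1 hy1 he'
          exact absurd (by rw [this]; simpa using hv'') hv'
        · rw [he, realFam_act hW' hz' hv'' hy']
          have h3 : z (kap y1) (v' + u, c) = (v' + u, c) := hz _ _ (by simp [hv3])
          have h4 := hsym y1 hy1 (v' + u) c
          rw [h3] at h4
          simp only [add_sub_cancel_right] at h4
          rw [h4]
  · intro x c hx
    by_cases hx' : ∀ v' ∈ W', ∀ y' ∈ D', x ≠ v' +ᵥ y'
    · exact realFam_fix hW' hz' hx'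
    · push Not at hx'
      obtain ⟨v', hv', y', hy', rfl⟩ := hx'
      obtain ⟨y1, rfl⟩ : ∃ y1, y' = u +ᵥ y1 := ⟨-u +ᵥ y', by simp⟩
      have hy1 : y1 ∈ D := (hD y1).2 hy'
      have hv3 : v' + u ∉ W := by
        intro h
        exact hx _ h y1 hy1 (by rw [vadd_vadd])
      rw [realFam_act hW' hz' hv' hy']
      have h3 : z (kap y1) (v' + u, c) = (v' + u, c) := hz _ _ (by simp [hv3])
      have h4 := hsym y1 hy1 (v' + u) c
      rw [h3] at h4
      simp only [add_sub_cancel_right] at h4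
      rw [h4]

/-- refinement of the index function, change of window -/
theorem realFam_refine {ι' : Type*} {W' : Finset V} {kap' : X → ι'} (ρ : ι' → ι)
    (hW : Win D W) (hW' : Win D W') (hz : ∀ i, z i ∈ PermOn (box C W))
    (hz' : ∀ i, z i ∈ PermOn (box C W')) (hρ : ∀ y ∈ D, kap y = ρ (kap' y)) :
    realFam D W kap z = realFam D W' kap' (fun i => z (ρ i)) := by
  apply realFam_change 0 hW hW' hz (fun i => hz' _) (by simp)
  intro y hy
  simp [hρ y hy]

/-- window independence -/
theorem realFam_window {W' : Finset V} (hW : Win D W) (hW' : Win D W')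
    (hz : ∀ i, z i ∈ PermOn (box C W)) (hz' : ∀ i, z i ∈ PermOn (box C W')) :
    realFam D W kap z = realFam D W' kap z :=
  realFam_refine id hW hW' hz hz' (fun _ _ => rfl)

/-- permutations over windows whose translates are disjoint commute -/
theorem realFam_commute {ι' : Type*} {D' : Set X} {W' : Finset V} {kap' : X → ι'}
    {z' : ι' → Perm (V × C)} (hW : Win D W) (hW' : Win D' W')
    (hz : ∀ i, z i ∈ PermOn (box C W)) (hz' : ∀ i, z' i ∈ PermOn (box C W'))
    (hd : ∀ v ∈ W, ∀ v' ∈ W', ∀ y ∈ D, ∀ y' ∈ D', v +ᵥ y ≠ v' +ᵥ y') :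
    Commute (realFam D W kap z) (realFam D' W' kap' z') := by
  apply Equiv.ext
  rintro ⟨x, c⟩
  rw [Perm.mul_apply, Perm.mul_apply]
  by_cases hx : ∀ v ∈ W, ∀ y ∈ D, x ≠ v +ᵥ y
  · rw [realFam_fix hW hz hx]
    by_cases hx' : ∀ v ∈ W', ∀ y ∈ D', x ≠ v +ᵥ y
    · rw [realFam_fix hW' hz' hx', realFam_fix hW hz hx]
    · push Not at hx'
      obtain ⟨v, hv, y, hy, rfl⟩ := hx'
      rw [realFam_act hW' hz' hv hy, realFam_fix hW hz]
      intro v1 hv1 y1 hy1 he
      exact hd v1 hv1 _ (PermOn.box_mem (hz' _) hv c) y1 hy1 y hy he.symm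
  · push Not at hx
    obtain ⟨v, hv, y, hy, rfl⟩ := hx
    rw [realFam_act hW hz hv hy, realFam_fix hW' hz' (fun v' hv' y' hy' =>
      hd v hv v' hv' y hy y' hy'), realFam_fix hW' hz' (fun v' hv' y' hy' =>
      hd _ (PermOn.box_mem (hz _) hv c) v' hv' y hy y' hy'), realFam_act hW hz hv hy]

end Real

end Crest.Agent.R189.KR
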