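import Crest.Agent.R189.KCtx

/-!
# Row 189, part F (kernel), R1y: the edge parts (helper610)

`SP.val (lP * uP) = SV.val z * SP.val (famP a)`, `a i = parN (lP i)`, and the same for `Q`.
-/

set_option autoImplicit false
set_option linter.unusedSectionVars false

namespace Crest.Agent.R189.K

open Equiv Equiv.Perm

variable {X Lab Sta C T : Type*} [AddAction (ℤ × ℤ) X] [Fintype C] [DecidableEq C] [Group T]

lemma parN_le_one {Ω : Type*} [DecidableEq Ω] (π : Equiv.Perm Ω) : parN π ≤ 1 := by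
  unfold parN; split_ifs <;> omega

lemma parN_val {Ω : Type*} [DecidableEq Ω] (π : Equiv.Perm Ω) :
    ((parN π : ℕ) : ZMod 2).val = parN π := by
  rw [ZMod.val_natCast]
  exact Nat.mod_eq_of_lt (Nat.lt_succ_of_le (parN_le_one π))

section gen
variable {L : Lev X Lab Sta} {q : T →* Equiv.Perm (X × C)} {ι : Type*} [Finite ι] {κ : X → ι}

/-- splitting off the reference swaps, in `T` -/
theorem SecSys.val_split (S : SecSys L C q κ) {W A B : Finset (ℤ × ℤ)} (hW : L.Dist W)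
    (hA : A ⊆ W) (hB : B ⊆ W) (hd : Disjoint A B) {l u : ι → Equiv.Perm (Om C)}
    (hl : ∀ i, l i ∈ PermOn (win C A)) (hu : ∀ i, u i ∈ PermOn (win C B))
    (hs : ∀ i, sgn (l i) = sgn (u i)) {t t' : Equiv.Perm (Om C)} (ht : t ∈ PermOn (win C A))
    (ht' : t' ∈ PermOn (win C B)) (h2 : t * t = 1) (h2' : t' * t' = 1) (ht1 : sgn t = -1)
    (ht1' : sgn t' = -1) :
    (∀ i, l i * t ^ parN (l i) ∈ AltOn (win C A)) ∧
    (∀ i, u i * t' ^ parN (l i) ∈ AltOn (win C B)) ∧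
    S.val (fun i => l i * u i) = S.val (fun i => l i * t ^ parN (l i)) *
      S.val (fun i => u i * t' ^ parN (l i)) * S.val (fun i => (t * t') ^ parN (l i)) := by
  have hd' : Disjoint (win C A) (win C B) := by
    rw [Finset.disjoint_left]
    intro p hp hp'
    rw [mem_win] at hp hp'
    exact Finset.disjoint_left.1 hd hp hp'
  have e1 : ∀ i, l i * t ^ parN (l i) ∈ AltOn (win C A) := fun i =>
    mul_pow_mem_AltOn (hl i) ht ht1 (sgn_eq_pow_parN _)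
  have e2 : ∀ i, u i * t' ^ parN (l i) ∈ AltOn (win C B) := fun i =>
    mul_pow_mem_AltOn (hu i) ht' ht1' (by rw [← hs i]; exact sgn_eq_pow_parN _)
  have tW : t ∈ PermOn (win C W) := PermOn_mono (win_mono hA) ht
  have tW' : t' ∈ PermOn (win C W) := PermOn_mono (win_mono hB) ht'
  have e3 : ∀ i, (t * t') ^ parN (l i) ∈ AltOn (win C W) := fun i =>
    (AltOn _).pow_mem ⟨(PermOn _).mul_mem tW tW', by
      rw [sgn_mul_on tW tW', ht1, ht1']; rfl⟩ _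
  refine ⟨e1, e2, ?_⟩
  have e1' : ∀ i, l i * t ^ parN (l i) ∈ AltOn (win C W) := fun i =>
    AltOn_mono (win_mono hA) (e1 i)
  have e2' : ∀ i, u i * t' ^ parN (l i) ∈ AltOn (win C W) := fun i =>
    AltOn_mono (win_mono hB) (e2 i)
  rw [← S.val_mul hW e1' e2', ← S.val_mul hW (fun i => (AltOn _).mul_mem (e1' i) (e2' i)) e3]
  congr 1
  funext i
  exact split_parity hd' (hu i) ht ht' h2 h2' (parN (l i))

end gen

namespace Ctx

variable {L : Lev X Lab Sta} {q : T →* Equiv.Perm (X × C)} (M : Ctx L C q)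

lemma dn_mem : M.dn ∈ PermOn (win C (bw (-M.P.s) M.P.s M.P.t0 M.P.t)) := by
  have := M.P.s0; have := M.P.ht0
  apply sw_mem_PermOn
  rw [mem_bw]; dsimp only; omega

lemma up_mem : M.up ∈ PermOn (win C (bw (-M.P.s) M.P.s (M.P.h - M.P.t) (M.P.h - M.P.t0))) := by
  have := M.P.s0; have := M.P.ht0
  apply sw_mem_PermOn
  rw [mem_bw]; dsimp only; omega

lemma lf_mem : M.lf ∈ PermOn (win C (bw M.P.t0 M.P.t (-M.P.s) M.P.s)) := by
  have := M.P.s0; have := M.P.ht0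
  apply sw_mem_PermOn
  rw [mem_bw]; dsimp only; omega

lemma rt_mem : M.rt ∈ PermOn (win C (bw (M.P.w - M.P.t) (M.P.w - M.P.t0) (-M.P.s) M.P.s)) := by
  have := M.P.s0; have := M.P.ht0
  apply sw_mem_PermOn
  rw [mem_bw]; dsimp only; omega

/-- the edge part of kind `P` -/
theorem edgeP_val [Finite Lab] [Finite Sta] {lP uP : ZMod L.n × Lab → Equiv.Perm (Om C)}
    (hl : ∀ i, lP i ∈ PermOn (win C (bw (-M.P.s) M.P.s M.P.t0 M.P.t)))
    (hu : ∀ i, uP i ∈ PermOn (win C (bw (-M.P.s) M.P.s (M.P.h - M.P.t) (M.P.h - M.P.t0))))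
    (hs : ∀ i, sgn (lP i) = sgn (uP i)) :
    ∃ z : ZMod L.n × Sta → Equiv.Perm (Om C), (∀ i, z i ∈ AltOn (win C M.WB)) ∧
      M.SP.val (fun i => lP i * uP i) =
        M.SV.val z * M.SP.val (M.famP (fun i => (parN (lP i) : ZMod 2))) := by
  have : NeZero L.n := ⟨L.n_pos.ne'⟩
  have g1 := M.P.d0; have g2 := M.P.s0; have g3 := M.P.hst; have g4 := M.P.htd
  have g5 := M.P.ht0; have g6 := M.P.m3; have g7 := M.P.m4; have g8 := M.hh
  have hA : bw (-M.P.s) M.P.s M.P.t0 M.P.t ⊆ bw (-M.P.s) M.P.s M.P.t0 (M.P.h - M.P.t0) := by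
    intro v hv; rw [mem_bw] at hv ⊢; omega
  have hB : bw (-M.P.s) M.P.s (M.P.h - M.P.t) (M.P.h - M.P.t0) ⊆
      bw (-M.P.s) M.P.s M.P.t0 (M.P.h - M.P.t0) := by
    intro v hv; rw [mem_bw] at hv ⊢; omega
  have hd : Disjoint (bw (-M.P.s) M.P.s M.P.t0 M.P.t)
      (bw (-M.P.s) M.P.s (M.P.h - M.P.t) (M.P.h - M.P.t0)) := by
    rw [Finset.disjoint_left]; intro v hv hv'; rw [mem_bw] at hv hv'; omega
  obtain ⟨e1, e2, e3⟩ := M.SP.val_split M.dWP hA hB hd hl hu hs M.dn_mem M.up_mem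
    (sw_mul_self _) (sw_mul_self _) (sgn_sw M.hc _) (sgn_sw M.hc _)
  have z1 : ∀ i : ZMod L.n × Sta,
      lP (i.1, L.sPf i.2) * M.dn ^ parN (lP (i.1, L.sPf i.2)) ∈ AltOn (win C M.WB) := by
    intro i
    refine AltOn_mono (win_mono ?_) (e1 (i.1, L.sPf i.2))
    intro v hv; rw [mem_bw] at hv ⊢; omega
  have z2 : ∀ i : ZMod L.n × Sta,
      sh (0, -L.h) (uP (i.1 - 1, L.sPb i.2) * M.up ^ parN (lP (i.1 - 1, L.sPb i.2))) ∈
        AltOn (win C M.WB) := by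
    intro i
    refine sh_mem_altOn (e2 (i.1 - 1, L.sPb i.2)) ?_
    intro v hv; rw [mem_bw] at hv ⊢
    simp only [Prod.fst_add, Prod.snd_add]; omega
  refine ⟨_, fun i => (AltOn _).mul_mem (z1 i) (z2 i), ?_⟩
  rw [e3, M.val_PV (M.dWP.mono hA) e1, M.val_PVp (M.dWP.mono hB) e2, ← M.SV.val_mul M.dB z1 z2]
  congr 2
  funext i
  rw [famP, parN_val]

/-- the edge part of kind `Q` -/
theorem edgeQ_val [Finite Lab] [Finite Sta] {lQ uQ : ZMod L.n × Lab → Equiv.Perm (Om C)}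
    (hl : ∀ i, lQ i ∈ PermOn (win C (bw M.P.t0 M.P.t (-M.P.s) M.P.s)))
    (hu : ∀ i, uQ i ∈ PermOn (win C (bw (M.P.w - M.P.t) (M.P.w - M.P.t0) (-M.P.s) M.P.s)))
    (hs : ∀ i, sgn (lQ i) = sgn (uQ i)) :
    ∃ z : ZMod L.n × Sta → Equiv.Perm (Om C), (∀ i, z i ∈ AltOn (win C M.WB)) ∧
      M.SQ.val (fun i => lQ i * uQ i) =
        M.SV.val z * M.SQ.val (M.famQ (fun i => (parN (lQ i) : ZMod 2))) := by
  have : NeZero L.n := ⟨L.n_pos.ne'⟩
  have g1 := M.P.d0; have g2 := M.P.s0; have g3 := M.P.hst; have g4 := M.P.htd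
  have g5 := M.P.ht0; have g6 := M.P.m1; have g7 := M.P.m2; have g8 := M.hw
  have hA : bw M.P.t0 M.P.t (-M.P.s) M.P.s ⊆ bw M.P.t0 (M.P.w - M.P.t0) (-M.P.s) M.P.s := by
    intro v hv; rw [mem_bw] at hv ⊢; omega
  have hB : bw (M.P.w - M.P.t) (M.P.w - M.P.t0) (-M.P.s) M.P.s ⊆
      bw M.P.t0 (M.P.w - M.P.t0) (-M.P.s) M.P.s := by
    intro v hv; rw [mem_bw] at hv ⊢; omega
  have hd : Disjoint (bw M.P.t0 M.P.t (-M.P.s) M.P.s)
      (bw (M.P.w - M.P.t) (M.P.w - M.P.t0) (-M.P.s) M.P.s) := by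
    rw [Finset.disjoint_left]; intro v hv hv'; rw [mem_bw] at hv hv'; omega
  obtain ⟨e1, e2, e3⟩ := M.SQ.val_split M.dWQ hA hB hd hl hu hs M.lf_mem M.rt_mem
    (sw_mul_self _) (sw_mul_self _) (sgn_sw M.hc _) (sgn_sw M.hc _)
  have z1 : ∀ i : ZMod L.n × Sta,
      lQ (i.1, L.sQf i.2) * M.lf ^ parN (lQ (i.1, L.sQf i.2)) ∈ AltOn (win C M.WB) := by
    intro i
    refine AltOn_mono (win_mono ?_) (e1 (i.1, L.sQf i.2))
    intro v hv; rw [mem_bw] at hv ⊢; omega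
  have z2 : ∀ i : ZMod L.n × Sta,
      sh (-L.w, 0) (uQ (i.1, L.lft i.1 i.2) * M.rt ^ parN (lQ (i.1, L.lft i.1 i.2))) ∈
        AltOn (win C M.WB) := by
    intro i
    refine sh_mem_altOn (e2 (i.1, L.lft i.1 i.2)) ?_
    intro v hv; rw [mem_bw] at hv ⊢
    simp only [Prod.fst_add, Prod.snd_add]; omega
  refine ⟨_, fun i => (AltOn _).mul_mem (z1 i) (z2 i), ?_⟩
  rw [e3, M.val_QV (M.dWQ.mono hA) e1, M.val_QVq (M.dWQ.mono hB) e2, ← M.SV.val_mul M.dB z1 z2]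
  congr 2
  funext i
  rw [famQ, parN_val]

end Ctx

end Crest.Agent.R189.K
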