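import Crest.Agent.R189.KCtx
import Crest.Agent.R189.KLoc2
import Crest.Agent.R189.KRepE

/-!
# Row 189, part F (kernel, R1y): from the peeling of all faces and edges to `M.Rep w a b`
-/

set_option autoImplicit false
set_option linter.unusedSectionVars false

namespace Crest.Agent.R189.K

open Equiv Equiv.Perm
open KFlux (bx mem_bx)

section shw
variable {C : Type*} [Fintype C] [DecidableEq C]

lemma sh_bw_mem {x0 x1 y0 y1 : ℤ} {g : Equiv.Perm (Om C)} (hg : g ∈ AltOn (win C (bw x0 x1 y0 y1)))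
    (u : ℤ × ℤ) {x0' x1' y0' y1' : ℤ} (h0 : x0' ≤ x0 + u.1) (h1 : x1 + u.1 ≤ x1')
    (h2 : y0' ≤ y0 + u.2) (h3 : y1 + u.2 ≤ y1') :
    sh u g ∈ AltOn (win C (bw x0' x1' y0' y1')) := by
  have h := sh_mem_AltOn hg (-u)
  rw [neg_neg] at h
  refine AltOn_mono (win_mono ?_) h
  intro v hv
  obtain ⟨v', hv', rfl⟩ := Finset.mem_image.1 hv
  rw [mem_bw] at hv' ⊢
  simp only [Prod.fst_sub, Prod.snd_sub, Prod.fst_neg, Prod.snd_neg]
  omega

lemma bw_mono {x0 x1 y0 y1 x0' x1' y0' y1' : ℤ} (h0 : x0' ≤ x0) (h1 : x1 ≤ x1')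
    (h2 : y0' ≤ y0) (h3 : y1 ≤ y1') {g : Equiv.Perm (Om C)}
    (hg : g ∈ AltOn (win C (bw x0 x1 y0 y1))) : g ∈ AltOn (win C (bw x0' x1' y0' y1')) := by
  refine AltOn_mono (win_mono ?_) hg
  intro v hv
  rw [mem_bw] at hv ⊢
  omega

end shw

variable {X Lab Sta C T : Type*} [AddAction (ℤ × ℤ) X] [Fintype C] [DecidableEq C] [Group T]
variable {L : Lev X Lab Sta} {q : T →* Equiv.Perm (X × C)}

namespace Ctx

variable (M : Ctx L C q) [Finite Lab] [Finite Sta]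

/-- the corners of the faces -/
theorem K_val {k00 k10 k01 k11 : ZMod L.n → Equiv.Perm (Om C)}
    (m00 : ∀ j, k00 j ∈ AltOn (M.P.c00 C)) (m10 : ∀ j, k10 j ∈ AltOn (M.P.c10 C))
    (m01 : ∀ j, k01 j ∈ AltOn (M.P.c01 C)) (m11 : ∀ j, k11 j ∈ AltOn (M.P.c11 C)) :
    ∃ z : ZMod L.n × Sta → Equiv.Perm (Om C), (∀ i, z i ∈ AltOn (win C M.WB)) ∧
      M.SF.val (fun j => k00 j * k10 j * k01 j * k11 j) = M.SV.val z := by
  have : NeZero L.n := ⟨L.n_pos.ne'⟩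
  have h1 := M.P.m1; have h2 := M.P.m2; have h3 := M.P.m3; have h4 := M.P.m4
  have h5 := M.P.d0; have hw := M.hw; have hh := M.hh; have h6 := M.P.hst; have h7 := M.P.ht0
  have h8 := M.P.s0
  have n00 : ∀ j, k00 j ∈ AltOn (win C (bw 0 M.P.t 0 M.P.t)) := m00
  have n10 : ∀ j, k10 j ∈ AltOn (win C (bw (M.P.w - M.P.t) M.P.w 0 M.P.t)) := m10
  have n01 : ∀ j, k01 j ∈ AltOn (win C (bw 0 M.P.t (M.P.h - M.P.t) M.P.h)) := m01
  have n11 : ∀ j, k11 j ∈ AltOn (win C (bw (M.P.w - M.P.t) M.P.w (M.P.h - M.P.t) M.P.h)) := m11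
  have d00 : L.Dist (bw 0 M.P.t 0 M.P.t) := Lev.dist_bw (by omega) (by omega)
  have d10 : L.Dist (bw (M.P.w - M.P.t) M.P.w 0 M.P.t) := Lev.dist_bw (by omega) (by omega)
  have d01 : L.Dist (bw 0 M.P.t (M.P.h - M.P.t) M.P.h) := Lev.dist_bw (by omega) (by omega)
  have d11 : L.Dist (bw (M.P.w - M.P.t) M.P.w (M.P.h - M.P.t) M.P.h) :=
    Lev.dist_bw (by omega) (by omega)
  have f00 : ∀ j, k00 j ∈ AltOn (win C (bw 0 M.P.w 0 M.P.h)) :=
    fun j => bw_mono (by omega) (by omega) (by omega) (by omega) (n00 j)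
  have f10 : ∀ j, k10 j ∈ AltOn (win C (bw 0 M.P.w 0 M.P.h)) :=
    fun j => bw_mono (by omega) (by omega) (by omega) (by omega) (n10 j)
  have f01 : ∀ j, k01 j ∈ AltOn (win C (bw 0 M.P.w 0 M.P.h)) :=
    fun j => bw_mono (by omega) (by omega) (by omega) (by omega) (n01 j)
  have f11 : ∀ j, k11 j ∈ AltOn (win C (bw 0 M.P.w 0 M.P.h)) :=
    fun j => bw_mono (by omega) (by omega) (by omega) (by omega) (n11 j)
  have b00 : ∀ i : ZMod L.n × Sta, k00 i.1 ∈ AltOn (win C M.WB) :=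
    fun i => bw_mono (by omega) (by omega) (by omega) (by omega) (n00 _)
  have b10 : ∀ i : ZMod L.n × Sta, sh (-L.w, 0) (k10 i.1) ∈ AltOn (win C M.WB) :=
    fun i => sh_bw_mem (n10 _) _ (by simp only; omega) (by simp only; omega)
      (by simp only; omega) (by simp only; omega)
  have b01 : ∀ i : ZMod L.n × Sta, sh (0, -L.h) (k01 (i.1 - 1)) ∈ AltOn (win C M.WB) :=
    fun i => sh_bw_mem (n01 _) _ (by simp only; omega) (by simp only; omega)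
      (by simp only; omega) (by simp only; omega)
  have b11 : ∀ i : ZMod L.n × Sta, sh (-L.w, -L.h) (k11 (i.1 - 1)) ∈ AltOn (win C M.WB) :=
    fun i => sh_bw_mem (n11 _) _ (by simp only; omega) (by simp only; omega)
      (by simp only; omega) (by simp only; omega)
  refine ⟨fun i => k00 i.1 * sh (-L.w, 0) (k10 i.1) * sh (0, -L.h) (k01 (i.1 - 1)) *
    sh (-L.w, -L.h) (k11 (i.1 - 1)), fun i => mul_mem (mul_mem (mul_mem (b00 i) (b10 i)) (b01 i))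
      (b11 i), ?_⟩
  rw [M.SF.val_mul M.dWF (z := fun j => k00 j * k10 j * k01 j)
      (fun j => mul_mem (mul_mem (f00 j) (f10 j)) (f01 j)) f11,
    M.SF.val_mul M.dWF (z := fun j => k00 j * k10 j) (fun j => mul_mem (f00 j) (f10 j)) f01,
    M.SF.val_mul M.dWF f00 f10, M.val_FV d00 n00, M.val_FVq d10 n10, M.val_FVp d01 n01,
    M.val_FVpq d11 n11, ← M.SV.val_mul M.dB b00 b10,
    ← M.SV.val_mul M.dB (fun i => mul_mem (b00 i) (b10 i)) b01,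
    ← M.SV.val_mul M.dB (fun i => mul_mem (mul_mem (b00 i) (b10 i)) (b01 i)) b11]

/-- the edge pieces of the faces -/
theorem G_val {gL gR gB gT : ZMod L.n → Equiv.Perm (Om C)}
    (mL : ∀ j, gL j ∈ AltOn (M.P.vS C 0 M.P.s))
    (mR : ∀ j, gR j ∈ AltOn (M.P.vS C (M.P.w - M.P.s) M.P.w))
    (mB : ∀ j, gB j ∈ AltOn (M.P.hS C 0 M.P.s))
    (mT : ∀ j, gT j ∈ AltOn (M.P.hS C (M.P.h - M.P.s) M.P.h)) :
    M.SF.val (fun j => gL j * gR j * gB j * gT j) =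
      M.SP.val (fun i => Geo.gamP M.P (gL i.1) (gR i.1)) *
      M.SQ.val (fun i => Geo.gamQ M.P (gB i.1) (gT (i.1 - 1))) := by
  have : NeZero L.n := ⟨L.n_pos.ne'⟩
  have h1 := M.P.m1; have h2 := M.P.m2; have h3 := M.P.m3; have h4 := M.P.m4
  have h5 := M.P.d0; have hw := M.hw; have hh := M.hh; have h6 := M.P.hst; have h7 := M.P.ht0
  have h8 := M.P.s0; have h9 := M.P.htd
  have nL : ∀ j, gL j ∈ AltOn (win C (bw 0 M.P.s M.P.t0 (M.P.h - M.P.t0))) := mL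
  have nR : ∀ j, gR j ∈ AltOn (win C (bw (M.P.w - M.P.s) M.P.w M.P.t0 (M.P.h - M.P.t0))) := mR
  have nB : ∀ j, gB j ∈ AltOn (win C (bw M.P.t0 (M.P.w - M.P.t0) 0 M.P.s)) := mB
  have nT : ∀ j, gT j ∈ AltOn (win C (bw M.P.t0 (M.P.w - M.P.t0) (M.P.h - M.P.s) M.P.h)) := mT
  have dL : L.Dist (bw 0 M.P.s M.P.t0 (M.P.h - M.P.t0)) := Lev.dist_bw (by omega) (by omega)
  have dR : L.Dist (bw (M.P.w - M.P.s) M.P.w M.P.t0 (M.P.h - M.P.t0)) :=
    Lev.dist_bw (by omega) (by omega)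
  have dB : L.Dist (bw M.P.t0 (M.P.w - M.P.t0) 0 M.P.s) := Lev.dist_bw (by omega) (by omega)
  have dT : L.Dist (bw M.P.t0 (M.P.w - M.P.t0) (M.P.h - M.P.s) M.P.h) :=
    Lev.dist_bw (by omega) (by omega)
  have fL : ∀ j, gL j ∈ AltOn (win C (bw 0 M.P.w 0 M.P.h)) :=
    fun j => bw_mono (by omega) (by omega) (by omega) (by omega) (nL j)
  have fR : ∀ j, gR j ∈ AltOn (win C (bw 0 M.P.w 0 M.P.h)) :=
    fun j => bw_mono (by omega) (by omega) (by omega) (by omega) (nR j)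
  have fB : ∀ j, gB j ∈ AltOn (win C (bw 0 M.P.w 0 M.P.h)) :=
    fun j => bw_mono (by omega) (by omega) (by omega) (by omega) (nB j)
  have fT : ∀ j, gT j ∈ AltOn (win C (bw 0 M.P.w 0 M.P.h)) :=
    fun j => bw_mono (by omega) (by omega) (by omega) (by omega) (nT j)
  have pL : ∀ i : ZMod L.n × Lab, gL i.1 ∈
      AltOn (win C (bw (-M.P.s) M.P.s M.P.t0 (M.P.h - M.P.t0))) :=
    fun i => bw_mono (by omega) (by omega) (by omega) (by omega) (nL _)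
  have pR : ∀ i : ZMod L.n × Lab, sh (-L.w, 0) (gR i.1) ∈
      AltOn (win C (bw (-M.P.s) M.P.s M.P.t0 (M.P.h - M.P.t0))) :=
    fun i => sh_bw_mem (nR _) _ (by simp only; omega) (by simp only; omega)
      (by simp only; omega) (by simp only; omega)
  have pB : ∀ i : ZMod L.n × Lab, gB i.1 ∈
      AltOn (win C (bw M.P.t0 (M.P.w - M.P.t0) (-M.P.s) M.P.s)) :=
    fun i => bw_mono (by omega) (by omega) (by omega) (by omega) (nB _)
  have pT : ∀ i : ZMod L.n × Lab, sh (0, -L.h) (gT (i.1 - 1)) ∈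
      AltOn (win C (bw M.P.t0 (M.P.w - M.P.t0) (-M.P.s) M.P.s)) :=
    fun i => sh_bw_mem (nT _) _ (by simp only; omega) (by simp only; omega)
      (by simp only; omega) (by simp only; omega)
  rw [M.SF.val_mul M.dWF (z := fun j => gL j * gR j * gB j)
      (fun j => mul_mem (mul_mem (fL j) (fR j)) (fB j)) fT,
    M.SF.val_mul M.dWF (z := fun j => gL j * gR j) (fun j => mul_mem (fL j) (fR j)) fB,
    M.SF.val_mul M.dWF fL fR, M.val_FP dL nL, M.val_FPq dR nR, M.val_FQ dB nB,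
    M.val_FQp dT nT, ← M.SP.val_mul M.dWP pL pR, mul_assoc, ← M.SQ.val_mul M.dWQ pB pT]
  simp only [Geo.gamP, Geo.gamQ, hw, hh]

/-- the face families -/
theorem F_val {f gL gR gB gT k00 k10 k01 k11 : ZMod L.n → Equiv.Perm (Om C)}
    (hf : ∀ j, f j ∈ AltOn (win C (bw 0 M.P.w 0 M.P.h)))
    (mL : ∀ j, gL j ∈ AltOn (M.P.vS C 0 M.P.s))
    (mR : ∀ j, gR j ∈ AltOn (M.P.vS C (M.P.w - M.P.s) M.P.w))
    (mB : ∀ j, gB j ∈ AltOn (M.P.hS C 0 M.P.s))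
    (mT : ∀ j, gT j ∈ AltOn (M.P.hS C (M.P.h - M.P.s) M.P.h))
    (m00 : ∀ j, k00 j ∈ AltOn (M.P.c00 C)) (m10 : ∀ j, k10 j ∈ AltOn (M.P.c10 C))
    (m01 : ∀ j, k01 j ∈ AltOn (M.P.c01 C)) (m11 : ∀ j, k11 j ∈ AltOn (M.P.c11 C))
    (h : ∀ j, f j * (gL j * gR j * gB j * gT j) = k00 j * k10 j * k01 j * k11 j) :
    ∃ z : ZMod L.n × Sta → Equiv.Perm (Om C), (∀ i, z i ∈ AltOn (win C M.WB)) ∧
      M.SF.val f = M.SV.val z *
        (M.SQ.val (fun i => Geo.gamQ M.P (gB i.1) (gT (i.1 - 1))))⁻¹ *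
        (M.SP.val (fun i => Geo.gamP M.P (gL i.1) (gR i.1)))⁻¹ := by
  have : NeZero L.n := ⟨L.n_pos.ne'⟩
  have h1 := M.P.m1; have h2 := M.P.m2; have h3 := M.P.m3; have h4 := M.P.m4
  have h5 := M.P.d0; have hw := M.hw; have hh := M.hh; have h6 := M.P.hst; have h7 := M.P.ht0
  have h8 := M.P.s0; have h9 := M.P.htd
  obtain ⟨z, hz, hK⟩ := M.K_val m00 m10 m01 m11
  refine ⟨z, hz, ?_⟩
  have nL : ∀ j, gL j ∈ AltOn (win C (bw 0 M.P.s M.P.t0 (M.P.h - M.P.t0))) := mL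
  have nR : ∀ j, gR j ∈ AltOn (win C (bw (M.P.w - M.P.s) M.P.w M.P.t0 (M.P.h - M.P.t0))) := mR
  have nB : ∀ j, gB j ∈ AltOn (win C (bw M.P.t0 (M.P.w - M.P.t0) 0 M.P.s)) := mB
  have nT : ∀ j, gT j ∈ AltOn (win C (bw M.P.t0 (M.P.w - M.P.t0) (M.P.h - M.P.s) M.P.h)) := mT
  have fL : ∀ j, gL j ∈ AltOn (win C (bw 0 M.P.w 0 M.P.h)) :=
    fun j => bw_mono (by omega) (by omega) (by omega) (by omega) (nL j)
  have fR : ∀ j, gR j ∈ AltOn (win C (bw 0 M.P.w 0 M.P.h)) :=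
    fun j => bw_mono (by omega) (by omega) (by omega) (by omega) (nR j)
  have fB : ∀ j, gB j ∈ AltOn (win C (bw 0 M.P.w 0 M.P.h)) :=
    fun j => bw_mono (by omega) (by omega) (by omega) (by omega) (nB j)
  have fT : ∀ j, gT j ∈ AltOn (win C (bw 0 M.P.w 0 M.P.h)) :=
    fun j => bw_mono (by omega) (by omega) (by omega) (by omega) (nT j)
  have e1 : M.SF.val (fun j => f j * (gL j * gR j * gB j * gT j)) =
      M.SF.val f * M.SF.val (fun j => gL j * gR j * gB j * gT j) :=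
    M.SF.val_mul M.dWF hf
      (fun j => mul_mem (mul_mem (mul_mem (fL j) (fR j)) (fB j)) (fT j))
  have e2 : M.SF.val (fun j => f j * (gL j * gR j * gB j * gT j)) = M.SV.val z := by
    rw [← hK]; congr 1; funext j; exact h j
  rw [M.G_val mL mR mB mT] at e1
  rw [mul_assoc, ← mul_inv_rev, ← e2, e1, mul_inv_cancel_right]

/-- windows of the `P` edges and of the `Q` edges are disjoint modulo the lattice -/
lemma PQ_disj : ∀ v ∈ bw (-M.P.s) M.P.s M.P.t0 (M.P.h - M.P.t0),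
    ∀ v' ∈ bw M.P.t0 (M.P.w - M.P.t0) (-M.P.s) M.P.s,
      ¬ (L.w ∣ v.1 - v'.1 ∧ L.h ∣ v.2 - v'.2) := by
  have h1 := M.P.m1; have h2 := M.P.m2; have h3 := M.P.m3; have h4 := M.P.m4
  have h5 := M.P.d0; have hw := M.hw; have hh := M.hh; have h6 := M.P.hst; have h7 := M.P.ht0
  have h8 := M.P.s0; have h9 := M.P.htd
  intro v hv v' hv' ⟨hd, _⟩
  rw [mem_bw] at hv hv'
  refine not_dvd_of (a := L.w) (b := v'.1 - v.1) ?_ ?_ ?_
  · omega
  · omega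
  · rw [← neg_sub]; exact (dvd_neg (a := L.w)).2 hd

/-- `P` values and `Q` values commute -/
lemma PQ_comm {z : ZMod L.n × Lab → Equiv.Perm (Om C)} {z' : ZMod L.n × Lab → Equiv.Perm (Om C)}
    (hz : ∀ i, z i ∈ AltOn (win C (bw (-M.P.s) M.P.s M.P.t0 (M.P.h - M.P.t0))))
    (hz' : ∀ i, z' i ∈ AltOn (win C (bw M.P.t0 (M.P.w - M.P.t0) (-M.P.s) M.P.s))) :
    Commute (M.SP.val z) (M.SQ.val z') := by
  have : NeZero L.n := ⟨L.n_pos.ne'⟩
  exact M.SP.val_commute M.SQ M.dWP M.dWQ hz hz' M.PQ_disj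

lemma famP_mem (a : ZMod L.n × Lab → ZMod 2) (i : ZMod L.n × Lab) :
    M.famP a i ∈ AltOn (win C (bw (-M.P.s) M.P.s M.P.t0 (M.P.h - M.P.t0))) := by
  have h1 := M.P.m1; have h2 := M.P.m2; have h3 := M.P.m3; have h4 := M.P.m4
  have h5 := M.P.d0; have h6 := M.P.hst; have h7 := M.P.ht0
  have h8 := M.P.s0; have h9 := M.P.htd
  apply (AltOn _).pow_mem
  refine sw_mul_sw_mem M.hc ?_ ?_
  · rw [mem_bw]; dsimp only; omega
  · rw [mem_bw]; dsimp only; omega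

lemma famQ_mem (b : ZMod L.n × Lab → ZMod 2) (i : ZMod L.n × Lab) :
    M.famQ b i ∈ AltOn (win C (bw M.P.t0 (M.P.w - M.P.t0) (-M.P.s) M.P.s)) := by
  have h1 := M.P.m1; have h2 := M.P.m2; have h3 := M.P.m3; have h4 := M.P.m4
  have h5 := M.P.d0; have h6 := M.P.hst; have h7 := M.P.ht0
  have h8 := M.P.s0; have h9 := M.P.htd
  apply (AltOn _).pow_mem
  refine sw_mul_sw_mem M.hc ?_ ?_
  · rw [mem_bw]; dsimp only; omega
  · rw [mem_bw]; dsimp only; omega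

/-- (R1y) from the conclusion of the peeling theorem to the parities -/
theorem rep_of_peel {w : T} (hc : w ∈ Subgroup.center T)
    {f : ZMod L.n → Equiv.Perm (Om C)} {eP eQ : ZMod L.n × Lab → Equiv.Perm (Om C)}
    {v : ZMod L.n × Sta → Equiv.Perm (Om C)}
    (hf : ∀ j, f j ∈ AltOn (win C (bw 0 M.P.w 0 M.P.h)))
    (heP : ∀ i, eP i ∈ AltOn (win C (bw (-M.P.s) M.P.s M.P.t0 (M.P.h - M.P.t0))))
    (heQ : ∀ i, eQ i ∈ AltOn (win C (bw M.P.t0 (M.P.w - M.P.t0) (-M.P.s) M.P.s)))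
    (hv : ∀ i, v i ∈ AltOn (win C M.WB))
    (hw1 : w = M.SF.val f * M.SP.val eP * M.SQ.val eQ * M.SV.val v)
    {gL gR gB gT k00 k10 k01 k11 : ZMod L.n → Equiv.Perm (Om C)}
    {lP uP lQ uQ : ZMod L.n → Lab → Equiv.Perm (Om C)}
    (mL : ∀ j, gL j ∈ AltOn (M.P.vS C 0 M.P.s))
    (mR : ∀ j, gR j ∈ AltOn (M.P.vS C (M.P.w - M.P.s) M.P.w))
    (mB : ∀ j, gB j ∈ AltOn (M.P.hS C 0 M.P.s))
    (mT : ∀ j, gT j ∈ AltOn (M.P.hS C (M.P.h - M.P.s) M.P.h))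
    (m00 : ∀ j, k00 j ∈ AltOn (M.P.c00 C)) (m10 : ∀ j, k10 j ∈ AltOn (M.P.c10 C))
    (m01 : ∀ j, k01 j ∈ AltOn (M.P.c01 C)) (m11 : ∀ j, k11 j ∈ AltOn (M.P.c11 C))
    (h : ∀ j, f j * (gL j * gR j * gB j * gT j) = k00 j * k10 j * k01 j * k11 j)
    (mlP : ∀ j l, lP j l ∈ PermOn (M.P.vlo C (-M.P.s) M.P.s))
    (muP : ∀ j l, uP j l ∈ PermOn (M.P.vup C (-M.P.s) M.P.s))
    (mlQ : ∀ j l, lQ j l ∈ PermOn (M.P.hlo C (-M.P.s) M.P.s))
    (muQ : ∀ j l, uQ j l ∈ PermOn (M.P.hup C (-M.P.s) M.P.s))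
    (sP : ∀ j l, sgn (lP j l) = sgn (uP j l)) (sQ : ∀ j l, sgn (lQ j l) = sgn (uQ j l))
    (hP : ∀ j l, oP L j l → (Geo.gamP M.P (gL j) (gR j))⁻¹ * eP (j, l) = lP j l * uP j l)
    (hQ : ∀ j l, oQ L j l →
      (Geo.gamQ M.P (gB j) (gT (j - 1)))⁻¹ * eQ (j, l) = lQ j l * uQ j l) :
    ∃ a b, M.Rep w a b := by
  have : NeZero L.n := ⟨L.n_pos.ne'⟩
  have h1 := M.P.m1; have h2 := M.P.m2; have h3 := M.P.m3; have h4 := M.P.m4
  have h5 := M.P.d0; have h6 := M.P.hst; have h7 := M.P.ht0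
  have h8 := M.P.s0; have h9 := M.P.htd
  obtain ⟨z1, hz1, e1⟩ := M.F_val hf mL mR mB mT m00 m10 m01 m11 h
  -- the edge families after peeling
  have nlP : ∀ i : ZMod L.n × Lab, lP i.1 i.2 ∈
      PermOn (win C (bw (-M.P.s) M.P.s M.P.t0 M.P.t)) := fun i => mlP _ _
  have nuP : ∀ i : ZMod L.n × Lab, uP i.1 i.2 ∈
      PermOn (win C (bw (-M.P.s) M.P.s (M.P.h - M.P.t) (M.P.h - M.P.t0))) := fun i => muP _ _
  have nlQ : ∀ i : ZMod L.n × Lab, lQ i.1 i.2 ∈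
      PermOn (win C (bw M.P.t0 M.P.t (-M.P.s) M.P.s)) := fun i => mlQ _ _
  have nuQ : ∀ i : ZMod L.n × Lab, uQ i.1 i.2 ∈
      PermOn (win C (bw (M.P.w - M.P.t) (M.P.w - M.P.t0) (-M.P.s) M.P.s)) := fun i => muQ _ _
  obtain ⟨zP, hzP, eqP⟩ := M.edgeP_val nlP nuP (fun i => sP i.1 i.2)
  obtain ⟨zQ, hzQ, eqQ⟩ := M.edgeQ_val nlQ nuQ (fun i => sQ i.1 i.2)
  have gP : ∀ i : ZMod L.n × Lab, Geo.gamP M.P (gL i.1) (gR i.1) ∈
      AltOn (win C (bw (-M.P.s) M.P.s M.P.t0 (M.P.h - M.P.t0))) :=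
    fun i => Geo.gamP_mem (mL _) (mR _)
  have gQ : ∀ i : ZMod L.n × Lab, Geo.gamQ M.P (gB i.1) (gT (i.1 - 1)) ∈
      AltOn (win C (bw M.P.t0 (M.P.w - M.P.t0) (-M.P.s) M.P.s)) :=
    fun i => Geo.gamQ_mem (mB _) (mT _)
  have aP : ∀ i : ZMod L.n × Lab, lP i.1 i.2 * uP i.1 i.2 ∈
      AltOn (win C (bw (-M.P.s) M.P.s M.P.t0 (M.P.h - M.P.t0))) := by
    intro i
    have hl : lP i.1 i.2 ∈ PermOn (win C (bw (-M.P.s) M.P.s M.P.t0 (M.P.h - M.P.t0))) := by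
      refine PermOn_mono (win_mono ?_) (nlP i)
      intro v hv; rw [mem_bw] at hv ⊢; omega
    have hu : uP i.1 i.2 ∈ PermOn (win C (bw (-M.P.s) M.P.s M.P.t0 (M.P.h - M.P.t0))) := by
      refine PermOn_mono (win_mono ?_) (nuP i)
      intro v hv; rw [mem_bw] at hv ⊢; omega
    refine ⟨mul_mem hl hu, ?_⟩
    rw [sgn_mul_on hl hu, sP]
    exact Int.units_mul_self _
  have aQ : ∀ i : ZMod L.n × Lab, lQ i.1 i.2 * uQ i.1 i.2 ∈
      AltOn (win C (bw M.P.t0 (M.P.w - M.P.t0) (-M.P.s) M.P.s)) := by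
    intro i
    have hl : lQ i.1 i.2 ∈ PermOn (win C (bw M.P.t0 (M.P.w - M.P.t0) (-M.P.s) M.P.s)) := by
      refine PermOn_mono (win_mono ?_) (nlQ i)
      intro v hv; rw [mem_bw] at hv ⊢; omega
    have hu : uQ i.1 i.2 ∈ PermOn (win C (bw M.P.t0 (M.P.w - M.P.t0) (-M.P.s) M.P.s)) := by
      refine PermOn_mono (win_mono ?_) (nuQ i)
      intro v hv; rw [mem_bw] at hv ⊢; omega
    refine ⟨mul_mem hl hu, ?_⟩
    rw [sgn_mul_on hl hu, sQ]
    exact Int.units_mul_self _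
  -- SP (gamP)⁻¹ * SP eP = SP (lP uP)
  have e2 : (M.SP.val (fun i => Geo.gamP M.P (gL i.1) (gR i.1)))⁻¹ * M.SP.val eP =
      M.SP.val (fun i : ZMod L.n × Lab => lP i.1 i.2 * uP i.1 i.2) := by
    rw [← M.SP.val_inv M.dWP gP, ← M.SP.val_mul M.dWP (fun i => inv_mem (gP i)) heP]
    refine M.SP.val_congr M.dWP (fun i => mul_mem (inv_mem (gP i)) (heP i)) aP ?_
    intro x hx
    exact hP _ _ ⟨x, hx, rfl⟩
  have e3 : (M.SQ.val (fun i => Geo.gamQ M.P (gB i.1) (gT (i.1 - 1))))⁻¹ * M.SQ.val eQ =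
      M.SQ.val (fun i : ZMod L.n × Lab => lQ i.1 i.2 * uQ i.1 i.2) := by
    rw [← M.SQ.val_inv M.dWQ gQ, ← M.SQ.val_mul M.dWQ (fun i => inv_mem (gQ i)) heQ]
    refine M.SQ.val_congr M.dWQ (fun i => mul_mem (inv_mem (gQ i)) (heQ i)) aQ ?_
    intro x hx
    exact hQ _ _ ⟨x, hx, rfl⟩
  have c1 : Commute (M.SP.val (fun i : ZMod L.n × Lab => lP i.1 i.2 * uP i.1 i.2))
      (M.SQ.val (fun i => Geo.gamQ M.P (gB i.1) (gT (i.1 - 1)))) := M.PQ_comm aP gQ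
  have c2 : Commute (M.SP.val (M.famP (fun i => (parN (lP i.1 i.2) : ZMod 2))))
      (M.SQ.val (fun i : ZMod L.n × Lab => lQ i.1 i.2 * uQ i.1 i.2)) :=
    M.PQ_comm (M.famP_mem _) aQ
  have c3 : Commute (M.SP.val (M.famP (fun i => (parN (lP i.1 i.2) : ZMod 2))))
      (M.SQ.val (M.famQ (fun i => (parN (lQ i.1 i.2) : ZMod 2)))) :=
    M.PQ_comm (M.famP_mem _) (M.famQ_mem _)
  set GP := M.SP.val (fun i => Geo.gamP M.P (gL i.1) (gR i.1)) with hGP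
  set GQ := M.SQ.val (fun i => Geo.gamQ M.P (gB i.1) (gT (i.1 - 1))) with hGQ
  set A := M.SP.val (fun i : ZMod L.n × Lab => lP i.1 i.2 * uP i.1 i.2) with hA
  set B := M.SQ.val (fun i : ZMod L.n × Lab => lQ i.1 i.2 * uQ i.1 i.2) with hB
  set FP := M.SP.val (M.famP (fun i => (parN (lP i.1 i.2) : ZMod 2))) with hFP
  set FQ := M.SQ.val (M.famQ (fun i => (parN (lQ i.1 i.2) : ZMod 2))) with hFQ
  have e4 : w = M.SV.val z1 * M.SV.val zP * M.SV.val zQ * (FP * FQ) * M.SV.val v := by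
    calc w = M.SF.val f * M.SP.val eP * M.SQ.val eQ * M.SV.val v := hw1
      _ = M.SV.val z1 * GQ⁻¹ * (GP⁻¹ * M.SP.val eP) * M.SQ.val eQ * M.SV.val v := by
          rw [e1]; simp only [mul_assoc]
      _ = M.SV.val z1 * (GQ⁻¹ * A) * M.SQ.val eQ * M.SV.val v := by
          rw [e2]; simp only [mul_assoc]
      _ = M.SV.val z1 * (A * GQ⁻¹) * M.SQ.val eQ * M.SV.val v := by
          rw [(c1.inv_right).eq]
      _ = M.SV.val z1 * A * (GQ⁻¹ * M.SQ.val eQ) * M.SV.val v := by simp only [mul_assoc]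
      _ = M.SV.val z1 * A * B * M.SV.val v := by rw [e3]
      _ = M.SV.val z1 * M.SV.val zP * (FP * B) * M.SV.val v := by
          rw [eqP]; simp only [mul_assoc]
      _ = M.SV.val z1 * M.SV.val zP * (B * FP) * M.SV.val v := by rw [c2.eq]
      _ = M.SV.val z1 * M.SV.val zP * M.SV.val zQ * (FQ * FP) * M.SV.val v := by
          rw [eqQ]; simp only [mul_assoc]
      _ = _ := by rw [c3.eq]
  refine ⟨fun i => (parN (lP i.1 i.2) : ZMod 2), fun i => (parN (lQ i.1 i.2) : ZMod 2),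
    fun i => v i * z1 i * zP i * zQ i, ?_, ?_⟩
  · intro i
    exact mul_mem (mul_mem (mul_mem (hv i) (hz1 i)) (hzP i)) (hzQ i)
  · rw [M.SV.val_mul M.dB (z := fun i => v i * z1 i * zP i)
        (fun i => mul_mem (mul_mem (hv i) (hz1 i)) (hzP i)) hzQ,
      M.SV.val_mul M.dB (z := fun i => v i * z1 i) (fun i => mul_mem (hv i) (hz1 i)) hzP,
      M.SV.val_mul M.dB hv hz1, Es, ← hFP, ← hFQ]
    have hc' := Subgroup.mem_center_iff.1 hc (M.SV.val v)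
    have e5 : M.SV.val v * w * (M.SV.val v)⁻¹ = w := by
      rw [hc', mul_inv_cancel_right]
    rw [← e5]
    conv_lhs => rw [e4]
    simp only [mul_assoc, mul_inv_cancel, mul_one]

/-- (R1) from a decomposition of a central word with zero circulation to the parities -/
theorem DecT.exists_rep {M : Ctx L C q} {w : T} {f : ZMod L.n → Equiv.Perm (Om C)}
    {eP eQ : ZMod L.n × Lab → Equiv.Perm (Om C)} {v : ZMod L.n × Sta → Equiv.Perm (Om C)}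
    (H : M.DecT w f eP eQ v) (hq : q w = 1) (hc : w ∈ Subgroup.center T) (hD : L.D.Nonempty)
    (hk : KFlux.kap M.P.w M.P.s M.P.mx ((f 0)⁻¹ : Equiv.Perm (Om C)) = 0) :
    ∃ a b, M.Rep w a b := by
  obtain ⟨gL, gR, gB, gT, k00, k10, k01, k11, lP, uP, lQ, uQ, _, _, mL, mR, mB, mT, m00, m10,
    m01, m11, h, mlP, muP, mlQ, muQ, sP, sQ, hP, hQ⟩ := H.peel hq hD hk
  exact M.rep_of_peel hc H.hf H.heP H.heQ H.hv H.hw1 mL mR mB mT m00 m10 m01 m11 h mlP muP mlQ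
    muQ sP sQ hP hQ

end Ctx

end Crest.Agent.R189.K
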