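import Crest.Agent.R189.KRepE

/-!
# Row 189, part F (kernel), R1y: final assembly (helper610)

From the `F`-identity `SF.val f = SV.val K * (SQ.val gQ)⁻¹ * (SP.val gP)⁻¹` and the edge
factorisations to `∃ a b, M.Rep w a b`.
-/

set_option autoImplicit false
set_option linter.unusedSectionVars false

namespace Crest.Agent.R189.K

open Equiv Equiv.Perm

variable {X Lab Sta C T : Type*} [AddAction (ℤ × ℤ) X] [Fintype C] [DecidableEq C] [Group T]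

namespace Ctx

variable {L : Lev X Lab Sta} {q : T →* Equiv.Perm (X × C)} (M : Ctx L C q)

/-- the windows of the `P` and `Q` edges are disjoint modulo the lattice -/
lemma PQ_disjA : ∀ v ∈ bw (-M.P.s) M.P.s M.P.t0 (M.P.h - M.P.t0),
    ∀ v' ∈ bw M.P.t0 (M.P.w - M.P.t0) (-M.P.s) M.P.s,
      ¬ (L.w ∣ v.1 - v'.1 ∧ L.h ∣ v.2 - v'.2) := by
  have g1 := M.P.d0; have g2 := M.P.s0; have g3 := M.P.hst; have g4 := M.P.htd
  have g5 := M.P.ht0; have g6 := M.P.m1; have g7 := M.P.m2; have g8 := M.hw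
  intro v hv v' hv' h
  rw [mem_bw] at hv hv'
  obtain ⟨k, hk⟩ := h.1
  have hw := L.w_pos
  have e1 : v.1 - v'.1 < 0 := by omega
  have e2 : -L.w < v.1 - v'.1 := by omega
  rw [hk] at e1 e2
  have k1 : k < 0 := by
    by_contra hk'
    push Not at hk'
    nlinarith
  have k2 : -1 < k := by
    by_contra hk'
    push Not at hk'
    nlinarith
  omega

/-- the edge part of kind `Q`, with commutation with the `P` part -/
theorem edgeQ_val' [Finite Lab] [Finite Sta] {lQ uQ : ZMod L.n × Lab → Equiv.Perm (Om C)}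
    (hl : ∀ i, lQ i ∈ PermOn (win C (bw M.P.t0 M.P.t (-M.P.s) M.P.s)))
    (hu : ∀ i, uQ i ∈ PermOn (win C (bw (M.P.w - M.P.t) (M.P.w - M.P.t0) (-M.P.s) M.P.s)))
    (hs : ∀ i, sgn (lQ i) = sgn (uQ i)) :
    ∃ z : ZMod L.n × Sta → Equiv.Perm (Om C), (∀ i, z i ∈ AltOn (win C M.WB)) ∧
      M.SQ.val (fun i => lQ i * uQ i) =
        M.SV.val z * M.SQ.val (M.famQ (fun i => (parN (lQ i) : ZMod 2))) ∧
      ∀ k : ZMod L.n × Lab → Equiv.Perm (Om C),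
        (∀ i, k i ∈ AltOn (win C (bw (-M.P.s) M.P.s M.P.t0 (M.P.h - M.P.t0)))) →
        Commute (M.SP.val k) (M.SV.val z) := by
  have : NeZero L.n := ⟨L.n_pos.ne'⟩
  obtain ⟨z, hz, e⟩ := M.edgeQ_val hl hu hs
  refine ⟨z, hz, e, ?_⟩
  intro k hk
  have g1 := M.P.d0; have g2 := M.P.s0; have g3 := M.P.hst; have g4 := M.P.htd
  have g5 := M.P.ht0; have g6 := M.P.m1; have g7 := M.P.m2; have g8 := M.hw
  have hlW : ∀ i, lQ i ∈ PermOn (win C (bw M.P.t0 (M.P.w - M.P.t0) (-M.P.s) M.P.s)) := by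
    intro i
    refine PermOn_mono (win_mono ?_) (hl i)
    intro v hv; rw [mem_bw] at hv ⊢; omega
  have huW : ∀ i, uQ i ∈ PermOn (win C (bw M.P.t0 (M.P.w - M.P.t0) (-M.P.s) M.P.s)) := by
    intro i
    refine PermOn_mono (win_mono ?_) (hu i)
    intro v hv; rw [mem_bw] at hv ⊢; omega
  have h1 : ∀ i, lQ i * uQ i ∈ AltOn (win C (bw M.P.t0 (M.P.w - M.P.t0) (-M.P.s) M.P.s)) := by
    intro i
    refine ⟨(PermOn _).mul_mem (hlW i) (huW i), ?_⟩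
    rw [sgn_mul_on (hlW i) (huW i), hs i]
    rcases sgn_eq_one_or (uQ i) with h | h <;> rw [h] <;> rfl
  have hlf : M.lf ∈ PermOn (win C (bw M.P.t0 (M.P.w - M.P.t0) (-M.P.s) M.P.s)) := by
    refine PermOn_mono (win_mono ?_) M.lf_mem
    intro v hv; rw [mem_bw] at hv ⊢; omega
  have hrt : M.rt ∈ PermOn (win C (bw M.P.t0 (M.P.w - M.P.t0) (-M.P.s) M.P.s)) := by
    refine PermOn_mono (win_mono ?_) M.rt_mem
    intro v hv; rw [mem_bw] at hv ⊢; omega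
  have h2 : ∀ b : ZMod L.n × Lab → ZMod 2, ∀ i,
      M.famQ b i ∈ AltOn (win C (bw M.P.t0 (M.P.w - M.P.t0) (-M.P.s) M.P.s)) := by
    intro b i
    refine (AltOn _).pow_mem ⟨(PermOn _).mul_mem hlf hrt, ?_⟩ _
    rw [sgn_mul_on hlf hrt, lf, rt, sgn_sw M.hc, sgn_sw M.hc]
    rfl
  have c1 : Commute (M.SP.val k) (M.SQ.val (fun i => lQ i * uQ i)) :=
    M.SP.val_commute M.SQ M.dWP M.dWQ hk h1 M.PQ_disjA
  have c2 : Commute (M.SP.val k)
      (M.SQ.val (M.famQ (fun i => (parN (lQ i) : ZMod 2)))) :=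
    M.SP.val_commute M.SQ M.dWP M.dWQ hk (h2 _) M.PQ_disjA
  have e' : M.SV.val z = M.SQ.val (fun i => lQ i * uQ i) *
      (M.SQ.val (M.famQ (fun i => (parN (lQ i) : ZMod 2))))⁻¹ := by
    rw [e]; group
  rw [e']
  exact c1.mul_right c2.inv_right

lemma famP_memA (a : ZMod L.n × Lab → ZMod 2) (i : ZMod L.n × Lab) :
    M.famP a i ∈ AltOn (win C (bw (-M.P.s) M.P.s M.P.t0 (M.P.h - M.P.t0))) := by
  have g1 := M.P.d0; have g2 := M.P.s0; have g3 := M.P.hst; have g4 := M.P.htd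
  have g5 := M.P.ht0; have g6 := M.P.m3; have g7 := M.P.m4; have g8 := M.hw
  have hlf : M.dn ∈ PermOn (win C (bw (-M.P.s) M.P.s M.P.t0 (M.P.h - M.P.t0))) := by
    refine PermOn_mono (win_mono ?_) M.dn_mem
    intro v hv; rw [mem_bw] at hv ⊢; omega
  have hrt : M.up ∈ PermOn (win C (bw (-M.P.s) M.P.s M.P.t0 (M.P.h - M.P.t0))) := by
    refine PermOn_mono (win_mono ?_) M.up_mem
    intro v hv; rw [mem_bw] at hv ⊢; omega
  refine (AltOn _).pow_mem ⟨(PermOn _).mul_mem hlf hrt, ?_⟩ _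
  rw [sgn_mul_on hlf hrt, dn, up, sgn_sw M.hc, sgn_sw M.hc]
  rfl

/-- R1y, final assembly: `F` is the value of the face part -/
theorem rep_of_F [Finite Lab] [Finite Sta] {w F : T} (hw : w ∈ Subgroup.center T)
    {gP eP lP uP gQ eQ lQ uQ : ZMod L.n × Lab → Equiv.Perm (Om C)}
    {K v : ZMod L.n × Sta → Equiv.Perm (Om C)}
    (hK : ∀ i, K i ∈ AltOn (win C M.WB)) (hv : ∀ i, v i ∈ AltOn (win C M.WB))
    (hgP : ∀ i, gP i ∈ AltOn (win C (bw (-M.P.s) M.P.s M.P.t0 (M.P.h - M.P.t0))))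
    (heP : ∀ i, eP i ∈ AltOn (win C (bw (-M.P.s) M.P.s M.P.t0 (M.P.h - M.P.t0))))
    (hgQ : ∀ i, gQ i ∈ AltOn (win C (bw M.P.t0 (M.P.w - M.P.t0) (-M.P.s) M.P.s)))
    (heQ : ∀ i, eQ i ∈ AltOn (win C (bw M.P.t0 (M.P.w - M.P.t0) (-M.P.s) M.P.s)))
    (hlP : ∀ i, lP i ∈ PermOn (win C (bw (-M.P.s) M.P.s M.P.t0 M.P.t)))
    (huP : ∀ i, uP i ∈ PermOn (win C (bw (-M.P.s) M.P.s (M.P.h - M.P.t) (M.P.h - M.P.t0))))
    (hsP : ∀ i, sgn (lP i) = sgn (uP i))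
    (hlQ : ∀ i, lQ i ∈ PermOn (win C (bw M.P.t0 M.P.t (-M.P.s) M.P.s)))
    (huQ : ∀ i, uQ i ∈ PermOn (win C (bw (M.P.w - M.P.t) (M.P.w - M.P.t0) (-M.P.s) M.P.s)))
    (hsQ : ∀ i, sgn (lQ i) = sgn (uQ i))
    (hP : ∀ x ∈ L.D, (gP (L.kP x))⁻¹ * eP (L.kP x) = lP (L.kP x) * uP (L.kP x))
    (hQ : ∀ x ∈ L.D, (gQ (L.kQ x))⁻¹ * eQ (L.kQ x) = lQ (L.kQ x) * uQ (L.kQ x))
    (hF : F = M.SV.val K * (M.SQ.val gQ)⁻¹ * (M.SP.val gP)⁻¹)
    (hw1 : w = F * M.SP.val eP * M.SQ.val eQ * M.SV.val v) :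
    ∃ a b, M.Rep w a b := by
  have : NeZero L.n := ⟨L.n_pos.ne'⟩
  have g1 := M.P.d0; have g2 := M.P.s0; have g3 := M.P.hst; have g4 := M.P.htd
  have g5 := M.P.ht0; have g6 := M.P.m1; have g7 := M.P.m2; have g8 := M.hw
  have g9 := M.P.m3; have g10 := M.P.m4
  -- the `P` part
  have luP : ∀ i, lP i * uP i ∈
      AltOn (win C (bw (-M.P.s) M.P.s M.P.t0 (M.P.h - M.P.t0))) := by
    intro i
    have h1 : lP i ∈ PermOn (win C (bw (-M.P.s) M.P.s M.P.t0 (M.P.h - M.P.t0))) := by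
      refine PermOn_mono (win_mono ?_) (hlP i)
      intro v hv; rw [mem_bw] at hv ⊢; omega
    have h2 : uP i ∈ PermOn (win C (bw (-M.P.s) M.P.s M.P.t0 (M.P.h - M.P.t0))) := by
      refine PermOn_mono (win_mono ?_) (huP i)
      intro v hv; rw [mem_bw] at hv ⊢; omega
    refine ⟨(PermOn _).mul_mem h1 h2, ?_⟩
    rw [sgn_mul_on h1 h2, hsP i]
    rcases sgn_eq_one_or (uP i) with h | h <;> rw [h] <;> rfl
  have luQ : ∀ i, lQ i * uQ i ∈
      AltOn (win C (bw M.P.t0 (M.P.w - M.P.t0) (-M.P.s) M.P.s)) := by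
    intro i
    have h1 : lQ i ∈ PermOn (win C (bw M.P.t0 (M.P.w - M.P.t0) (-M.P.s) M.P.s)) := by
      refine PermOn_mono (win_mono ?_) (hlQ i)
      intro v hv; rw [mem_bw] at hv ⊢; omega
    have h2 : uQ i ∈ PermOn (win C (bw M.P.t0 (M.P.w - M.P.t0) (-M.P.s) M.P.s)) := by
      refine PermOn_mono (win_mono ?_) (huQ i)
      intro v hv; rw [mem_bw] at hv ⊢; omega
    refine ⟨(PermOn _).mul_mem h1 h2, ?_⟩
    rw [sgn_mul_on h1 h2, hsQ i]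
    rcases sgn_eq_one_or (uQ i) with h | h <;> rw [h] <;> rfl
  obtain ⟨zP, hzP, eP1⟩ := M.edgeP_val hlP huP hsP
  obtain ⟨zQ, hzQ, eQ1, cQ⟩ := M.edgeQ_val' hlQ huQ hsQ
  have eP2 : (M.SP.val gP)⁻¹ * M.SP.val eP =
      M.SV.val zP * M.SP.val (M.famP (fun i => (parN (lP i) : ZMod 2))) := by
    rw [← eP1, ← M.SP.val_inv M.dWP hgP,
      ← M.SP.val_mul M.dWP (fun i => (AltOn _).inv_mem (hgP i)) heP]
    exact M.SP.val_congr M.dWP
      (fun i => (AltOn _).mul_mem ((AltOn _).inv_mem (hgP i)) (heP i)) luP hP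
  have eQ2 : (M.SQ.val gQ)⁻¹ * M.SQ.val eQ =
      M.SV.val zQ * M.SQ.val (M.famQ (fun i => (parN (lQ i) : ZMod 2))) := by
    rw [← eQ1, ← M.SQ.val_inv M.dWQ hgQ,
      ← M.SQ.val_mul M.dWQ (fun i => (AltOn _).inv_mem (hgQ i)) heQ]
    exact M.SQ.val_congr M.dWQ
      (fun i => (AltOn _).mul_mem ((AltOn _).inv_mem (hgQ i)) (heQ i)) luQ hQ
  -- `P` and `Q` parts commute
  have cPQ : Commute ((M.SQ.val gQ)⁻¹) ((M.SP.val gP)⁻¹ * M.SP.val eP) := by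
    have c1 : Commute (M.SP.val gP) (M.SQ.val gQ) :=
      M.SP.val_commute M.SQ M.dWP M.dWQ hgP hgQ M.PQ_disjA
    have c2 : Commute (M.SP.val eP) (M.SQ.val gQ) :=
      M.SP.val_commute M.SQ M.dWP M.dWQ heP hgQ M.PQ_disjA
    exact ((c1.inv_left).mul_left c2).symm.inv_left
  have cPf := cQ (M.famP (fun i => (parN (lP i) : ZMod 2))) (M.famP_memA _)
  refine ⟨fun i => (parN (lP i) : ZMod 2), fun i => (parN (lQ i) : ZMod 2),
    fun i => v i * (K i * (zP i * zQ i)), fun i => (AltOn _).mul_mem (hv i)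
    ((AltOn _).mul_mem (hK i) ((AltOn _).mul_mem (hzP i) (hzQ i))), ?_⟩
  rw [M.SV.val_mul M.dB hv (fun i => (AltOn _).mul_mem (hK i)
      ((AltOn _).mul_mem (hzP i) (hzQ i))),
    M.SV.val_mul M.dB hK (fun i => (AltOn _).mul_mem (hzP i) (hzQ i)),
    M.SV.val_mul M.dB hzP hzQ, Es]
  have w1 : w = M.SV.val K * (M.SV.val zP * M.SV.val zQ) *
      (M.SP.val (M.famP (fun i => (parN (lP i) : ZMod 2))) *
        M.SQ.val (M.famQ (fun i => (parN (lQ i) : ZMod 2)))) * M.SV.val v := by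
    rw [hw1, hF]
    calc M.SV.val K * (M.SQ.val gQ)⁻¹ * (M.SP.val gP)⁻¹ * M.SP.val eP * M.SQ.val eQ * M.SV.val v
        = M.SV.val K * ((M.SQ.val gQ)⁻¹ * ((M.SP.val gP)⁻¹ * M.SP.val eP)) * M.SQ.val eQ *
            M.SV.val v := by simp only [mul_assoc]
      _ = M.SV.val K * (((M.SP.val gP)⁻¹ * M.SP.val eP) * ((M.SQ.val gQ)⁻¹ * M.SQ.val eQ)) *
            M.SV.val v := by rw [cPQ.eq]; simp only [mul_assoc]
      _ = M.SV.val K * (M.SV.val zP * (M.SP.val (M.famP (fun i => (parN (lP i) : ZMod 2))) *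
            M.SV.val zQ) * M.SQ.val (M.famQ (fun i => (parN (lQ i) : ZMod 2)))) *
            M.SV.val v := by rw [eP2, eQ2]; simp only [mul_assoc]
      _ = _ := by rw [cPf.eq]; simp only [mul_assoc]
  have w2 : w = M.SV.val v * w * (M.SV.val v)⁻¹ := by
    rw [Subgroup.mem_center_iff.1 hw (M.SV.val v)]; group
  rw [w2, w1]
  group

end Ctx

end Crest.Agent.R189.K
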