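import Crest.Agent.R189.KVC

/-!
# Row 189, part F (R3), (R5): uniqueness and congruence of representations (helper461)

* `Ctx.rep_unique`: two elements of `ker q` represented by the same signs are equal.
* `Ctx.rep_congr`: only the signs at occurring indices matter.
-/

set_option autoImplicit false
set_option linter.unusedSectionVars false

namespace Crest.Agent.R189.K

open Equiv Equiv.Perm

variable {X Lab Sta C T : Type*} [AddAction (ℤ × ℤ) X] [Fintype C] [DecidableEq C] [Group T]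

namespace Ctx

variable {L : Lev X Lab Sta} {q : T →* Equiv.Perm (X × C)} (M : Ctx L C q)

/-- (R3) -/
theorem rep_unique [Finite Lab] [Finite Sta] {w w' : T} {a b : ZMod L.n × Lab → ZMod 2}
    (h : M.Rep w a b) (h' : M.Rep w' a b) (hq : q w = 1) (hq' : q w' = 1) : w = w' := by
  have : NeZero L.n := ⟨L.n_pos.ne'⟩
  obtain ⟨z, hz, hw⟩ := h
  obtain ⟨z', hz', hw'⟩ := h'
  have e : q (M.SV.val z) = q (M.SV.val z') := by
    have e1 : q (M.SV.val z) * q (M.Es a b) = 1 := by rw [← map_mul, ← hw, hq]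
    have e2 : q (M.SV.val z') * q (M.Es a b) = 1 := by rw [← map_mul, ← hw', hq']
    exact mul_right_cancel (e1.trans e2.symm)
  rw [hw, hw', M.SV.val_inj M.dB hz hz' e]

/-- (R5) -/
theorem rep_congr [Finite Lab] [Finite Sta] {w : T} {a b a' b' : ZMod L.n × Lab → ZMod 2}
    (h : M.Rep w a b) (ha : ∀ x ∈ L.D, a (L.kP x) = a' (L.kP x))
    (hb : ∀ x ∈ L.D, b (L.kQ x) = b' (L.kQ x)) : M.Rep w a' b' := by
  have : NeZero L.n := ⟨L.n_pos.ne'⟩
  obtain ⟨z, hz, hw⟩ := h
  refine ⟨z, hz, ?_⟩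
  have e1 : M.SP.val (M.famP a) = M.SP.val (M.famP a') :=
    M.SP.val_congr M.dWP (M.vc_famP_alt a) (M.vc_famP_alt a')
      (fun x hx => by simp only [famP, ha x hx])
  have e2 : M.SQ.val (M.famQ b) = M.SQ.val (M.famQ b') :=
    M.SQ.val_congr M.dWQ (M.vc_famQ_alt b) (M.vc_famQ_alt b')
      (fun x hx => by simp only [famQ, hb x hx])
  rw [hw, Es, Es, e1, e2]

end Ctx

end Crest.Agent.R189.K
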