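import Crest.Agent.R189.KLoc2
import Crest.Agent.R189.KWord
import Crest.Agent.R189.KRep
import Crest.Agent.R189.KCirc

/-!
# Row 189, part F (M3): circulation of the face permutation of a word (helper834)

`circ_core`: for a decomposition `M0.DecT w f eP eQ v` of a word trivial in `Perm (X × C)` whose
face permutation `f 0` is the nested product of layers, the product over the CONSTANT zone is
annular (constants depending only on the length) and if its circulation `kap0` vanishes then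
`kap (f 0)⁻¹ = 0`, i.e. the hypothesis of `DecT.peel`.
`GenSys.word_rep`: for a word `w` of the free group with `q (tau w) = 1`.
-/

set_option autoImplicit false
set_option linter.unusedSectionVars false

namespace Crest.Agent.R189.K

open Equiv Equiv.Perm Filter
open KFlux (bx mem_bx Ann Mid kap kap0 Int1 NearB wpN LamB AnnEv)

section pure

variable {C : Type*} [Fintype C] [DecidableEq C]

lemma kap0_inv {w h s t D y0 : ℤ} {π : Equiv.Perm (Om C)} (hA : Ann w h s t D π) (hD : 0 ≤ D)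
    (hm : Mid w h s t (D + D) (w / 2) y0) :
    kap0 w h (π⁻¹ : Equiv.Perm (Om C)) = - kap0 w h π := by
  rw [KFlux.kap0_eq hA.inv (hm.mono hD (by omega)), KFlux.kap0_eq hA (hm.mono hD (by omega)),
    KFlux.kap_inv hA hm hD]

lemma prodN_eq_wpN (z : ℕ → Equiv.Perm C) (lam : ℕ → C → ℤ × ℤ)
    (F : ℕ → Set (ℤ × ℤ)) (M : ℕ) :
    prodN (fun i => lay (z i) (lam i) (F i)) M = wpN z lam F M := by
  induction M with
  | zero => rfl
  | succ M ih => rw [prodN_succ, ih]; rfl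

end pure

variable {X Lab Sta A T C : Type*} [AddAction (ℤ × ℤ) X] [Fintype C] [DecidableEq C]
  [Group T]
variable {q : T →* Equiv.Perm (X × C)} [Finite Lab] [Finite Sta]

/-- radii-independence for the face of digit `0` -/
theorem circ_core {L : Lev X Lab Sta} (M0 : Ctx L C q) {M : ℕ} (hs : M0.P.s = 4 * M + 2)
    (ht : M0.P.t = 8 * M + 12)
    (hd : M0.P.d = 2 * M) (hmx : M0.P.mx = L.w / 2)
    (hw : 100 * ((M : ℤ) + 1) ≤ L.w) (hh : 100 * ((M : ℤ) + 1) ≤ L.h)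
    (z : ℕ → Equiv.Perm C) (lam : ℕ → C → ℤ × ℤ) (E : ℕ → Set A) (a : ℤ × ℤ → A)
    (hlam : ∀ i c, |(lam i c).1| ≤ 1 ∧ |(lam i c).2| ≤ 1)
    {w : T} {f : ZMod L.n → Equiv.Perm (Om C)}
    {eP eQ : ZMod L.n × Lab → Equiv.Perm (Om C)} {v : ZMod L.n × Sta → Equiv.Perm (Om C)}
    (H : M0.DecT w f eP eQ v) (hq : q w = 1) (hD : L.D.Nonempty)
    (hf0 : f 0 = prodN (fun i => lay (z i) (lam i)
      (ZF L.w L.h (4 * (i + 1)) (4 * M + 10 + 4 * (i + 1)) ∩ {v | a v ∈ E i})) M) :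
    Ann L.w L.h (6 * M + 2) (10 * M + 12) (2 * M)
      (prodN (fun i => lay (z i) (lam i) ({v | Int1 L.w L.h v} ∩ {v | a v ∈ E i})) M) ∧
    (kap0 L.w L.h (prodN (fun i => lay (z i) (lam i)
      ({v | Int1 L.w L.h v} ∩ {v | a v ∈ E i})) M : Equiv.Perm (Om C)) = 0 →
      kap M0.P.w M0.P.s M0.P.mx ((f 0)⁻¹ : Equiv.Perm (Om C)) = 0) := by
  have hA0 := (H.kap_all hq hD 0).1
  rw [M0.hw, M0.hh, hs, ht, hd] at hA0
  have hA1 : Ann L.w L.h (4 * M + 2) (8 * M + 12) (2 * M) (f 0) := by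
    have := hA0.inv
    rwa [inv_inv] at this
  have hA2 : Ann L.w L.h (6 * M + 2) (10 * M + 12) (2 * M) (f 0) :=
    hA1.mono_st (by omega) (by omega)
  rw [prodN_eq_wpN] at hf0
  rw [prodN_eq_wpN]
  rw [hf0] at hA2
  have hm : Mid L.w L.h (6 * M + 2) (10 * M + 12) (8 * M + 4) (L.w / 2) (L.h / 2) :=
    ⟨by omega, by omega, by omega, by omega, by omega, by omega, by omega⟩
  have key := KFlux.kap_rad (w := L.w) (h := L.h) (s := 6 * M + 2) (t := 10 * M + 12)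
    (D := 2 * M) (x0 := L.w / 2) (y0 := L.h / 2) (z := z) (lam := lam)
    (F := fun i => {v | Int1 L.w L.h v} ∩ {v | a v ∈ E i})
    (F' := fun i => ZF L.w L.h (4 * (i + 1)) (4 * M + 10 + 4 * (i + 1)) ∩ {v | a v ∈ E i})
    (s' := 4 * M + 1) (t' := 8 * M + 11) M (fun i _ c _ => hlam i c) ?_ ?_ ?_
    (by omega) (by omega) hA2 hm (by omega)
  · obtain ⟨g1, g2⟩ := key
    refine ⟨g1, fun hk => ?_⟩
    have hm1 : Mid L.w L.h (6 * M + 2) (10 * M + 12) (2 * M) (L.w / 2) (L.h / 2) :=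
      hm.mono (by omega) (by omega)
    have hm2 : Mid L.w L.h (4 * M + 2) (8 * M + 12) (2 * M) (L.w / 2) (L.h / 2) :=
      ⟨by omega, by omega, by omega, by omega, by omega, by omega, by omega⟩
    have hm3 : Mid L.w L.h (4 * M + 2) (8 * M + 12) (2 * M + 2 * M) (L.w / 2) (L.h / 2) :=
      ⟨by omega, by omega, by omega, by omega, by omega, by omega, by omega⟩
    rw [KFlux.kap0_eq g1 hm1, g2, ← KFlux.kap0_eq hA2 hm1, ← hf0] at hk
    have h3 := kap0_inv hA1 (by omega) hm3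
    rw [hk, neg_zero, KFlux.kap0_eq hA0 hm2] at h3
    rw [M0.hw, hs, hmx]
    exact h3
  · intro i hi u hu
    refine ⟨?_, hu.2⟩
    obtain ⟨h1, h2, h3, h4, _⟩ := hu.1
    show Int1 L.w L.h u
    unfold Int1
    omega
  · intro i _ u hu
    exact hu.1
  · intro i hi u hu hu'
    have hne : u ∉ ZF L.w L.h (4 * (i + 1)) (4 * M + 10 + 4 * (i + 1)) := fun h => hu' ⟨h, hu.2⟩
    constructor
    · intro h4
      apply hne
      refine ⟨?_, ?_, ?_, ?_, Or.inl ⟨?_, ?_⟩⟩ <;> omega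
    · intro h4
      apply hne
      refine ⟨?_, ?_, ?_, ?_, Or.inr ⟨?_, ?_⟩⟩ <;> omega

namespace GenSys

variable {letter : X → A} (G : GenSys q letter)

/-- (M3) for a word trivial in `Perm (X × C)`: for all large `M` and all levels large with respect
to `M`, the constant-zone face permutation is annular, and if its circulation vanishes then `w` has
a reference representation in every context of the geometry `Geo.std M`. -/
theorem word_rep (hK : q.ker ≤ Subgroup.center T) (x : FreeGroup (G.Gam × alternatingGroup C))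
    (hx : q (G.tau x) = 1) :
    ∃ M1 : ℕ, ∀ M ≥ M1, ∀ (L : Lev X Lab Sta) (LL : LevLet L letter) (M0 : Ctx L C q)
      (hw : 20 * (M : ℤ) + 26 ≤ L.w) (hh : 20 * (M : ℤ) + 26 ≤ L.h),
      M0.P = Geo.std M L.w L.h hw hh → L.D.Nonempty →
      100 * ((M : ℤ) + 1) ≤ L.w → 100 * ((M : ℤ) + 1) ≤ L.h →
      Ann L.w L.h (6 * M + 2) (10 * M + 12) (2 * M)
        (G.faceHom {v | Int1 L.w L.h v} (LL.aF 0) x) ∧
      (kap0 L.w L.h (G.faceHom {v | Int1 L.w L.h v} (LL.aF 0) x : Equiv.Perm (Om C)) = 0 →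
        ∃ a b, M0.Rep (G.tau x) a b) := by
  obtain ⟨M1, z, g, hM1⟩ := G.exists_word x
  refine ⟨M1, fun M hM L LL M0 hw hh hP hD hw' hh' => ?_⟩
  obtain ⟨h1, h2⟩ := hM1 M hM
  obtain ⟨f, eP, eQ, v, hf, mf, mP, mQ, mv, df, dP, dQ, hprod⟩ :=
    G.layer_ctx M0 LL M hw hh hP z g
  rw [← h1] at hprod
  have H : M0.DecT (G.tau x) f eP eQ v := ⟨mf, mP, mQ, mv, df, dP, dQ, hprod⟩
  have hs : M0.P.s = 4 * M + 2 := by rw [hP]; rfl
  have ht : M0.P.t = 8 * M + 12 := by rw [hP]; rfl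
  have hd : M0.P.d = 2 * M := by rw [hP]; rfl
  have hmx : M0.P.mx = L.w / 2 := by rw [hP]; rfl
  have key := circ_core M0 hs ht hd hmx hw' hh' (fun i => (z i : Equiv.Perm C))
    (fun i => G.lam (g i)) (fun i => G.E (g i)) (LL.aF 0) (fun i c => G.hlam (g i) c) H hx hD
    (hf 0)
  rw [← h2] at key
  refine ⟨key.1, fun hk => ?_⟩
  exact H.exists_rep hx (hK (MonoidHom.mem_ker.2 hx)) hD (key.2 hk)

/-- the standard context of length `M` -/
def _root_.Crest.Agent.R189.K.Ctx.std {L : Lev X Lab Sta} (SF : SecSys L C q L.dig)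
    (SP : SecSys L C q L.kP) (SQ : SecSys L C q L.kQ) (SV : SecSys L C q L.kV)
    (c0 c1 : C) (hc : c0 ≠ c1) (M : ℕ) (hw : 20 * (M : ℤ) + 26 ≤ L.w)
    (hh : 20 * (M : ℤ) + 26 ≤ L.h) : Ctx L C q where
  P := Geo.std M L.w L.h hw hh
  hw := rfl
  hh := rfl
  SF := SF
  SP := SP
  SQ := SQ
  SV := SV
  c0 := c0
  c1 := c1
  hc := hc

/-- the face permutations of a word trivial in `Perm (X × C)` are uniformly annular -/
theorem word_annEv (hK : q.ker ≤ Subgroup.center T) (L : ℕ → Lev X Lab Sta)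
    (LL : ∀ k, LevLet (L k) letter) (SF : ∀ k, SecSys (L k) C q (L k).dig)
    (SP : ∀ k, SecSys (L k) C q (L k).kP) (SQ : ∀ k, SecSys (L k) C q (L k).kQ)
    (SV : ∀ k, SecSys (L k) C q (L k).kV) {c0 c1 : C} (hc : c0 ≠ c1)
    (hw : Tendsto (fun k => (L k).w) atTop atTop) (hh : Tendsto (fun k => (L k).h) atTop atTop)
    (hD : ∀ k, (L k).D.Nonempty) (x : FreeGroup (G.Gam × alternatingGroup C))
    (hx : q (G.tau x) = 1) :
    AnnEv (fun k => (L k).w) (fun k => (L k).h)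
      (fun k => G.faceHom {v | Int1 (L k).w (L k).h v} ((LL k).aF 0) x) := by
  obtain ⟨M1, h1⟩ := G.word_rep (Lab := Lab) (Sta := Sta) hK x hx
  refine ⟨6 * M1 + 2, 10 * M1 + 12, 2 * M1, by omega, by omega, by omega, ?_⟩
  filter_upwards [hw.eventually (eventually_ge_atTop (100 * ((M1 : ℤ) + 1))),
    hh.eventually (eventually_ge_atTop (100 * ((M1 : ℤ) + 1)))] with k g1 g2
  have e1 : 20 * (M1 : ℤ) + 26 ≤ (L k).w := by omega
  have e2 : 20 * (M1 : ℤ) + 26 ≤ (L k).h := by omega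
  exact (h1 M1 le_rfl (L k) (LL k)
    (Ctx.std (SF k) (SP k) (SQ k) (SV k) c0 c1 hc M1 e1 e2) e1 e2 rfl (hD k) g1 g2).1

/-- circulation at level `k` -/
noncomputable def circ (L : ℕ → Lev X Lab Sta) (LL : ∀ k, LevLet (L k) letter) (k : ℕ)
    (x : FreeGroup (G.Gam × alternatingGroup C)) : ℤ :=
  kap0 (L k).w (L k).h (G.faceHom {v | Int1 (L k).w (L k).h v} ((LL k).aF 0) x)

/-- `bdd` of `KFin.fg_of_flux` -/
theorem circ_bdd (hK : q.ker ≤ Subgroup.center T) (L : ℕ → Lev X Lab Sta)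
    (LL : ∀ k, LevLet (L k) letter) (SF : ∀ k, SecSys (L k) C q (L k).dig)
    (SP : ∀ k, SecSys (L k) C q (L k).kP) (SQ : ∀ k, SecSys (L k) C q (L k).kQ)
    (SV : ∀ k, SecSys (L k) C q (L k).kV) {c0 c1 : C} (hc : c0 ≠ c1)
    (hw : Tendsto (fun k => (L k).w) atTop atTop) (hh : Tendsto (fun k => (L k).h) atTop atTop)
    (hD : ∀ k, (L k).D.Nonempty) (x : FreeGroup (G.Gam × alternatingGroup C))
    (hx : q (G.tau x) = 1) : ∃ B : ℤ, ∀ᶠ k in atTop, |G.circ L LL k x| ≤ B :=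
  (G.word_annEv hK L LL SF SP SQ SV hc hw hh hD x hx).bdd hw hh

/-- `add` of `KFin.fg_of_flux` -/
theorem circ_add (hK : q.ker ≤ Subgroup.center T) (L : ℕ → Lev X Lab Sta)
    (LL : ∀ k, LevLet (L k) letter) (SF : ∀ k, SecSys (L k) C q (L k).dig)
    (SP : ∀ k, SecSys (L k) C q (L k).kP) (SQ : ∀ k, SecSys (L k) C q (L k).kQ)
    (SV : ∀ k, SecSys (L k) C q (L k).kV) {c0 c1 : C} (hc : c0 ≠ c1)
    (hw : Tendsto (fun k => (L k).w) atTop atTop) (hh : Tendsto (fun k => (L k).h) atTop atTop)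
    (hD : ∀ k, (L k).D.Nonempty) (x y : FreeGroup (G.Gam × alternatingGroup C))
    (hx : q (G.tau x) = 1) (hy : q (G.tau y) = 1) :
    ∀ᶠ k in atTop, G.circ L LL k (x * y) = G.circ L LL k x + G.circ L LL k y := by
  have h1 := G.word_annEv hK L LL SF SP SQ SV hc hw hh hD x hx
  have h2 := G.word_annEv hK L LL SF SP SQ SV hc hw hh hD y hy
  have h3 := h1.add hw hh h2
  filter_upwards [h3] with k hk
  unfold circ
  rw [map_mul]
  exact hk

/-- `cnt` of `KFin.fg_of_flux`, first half: a finite set of trivial words with zero circulation at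
a large level has reference representations in ONE context -/
theorem circ_rep (hK : q.ker ≤ Subgroup.center T) (L : ℕ → Lev X Lab Sta)
    (LL : ∀ k, LevLet (L k) letter) (SF : ∀ k, SecSys (L k) C q (L k).dig)
    (SP : ∀ k, SecSys (L k) C q (L k).kP) (SQ : ∀ k, SecSys (L k) C q (L k).kQ)
    (SV : ∀ k, SecSys (L k) C q (L k).kV) {c0 c1 : C} (hc : c0 ≠ c1)
    (hw : Tendsto (fun k => (L k).w) atTop atTop) (hh : Tendsto (fun k => (L k).h) atTop atTop)
    (hD : ∀ k, (L k).D.Nonempty) (S : Set (FreeGroup (G.Gam × alternatingGroup C)))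
    (hS : S.Finite) (hx : ∀ x ∈ S, q (G.tau x) = 1) :
    ∀ᶠ k in atTop, (∀ x ∈ S, G.circ L LL k x = 0) →
      ∃ M0 : Ctx (L k) C q, ∀ x ∈ S, ∃ a b, M0.Rep (G.tau x) a b := by
  have h1 : ∀ x ∈ S, ∃ M1 : ℕ, ∀ M ≥ M1, ∀ (L : Lev X Lab Sta) (LL : LevLet L letter)
      (M0 : Ctx L C q)
      (hw : 20 * (M : ℤ) + 26 ≤ L.w) (hh : 20 * (M : ℤ) + 26 ≤ L.h),
      M0.P = Geo.std M L.w L.h hw hh → L.D.Nonempty →
      100 * ((M : ℤ) + 1) ≤ L.w → 100 * ((M : ℤ) + 1) ≤ L.h →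
      Ann L.w L.h (6 * M + 2) (10 * M + 12) (2 * M)
        (G.faceHom {v | Int1 L.w L.h v} (LL.aF 0) x) ∧
      (kap0 L.w L.h (G.faceHom {v | Int1 L.w L.h v} (LL.aF 0) x : Equiv.Perm (Om C)) = 0 →
        ∃ a b, M0.Rep (G.tau x) a b) := fun x hxS => G.word_rep hK x (hx x hxS)
  choose! M1 hM1 using h1
  obtain ⟨M, hM⟩ : ∃ M : ℕ, ∀ x ∈ S, M1 x ≤ M := by
    obtain ⟨M, hM⟩ := (hS.image M1).bddAbove
    exact ⟨M, fun x hx => hM ⟨x, hx, rfl⟩⟩
  filter_upwards [hw.eventually (eventually_ge_atTop (100 * ((M : ℤ) + 1))),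
    hh.eventually (eventually_ge_atTop (100 * ((M : ℤ) + 1)))] with k g1 g2 hk
  have e1 : 20 * (M : ℤ) + 26 ≤ (L k).w := by omega
  have e2 : 20 * (M : ℤ) + 26 ≤ (L k).h := by omega
  refine ⟨Ctx.std (SF k) (SP k) (SQ k) (SV k) c0 c1 hc M e1 e2, fun x hxS => ?_⟩
  exact (hM1 x hxS M (hM x hxS) (L k) (LL k) _ e1 e2 rfl (hD k) g1 g2).2 (hk x hxS)

end GenSys

end Crest.Agent.R189.K
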