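import Mathlib
import Crest.Agent.R189.EvDefs
import Crest.Agent.R189.KLay
import Crest.Agent.R189.KFlux

/-!
Row 189, kernel part F3 (helper6): the trivial word `Z` and its circulation `1`.

The word `Z = U2 U1 V2 V1 U1 U2 V1 V2` (8 uniform letters, all colours events `one`), where
`U1 = one((a b)(d d'))`, `U2 = U1^{H(X at a)}`, `V1 = one((a c)(d d'))`, `V2 = V1^{H(Y at a)}`.

* `Zword_eq_one` : `Z = 1` in every coloured group.
* `Zf ι F` : the product of the 8 layers over the zones `F 0, …, F 7`.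
* `Zf_eq_self_of_mem`, `Zf_eq_self_of_not_mem` : `Zf` is the identity where all zones are full (empty).
* `Zf_disp` : displacement `≤ 8`.
* `fl_left` : the flux of `Zf` through the height `y0` near the left side is `-1`.
-/

set_option autoImplicit false

namespace Crest.Agent.R189.KZ

open Equiv Equiv.Perm Crest.Agent.R189.K

variable {C : Type} [DecidableEq C]

/-! ### The letters -/

/-- `(a b)(d d')` -/
def zU (ι : Fin 6 → C) : Perm C := swap (ι 0) (ι 1) * swap (ι 3) (ι 4)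

/-- `(a c)(d d')` -/
def zV (ι : Fin 6 → C) : Perm C := swap (ι 0) (ι 2) * swap (ι 3) (ι 4)

/-- `X` at `a`, `-X` at `e` -/
def lX (ι : Fin 6 → C) (c : C) : ℤ × ℤ := if c = ι 0 then (1, 0) else if c = ι 5 then (-1, 0) else 0

/-- `Y` at `a`, `-Y` at `e` -/
def lY (ι : Fin 6 → C) (c : C) : ℤ × ℤ := if c = ι 0 then (0, 1) else if c = ι 5 then (0, -1) else 0

/-- the permutations of the 8 letters of `Z` -/
def zL (ι : Fin 6 → C) : Fin 8 → Perm C := ![zU ι, zU ι, zV ι, zV ι, zU ι, zU ι, zV ι, zV ι]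

/-- the translations of the 8 letters of `Z` -/
def lL (ι : Fin 6 → C) : Fin 8 → C → ℤ × ℤ := ![lX ι, 0, lY ι, 0, 0, lX ι, 0, lY ι]

/-- the product of the 8 layers -/
noncomputable def Zf (ι : Fin 6 → C) (F : Fin 8 → Set (ℤ × ℤ)) : Perm (Om C) :=
  (List.ofFn fun i => lay (zL ι i) (lL ι i) (F i)).prod

/-! ### The finite model -/

/-- model of `zL` -/
def zM : Fin 8 → Fin 6 → Fin 6 :=
  ![![1, 0, 2, 4, 3, 5], ![1, 0, 2, 4, 3, 5], ![2, 1, 0, 4, 3, 5], ![2, 1, 0, 4, 3, 5],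
    ![1, 0, 2, 4, 3, 5], ![1, 0, 2, 4, 3, 5], ![2, 1, 0, 4, 3, 5], ![2, 1, 0, 4, 3, 5]]

/-- model of `lL` -/
def lM : Fin 8 → Fin 6 → ℤ × ℤ :=
  ![![(1, 0), 0, 0, 0, 0, (-1, 0)], 0, ![(0, 1), 0, 0, 0, 0, (0, -1)], 0,
    0, ![(1, 0), 0, 0, 0, 0, (-1, 0)], 0, ![(0, 1), 0, 0, 0, 0, (0, -1)]]

/-- one step of the model -/
def stepM (i : Fin 8) (m : ℤ × ℤ → Bool) (s : (ℤ × ℤ) × Fin 6) : (ℤ × ℤ) × Fin 6 :=
  if m (s.1 - lM i s.2) then (s.1 - lM i s.2 + lM i (zM i s.2), zM i s.2) else s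

/-- the total step of the model -/
def tot (m : Fin 8 → ℤ × ℤ → Bool) (k : Fin 6) : (ℤ × ℤ) × Fin 6 :=
  stepM 0 (m 0) (stepM 1 (m 1) (stepM 2 (m 2) (stepM 3 (m 3)
    (stepM 4 (m 4) (stepM 5 (m 5) (stepM 6 (m 6) (stepM 7 (m 7) (0, k))))))))

theorem zU_model {ι : Fin 6 → C} (hι : Function.Injective ι) (k : Fin 6) :
    zU ι (ι k) = ι (![1, 0, 2, 4, 3, 5] k) := by
  fin_cases k <;> simp [zU, Perm.mul_apply, swap_apply_def, hι.eq_iff]

theorem zV_model {ι : Fin 6 → C} (hι : Function.Injective ι) (k : Fin 6) :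
    zV ι (ι k) = ι (![2, 1, 0, 4, 3, 5] k) := by
  fin_cases k <;> simp [zV, Perm.mul_apply, swap_apply_def, hι.eq_iff]

theorem lX_model {ι : Fin 6 → C} (hι : Function.Injective ι) (k : Fin 6) :
    lX ι (ι k) = (![(1, 0), 0, 0, 0, 0, (-1, 0)] : Fin 6 → ℤ × ℤ) k := by
  fin_cases k <;> simp [lX, hι.eq_iff]

theorem lY_model {ι : Fin 6 → C} (hι : Function.Injective ι) (k : Fin 6) :
    lY ι (ι k) = (![(0, 1), 0, 0, 0, 0, (0, -1)] : Fin 6 → ℤ × ℤ) k := by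
  fin_cases k <;> simp [lY, hι.eq_iff]

theorem zL_model {ι : Fin 6 → C} (hι : Function.Injective ι) (i : Fin 8) (k : Fin 6) :
    zL ι i (ι k) = ι (zM i k) := by
  fin_cases i <;> first | exact zU_model hι k | exact zV_model hι k

theorem lL_model {ι : Fin 6 → C} (hι : Function.Injective ι) (i : Fin 8) (k : Fin 6) :
    lL ι i (ι k) = lM i k := by
  fin_cases i <;> first | exact lX_model hι k | exact lY_model hι k | rfl

theorem zL_other {ι : Fin 6 → C} {c : C} (hc : c ∉ Set.range ι) (i : Fin 8) : zL ι i c = c := by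
  have h : ∀ k, c ≠ ι k := fun k e => hc ⟨k, e.symm⟩
  fin_cases i <;> simp [zL, zU, zV, Perm.mul_apply, swap_apply_def, h]

/-! ### Transfer between the model and the cells -/

/-- `x`-displacement bound of the letter `i` -/
def dX (i : Fin 8) : ℤ := if i = 0 ∨ i = 5 then 1 else 0

/-- `y`-displacement bound of the letter `i` -/
def dY (i : Fin 8) : ℤ := if i = 2 ∨ i = 7 then 1 else 0

theorem lM_bound : ∀ (i : Fin 8) (k : Fin 6), |(lM i k).1| ≤ dX i ∧ |(lM i k).2| ≤ dY i := by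
  decide

theorem lM_diff_bound : ∀ (i : Fin 8) (k : Fin 6), |(lM i (zM i k)).1 - (lM i k).1| ≤ dX i ∧
    |(lM i (zM i k)).2 - (lM i k).2| ≤ dY i := by decide

theorem stepM_bound (i : Fin 8) (m : ℤ × ℤ → Bool) (s : (ℤ × ℤ) × Fin 6) {n n' : ℤ}
    (h : |s.1.1| ≤ n ∧ |s.1.2| ≤ n') (h0 : 0 ≤ dX i := by decide) (h1 : 0 ≤ dY i := by decide) :
    |(stepM i m s).1.1| ≤ n + dX i ∧ |(stepM i m s).1.2| ≤ n' + dY i := by
  have hb := lM_diff_bound i s.2
  rw [abs_le, abs_le] at hb h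
  rw [abs_le, abs_le]
  unfold stepM
  split_ifs
  · simp only [Prod.fst_add, Prod.fst_sub, Prod.snd_add, Prod.snd_sub]
    omega
  · omega

theorem lay_step {ι : Fin 6 → C} (hι : Function.Injective ι) {p : ℤ × ℤ} {F : Set (ℤ × ℤ)}
    {m : ℤ × ℤ → Bool} (h : ∀ v : ℤ × ℤ, |v.1| ≤ 2 → |v.2| ≤ 2 → (p + v ∈ F ↔ m v = true))
    (i : Fin 8) (s : (ℤ × ℤ) × Fin 6) {n n' : ℤ} (hs : |s.1.1| ≤ n ∧ |s.1.2| ≤ n')
    (hn : n + dX i ≤ 2 := by decide) (hn' : n' + dY i ≤ 2 := by decide) :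
    lay (zL ι i) (lL ι i) F (p + s.1, ι s.2) = (p + (stepM i m s).1, ι (stepM i m s).2) := by
  have hb := lM_bound i s.2
  rw [abs_le, abs_le] at hb hs
  have h1 : |(s.1 - lM i s.2).1| ≤ 2 := by
    rw [abs_le]; simp only [Prod.fst_sub]; omega
  have h2 : |(s.1 - lM i s.2).2| ≤ 2 := by
    rw [abs_le]; simp only [Prod.snd_sub]; omega
  have h3 := h _ h1 h2
  have e : p + s.1 - lM i s.2 = p + (s.1 - lM i s.2) := by abel
  unfold stepM
  by_cases hm : m (s.1 - lM i s.2) = true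
  · rw [if_pos hm, lay_mem (by rw [lL_model hι, e]; exact h3.2 hm), zL_model hι, lL_model hι,
      lL_model hι]
    simp only [Prod.mk.injEq, and_true]; abel
  · rw [if_neg hm, lay_not_mem (by rw [lL_model hι, e]; exact fun hF => hm (h3.1 hF))]

theorem Zf_apply {ι : Fin 6 → C} (hι : Function.Injective ι) {p : ℤ × ℤ}
    {F : Fin 8 → Set (ℤ × ℤ)} {m : Fin 8 → ℤ × ℤ → Bool}
    (h : ∀ i, ∀ v : ℤ × ℤ, |v.1| ≤ 2 → |v.2| ≤ 2 → (p + v ∈ F i ↔ m i v = true)) (k : Fin 6) :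
    Zf ι F (p, ι k) = (p + (tot m k).1, ι (tot m k).2) := by
  have b0 : |((0 : ℤ × ℤ), k).1.1| ≤ (0 : ℤ) ∧ |((0 : ℤ × ℤ), k).1.2| ≤ (0 : ℤ) := by simp
  have b1 := stepM_bound 7 (m 7) _ b0
  have b2 := stepM_bound 6 (m 6) _ b1
  have b3 := stepM_bound 5 (m 5) _ b2
  have b4 := stepM_bound 4 (m 4) _ b3
  have b5 := stepM_bound 3 (m 3) _ b4
  have b6 := stepM_bound 2 (m 2) _ b5
  have b7 := stepM_bound 1 (m 1) _ b6
  have st : (p, ι k) = (p + ((0 : ℤ × ℤ), k).1, ι ((0 : ℤ × ℤ), k).2) := by simp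
  have e : Zf ι F (p, ι k) = lay (zL ι 0) (lL ι 0) (F 0) (lay (zL ι 1) (lL ι 1) (F 1)
      (lay (zL ι 2) (lL ι 2) (F 2) (lay (zL ι 3) (lL ι 3) (F 3)
      (lay (zL ι 4) (lL ι 4) (F 4) (lay (zL ι 5) (lL ι 5) (F 5)
      (lay (zL ι 6) (lL ι 6) (F 6) (lay (zL ι 7) (lL ι 7) (F 7) (p, ι k)))))))) := by
    simp [Zf, List.ofFn_succ, Perm.mul_apply]
  rw [e, st, lay_step hι (h 7) 7 _ b0, lay_step hι (h 6) 6 _ b1, lay_step hι (h 5) 5 _ b2,
    lay_step hι (h 4) 4 _ b3, lay_step hι (h 3) 3 _ b4, lay_step hι (h 2) 2 _ b5,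
    lay_step hι (h 1) 1 _ b6, lay_step hι (h 0) 0 _ b7]
  rfl

/-- displacement of the model -/
theorem tot_bound (m : Fin 8 → ℤ × ℤ → Bool) (k : Fin 6) :
    |(tot m k).1.1| ≤ 2 ∧ |(tot m k).1.2| ≤ 2 := by
  have b0 : |((0 : ℤ × ℤ), k).1.1| ≤ (0 : ℤ) ∧ |((0 : ℤ × ℤ), k).1.2| ≤ (0 : ℤ) := by simp
  have b1 := stepM_bound 7 (m 7) _ b0
  have b2 := stepM_bound 6 (m 6) _ b1
  have b3 := stepM_bound 5 (m 5) _ b2
  have b4 := stepM_bound 4 (m 4) _ b3
  have b5 := stepM_bound 3 (m 3) _ b4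
  have b6 := stepM_bound 2 (m 2) _ b5
  have b7 := stepM_bound 1 (m 1) _ b6
  have b8 := stepM_bound 0 (m 0) _ b7
  exact b8.imp (fun x => x.trans (by decide)) (fun x => x.trans (by decide))

theorem Zf_other {ι : Fin 6 → C} {c : C} (hc : c ∉ Set.range ι) (F : Fin 8 → Set (ℤ × ℤ))
    (p : ℤ × ℤ) : Zf ι F (p, c) = (p, c) := by
  have h : ∀ (L : List (Perm (Om C))), (∀ g ∈ L, g (p, c) = (p, c)) → L.prod (p, c) = (p, c) := by
    intro L
    induction L with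
    | nil => intro _; rfl
    | cons g L ih =>
      intro hL
      rw [List.prod_cons, Perm.mul_apply, ih (fun g' hg' => hL g' (List.mem_cons_of_mem _ hg')),
        hL g List.mem_cons_self]
  refine h _ fun g hg => ?_
  rw [List.mem_ofFn] at hg
  obtain ⟨i, rfl⟩ := hg
  exact lay_fix (zL_other hc i)

theorem tot_true (k : Fin 6) : tot (fun _ _ => true) k = (0, k) := by
  revert k; decide

theorem tot_false (k : Fin 6) : tot (fun _ _ => false) k = (0, k) := rfl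

/-- `Zf` is trivial where all zones are full. -/
theorem Zf_eq_self_of_mem {ι : Fin 6 → C} (hι : Function.Injective ι) {F : Fin 8 → Set (ℤ × ℤ)}
    {q : Om C} (h : ∀ i, ∀ v : ℤ × ℤ, |v.1| ≤ 2 → |v.2| ≤ 2 → q.1 + v ∈ F i) : Zf ι F q = q := by
  obtain ⟨p, c⟩ := q
  by_cases hc : c ∈ Set.range ι
  · obtain ⟨k, rfl⟩ := hc
    rw [Zf_apply hι (m := fun _ _ => true) (fun i v h1 h2 => by simpa using h i v h1 h2), tot_true]
    simp
  · exact Zf_other hc F p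

/-- `Zf` is trivial where all zones are empty. -/
theorem Zf_eq_self_of_not_mem {ι : Fin 6 → C} (hι : Function.Injective ι)
    {F : Fin 8 → Set (ℤ × ℤ)} {q : Om C}
    (h : ∀ i, ∀ v : ℤ × ℤ, |v.1| ≤ 2 → |v.2| ≤ 2 → q.1 + v ∉ F i) : Zf ι F q = q := by
  obtain ⟨p, c⟩ := q
  by_cases hc : c ∈ Set.range ι
  · obtain ⟨k, rfl⟩ := hc
    rw [Zf_apply hι (m := fun _ _ => false) (fun i v h1 h2 => by simpa using h i v h1 h2),
      tot_false]
    simp
  · exact Zf_other hc F p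

open Classical in
/-- `Zf` has displacement `≤ 2`. -/
theorem Zf_disp {ι : Fin 6 → C} (hι : Function.Injective ι) (F : Fin 8 → Set (ℤ × ℤ)) (q : Om C) :
    |(Zf ι F q).1.1 - q.1.1| ≤ 2 ∧ |(Zf ι F q).1.2 - q.1.2| ≤ 2 := by
  obtain ⟨p, c⟩ := q
  by_cases hc : c ∈ Set.range ι
  · obtain ⟨k, rfl⟩ := hc
    rw [Zf_apply hι (m := fun i v => decide (p + v ∈ F i)) (fun i v _ _ => by simp)]
    simpa using tot_bound _ k
  · rw [Zf_other hc]; simp

/-! ### The circulation of `Zf` -/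

/-- the `F`-zone of radii `rs ≤ rt` in the box `[0,w) × [0,h)` -/
def FZ (w h rs rt : ℤ) : Set (ℤ × ℤ) := {p | rs ≤ p.1 ∧ p.1 ≤ w - rs ∧ rs ≤ p.2 ∧ p.2 ≤ h - rs ∧
  ((rt ≤ p.1 ∧ p.1 ≤ w - rt) ∨ (rt ≤ p.2 ∧ p.2 ≤ h - rt))}

theorem mem_FZ {w h rs rt : ℤ} {p : ℤ × ℤ} : p ∈ FZ w h rs rt ↔
    rs ≤ p.1 ∧ p.1 ≤ w - rs ∧ rs ≤ p.2 ∧ p.2 ≤ h - rs ∧
      ((rt ≤ p.1 ∧ p.1 ≤ w - rt) ∨ (rt ≤ p.2 ∧ p.2 ≤ h - rt)) := Iff.rfl

/-- zone tests near the bottom side, `t` = height above the first radius -/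
def mB (t : ℤ) (i : Fin 8) (v : ℤ × ℤ) : Bool := decide (4 * ((i : ℕ) : ℤ) ≤ t + v.2)

theorem sum_tot : ∑ t ∈ Finset.Ico (-2:ℤ) 30, ∑ k : Fin 6, (tot (mB t) k).1.1 = 1 := by
  decide +kernel

theorem line_sum0 : ∀ d ∈ Finset.Icc (-2 : ℤ) 2, ∑ x ∈ Finset.Ico (-2 : ℤ) 2,
    ((if 0 ≤ x + d then (1 : ℤ) else 0) - (if 0 ≤ x then 1 else 0)) = d := by decide +kernel

theorem line_sum (x0 d : ℤ) (hd : |d| ≤ 2) : ∑ x ∈ Finset.Ico (x0 - 2) (x0 + 2),
    ((if x0 ≤ x + d then (1 : ℤ) else 0) - (if x0 ≤ x then 1 else 0)) = d := by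
  refine Eq.trans ?_ (line_sum0 d (by rw [abs_le] at hd; simpa using hd))
  have h := Finset.sum_Ico_add' (fun x : ℤ => (if x0 ≤ x + d then (1 : ℤ) else 0) -
    (if x0 ≤ x then 1 else 0)) (-2) 2 x0
  rw [show (-2 : ℤ) + x0 = x0 - 2 by ring, show (2 : ℤ) + x0 = x0 + 2 by ring] at h
  rw [← h]
  refine Finset.sum_congr rfl fun x _ => ?_
  have e1 : (x0 ≤ x + x0 + d) ↔ 0 ≤ x + d := by constructor <;> intro h <;> linarith
  have e2 : (x0 ≤ x + x0) ↔ 0 ≤ x := by constructor <;> intro h <;> linarith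
  simp only [e1, e2]

theorem lL_bound (ι : Fin 6 → C) (i : Fin 8) (c : C) :
    (-1 ≤ (lL ι i c).1 ∧ (lL ι i c).1 ≤ 1) ∧ (-1 ≤ (lL ι i c).2 ∧ (lL ι i c).2 ≤ 1) := by
  have hX : (-1 ≤ (lX ι c).1 ∧ (lX ι c).1 ≤ 1) ∧ (-1 ≤ (lX ι c).2 ∧ (lX ι c).2 ≤ 1) := by
    unfold lX; split_ifs <;> simp
  have hY : (-1 ≤ (lY ι c).1 ∧ (lY ι c).1 ≤ 1) ∧ (-1 ≤ (lY ι c).2 ∧ (lY ι c).2 ≤ 1) := by
    unfold lY; split_ifs <;> simp
  fin_cases i <;> first | exact hX | exact hY | simp [lL]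

open KFlux

variable [Fintype C] {w h s t x0 y0 rs0 rt0 : ℤ} {F : Fin 8 → Set (ℤ × ℤ)}

theorem Ann_Zf {ι : Fin 6 → C} (hι : Function.Injective ι)
    (hF : ∀ i : Fin 8, F i = FZ w h (rs0 + 4 * ((i : ℕ) : ℤ)) (rt0 + 4 * ((i : ℕ) : ℤ)))
    (h2 : 2 ≤ rs0) (hst : s ≤ t) (hs : rs0 + 30 ≤ s) (ht : rt0 + 30 ≤ t) :
    Ann w h s t 2 (Zf ι F) where
  box := by
    have key : ∀ (L : List (Perm (Om C))), (∀ g ∈ L, ∀ z ∈ bx C 0 w 0 h, g z ∈ bx C 0 w 0 h) →
        ∀ z ∈ bx C 0 w 0 h, L.prod z ∈ bx C 0 w 0 h := by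
      intro L
      induction L with
      | nil => intro _ z hz; exact hz
      | cons g L ih =>
        intro hL z hz
        rw [List.prod_cons, Perm.mul_apply]
        exact hL g List.mem_cons_self _ (ih (fun g' hg' => hL g' (List.mem_cons_of_mem _ hg')) z hz)
    refine key _ fun g hg z hz => ?_
    rw [List.mem_ofFn] at hg
    obtain ⟨i, rfl⟩ := hg
    obtain ⟨p, c⟩ := z
    by_cases hm : p - lL ι i c ∈ F i
    · rw [lay_mem hm, mem_bx]
      rw [hF i, mem_FZ] at hm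
      have b := lL_bound ι i (zL ι i c)
      simp only [Prod.fst_sub, Prod.snd_sub, Prod.fst_add, Prod.snd_add] at *
      omega
    · rw [lay_not_mem hm]; exact hz
  dispx z _ := (Zf_disp hι F z).1
  dispy z _ := (Zf_disp hι F z).2
  midx z hz a b c d := by
    refine Zf_eq_self_of_mem hι fun i v h1 h2 => ?_
    rw [abs_le] at h1 h2
    rw [hF i, mem_FZ]
    simp only [Prod.fst_add, Prod.snd_add]
    omega
  midy z hz a b c d := by
    refine Zf_eq_self_of_mem hι fun i v h1 h2 => ?_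
    rw [abs_le] at h1 h2
    rw [hF i, mem_FZ]
    simp only [Prod.fst_add, Prod.snd_add]
    omega

/-- the circulation of `Zf` is `1`. -/
theorem kap_Zf {ι : Fin 6 → C} (hι : Function.Injective ι)
    (hF : ∀ i : Fin 8, F i = FZ w h (rs0 + 4 * ((i : ℕ) : ℤ)) (rt0 + 4 * ((i : ℕ) : ℤ)))
    (h2 : 2 ≤ rs0) (hs : rs0 + 30 ≤ s) (ht : rt0 + 30 ≤ t)
    (hm : Mid w h s t 2 x0 y0) : kap w s x0 (Zf ι F) = 1 := by
  obtain ⟨m1, m2, m3, m4, m5, m6, m7⟩ := hm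
  unfold kap phiB fl
  have hsub : bx C (x0 - 2) (x0 + 2) (rs0 - 2) (rs0 + 30) ⊆ bx C 0 w 0 s := by
    intro z; rw [mem_bx, mem_bx]; omega
  rw [← Finset.sum_subset hsub]
  swap
  · intro z hz hz'
    have hd := (Zf_disp hι F z).1
    rw [abs_le] at hd
    rw [mem_bx] at hz hz'
    by_cases hx : x0 - 2 ≤ z.1.1 ∧ z.1.1 < x0 + 2
    · have e : Zf ι F z = z := by
        by_cases hy : z.1.2 < rs0 - 2
        · refine Zf_eq_self_of_not_mem hι fun i v h1 h2 => ?_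
          rw [abs_le] at h1 h2
          rw [hF i, mem_FZ]
          simp only [Prod.fst_add, Prod.snd_add]
          omega
        · refine Zf_eq_self_of_mem hι fun i v h1 h2 => ?_
          rw [abs_le] at h1 h2
          rw [hF i, mem_FZ]
          simp only [Prod.fst_add, Prod.snd_add]
          omega
      rw [e, sub_self]
    · split_ifs <;> omega
  -- the value of a term
  have hterm : ∀ x ∈ Finset.Ico (x0 - 2) (x0 + 2), ∀ y ∈ Finset.Ico (rs0 - 2) (rs0 + 30),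
      ∑ c : C, ((if x0 ≤ (Zf ι F ((x, y), c)).1.1 then (1 : ℤ) else 0) - (if x0 ≤ x then 1 else 0)) =
      ∑ k : Fin 6, ((if x0 ≤ x + (tot (mB (y - rs0)) k).1.1 then (1 : ℤ) else 0) -
        (if x0 ≤ x then 1 else 0)) := by
    intro x hx y hy
    rw [Finset.mem_Ico] at hx hy
    symm
    refine Fintype.sum_of_injective ι hι _ _ ?_ ?_
    · intro c hc
      rw [Zf_other hc]
      exact sub_self _
    · intro k
      have e : Zf ι F ((x, y), ι k) = ((x, y) + (tot (mB (y - rs0)) k).1,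
          ι (tot (mB (y - rs0)) k).2) := by
        refine Zf_apply hι (fun i v h1 h2 => ?_) k
        rw [abs_le] at h1 h2
        rw [hF i, mem_FZ]
        unfold mB
        simp only [Prod.fst_add, Prod.snd_add, decide_eq_true_eq]
        omega
      rw [e]
      rfl
  rw [bx, Finset.sum_product, Finset.sum_product, Finset.sum_comm]
  rw [Finset.sum_congr rfl fun y hy => Finset.sum_congr rfl fun x hx => hterm x hx y hy]
  rw [Finset.sum_congr rfl fun y hy => Finset.sum_comm]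
  rw [Finset.sum_congr rfl fun y hy => Finset.sum_congr rfl fun k _ =>
    line_sum x0 _ (tot_bound (mB (y - rs0)) k).1]
  have h := Finset.sum_Ico_add' (fun y : ℤ => ∑ k : Fin 6, (tot (mB (y - rs0)) k).1.1) (-2) 30 rs0
  rw [show (-2 : ℤ) + rs0 = rs0 - 2 by ring, show (30 : ℤ) + rs0 = rs0 + 30 by ring] at h
  rw [← h, ← sum_tot]
  refine Finset.sum_congr rfl fun y _ => ?_
  rw [add_sub_cancel_right]

/-! ### The word `Z` is trivial in every coloured group -/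

section Word

variable {T : Type} [Group T]

theorem swap_mul_swap_even {a b c d : C} (hab : a ≠ b) (hcd : c ≠ d) :
    swap a b * swap c d ∈ alternatingGroup C := by
  rw [mem_alternatingGroup, map_mul, sign_swap hab, sign_swap hcd]; rfl

theorem zL_even {ι : Fin 6 → C} (hι : Function.Injective ι) (i : Fin 8) :
    zL ι i ∈ alternatingGroup C := by
  have h01 : ι 0 ≠ ι 1 := hι.ne (by decide)
  have h02 : ι 0 ≠ ι 2 := hι.ne (by decide)
  have h34 : ι 3 ≠ ι 4 := hι.ne (by decide)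
  fin_cases i <;> first | exact swap_mul_swap_even h01 h34 | exact swap_mul_swap_even h02 h34

/-- the even permutations of the letters of `Z` -/
def zA (ι : Fin 6 → C) (hι : Function.Injective ι) (i : Fin 8) : alternatingGroup C :=
  ⟨zL ι i, zL_even hι i⟩

theorem sum_lX {ι : Fin 6 → C} (hι : Function.Injective ι) : ∑ c, lX ι c = 0 := by
  have h : lX ι = fun c => (if c = ι 0 then ((1, 0) : ℤ × ℤ) else 0) +
      (if c = ι 5 then ((-1, 0) : ℤ × ℤ) else 0) := by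
    funext c
    unfold lX
    have h05 : ι 0 ≠ ι 5 := hι.ne (by decide)
    split_ifs with h1 h2 h2
    · exact absurd (h1.symm.trans h2) h05
    · simp
    · simp
    · simp
  rw [h, Finset.sum_add_distrib]
  simp

theorem sum_lY {ι : Fin 6 → C} (hι : Function.Injective ι) : ∑ c, lY ι c = 0 := by
  have h : lY ι = fun c => (if c = ι 0 then ((0, 1) : ℤ × ℤ) else 0) +
      (if c = ι 5 then ((0, -1) : ℤ × ℤ) else 0) := by
    funext c
    unfold lY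
    have h05 : ι 0 ≠ ι 5 := hι.ne (by decide)
    split_ifs with h1 h2 h2
    · exact absurd (h1.symm.trans h2) h05
    · simp
    · simp
    · simp
  rw [h, Finset.sum_add_distrib]
  simp

/-- `Z = [H(l) H(l')⁻¹, H(m) H(m')⁻¹] = 1` -/
theorem comm_word {u v hx hy hx' hy' : T} (hu : u * u = 1) (hv : v * v = 1)
    (h1 : u * hx * u⁻¹ = hx') (h2 : v * hy * v⁻¹ = hy') (c1 : Commute hx hy)
    (c2 : Commute hx hy') (c3 : Commute hx' hy) (c4 : Commute hx' hy') :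
    (hx * u * hx⁻¹) * (u * ((hy * v * hy⁻¹) * (v * (u * ((hx * u * hx⁻¹) *
      (v * (hy * v * hy⁻¹))))))) = 1 := by
  have hu' : u⁻¹ = u := inv_eq_of_mul_eq_one_left hu
  have hv' : v⁻¹ = v := inv_eq_of_mul_eq_one_left hv
  have e1 : hx * u * hx⁻¹ * u = hx * hx'⁻¹ := by
    rw [← h1, mul_inv_rev, mul_inv_rev, inv_inv, hu']; group
  have e2 : hy * v * hy⁻¹ * v = hy * hy'⁻¹ := by
    rw [← h2, mul_inv_rev, mul_inv_rev, inv_inv, hv']; group
  have e3 : u * (hx * u * hx⁻¹) = (hx * hx'⁻¹)⁻¹ := by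
    rw [← e1]; simp only [mul_inv_rev, inv_inv, hu', mul_assoc]
  have e4 : v * (hy * v * hy⁻¹) = (hy * hy'⁻¹)⁻¹ := by
    rw [← e2]; simp only [mul_inv_rev, inv_inv, hv', mul_assoc]
  have cc : Commute (hx * hx'⁻¹) (hy * hy'⁻¹) :=
    (Commute.mul_right c1 c2.inv_right).mul_left (Commute.mul_right c3.inv_left
      (c4.inv_left.inv_right))
  calc _ = (hx * u * hx⁻¹ * u) * (hy * v * hy⁻¹ * v) * (u * (hx * u * hx⁻¹)) *
        (v * (hy * v * hy⁻¹)) := by simp only [mul_assoc]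
    _ = (hx * hx'⁻¹) * (hy * hy'⁻¹) * (hx * hx'⁻¹)⁻¹ * (hy * hy'⁻¹)⁻¹ := by rw [e1, e2, e3, e4]
    _ = 1 := by rw [cc.eq]; group

/-- the word `Z` is `1` in every coloured group. -/
theorem Zword_eq_one (S : ColGrp C (ℤ × ℤ) T) {ι : Fin 6 → C} (hι : Function.Injective ι) :
    (List.ofFn fun i : Fin 8 =>
      S.H (lL ι i) * S.one (zA ι hι i) * (S.H (lL ι i))⁻¹).prod = 1 := by
  have H0 : S.H 0 = 1 := by
    have h := S.H_add 0 0 (by simp) (by simp)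
    rw [add_zero] at h
    exact (mul_eq_left.1 h.symm)
  have hcomm : ∀ l m : C → ℤ × ℤ, ∑ c, l c = 0 → ∑ c, m c = 0 → Commute (S.H l) (S.H m) := by
    intro l m hl hm
    unfold Commute SemiconjBy
    rw [← S.H_add l m hl hm, ← S.H_add m l hm hl, add_comm]
  have hsum : ∀ (σ : Perm C) (l : C → ℤ × ℤ), ∑ c, l c = 0 → ∑ c, l (σ⁻¹ c) = 0 := by
    intro σ l hl
    rw [← hl]
    exact Equiv.sum_comp σ⁻¹ l
  have sX := sum_lX hι
  have sY := sum_lY hι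
  have hU : S.one (zA ι hι 0) * S.one (zA ι hι 0) = 1 := by
    rw [← map_mul]
    have : zA ι hι 0 * zA ι hι 0 = 1 := by
      ext1; ext1 c
      have h34 : Disjoint (swap (ι 0) (ι 1)) (swap (ι 3) (ι 4)) := by
        rw [disjoint_iff_disjoint_support, support_swap (hι.ne (by decide)),
          support_swap (hι.ne (by decide))]
        simp [hι.eq_iff]
      change (swap (ι 0) (ι 1) * swap (ι 3) (ι 4) * (swap (ι 0) (ι 1) * swap (ι 3) (ι 4))) c = c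
      rw [h34.commute.symm.mul_mul_mul_comm, swap_mul_self, swap_mul_self]; rfl
    rw [this, map_one]
  have hV : S.one (zA ι hι 2) * S.one (zA ι hι 2) = 1 := by
    rw [← map_mul]
    have : zA ι hι 2 * zA ι hι 2 = 1 := by
      ext1; ext1 c
      have h34 : Disjoint (swap (ι 0) (ι 2)) (swap (ι 3) (ι 4)) := by
        rw [disjoint_iff_disjoint_support, support_swap (hι.ne (by decide)),
          support_swap (hι.ne (by decide))]
        simp [hι.eq_iff]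
      change (swap (ι 0) (ι 2) * swap (ι 3) (ι 4) * (swap (ι 0) (ι 2) * swap (ι 3) (ι 4))) c = c
      rw [h34.commute.symm.mul_mul_mul_comm, swap_mul_self, swap_mul_self]; rfl
    rw [this, map_one]
  have key := comm_word (T := T) hU hV (S.one_H (zA ι hι 0) (lX ι) sX)
    (S.one_H (zA ι hι 2) (lY ι) sY) (hcomm _ _ sX sY) (hcomm _ _ sX (hsum _ _ sY))
    (hcomm _ _ (hsum _ _ sX) sY) (hcomm _ _ (hsum _ _ sX) (hsum _ _ sY))
  rw [← key]
  have z1 : zA ι hι 1 = zA ι hι 0 := rfl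
  have z3 : zA ι hι 3 = zA ι hι 2 := rfl
  have z4 : zA ι hι 4 = zA ι hι 0 := rfl
  have z5 : zA ι hι 5 = zA ι hι 0 := rfl
  have z6 : zA ι hι 6 = zA ι hι 2 := rfl
  have z7 : zA ι hι 7 = zA ι hι 2 := rfl
  have l0 : lL ι 0 = lX ι := rfl
  have l1 : lL ι 1 = 0 := rfl
  have l2 : lL ι 2 = lY ι := rfl
  have l3 : lL ι 3 = 0 := rfl
  have l4 : lL ι 4 = 0 := rfl
  have l5 : lL ι 5 = lX ι := rfl
  have l6 : lL ι 6 = 0 := rfl
  have l7 : lL ι 7 = lY ι := rfl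
  have e : (List.ofFn fun i : Fin 8 => S.H (lL ι i) * S.one (zA ι hι i) * (S.H (lL ι i))⁻¹).prod =
      (S.H (lL ι 0) * S.one (zA ι hι 0) * (S.H (lL ι 0))⁻¹) *
      ((S.H (lL ι 1) * S.one (zA ι hι 1) * (S.H (lL ι 1))⁻¹) *
      ((S.H (lL ι 2) * S.one (zA ι hι 2) * (S.H (lL ι 2))⁻¹) *
      ((S.H (lL ι 3) * S.one (zA ι hι 3) * (S.H (lL ι 3))⁻¹) *
      ((S.H (lL ι 4) * S.one (zA ι hι 4) * (S.H (lL ι 4))⁻¹) *
      ((S.H (lL ι 5) * S.one (zA ι hι 5) * (S.H (lL ι 5))⁻¹) *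
      ((S.H (lL ι 6) * S.one (zA ι hι 6) * (S.H (lL ι 6))⁻¹) *
      (S.H (lL ι 7) * S.one (zA ι hι 7) * (S.H (lL ι 7))⁻¹))))))) := by
    simp [List.ofFn_succ]
  rw [e, z1, z3, z4, z5, z6, z7, l0, l1, l2, l3, l4, l5, l6, l7, H0]
  simp only [one_mul, inv_one, mul_one]

end Word

end Crest.Agent.R189.KZ
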