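import Crest.Agent.R189.StarCore

/-!
Row 189, module M1 (task 1383), part 3: finite facts about `Star` used in the renormalisation
theorem (note 7931, E2 steps 1-9).
-/

set_option autoImplicit false

namespace Crest.Agent.R189

namespace Star

theorem rule_P (σ : Star) (h : σ.domP = true) : Rule σ.Pb σ.Pf σ.Qb σ.Qf := by
  have h' : σ.1.domP = true := h
  have := σ.2
  simp only [RStar.OK, h', if_true] at this
  exact this

theorem rule_Q (σ : Star) (h : σ.domP = false) : Rule σ.Qb σ.Qf σ.Pb σ.Pf := by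
  have h' : σ.1.domP = false := h
  have := σ.2
  simp only [RStar.OK, h', Bool.false_eq_true, if_false] at this
  exact this

/-! ### step 1: types are preserved -/

theorem tau_P (σ : Star) : σ.Pb.tau = σ.Pf.tau := by
  cases h : σ.domP
  · exact (σ.rule_Q h).2.2.2.1
  · exact (σ.rule_P h).1

theorem tau_Q (σ : Star) : σ.Qb.tau = σ.Qf.tau := by
  simpa using σ.flip.tau_P

/-! ### step 5: the state of the dominating line is preserved -/

theorem st_P (σ : Star) (h : σ.domP = true) : σ.Pb.st = σ.Pf.st := (σ.rule_P h).2.1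
theorem st_Q (σ : Star) (h : σ.domP = false) : σ.Qb.st = σ.Qf.st := (σ.rule_Q h).2.1

/-- memory of the dominated line: `B` before, `A` after -/
theorem Qb_u (σ : Star) (h : σ.domP = true) : σ.Qb.u = .B := (σ.rule_P h).2.2.2.2.1
theorem Qf_u (σ : Star) (h : σ.domP = true) : σ.Qf.u = .A := (σ.rule_P h).2.2.2.2.2.1
theorem Pb_u (σ : Star) (h : σ.domP = false) : σ.Pb.u = .B := (σ.rule_Q h).2.2.2.2.1
theorem Pf_u (σ : Star) (h : σ.domP = false) : σ.Pf.u = .A := (σ.rule_Q h).2.2.2.2.2.1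

theorem core_mem (σ : Star) (h : σ.domP = true) :
    (⟨σ.Pb.tau, σ.Pb.u, σ.Pf.u, σ.Qb.tau, σ.Qb.st, σ.Qf.st⟩ : Core) ∈ coreList :=
  (σ.rule_P h).2.2.2.2.2.2


/-! ### validity -/

theorem valid_dom {D D' L L' : Label} (h : Rule D D' L L') :
    D.Valid = true ∧ D'.Valid = true ∧ L.Valid = true ∧ L'.Valid = true := by
  obtain ⟨h1, h2, ⟨h3, -⟩, h4, h5, h6, h7⟩ := h
  have h8 := Core.valid _ h7
  simp only at h8
  obtain ⟨h8, h9, h10, h11⟩ := h8
  refine ⟨?_, ?_, ?_, ?_⟩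
  · simp [Label.Valid, h3, h10]
  · simp [Label.Valid, ← h1, ← h2, h3, h11]
  · simp [Label.Valid, h8, h5, validU]
  · simp [Label.Valid, ← h4, h9, h6, validU]

theorem Pb_valid (σ : Star) : σ.Pb.Valid = true := by
  cases h : σ.domP
  · exact (valid_dom (σ.rule_Q h)).2.2.1
  · exact (valid_dom (σ.rule_P h)).1
theorem Pf_valid (σ : Star) : σ.Pf.Valid = true := by
  cases h : σ.domP
  · exact (valid_dom (σ.rule_Q h)).2.2.2
  · exact (valid_dom (σ.rule_P h)).2.1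
theorem Qb_valid (σ : Star) : σ.Qb.Valid = true := σ.flip.Pb_valid
theorem Qf_valid (σ : Star) : σ.Qf.Valid = true := σ.flip.Pf_valid

/-! ### blank dominated line -/

theorem st_none {L : Label} (h : L.Valid = true) (ha : L.tau.active = false) : L.st = none := by
  obtain ⟨t, st, u⟩ := L
  simp only at ha
  rcases st with _ | ⟨s, r⟩
  · rfl
  · cases t <;> simp [Tau.active, Tau.cls] at ha <;>
      simp [Label.Valid, validSt, Tau.cls] at h

/-- blank dominated line: the dominating label is unchanged -/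
theorem blank_P (σ : Star) (h : σ.domP = true) (ha : σ.Qb.tau.active = false) :
    σ.Pb = σ.Pf := by
  have h7 := Core.mem_kinds _ (σ.core_mem h)
  have h1 := σ.tau_P
  have h2 := σ.st_P h
  have hu : σ.Pb.u = σ.Pf.u := by
    rcases h7 with h | ⟨k, h⟩ | ⟨k, h⟩ | ⟨k, m, -, h⟩
    · exact h.2.2.2
    · exact h.2.2.2
    · exfalso
      have : σ.Qb.tau = k.tau := h.2.1
      rw [this] at ha
      cases k <;> simp [Cls.tau, Tau.active, Tau.cls] at ha
    · exfalso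
      have : σ.Qb.tau = k.tau := h.2.1
      rw [this] at ha
      cases k <;> simp [Cls.tau, Tau.active, Tau.cls] at ha
  cases hb : σ.Pb
  cases hf : σ.Pf
  simp [hb, hf] at h1 h2 hu
  simp [h1, h2, hu]

theorem blank_Qb (σ : Star) (h : σ.domP = true) (ha : σ.Qb.tau.active = false) :
    σ.Qb = ⟨σ.Qb.tau, none, .B⟩ := by
  have h1 := st_none σ.Qb_valid ha
  have h2 := σ.Qb_u h
  cases hb : σ.Qb
  simp [hb] at h1 h2
  simp [h1, h2]

theorem blank_Qf (σ : Star) (h : σ.domP = true) (ha : σ.Qb.tau.active = false) :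
    σ.Qf = ⟨σ.Qb.tau, none, .A⟩ := by
  have h1 := st_none σ.Qf_valid (by rw [← σ.tau_Q]; exact ha)
  have h2 := σ.Qf_u h
  have h3 := σ.tau_Q
  cases hb : σ.Qf
  simp [hb] at h1 h2 h3
  simp [h1, h2, h3]

/-- dominated blank `P` line -/
theorem blank_Pb (σ : Star) (h : σ.domP = false) (ha : σ.Pb.tau.active = false) :
    σ.Pb = ⟨σ.Pb.tau, none, .B⟩ := σ.flip.blank_Qb (by simp [h]) ha
theorem blank_Pf (σ : Star) (h : σ.domP = false) (ha : σ.Pb.tau.active = false) :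
    σ.Pf = ⟨σ.Pb.tau, none, .A⟩ := σ.flip.blank_Qf (by simp [h]) ha

/-! ### active dominated line -/

/-- `R`-type or `I`-type -/
theorem act_cases (σ : Star) (h : σ.domP = true) (ha : σ.Qb.tau.active = true) :
    (σ.Qb.s = some .l ∧ σ.Qf.s = some .f ∧ σ.Pb = σ.Pf ∧
      ∃ k : Cls, σ.Qb.tau = k.tau ∧ σ.Qb.r = some (rb k) ∧ σ.Qf.r = some (rf k)) ∨
    (σ.Qb.s = some σ.Pb.tau.fst ∧ σ.Qf.s = some σ.Pb.tau.snd ∧ σ.Pb.tau.reset = true ∧
      σ.Pb.u = .A ∧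
      ∃ k : Cls, σ.Qb.tau = k.tau ∧ σ.Qb.r = some (rb k) ∧ σ.Qf.r = some (rf k) ∧ σ.Pf.u = uf k) ∨
    (σ.Qb.s = some σ.Pb.tau.fst ∧ σ.Qf.s = some σ.Pb.tau.snd ∧ σ.Pb.tau.reset = false ∧
      ∃ k : Cls, σ.Qb.tau = k.tau ∧ ∃ m ∈ moves, σ.Qb.r = some m.1 ∧ σ.Qf.r = some m.2.1 ∧
        σ.Pb.u = m.2.2.1 ∧ σ.Pf.u = m.2.2.2 ∧
        VAL k σ.Pb.tau.fst m.1 = true ∧ VAL k σ.Pb.tau.snd m.2.1 = true ∧
        ¬(σ.Pb.tau = .f0 ∧ k = .beta ∧ m.2.2.1 = .x) ∧
        ¬(σ.Pb.tau = .t2l ∧ k = .alpha ∧ m.2.2.2 = .x)) := by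
  have h7 := Core.mem_kinds _ (σ.core_mem h)
  have h1 := σ.tau_P
  have h2 := σ.st_P h
  rcases h7 with h | ⟨k, h⟩ | ⟨k, h⟩ | ⟨k, m, hm, h⟩
  · exfalso
    have := h.1
    simp only at this
    rw [this] at ha
    exact absurd ha (by simp)
  · left
    obtain ⟨hk, hb, hb', hu⟩ := h
    simp only at hk hb hb' hu
    refine ⟨by simp [Label.s, hb], by simp [Label.s, hb'], ?_, k, hk, by simp [Label.r, hb],
      by simp [Label.r, hb']⟩
    cases hb : σ.Pb
    cases hf : σ.Pf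
    simp [hb, hf] at h1 h2 hu
    simp [h1, h2, hu]
  · right; left
    obtain ⟨hr, hk, hb, hb', hu, hu'⟩ := h
    simp only at hr hk hb hb' hu hu'
    exact ⟨by simp [Label.s, hb], by simp [Label.s, hb'], hr, hu, k, hk, by simp [Label.r, hb],
      by simp [Label.r, hb'], hu'⟩
  · right; right
    obtain ⟨hr, hk, hb, hb', hu, hu', hv, hv', he, he'⟩ := h
    simp only at hr hk hb hb' hu hu' hv hv' he he'
    exact ⟨by simp [Label.s, hb], by simp [Label.s, hb'], hr, k, hk, m, hm, by simp [Label.r, hb],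
      by simp [Label.r, hb'], hu, hu', hv, hv', he, he'⟩


/-! ### steps 2-4: the stage component -/

section act
variable (σ : Star) (h : σ.domP = true) (ha : σ.Qb.tau.active = true)
include h ha

theorem s_cases : (σ.Qb.s = some .l ∧ σ.Qf.s = some .f) ∨
    (σ.Qb.s = some σ.Pb.tau.fst ∧ σ.Qf.s = some σ.Pb.tau.snd) := by
  rcases σ.act_cases h ha with h | h | h
  · exact Or.inl ⟨h.1, h.2.1⟩
  · exact Or.inr ⟨h.1, h.2.1⟩
  · exact Or.inr ⟨h.1, h.2.1⟩

theorem Qb_l_iff : σ.Qb.s = some .l ↔ σ.Qf.s = some .f := by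
  rcases σ.s_cases h ha with ⟨h1, h2⟩ | ⟨h1, h2⟩
  · simp [h1, h2]
  · simp [h1, h2, Tau.fst_ne_l, Tau.snd_ne_f]

theorem tau_of_Qf_l (h' : σ.Qf.s = some .l) : σ.Pb.tau = .t2l := by
  rcases σ.s_cases h ha with ⟨h1, h2⟩ | ⟨h1, h2⟩
  · rw [h2] at h'; simp at h'
  · rw [h2] at h'
    exact Tau.snd_eq_l _ (by simpa using h')

theorem tau_of_Qb_f (h' : σ.Qb.s = some .f) : σ.Pb.tau = .f0 := by
  rcases σ.s_cases h ha with ⟨h1, h2⟩ | ⟨h1, h2⟩
  · rw [h1] at h'; simp at h'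
  · rw [h1] at h'
    exact Tau.fst_eq_f _ (by simpa using h')

theorem Qf_of_tau_2l (h' : σ.Pb.tau = .t2l) (h'' : σ.Qf.s ≠ some .l) : σ.Qf.s = some .f := by
  rcases σ.s_cases h ha with ⟨h1, h2⟩ | ⟨h1, h2⟩
  · exact h2
  · rw [h'] at h2
    exact absurd h2 h''

theorem Qf_s0_of_Qb_f (h' : σ.Qb.s = some .f) : σ.Qf.s = some .s0 := by
  rcases σ.s_cases h ha with ⟨h1, h2⟩ | ⟨h1, h2⟩
  · rw [h1] at h'; simp at h'
  · rw [h2, σ.tau_of_Qb_f h ha h']; rfl

theorem tau_ne_f0_of_Qb_s0 (h' : σ.Qb.s = some .s0) : σ.Pb.tau ≠ .f0 := by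
  rcases σ.s_cases h ha with ⟨h1, h2⟩ | ⟨h1, h2⟩
  · rw [h1] at h'; simp at h'
  · intro h3
    rw [h1, h3] at h'
    simp [Tau.fst] at h'

/-- I-type: the stage after is the second component of `P.tau` -/
theorem Qf_s_of_ne (h' : σ.Qf.s ≠ some .f) : σ.Qf.s = some σ.Pb.tau.snd := by
  rcases σ.s_cases h ha with ⟨h1, h2⟩ | ⟨h1, h2⟩
  · exact absurd h2 h'
  · exact h2

/-- I-type: the stage before is the first component of `P.tau` -/
theorem Qb_s_of_ne (h' : σ.Qb.s ≠ some .l) : σ.Qb.s = some σ.Pb.tau.fst := by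
  rcases σ.s_cases h ha with ⟨h1, h2⟩ | ⟨h1, h2⟩
  · exact absurd h1 h'
  · exact h1

/-- R-type crossings do not change the dominating label -/
theorem P_eq_of_R (h' : σ.Qb.s = some .l) : σ.Pb = σ.Pf := by
  rcases σ.act_cases h ha with h | h | h
  · exact h.2.2.1
  · rw [h.1] at h'; simp [Tau.fst_ne_l] at h'
  · rw [h.1] at h'; simp [Tau.fst_ne_l] at h'

/-! ### step 6, 7 -/

/-- R-type or reset crossing: signs are the fixed ones of the class -/
theorem signs_RR (h' : σ.Qb.s = some .l ∨ σ.Pb.tau.reset = true) :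
    ∃ k : Cls, σ.Qb.tau = k.tau ∧ σ.Qb.r = some (rb k) ∧ σ.Qf.r = some (rf k) := by
  rcases σ.act_cases h ha with h | h | h
  · exact h.2.2.2
  · obtain ⟨-, -, -, -, k, h1, h2, h3, -⟩ := h
    exact ⟨k, h1, h2, h3⟩
  · exfalso
    rcases h' with h' | h'
    · rw [h.1] at h'; simp [Tau.fst_ne_l] at h'
    · rw [h.2.2.1] at h'; simp at h'

theorem Qb_z_iff_RR (h' : σ.Qb.s = some .l ∨ σ.Pb.tau.reset = true) :
    σ.Qb.r = some .z ↔ σ.Qb.tau = .t12 := by
  obtain ⟨k, h1, h2, h3⟩ := σ.signs_RR h ha h'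
  rw [h1, h2]
  cases k <;> simp [Cls.tau, rb]

theorem Qf_z_iff_RR (h' : σ.Qb.s = some .l ∨ σ.Pb.tau.reset = true) :
    σ.Qf.r = some .z ↔ σ.Qb.tau = .t01 := by
  obtain ⟨k, h1, h2, h3⟩ := σ.signs_RR h ha h'
  rw [h1, h3]
  cases k <;> simp [Cls.tau, rf]

/-- reset crossings -/
theorem reset_cases (h1 : σ.Qb.s ≠ some .l) (h2 : σ.Pb.tau.reset = true) :
    σ.Pb.u = .A ∧ ∃ k : Cls, σ.Qb.tau = k.tau ∧ σ.Qb.r = some (rb k) ∧
      σ.Qf.r = some (rf k) ∧ σ.Pf.u = uf k := by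
  rcases σ.act_cases h ha with h | h | h
  · exact absurd h.1 h1
  · exact ⟨h.2.2.2.1, h.2.2.2.2⟩
  · rw [h.2.2.1] at h2; simp at h2

theorem reset_Pf_A (h1 : σ.Qb.s ≠ some .l) (h2 : σ.Pb.tau.reset = true)
    (h3 : σ.Qb.tau ≠ .t12) : σ.Pf.u = .A := by
  obtain ⟨-, k, hk, -, -, hu⟩ := σ.reset_cases h ha h1 h2
  rw [hu]
  cases k
  · rfl
  · rfl
  · exact absurd hk h3

theorem reset_Pf_B (h1 : σ.Qb.s ≠ some .l) (h2 : σ.Pb.tau.reset = true)
    (h3 : σ.Qb.tau = .t12) : σ.Pf.u = .B := by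
  obtain ⟨-, k, hk, -, -, hu⟩ := σ.reset_cases h ha h1 h2
  rw [hu]
  rw [h3] at hk
  cases k <;> simp [Cls.tau] at hk
  rfl

/-- move crossings: the four possibilities `(u, u', r, r')` -/
theorem move_cases (h1 : σ.Qb.s ≠ some .l) (h2 : σ.Pb.tau.reset = false) :
    (σ.Pb.u = .A ∧ σ.Pf.u = .A ∧ σ.Qb.r = some .p ∧ σ.Qf.r = some .p) ∨
    (σ.Pb.u = .A ∧ σ.Pf.u = .x ∧ σ.Qb.r = some .z ∧ σ.Qf.r = some .p) ∨
    (σ.Pb.u = .x ∧ σ.Pf.u = .B ∧ σ.Qb.r = some .m ∧ σ.Qf.r = some .z) ∨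
    (σ.Pb.u = .B ∧ σ.Pf.u = .B ∧ σ.Qb.r = some .m ∧ σ.Qf.r = some .m) := by
  rcases σ.act_cases h ha with h | h | h
  · exact absurd h.1 h1
  · rw [h.2.2.1] at h2; simp at h2
  · obtain ⟨-, -, -, k, hk, m, hm, e1, e2, e3, e4, -⟩ := h
    simp only [moves, List.mem_cons, List.not_mem_nil, or_false] at hm
    rcases hm with rfl | rfl | rfl | rfl <;> simp_all

theorem move_Pb_A (h1 : σ.Qb.s ≠ some .l) (h2 : σ.Pb.tau.reset = false) :
    σ.Pb.u = .A ↔ σ.Pf.u = .A ∨ σ.Pf.u = .x := by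
  rcases σ.move_cases h ha h1 h2 with h | h | h | h <;> simp [h]

theorem move_Pf_B (h1 : σ.Qb.s ≠ some .l) (h2 : σ.Pb.tau.reset = false) :
    σ.Pf.u = .B ↔ σ.Pb.u = .x ∨ σ.Pb.u = .B := by
  rcases σ.move_cases h ha h1 h2 with h | h | h | h <;> simp [h]

theorem move_Qb_z (h1 : σ.Qb.s ≠ some .l) (h2 : σ.Pb.tau.reset = false) :
    σ.Qb.r = some .z ↔ σ.Pf.u = .x := by
  rcases σ.move_cases h ha h1 h2 with h | h | h | h <;> simp [h]

theorem move_Qf_z (h1 : σ.Qb.s ≠ some .l) (h2 : σ.Pb.tau.reset = false) :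
    σ.Qf.r = some .z ↔ σ.Pb.u = .x := by
  rcases σ.move_cases h ha h1 h2 with h | h | h | h <;> simp [h]

theorem move_Qb_p (h1 : σ.Qb.s ≠ some .l) (h2 : σ.Pb.tau.reset = false) :
    σ.Qb.r = some .p ↔ σ.Pf.u = .A := by
  rcases σ.move_cases h ha h1 h2 with h | h | h | h <;> simp [h]

theorem move_Qf_p (h1 : σ.Qb.s ≠ some .l) (h2 : σ.Pb.tau.reset = false) :
    σ.Qf.r = some .p ↔ σ.Pb.u = .A := by
  rcases σ.move_cases h ha h1 h2 with h | h | h | h <;> simp [h]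

theorem move_Qb_m (h1 : σ.Qb.s ≠ some .l) (h2 : σ.Pb.tau.reset = false) :
    σ.Qb.r = some .m ↔ σ.Pf.u = .B := by
  rcases σ.move_cases h ha h1 h2 with h | h | h | h <;> simp [h]

theorem move_Qf_m (h1 : σ.Qb.s ≠ some .l) (h2 : σ.Pb.tau.reset = false) :
    σ.Qf.r = some .m ↔ σ.Pb.u = .B := by
  rcases σ.move_cases h ha h1 h2 with h | h | h | h <;> simp [h]

/-- class `alpha`, I-type : `u = A` before -/
theorem alpha_Pb_A (hk : σ.Qb.tau = .t01) (h1 : σ.Qb.s ≠ some .l) : σ.Pb.u = .A := by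
  rcases σ.act_cases h ha with h | h | h
  · exact absurd h.1 h1
  · exact h.2.2.2.1
  · obtain ⟨-, -, hr, k, hk', m, hm, e1, e2, e3, e4, v1, v2, x1, x2⟩ := h
    rw [hk] at hk'
    cases k <;> simp [Cls.tau] at hk'
    rw [e3]
    simp only [moves, List.mem_cons, List.not_mem_nil, or_false] at hm
    rcases hm with rfl | rfl | rfl | rfl
    · rfl
    · rfl
    · revert v1; cases σ.Pb.tau <;> simp [VAL, Tau.fst]
    · revert v1; cases σ.Pb.tau <;> simp [VAL, Tau.fst]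

/-- class `beta`, I-type : `u = B` after -/
theorem beta_Pf_B (hk : σ.Qb.tau = .t12) (h1 : σ.Qb.s ≠ some .l) : σ.Pf.u = .B := by
  rcases σ.act_cases h ha with h | h | h
  · exact absurd h.1 h1
  · obtain ⟨-, -, -, -, k, hk', -, -, hu⟩ := h
    rw [hk] at hk'
    cases k <;> simp [Cls.tau] at hk'
    exact hu
  · obtain ⟨-, -, hr, k, hk', m, hm, e1, e2, e3, e4, v1, v2, x1, x2⟩ := h
    rw [hk] at hk'
    cases k <;> simp [Cls.tau] at hk'
    rw [e4]
    simp only [moves, List.mem_cons, List.not_mem_nil, or_false] at hm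
    rcases hm with rfl | rfl | rfl | rfl
    · revert v2; cases σ.Pb.tau <;> simp [VAL, Tau.snd]
    · revert v2; cases σ.Pb.tau <;> simp [VAL, Tau.snd]
    · rfl
    · rfl

/-- step 8: allowed types for `A → x` at class `alpha` -/
theorem alpha_x (hk : σ.Qb.tau = .t01) (h1 : σ.Qb.s ≠ some .l) (h2 : σ.Pf.u = .x) :
    σ.Pb.tau = .f0 ∨ σ.Pb.tau = .t11 ∨ σ.Pb.tau = .t22 := by
  rcases σ.act_cases h ha with h | h | h
  · exact absurd h.1 h1
  · exfalso
    obtain ⟨-, -, -, -, k, hk', -, -, hu⟩ := h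
    rw [hu] at h2
    cases k <;> simp [uf] at h2
  · obtain ⟨-, -, hr, k, hk', m, hm, e1, e2, e3, e4, v1, v2, x1, x2⟩ := h
    rw [hk] at hk'
    cases k <;> simp [Cls.tau] at hk'
    rw [h2] at e4
    revert v1 v2 x2 hr
    simp only [moves, List.mem_cons, List.not_mem_nil, or_false] at hm
    rcases hm with rfl | rfl | rfl | rfl <;> cases σ.Pb.tau <;>
      simp [VAL, Tau.fst, Tau.snd, Tau.reset] at e4 ⊢

/-- step 8: class `mu`, `A → x` -/
theorem mu_x_after (hk : σ.Qb.tau = .t11) (h1 : σ.Qb.s ≠ some .l) (h2 : σ.Pf.u = .x) :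
    σ.Pb.tau ≠ .f0 := by
  intro h3
  rcases σ.act_cases h ha with h | h | h
  · exact absurd h.1 h1
  · exfalso
    obtain ⟨-, -, -, -, k, hk', -, -, hu⟩ := h
    rw [hu] at h2
    cases k <;> simp [uf] at h2
  · obtain ⟨-, -, hr, k, hk', m, hm, e1, e2, e3, e4, v1, v2, x1, x2⟩ := h
    rw [hk] at hk'
    cases k <;> simp [Cls.tau] at hk'
    rw [h2] at e4
    rw [h3] at v1 v2
    simp only [moves, List.mem_cons, List.not_mem_nil, or_false] at hm
    rcases hm with rfl | rfl | rfl | rfl <;>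
      simp [VAL, Tau.fst] at e4 v1 v2

/-- step 8: class `mu`, `x → B` -/
theorem mu_x_before (hk : σ.Qb.tau = .t11) (h1 : σ.Qb.s ≠ some .l) (h2 : σ.Pb.u = .x) :
    σ.Pb.tau ≠ .t2l := by
  intro h3
  rcases σ.act_cases h ha with h | h | h
  · exact absurd h.1 h1
  · exfalso
    rw [h.2.2.2.1] at h2
    simp at h2
  · obtain ⟨-, -, hr, k, hk', m, hm, e1, e2, e3, e4, v1, v2, x1, x2⟩ := h
    rw [hk] at hk'
    cases k <;> simp [Cls.tau] at hk'
    rw [h2] at e3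
    rw [h3] at v1 v2
    simp only [moves, List.mem_cons, List.not_mem_nil, or_false] at hm
    rcases hm with rfl | rfl | rfl | rfl <;>
      simp [VAL, Tau.fst, Tau.snd] at e3 v1 v2

/-- step 8: class `beta`, `x → B`: the type is not `22`, not `f0` -/
theorem beta_x_before (hk : σ.Qb.tau = .t12) (h1 : σ.Qb.s ≠ some .l) (h2 : σ.Pb.u = .x) :
    σ.Pb.tau = .t00 ∨ σ.Pb.tau = .t11 ∨ σ.Pb.tau = .t2l := by
  rcases σ.act_cases h ha with h | h | h
  · exact absurd h.1 h1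
  · exfalso
    rw [h.2.2.2.1] at h2
    simp at h2
  · obtain ⟨-, -, hr, k, hk', m, hm, e1, e2, e3, e4, v1, v2, x1, x2⟩ := h
    rw [hk] at hk'
    cases k <;> simp [Cls.tau] at hk'
    rw [h2] at e3
    revert v1 v2 x1 hr
    simp only [moves, List.mem_cons, List.not_mem_nil, or_false] at hm
    rcases hm with rfl | rfl | rfl | rfl <;> cases σ.Pb.tau <;>
      simp [VAL, Tau.fst, Tau.snd, Tau.reset] at e3 ⊢

end act

/-- step 6: a dominating line never has memory `B` before and `A` after -/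
theorem not_B_A (σ : Star) (h : σ.domP = true) : ¬(σ.Pb.u = .B ∧ σ.Pf.u = .A) := by
  rintro ⟨h1, h2⟩
  cases ha : σ.Qb.tau.active
  · rw [σ.blank_P h ha, h2] at h1
    simp at h1
  · rcases σ.act_cases h ha with h | h | h
    · rw [h.2.2.1, h2] at h1; simp at h1
    · rw [h.2.2.2.1] at h1; simp at h1
    · obtain ⟨-, -, hr, k, hk', m, hm, e1, e2, e3, e4, -⟩ := h
      rw [h1] at e3
      rw [h2] at e4
      simp only [moves, List.mem_cons, List.not_mem_nil, or_false] at hm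
      rcases hm with rfl | rfl | rfl | rfl <;> simp at e3 e4

theorem domP_eq_false (σ : Star) (h1 : σ.Pb.u = .B) (h2 : σ.Pf.u = .A) : σ.domP = false := by
  cases h : σ.domP
  · rfl
  · exact absurd ⟨h1, h2⟩ (σ.not_B_A h)

/-! ### step 9: a star is determined by `domP, Pb, Pf, Qb` -/

theorem eq_of_Qb (σ τ : Star) (h0 : σ.domP = τ.domP) (h1 : σ.Pb = τ.Pb) (h2 : σ.Pf = τ.Pf)
    (h3 : σ.Qb = τ.Qb) : σ = τ := by
  have htau : σ.Qf.tau = τ.Qf.tau := by rw [← σ.tau_Q, ← τ.tau_Q, h3]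
  cases h : σ.domP
  · have h' : τ.domP = false := by rw [← h0]; exact h
    have hst : σ.Qf.st = τ.Qf.st := by rw [← σ.st_Q h, ← τ.st_Q h', h3]
    have m1 := σ.flip.core_mem (by simp [h])
    have m2 := τ.flip.core_mem (by simp [h'])
    simp only [flip_Pb, flip_Pf, flip_Qb, flip_Qf] at m1 m2
    have hu := Core.det_u' _ m1 _ m2
    simp only [Core.DetU] at hu
    have hu' := hu ⟨by rw [h3], by rw [h3], by rw [h1], by rw [h1], by rw [h2]⟩
    refine Star.ext h0 h1 h2 h3 ?_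
    cases hb : σ.Qf
    cases hf : τ.Qf
    simp [hb, hf] at htau hst hu'
    simp [htau, hst, hu']
  · have h' : τ.domP = true := by rw [← h0]; exact h
    have hu' : σ.Qf.u = τ.Qf.u := by rw [σ.Qf_u h, τ.Qf_u h']
    have m1 := σ.core_mem h
    have m2 := τ.core_mem h'
    have hst : σ.Qf.st = τ.Qf.st :=
      Core.det_b' _ m1 _ m2 (by simp [h1]) (by simp [h1]) (by simp [h2]) (by simp [h3]) (by simp [h3])
    refine Star.ext h0 h1 h2 h3 ?_
    cases hb : σ.Qf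
    cases hf : τ.Qf
    simp [hb, hf] at htau hst hu'
    simp [htau, hst, hu']

end Star

end Crest.Agent.R189
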