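import Crest.Agent.R189.RNBasic
import Crest.Agent.R189.StarFacts
import Crest.Agent.R189.Let

/-!
# Row 189, M7/D (LETW, part 0): windows around the atoms of a level, abstract form

`Lt : E → Prop` is a down-closed predicate ("contained in a letter"), `g x y : G` the translation
by `x` in the direction of `q` and `y` in the direction of `p` (`g lq 0 = q`, `g 0 lp = p`).
`LetCell`: the atoms of the level are contained in letters in the positions of the base cell
`[0, lq) × [0, lp)`. `LetCell.window`: the same in the window around the atom (all four quadrants).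
-/

set_option autoImplicit false

namespace Crest.Agent.R189

open Romp

/-- index of an atom of a level with `n` digits: face, `P` edge, `Q` edge, vertex -/
inductive Atom (n : ℕ)
  | F (j : Fin n)
  | P (j : Fin n) (L : Label)
  | Q (j : Fin n) (L : Label)
  | V (j : Fin n) (s : Star)

namespace Atom

variable {n : ℕ}

/-- `Atom n` as a sum type -/
def toSum : Atom n → (Fin n ⊕ Fin n × Label) ⊕ (Fin n × Label ⊕ Fin n × Star)
  | F j => .inl (.inl j)
  | P j L => .inl (.inr (j, L))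
  | Q j L => .inr (.inl (j, L))
  | V j s => .inr (.inr (j, s))

theorem toSum_injective : Function.Injective (toSum (n := n)) := by
  intro x y h
  cases x <;> cases y <;> simp [toSum] at h <;> simp [h]

instance : Finite (Atom n) := Finite.of_injective _ toSum_injective

/-- digit of an atom -/
def dig : Atom n → Fin n
  | F j => j
  | P j _ => j
  | Q j _ => j
  | V j _ => j

/-- the event of an atom -/
noncomputable def event {E : Type*} [OMP E] (c : ℕ → E) (St : Star → E) : Atom n → E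
  | F j => c j
  | P j L => c j ⊓ₒ ev St {s | s.Pf = L}
  | Q j L => c j ⊓ₒ ev St {s | s.Qf = L}
  | V j s => c j ⊓ₒ St s

/-- window of an atom in the coordinates (along `q`, along `p`) -/
def InWin (lq lp : ℤ) : Atom n → ℤ → ℤ → Prop
  | F _, x, y => 0 < x ∧ x < lq ∧ 0 < y ∧ y < lp
  | P _ _, x, y => -lq < x ∧ x < lq ∧ 0 < y ∧ y < lp
  | Q _ _, x, y => 0 < x ∧ x < lq ∧ -lp < y ∧ y < lp
  | V _ _, x, y => -lq < x ∧ x < lq ∧ -lp < y ∧ y < lp

theorem InWin.x_lt {lq lp x y : ℤ} {κ : Atom n} (h : κ.InWin lq lp x y) :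
    -lq < x ∧ x < lq := by
  cases κ <;> simp only [InWin] at h <;> omega

theorem InWin.y_lt {lq lp x y : ℤ} {κ : Atom n} (h : κ.InWin lq lp x y) :
    -lp < y ∧ y < lp := by
  cases κ <;> simp only [InWin] at h <;> omega

end Atom

variable {G E : Type*} [CommGroup G] [ROMP E] [OMPAct G E]
variable {D : E} {p q : G} {a : ℕ} {c : ℕ → E} {St : Star → E}

/-- the atoms are contained in letters in the positions of the base cell -/
structure LetCell (Lt : E → Prop) (g : ℤ → ℤ → G) (lq lp : ℤ) (a : ℕ) (c : ℕ → E)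
    (St : Star → E) : Prop where
  F : ∀ x y, 0 < x → x < lq → 0 < y → y < lp → ∀ j, j < 3 * a → Lt (g x y • c j)
  P : ∀ y, 0 < y → y < lp → ∀ j, j < 3 * a → ∀ L : Label,
    Lt (g 0 y • (c j ⊓ₒ ev St {s | s.Pf = L}))
  Q : ∀ x, 0 < x → x < lq → ∀ j, j < 3 * a → ∀ L : Label,
    Lt (g x 0 • (c j ⊓ₒ ev St {s | s.Qf = L}))
  V : ∀ j, j < 3 * a → ∀ s, Lt (c j ⊓ₒ St s)

namespace LS

variable (h : LS D p q a c St)
include h

theorem event_le_c (κ : Atom (3 * a)) : κ.event c St ≤ c κ.dig := by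
  cases κ with
  | F j => exact le_rfl
  | P j L => exact h.cap_le_c j _
  | Q j L => exact h.cap_le_c j _
  | V j s => exact meet_le_left (h.comm_all j s)

theorem star_le_Pf (j : ℕ) (s : Star) : c j ⊓ₒ St s ≤ c j ⊓ₒ ev St {t | t.Pf = s.Pf} :=
  meet_mono (h.comm_all j s) (h.comm_ev j _) le_rfl (h.part_St.le_ev rfl)

theorem star_le_Qf (j : ℕ) (s : Star) : c j ⊓ₒ St s ≤ c j ⊓ₒ ev St {t | t.Qf = s.Qf} :=
  meet_mono (h.comm_all j s) (h.comm_ev j _) le_rfl (h.part_St.le_ev rfl)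

/-- index of the digit before `j` -/
theorem p_inv_c (j : ℕ) : p⁻¹ • c j = c ((j + (3 * a - 1)) % (3 * a)) := by
  have hn := h.n_pos
  rw [h.c_mod, inv_smul_eq_iff, h.p_c, show j + (3 * a - 1) + 1 = j + 3 * a by omega, h.c_add_n]

/-- below a vertex: the `P` edge before it -/
theorem p_inv_star_le (j : ℕ) (s : Star) :
    p⁻¹ • (c j ⊓ₒ St s) ≤ c ((j + (3 * a - 1)) % (3 * a)) ⊓ₒ ev St {t | t.Pf = s.Pb} := by
  have e1 : p • ev St {t | t.Pf = s.Pb} = ev St {t | t.Pb = s.Pb} := h.P_shift s.Pb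
  rw [← h.p_inv_c, ← inv_smul_smul p (ev St {t | t.Pf = s.Pb}), e1, ← smul_meet, smul_le_smul_iff]
  exact meet_mono (h.comm_all j s) (h.comm_ev j _) le_rfl (h.part_St.le_ev rfl)

/-- left of a vertex: the `Q` edge before it -/
theorem q_inv_star_le {j : ℕ} (hj : j < 3 * a) (s : Star) :
    ∃ L : Label, q⁻¹ • (c j ⊓ₒ St s) ≤ c j ⊓ₒ ev St {t | t.Qf = L} := by
  rcases Nat.eq_zero_or_pos j with rfl | h0
  · refine ⟨s.Qb, ?_⟩
    rw [← smul_le_smul_iff q, smul_inv_smul, h.Q_shift0]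
    exact meet_mono (h.comm_all 0 s) (h.comm_ev 0 _) le_rfl (h.part_St.le_ev rfl)
  · refine ⟨⟨tauOf a j, s.Qb.st, .A⟩, ?_⟩
    have e1 : q⁻¹ • (c j ⊓ₒ St s) ≤ c j ⊓ₒ ev St {t | t.Qf.st = s.Qb.st} := by
      rw [← smul_le_smul_iff q, smul_inv_smul, h.Q_shift j h0 hj]
      exact meet_mono (h.comm_all j s) (h.comm_ev j _) le_rfl (h.part_St.le_ev rfl)
    refine e1.trans ?_
    have e2 := h.Row_le_Row h0 hj (A := {t | t.Qf.st = s.Qb.st})
      (B := {t | t.Qf = ⟨tauOf a j, s.Qb.st, .A⟩}) (by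
        intro t ht h1 h2
        show t.Qf = _
        have h3 := t.Qf_u h1
        rw [t.tau_Q] at h2
        rw [← h2, ← show t.Qf.st = s.Qb.st from ht, ← h3])
    rwa [Row, Row, smul_le_smul_iff] at e2

end LS

/-- **windows**: the translate of an atom by a vector of its window is contained in a letter -/
theorem LetCell.window {Lt : E → Prop} {g : ℤ → ℤ → G} {lq lp : ℤ} (h : LS D p q a c St)
    (hm : ∀ x y : E, x ≤ y → Lt y → Lt x)
    (hg : ∀ x y x' y', g (x + x') (y + y') = g x y * g x' y')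
    (hq : g lq 0 = q) (hp : g 0 lp = p)
    (H : LetCell Lt g lq lp a c St) (κ : Atom (3 * a)) {x y : ℤ} (hw : κ.InWin lq lp x y) :
    Lt (g x y • κ.event c St) := by
  have hn := h.n_pos
  have hpm : ∀ j : ℕ, (j + (3 * a - 1)) % (3 * a) < 3 * a := fun j => Nat.mod_lt _ hn
  -- translations by `q⁻¹`, `p⁻¹`
  have gq : ∀ x y, g x y = g (x + lq) y * q⁻¹ := by
    intro x y
    rw [← hq, eq_mul_inv_iff_mul_eq, ← hg, add_zero]
  have gp : ∀ x y, g x y = g x (y + lp) * p⁻¹ := by
    intro x y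
    rw [← hp, eq_mul_inv_iff_mul_eq, ← hg, add_zero]
  have g00 : g 0 0 = 1 := by
    have := hg 0 0 0 0
    simpa using this
  -- faces: everything with `0 < y < lp`, `x ≠ 0`
  have F1 : ∀ x y, -lq < x → x < lq → x ≠ 0 → 0 < y → y < lp → ∀ j, j < 3 * a →
      Lt (g x y • c j) := by
    intro x y h1 h2 h0 h3 h4 j hj
    rcases lt_or_gt_of_ne h0 with hx | hx
    · rw [gq, mul_smul, h.q_inv_c]
      exact H.F _ _ (by omega) (by omega) h3 h4 j hj
    · exact H.F _ _ hx h2 h3 h4 j hj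
  have F2 : ∀ x y, -lq < x → x < lq → x ≠ 0 → -lp < y → y < lp → y ≠ 0 → ∀ j, j < 3 * a →
      Lt (g x y • c j) := by
    intro x y h1 h2 h0 h3 h4 hy0 j hj
    rcases lt_or_gt_of_ne hy0 with hy | hy
    · rw [gp, mul_smul, h.p_inv_c]
      exact F1 _ _ h1 h2 h0 (by omega) (by omega) _ (hpm j)
    · exact F1 _ _ h1 h2 h0 hy h4 j hj
  have hc : ∀ (κ : Atom (3 * a)) (x y : ℤ), g x y • κ.event c St ≤ g x y • c κ.dig :=
    fun κ x y => smul_le_smul _ (h.event_le_c κ)
  cases κ with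
  | F j =>
    obtain ⟨h1, h2, h3, h4⟩ := hw
    exact H.F _ _ h1 h2 h3 h4 j j.2
  | P j L =>
    obtain ⟨h1, h2, h3, h4⟩ := hw
    by_cases hx : x = 0
    · subst hx; exact H.P y h3 h4 j j.2 L
    · exact hm _ _ (hc _ x y) (F1 x y h1 h2 hx h3 h4 j j.2)
  | Q j L =>
    obtain ⟨h1, h2, h3, h4⟩ := hw
    by_cases hy : y = 0
    · subst hy; exact H.Q x h1 h2 j j.2 L
    · exact hm _ _ (hc _ x y) (F2 x y (by omega) h2 (by omega) h3 h4 hy j j.2)
  | V j s =>
    obtain ⟨h1, h2, h3, h4⟩ := hw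
    by_cases hx : x = 0
    · subst hx
      rcases lt_trichotomy y 0 with hy | hy | hy
      · rw [gp, mul_smul]
        exact hm _ _ (smul_le_smul _ (h.p_inv_star_le j s))
          (H.P _ (by omega) (by omega) _ (hpm j) s.Pb)
      · subst hy
        rw [g00, one_smul]
        exact H.V j j.2 s
      · exact hm _ _ (smul_le_smul _ (h.star_le_Pf j s)) (H.P y hy h4 j j.2 s.Pf)
    · by_cases hy : y = 0
      · subst hy
        rcases lt_or_gt_of_ne hx with hx' | hx'
        · rw [gq, mul_smul]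
          obtain ⟨L, hL⟩ := h.q_inv_star_le j.2 s
          exact hm _ _ (smul_le_smul _ hL) (H.Q _ (by omega) (by omega) j j.2 L)
        · exact hm _ _ (smul_le_smul _ (h.star_le_Qf j s)) (H.Q x hx' h2 j j.2 s.Qf)
      · exact hm _ _ (hc _ x y) (F2 x y h1 h2 hx h3 h4 hy j j.2)

end Crest.Agent.R189
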