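import Crest.Agent.R189.LETW0

/-!
# Row 189, M7/D (LETW, part 1): the tiling by the translates of `D_k`

`Lat a k v`: `v` is in the lattice `L_k = w_k ℤ × h_k ℤ`.
* `LS.hD_inv`: `D_k` is invariant under `L_k`;
* `LS.hD_orth`: `v.D_k` and `v'.D_k` are orthogonal if `v - v' ∉ L_k`;
* `LS.top_of_hD_le`: an upper bound of all `v.D_k` is `⊤` (if `D = ⊤`).
-/

set_option autoImplicit false

namespace Crest.Agent.R189

open Romp

/-- the lattice `L_k` -/
def Lat (a k : ℕ) (v : ℤ × ℤ) : Prop := (ww a k : ℤ) ∣ v.1 ∧ (hh a k : ℤ) ∣ v.2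

theorem Lat.zero (a k : ℕ) : Lat a k 0 := ⟨dvd_zero _, dvd_zero _⟩

theorem Lat.neg {a k : ℕ} {v : ℤ × ℤ} (h : Lat a k v) : Lat a k (-v) :=
  ⟨(dvd_neg).2 h.1, (dvd_neg).2 h.2⟩

theorem Lat.add {a k : ℕ} {v v' : ℤ × ℤ} (h : Lat a k v) (h' : Lat a k v') :
    Lat a k (v + v') := ⟨dvd_add h.1 h'.1, dvd_add h.2 h'.2⟩

theorem Lat_iff (a k : ℕ) (v : ℤ × ℤ) :
    Lat a k v ↔ ∃ x y : ℤ, v = x • qq a k + y • pp a k := by
  constructor
  · rintro ⟨⟨x, hx⟩, ⟨y, hy⟩⟩
    have e := lattice_gen (a₀ := a) k x y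
    have ev : v = (x * (ww a k : ℤ), y * (hh a k : ℤ)) :=
      Prod.ext (by rw [hx, mul_comm]) (by rw [hy, mul_comm])
    by_cases hk : Even k
    · rw [if_pos hk] at e; exact ⟨x, y, by rw [ev, e]⟩
    · rw [if_neg hk] at e; exact ⟨y, x, by rw [ev, e, add_comm]⟩
  · rintro ⟨x, y, rfl⟩
    by_cases hk : Even k
    · rw [pp_even hk, qq_even hk]
      constructor <;> simp
    · rw [pp_odd hk, qq_odd hk]
      constructor <;> simp

theorem Lat_succ {a k : ℕ} (v : ℤ × ℤ) (h : Lat a (k + 1) v) : Lat a k v := by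
  by_cases hk : Even k
  · rw [Lat, ww_succ_even hk, hh_succ_even hk] at h
    exact ⟨h.1, dvd_trans ⟨(nn a k : ℤ), by push_cast; ring⟩ h.2⟩
  · rw [Lat, ww_succ_odd hk, hh_succ_odd hk] at h
    exact ⟨dvd_trans ⟨(nn a k : ℤ), by push_cast; ring⟩ h.1, h.2⟩

/-- short vectors are not in the lattice -/
theorem not_Lat {a k : ℕ} {v : ℤ × ℤ} (h0 : v ≠ 0) (h1 : |v.1| < ww a k) (h2 : |v.2| < hh a k) :
    ¬ Lat a k v := by
  rintro ⟨h3, h4⟩
  exact h0 (Prod.ext (Int.eq_zero_of_abs_lt_dvd h3 h1) (Int.eq_zero_of_abs_lt_dvd h4 h2))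

namespace LS

section any
variable {G E : Type*} [CommGroup G] [ROMP E] [OMPAct G E]
variable {D : E} {p q : G} {a : ℕ} {c : ℕ → E} {St : Star → E}

theorem isLUB_c (h : LS D p q a c St) : IsLUB (Set.range c) D := by
  have h1 := h.part_c.isLUB_range
  have h2 : Set.range (fun j : Fin (3 * a) => c j) = Set.range c := by
    ext x
    constructor
    · rintro ⟨j, rfl⟩; exact ⟨j, rfl⟩
    · rintro ⟨j, rfl⟩
      exact ⟨⟨j % (3 * a), Nat.mod_lt _ h.n_pos⟩, h.c_mod j⟩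
  rwa [h2] at h1

theorem q_D (h : LS D p q a c St) : q • D = D := by
  have h1 := smul_isLUB q h.isLUB_c
  have h2 : (fun e => q • e) '' Set.range c = Set.range c := by
    rw [← Set.range_comp]
    congr 1
    funext j
    exact h.q_c j
  rw [h2] at h1
  exact h1.unique h.isLUB_c

theorem p_D (h : LS D p q a c St) : p • D = D := by
  have h1 := smul_isLUB p h.isLUB_c
  have h2 : (fun e => p • e) '' Set.range c = Set.range c := by
    ext x
    constructor
    · rintro ⟨_, ⟨j, rfl⟩, rfl⟩; exact ⟨j + 1, (h.p_c j).symm⟩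
    · rintro ⟨j, rfl⟩
      refine ⟨_, ⟨j + (3 * a - 1), rfl⟩, ?_⟩
      have := h.n_pos
      show p • c (j + (3 * a - 1)) = c j
      rw [h.p_c, show j + (3 * a - 1) + 1 = j + 3 * a by omega, h.c_add_n]
  rw [h2] at h1
  exact h1.unique h.isLUB_c

theorem zpow_smul_eq {M : Type*} [MulAction G M] {g : G} {x : M} (hg : g • x = x) (n : ℤ) :
    g ^ n • x = x := by
  have : g ∈ MulAction.stabilizer G x := hg
  exact Subgroup.zpow_mem _ this n

end any

section Z2
variable {E : Type*} [ROMP E] [OMPAct (Multiplicative (ℤ × ℤ)) E]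
variable {D : E} {a : ℕ} {c : ℕ → E} {St : Star → E}

theorem smul_qq_pp (a k : ℕ) (x y : ℤ) (e : E) :
    Multiplicative.ofAdd (x • qq a k + y • pp a k) • e =
      hQ pZ qZ a k ^ x • hP pZ qZ a k ^ y • e := by
  rw [hP_eq, hQ_eq, ofAdd_add, mul_smul, ofAdd_zsmul, ofAdd_zsmul]

/-- `D_k` is invariant under `L_k` -/
theorem hD_inv (h : LS D pZ qZ a c St) (k : ℕ) {v : ℤ × ℤ} (hv : Lat a k v) :
    Multiplicative.ofAdd v • hD D pZ qZ a c St k = hD D pZ qZ a c St k := by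
  obtain ⟨x, y, rfl⟩ := (Lat_iff a k v).1 hv
  rw [smul_qq_pp, zpow_smul_eq (h.lvl k).p_D, zpow_smul_eq (h.lvl k).q_D]

/-- translate of `D_k` by vectors equal mod `L_k` -/
theorem hD_congr (h : LS D pZ qZ a c St) (k : ℕ) {v v' : ℤ × ℤ} (hv : Lat a k (v - v')) :
    Multiplicative.ofAdd v • hD D pZ qZ a c St k =
      Multiplicative.ofAdd v' • hD D pZ qZ a c St k := by
  conv_rhs => rw [← h.hD_inv k hv]
  rw [← mul_smul, ← ofAdd_add, _root_.add_sub_cancel]

theorem hD_orth0 (h : LS D pZ qZ a c St) (k : ℕ) : ∀ {v : ℤ × ℤ}, ¬ Lat a k v →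
    Orth (hD D pZ qZ a c St k) (Multiplicative.ofAdd v • hD D pZ qZ a c St k) := by
  induction k with
  | zero =>
    intro v hv
    exact absurd ⟨by simp, by simp⟩ hv
  | succ k ih =>
    intro v hv
    have hl := h.lvl k
    have hle : hD D pZ qZ a c St (k + 1) ≤ hD D pZ qZ a c St k := hl.c_le 0
    by_cases hk : Lat a k v
    · obtain ⟨x, y, rfl⟩ := (Lat_iff a k v).1 hk
      rw [smul_qq_pp, hD_succ]
      -- the step `q`
      have hn := hl.n_pos
      have hn' : (0 : ℤ) < ((3 * (a + k) : ℕ) : ℤ) := by exact_mod_cast hn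
      set n : ℤ := ((3 * (a + k) : ℕ) : ℤ) with hndef
      obtain ⟨m, hm⟩ : ∃ m : ℕ, (m : ℤ) = y % n :=
        ⟨(y % n).toNat, Int.toNat_of_nonneg (Int.emod_nonneg _ (by omega))⟩
      have hmn : m < 3 * (a + k) := by
        have := Int.emod_lt_of_pos y hn'
        omega
      have e1 : hP pZ qZ a k ^ y • hc pZ qZ a c St k 0 = hc pZ qZ a c St k m := by
        have e2 : y = n * (y / n) + (m : ℤ) := by
          rw [hm]; exact (Int.mul_ediv_add_emod y n).symm
        rw [e2, zpow_add, mul_smul, zpow_natCast, ← hl.c_eq m, zpow_mul, hndef, zpow_natCast]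
        exact zpow_smul_eq (hl.pn_c m) _
      rw [e1, zpow_smul_eq (hl.q_c m)]
      refine hl.c_orth ?_
      rw [Nat.zero_mod, Nat.mod_eq_of_lt hmn]
      intro h0
      apply hv
      rw [← h0] at hm
      have hdvd : n ∣ y := Int.dvd_of_emod_eq_zero (by rw [← hm]; rfl)
      obtain ⟨z, rfl⟩ := hdvd
      rw [Lat_iff]
      refine ⟨z, x, ?_⟩
      rw [qq_succ, pp_succ, nn, ← hndef, smul_smul, mul_comm z n, add_comm]
    · exact (ih hk).mono hle (smul_le_smul _ hle)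

/-- translates of `D_k` by vectors different mod `L_k` are orthogonal -/
theorem hD_orth (h : LS D pZ qZ a c St) (k : ℕ) {v v' : ℤ × ℤ} (hv : ¬ Lat a k (v - v')) :
    Orth (Multiplicative.ofAdd v • hD D pZ qZ a c St k)
      (Multiplicative.ofAdd v' • hD D pZ qZ a c St k) := by
  have h1 : ¬ Lat a k (v' - v) := fun h2 => hv (by have := h2.neg; rwa [neg_sub] at this)
  have h2 := h.hD_orth0 k h1
  rw [← smul_orth_iff (Multiplicative.ofAdd v), ← mul_smul, ← ofAdd_add, _root_.add_sub_cancel] at h2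
  exact h2

/-- the translates of `D_k` cover everything -/
theorem top_of_hD_le (h : LS D pZ qZ a c St) (hD1 : D = ⊤) (k : ℕ) {y : E}
    (hy : ∀ v : ℤ × ℤ, Multiplicative.ofAdd v • hD D pZ qZ a c St k ≤ y) : y = ⊤ := by
  induction k with
  | zero =>
    have := hy 0
    rw [hD_zero, hD1, smul_top] at this
    exact top_le_iff.1 this
  | succ k ih =>
    apply ih
    intro v
    have hl := h.lvl k
    have h1 := smul_isLUB (Multiplicative.ofAdd v) hl.isLUB_c
    apply h1.2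
    rintro x ⟨_, ⟨j, rfl⟩, rfl⟩
    have h2 := hy (v + (j : ℤ) • pp a k)
    rw [smul_add_pp, hD_succ, ← hl.c_eq j] at h2
    exact h2

/-- `F` is a system of representatives mod `L_k` -/
def IsRep (a k : ℕ) (F : Set (ℤ × ℤ)) : Prop :=
  (∀ v ∈ F, ∀ v' ∈ F, Lat a k (v - v') → v = v') ∧ ∀ v, ∃ v' ∈ F, Lat a k (v - v')

/-- a system of representatives gives a partition of `⊤` -/
theorem hD_part (h : LS D pZ qZ a c St) (hD1 : D = ⊤) (k : ℕ) {F : Set (ℤ × ℤ)}
    (hF : IsRep a k F) :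
    IsPart (fun v : F => Multiplicative.ofAdd (v : ℤ × ℤ) • hD D pZ qZ a c St k) ⊤ := by
  have horth : ∀ {v v' : F}, v ≠ v' →
      Orth (Multiplicative.ofAdd (v : ℤ × ℤ) • hD D pZ qZ a c St k)
        (Multiplicative.ofAdd (v' : ℤ × ℤ) • hD D pZ qZ a c St k) :=
    fun {v v'} hvv' => h.hD_orth k fun hl => hvv' (Subtype.ext (hF.1 _ v.2 _ v'.2 hl))
  refine IsPart.of_isLUB horth ⟨fun _ _ => le_top, fun y hy => ?_⟩
  refine top_le_iff.2 (h.top_of_hD_le hD1 k fun v => ?_)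
  obtain ⟨v', hv', hl⟩ := hF.2 v
  rw [h.hD_congr k hl]
  exact hy ⟨⟨v', hv'⟩, rfl⟩

end Z2

end LS

/-- the boxes `[x, x + w_k) × [y, y + h_k)` are systems of representatives -/
theorem LS.isRep_box {a : ℕ} (ha : 0 < a) (k : ℕ) (x y : ℤ) :
    LS.IsRep a k {v | (x ≤ v.1 ∧ v.1 < x + ww a k) ∧ (y ≤ v.2 ∧ v.2 < y + hh a k)} := by
  have hw : (0 : ℤ) < ww a k := by exact_mod_cast ww_pos ha k
  have hh' : (0 : ℤ) < hh a k := by exact_mod_cast hh_pos ha k
  constructor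
  · rintro v ⟨⟨h1, h2⟩, h3, h4⟩ v' ⟨⟨h1', h2'⟩, h3', h4'⟩ hl
    by_contra hne
    refine not_Lat (a := a) (k := k) (v := v - v') (sub_ne_zero.2 hne) ?_ ?_ hl
    · rw [Prod.fst_sub, abs_lt]; constructor <;> omega
    · rw [Prod.snd_sub, abs_lt]; constructor <;> omega
  · intro v
    refine ⟨(x + (v.1 - x) % (ww a k : ℤ), y + (v.2 - y) % (hh a k : ℤ)), ⟨⟨?_, ?_⟩, ?_, ?_⟩, ?_⟩
    · have := Int.emod_nonneg (v.1 - x) hw.ne'
      show x ≤ x + (v.1 - x) % (ww a k : ℤ)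
      omega
    · have := Int.emod_lt_of_pos (v.1 - x) hw
      show x + (v.1 - x) % (ww a k : ℤ) < x + ww a k
      omega
    · have := Int.emod_nonneg (v.2 - y) hh'.ne'
      show y ≤ y + (v.2 - y) % (hh a k : ℤ)
      omega
    · have := Int.emod_lt_of_pos (v.2 - y) hh'
      show y + (v.2 - y) % (hh a k : ℤ) < y + hh a k
      omega
    · constructor
      · show (ww a k : ℤ) ∣ v.1 - (x + (v.1 - x) % (ww a k : ℤ))
        rw [← sub_sub]
        exact Int.dvd_self_sub_emod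
      · show (hh a k : ℤ) ∣ v.2 - (y + (v.2 - y) % (hh a k : ℤ))
        rw [← sub_sub]
        exact Int.dvd_self_sub_emod

end Crest.Agent.R189
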