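import Mathlib

/-!
Row 189, E4: the arithmetic core of the vanishing of the multiplier classes.

`x k j s` is the class of the atom `c^(k)_j ∧ St^(k)_s`. The relations (R0)-(R5) come from the
hierarchy; the conclusion is that all classes vanish. NOTE: for even `k` (`a₀ + k` odd) the numbers
`n k * n (k+2) * ...` are never even, so divisibility alone does not kill the 2-part of `U k`;
it is killed by forward induction from the genuine letters (`U 0 = 0`).
-/

set_option autoImplicit false
open Finset

namespace Crest.Agent.R189.Mu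

variable {A : Type*} [AddCommGroup A]

/-- iterated divisibility -/
theorem iter_div (n : ℕ → ℕ) (U : ℕ → A) (h : ∀ k, U k = n k • U (k + 2)) (k r : ℕ) :
    U k = (∏ i ∈ range r, n (k + 2 * i)) • U (k + 2 * r) := by
  induction r with
  | zero => simp
  | succ r ih =>
    rw [prod_range_succ, mul_smul, show k + 2 * (r + 1) = (k + 2 * r) + 2 by ring, ← h, ← ih]

theorem iter_div1 (n : ℕ → ℕ) (U : ℕ → A) (h : ∀ k, U k = n k • U (k + 1)) (k r : ℕ) :
    U k = (∏ i ∈ range r, n (k + i)) • U (k + r) := by
  induction r with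
  | zero => simp
  | succ r ih =>
    rw [prod_range_succ, mul_smul, show k + (r + 1) = (k + r) + 1 by ring, ← h, ← ih]

/-- a product over a range is divisible by each of its factors -/
theorem dvd_prod_range (f : ℕ → ℕ) {i r : ℕ} (hi : i < r) {m : ℕ} (hm : m ∣ f i) :
    m ∣ ∏ i ∈ range r, f i :=
  hm.trans (dvd_prod_of_mem f (mem_range.2 hi))

/-- consecutive recursion: infinitely divisible, hence zero -/
theorem C_zero (a0 : ℕ) {d : ℕ} (hd : 0 < d) (hA : ∀ a : A, d • a = 0) (C : ℕ → A)
    (h : ∀ k, C k = (3 * (a0 + (k + 1))) • C (k + 1)) (k : ℕ) : C k = 0 := by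
  rw [iter_div1 (fun k => 3 * (a0 + (k + 1))) C h k (d * (a0 + k + 1) + 1)]
  have h1 : d ∣ ∏ i ∈ range (d * (a0 + k + 1) + 1), (fun k => 3 * (a0 + (k + 1))) (k + i) := by
    -- factor with a0 + (k + i + 1) = d * (a0 + k + 1)
    have hle : a0 + k + 1 ≤ d * (a0 + k + 1) := Nat.le_mul_of_pos_left _ hd
    apply dvd_prod_range (fun i => 3 * (a0 + (k + i + 1))) (i := d * (a0 + k + 1) - (a0 + k + 1))
    · omega
    · rw [show a0 + (k + (d * (a0 + k + 1) - (a0 + k + 1)) + 1) = d * (a0 + k + 1) by omega]
      exact Dvd.dvd.mul_left (dvd_mul_right _ _) _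
  obtain ⟨c, hc⟩ := h1
  rw [hc, mul_comm, mul_smul, hA, smul_zero]

/-- the two-step recursion with vanishing initial value at even indices -/
theorem U_zero (a0 : ℕ) (ha : Odd a0) {d : ℕ} (hd : 0 < d) (hA : ∀ a : A, d • a = 0) (U : ℕ → A)
    (h : ∀ k, U k = (3 * (a0 + k)) • U (k + 2)) (h0 : U 0 = 0) (k : ℕ) : U k = 0 := by
  rcases Nat.even_or_odd k with hk | hk
  · -- even k : forward induction kills the 2-part, divisibility the odd part
    obtain ⟨t, m, hm, hdm⟩ := Nat.exists_eq_two_pow_mul_odd hd.ne'
    -- odd part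
    have hodd : (2 ^ t) • U k = 0 := by
      obtain ⟨u, hu⟩ := hm
      rw [iter_div (fun k => 3 * (a0 + k)) U h k ((a0 + k) * u + 1), ← mul_smul]
      have h1 : m ∣ ∏ i ∈ range ((a0 + k) * u + 1), (fun k => 3 * (a0 + k)) (k + 2 * i) := by
        apply dvd_prod_range (fun i => 3 * (a0 + (k + 2 * i))) (i := (a0 + k) * u)
        · omega
        · rw [show a0 + (k + 2 * ((a0 + k) * u)) = (a0 + k) * m by rw [hu]; ring]
          exact Dvd.dvd.mul_left (dvd_mul_left _ _) _
      obtain ⟨c, hc⟩ := h1
      rw [hc, show 2 ^ t * (m * c) = c * (2 ^ t * m) by ring, ← hdm, mul_smul, hA, smul_zero]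
    -- 2-part
    obtain ⟨r, hr⟩ := hk
    have h2 : (∏ i ∈ range r, (fun k => 3 * (a0 + k)) (0 + 2 * i)) • U k = 0 := by
      have := iter_div (fun k => 3 * (a0 + k)) U h 0 r
      rw [h0] at this
      rw [show k = 0 + 2 * r by omega]
      exact this.symm
    have h3 : Odd (∏ i ∈ range r, (fun k => 3 * (a0 + k)) (0 + 2 * i)) := by
      apply Finset.prod_induction _ Odd (fun a b ha hb => ha.mul hb) odd_one
      intro i _
      simp only
      exact Odd.mul (by decide) (ha.add_even (by rw [zero_add]; exact even_two_mul i))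
    have h4 : Nat.Coprime (2 ^ t) (∏ i ∈ range r, (fun k => 3 * (a0 + k)) (0 + 2 * i)) := by
      apply Nat.Coprime.pow_left
      rw [Nat.coprime_two_left]
      exact h3
    have h5 := addOrderOf_dvd_of_nsmul_eq_zero hodd
    have h6 := addOrderOf_dvd_of_nsmul_eq_zero h2
    have h7 : addOrderOf (U k) ∣ 1 := by
      have := Nat.dvd_gcd h5 h6
      rwa [h4] at this
    exact AddMonoid.addOrderOf_eq_one_iff.1 (Nat.dvd_one.1 h7)
  · -- odd k : a0 + k is even
    obtain ⟨b, hb⟩ := ha.add_odd hk
    rw [iter_div (fun k => 3 * (a0 + k)) U h k (d * (b + 1) - b + 1)]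
    have hle : b ≤ d * (b + 1) := by nlinarith
    have h1 : d ∣ ∏ i ∈ range (d * (b + 1) - b + 1), (fun k => 3 * (a0 + k)) (k + 2 * i) := by
      apply dvd_prod_range (fun i => 3 * (a0 + (k + 2 * i))) (i := d * (b + 1) - b)
      · omega
      · rw [show a0 + (k + 2 * (d * (b + 1) - b)) = d * (2 * (b + 1)) by
          have : d * (2 * (b + 1)) = 2 * (d * (b + 1)) := by ring
          omega]
        exact Dvd.dvd.mul_left (dvd_mul_right _ _) _
    obtain ⟨c, hc⟩ := h1
    rw [hc, mul_comm, mul_smul, hA, smul_zero]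

section core

variable {Star Lab : Type*} [Fintype Star] [Fintype Lab] [DecidableEq Star] [DecidableEq Lab]

/-- The arithmetic core: relations (R0)-(R5) imply that all classes vanish. `j` ranges over
`range (n k)`, `n k = 3 * (a0 + k)`. -/
theorem core (flip : Star → Star) (hflip : ∀ s, flip (flip s) = s) (Pf Qf : Star → Lab)
    (hPQ : ∀ s, Pf (flip s) = Qf s)
    (a0 : ℕ) (ha : Odd a0) {d : ℕ} (hd : 0 < d) (hA : ∀ a : A, d • a = 0)
    (x : ℕ → ℕ → Star → A)
    (σ : ℕ → ℕ → ℕ → Lab → Star) (lq : ℕ → ℕ → ℕ → Lab)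
    -- (R0) refinement of the base cell
    (R0 : ∀ k s, x k 0 s = ∑ j ∈ range (3 * (a0 + (k + 1))), x (k + 1) j (flip s))
    -- (R1) refinement of the other cells
    (R1 : ∀ k j, 0 < j → j < 3 * (a0 + k) → ∀ s, x k j s =
      ∑ j' ∈ range (3 * (a0 + (k + 1))), ∑ l : Lab with σ k j j' l = s,
        ∑ s' : Star with Qf s' = l, x (k + 1) j' s')
    -- (R2) translation invariance
    (R2 : ∀ k j, j < 3 * (a0 + k) → ∑ s, x k j s = ∑ s, x k 0 s)
    -- (R3) the forward label of the crossing line depends only on the digits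
    (R3 : ∀ k j j' l, 0 < j → j < 3 * (a0 + k) → j' < 3 * (a0 + (k + 1)) →
      Qf (σ k j j' l) = lq k j j')
    -- (R4) on the base cell of the next level the label of the long line is kept
    (R4 : ∀ k j l, 0 < j → j < 3 * (a0 + k) → Pf (σ k j 0 l) = l)
    -- (R5) letters are genuine
    (R5 : ∀ j s, j < 3 * a0 → x 0 j s = 0) :
    ∀ k j s, j < 3 * (a0 + k) → x k j s = 0 := by
  have ha0 : 0 < a0 := ha.pos
  have hQP : ∀ s, Qf (flip s) = Pf s := fun s => by rw [← hPQ, hflip]
  have hinv : Function.Involutive flip := hflip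
  -- column sums
  set C : ℕ → A := fun k => ∑ s, x k 0 s with hC
  have hCrec : ∀ k, C k = (3 * (a0 + (k + 1))) • C (k + 1) := by
    intro k
    simp only [hC]
    rw [sum_congr rfl (fun s _ => R0 k s), sum_comm]
    have h1 : ∀ j ∈ range (3 * (a0 + (k + 1))), ∑ s, x (k + 1) j (flip s) = C (k + 1) := by
      intro j hj
      show ∑ s, x (k + 1) j (flip s) = ∑ s, x (k + 1) 0 s
      rw [← R2 (k + 1) j (mem_range.1 hj)]
      exact Equiv.sum_comp (hinv.toPerm flip) (fun s => x (k + 1) j s)
    rw [sum_congr rfl h1, sum_const, card_range]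
  have hC0 : ∀ k, C k = 0 := C_zero a0 hd hA C hCrec
  -- V k j l
  set V : ℕ → ℕ → Lab → A := fun k j l => ∑ s' : Star with Qf s' = l, x k j s' with hV
  have hVsum : ∀ k j, j < 3 * (a0 + k) → ∑ l, V k j l = 0 := by
    intro k j hj
    simp only [hV]
    rw [sum_fiberwise, R2 k j hj]
    exact hC0 k
  have R1' : ∀ k j, 0 < j → j < 3 * (a0 + k) → ∀ s, x k j s =
      ∑ j' ∈ range (3 * (a0 + (k + 1))), ∑ l : Lab with σ k j j' l = s, V (k + 1) j' l := R1
  -- V vanishes off the base cell
  have hV0 : ∀ k j l, 0 < j → j < 3 * (a0 + k) → V k j l = 0 := by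
    intro k j l hj hj'
    have h1 : V k j l = ∑ s : Star with Qf s = l, ∑ j' ∈ range (3 * (a0 + (k + 1))),
        ∑ l' : Lab with σ k j j' l' = s, V (k + 1) j' l' := by
      simp only [hV]
      apply sum_congr rfl
      intro s _
      exact R1' k j hj hj' s
    rw [h1, sum_comm]
    apply sum_eq_zero
    intro j' hj1
    have hj2 := mem_range.1 hj1
    by_cases hl : lq k j j' = l
    · -- all labels
      have h2 : ∑ s : Star with Qf s = l, ∑ l' : Lab with σ k j j' l' = s, V (k + 1) j' l'
          = ∑ l', V (k + 1) j' l' := by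
        rw [← sum_fiberwise_of_maps_to (s := univ) (t := univ.filter fun s => Qf s = l)
          (g := fun l' => σ k j j' l')]
        intro l' _
        simp only [mem_filter, mem_univ, true_and]
        rw [R3 k j j' l' hj hj' hj2, hl]
      rw [h2]
      exact hVsum (k + 1) j' hj2
    · apply sum_eq_zero
      intro s hs
      rw [mem_filter] at hs
      rw [filter_eq_empty_iff.2, sum_empty]
      intro l' _ h3
      apply hl
      rw [← R3 k j j' l' hj hj' hj2, h3]
      exact hs.2
  -- simplified R1
  have R1'' : ∀ k j, 0 < j → j < 3 * (a0 + k) → ∀ s, x k j s =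
      ∑ l : Lab with σ k j 0 l = s, V (k + 1) 0 l := by
    intro k j hj hj' s
    rw [R1' k j hj hj' s, sum_eq_single 0]
    · intro j' hj1 hj2
      apply sum_eq_zero
      intro l _
      exact hV0 (k + 1) j' l (Nat.pos_of_ne_zero hj2) (mem_range.1 hj1)
    · intro h
      exfalso
      apply h
      rw [mem_range]
      omega
  -- U
  set U : ℕ → Lab → A := fun k l => ∑ j ∈ range (3 * (a0 + k)), ∑ s : Star with Pf s = l, x k j s
    with hU
  have hWU : ∀ k l, V k 0 l = U (k + 1) l := by
    intro k l
    simp only [hV, hU]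
    rw [sum_congr rfl (fun s _ => R0 k s), sum_comm]
    apply sum_congr rfl
    intro j _
    refine sum_nbij' flip flip ?_ ?_ ?_ ?_ ?_
    · intro s hs
      simp only [mem_filter, mem_univ, true_and] at hs ⊢
      rw [hPQ, hs]
    · intro s hs
      simp only [mem_filter, mem_univ, true_and] at hs ⊢
      rw [hQP, hs]
    · intro s _; exact hflip s
    · intro s _; exact hflip s
    · intro s _; rfl
  have hUrec : ∀ k l, U k l = (3 * (a0 + k)) • U (k + 2) l := by
    intro k l
    have h0 : ∑ s : Star with Pf s = l, x k 0 s = V (k + 1) 0 l := by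
      rw [sum_congr rfl (fun s _ => R0 k s), sum_comm]
      have h1 : ∀ j ∈ range (3 * (a0 + (k + 1))), ∑ s : Star with Pf s = l, x (k + 1) j (flip s)
          = V (k + 1) j l := by
        intro j _
        simp only [hV]
        refine sum_nbij' flip flip ?_ ?_ ?_ ?_ ?_
        · intro s hs
          simp only [mem_filter, mem_univ, true_and] at hs ⊢
          rw [hQP, hs]
        · intro s hs
          simp only [mem_filter, mem_univ, true_and] at hs ⊢
          rw [hPQ, hs]
        · intro s _; exact hflip s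
        · intro s _; exact hflip s
        · intro s _; rfl
      rw [sum_congr rfl h1, sum_eq_single 0]
      · intro j hj1 hj2
        exact hV0 (k + 1) j l (Nat.pos_of_ne_zero hj2) (mem_range.1 hj1)
      · intro h
        exfalso; apply h; rw [mem_range]; omega
    have h2 : ∀ j ∈ range (3 * (a0 + k)), ∑ s : Star with Pf s = l, x k j s = V (k + 1) 0 l := by
      intro j hj
      rcases Nat.eq_zero_or_pos j with h3 | h3
      · rw [h3]; exact h0
      · rw [sum_congr rfl (fun s _ => R1'' k j h3 (mem_range.1 hj) s)]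
        have h4 : ∀ s ∈ univ.filter (fun s : Star => Pf s = l), ∑ l' : Lab with σ k j 0 l' = s,
            V (k + 1) 0 l' = ∑ l' ∈ (univ.filter fun l' : Lab => l' = l) with σ k j 0 l' = s,
            V (k + 1) 0 l' := by
          intro s hs
          rw [mem_filter] at hs
          apply sum_congr _ (fun _ _ => rfl)
          ext l'
          simp only [mem_filter, mem_univ, true_and]
          constructor
          · intro h5
            refine ⟨?_, h5⟩
            rw [← R4 k j l' h3 (mem_range.1 hj), h5]
            exact hs.2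
          · exact fun h5 => h5.2
        rw [sum_congr rfl h4, sum_fiberwise_of_maps_to]
        · rw [filter_eq' univ l, if_pos (mem_univ l), sum_singleton]
        · intro l' hl'
          simp only [mem_filter, mem_univ, true_and] at hl' ⊢
          rw [R4 k j l' h3 (mem_range.1 hj), hl']
    rw [show U k l = ∑ j ∈ range (3 * (a0 + k)), ∑ s : Star with Pf s = l, x k j s from rfl,
      sum_congr rfl h2, sum_const, card_range, hWU]
  have hU0 : ∀ k l, U k l = 0 := by
    intro k l
    apply U_zero a0 ha hd hA (fun k => U k l) (fun k => hUrec k l)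
    simp only [hU]
    apply sum_eq_zero
    intro j hj
    apply sum_eq_zero
    intro s _
    exact R5 j s (by have := mem_range.1 hj; omega)
  have hxne : ∀ k j s, 0 < j → j < 3 * (a0 + k) → x k j s = 0 := by
    intro k j s hj hj'
    rw [R1'' k j hj hj' s]
    apply sum_eq_zero
    intro l _
    rw [hWU, hU0]
  -- corners
  have hS : ∀ k s, x k 0 s = 0 := by
    intro k
    induction k with
    | zero => exact fun s => R5 0 s (by omega)
    | succ k ih =>
      intro s
      have h1 := R0 k (flip s)
      rw [hflip, ih, sum_eq_single 0] at h1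
      · exact h1.symm
      · intro j hj1 hj2
        exact hxne (k + 1) j s (Nat.pos_of_ne_zero hj2) (mem_range.1 hj1)
      · intro h
        exfalso; apply h; rw [mem_range]; omega
  intro k j s hj
  rcases Nat.eq_zero_or_pos j with h | h
  · rw [h]; exact hS k s
  · exact hxne k j s h hj

end core

end Crest.Agent.R189.Mu
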