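import Crest.Agent.R189.RN
import Crest.Agent.R189.RNBasic
import Crest.Agent.R189.MuCore

/-!
# Row 189, E4: vanishing of the multiplier classes (connection with the hierarchy)

`mu : E → A` additive on orthogonal pairs and invariant under the action (on a class `K` of
elements containing all atoms), values of exponent `d`, zero on the level `0` atoms; then `mu`
vanishes on all atoms `c^(k)_j ⊓ St^(k)_s` of all levels of a hierarchy of level structures.
-/

set_option autoImplicit false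

namespace Crest.Agent.R189

open Romp

/-! ### additive invariant functions -/

/-- `mu` is additive on orthogonal pairs and invariant, on the class `K`. -/
structure InvMu (G : Type*) {E A : Type*} [Group G] [OMP E] [OMPAct G E] [AddCommGroup A]
    (K : E → Prop) (mu : E → A) : Prop where
  K_bot : K ⊥
  K_add : ∀ {e f : E}, Orth e f → K e → K f → K (e +ₒ f)
  K_smul : ∀ (g : G) {e : E}, K e → K (g • e)
  add : ∀ {e f : E}, Orth e f → K e → K f → mu (e +ₒ f) = mu e + mu f
  smul : ∀ (g : G) {e : E}, K e → mu (g • e) = mu e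

namespace InvMu

section
variable {G E A : Type*} [Group G] [OMP E] [OMPAct G E] [AddCommGroup A]
variable {K : E → Prop} {mu : E → A}

theorem bot (h : InvMu G K mu) : mu ⊥ = 0 := by
  have h1 := h.add (e := ⊥) (f := ⊥) (by simp) h.K_bot h.K_bot
  rw [add_bot] at h1
  simpa using h1

theorem K_ev (h : InvMu G K mu) {ι : Type*} [Finite ι] {P : ι → E} {D : E} (hP : IsPart P D)
    (hK : ∀ i, K (P i)) (S : Finset ι) : K (ev P ↑S) ∧ mu (ev P ↑S) = ∑ i ∈ S, mu (P i) := by
  classical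
  induction S using Finset.induction_on with
  | empty => simp [h.K_bot, h.bot]
  | insert i S hi ih =>
    have h1 : Disjoint ({i} : Set ι) (↑S) := by simpa using hi
    have h2 := hP.ev_add h1
    have h3 := hP.ev_orth h1
    rw [ev_singleton] at h2 h3
    rw [Finset.coe_insert, Set.insert_eq, ← h2, Finset.sum_insert hi]
    exact ⟨h.K_add h3 (hK i) ih.1, by rw [h.add h3 (hK i) ih.1, ih.2]⟩

theorem K_ev' (h : InvMu G K mu) {ι : Type*} [Finite ι] {P : ι → E} {D : E} (hP : IsPart P D)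
    (hK : ∀ i, K (P i)) (B : Set ι) : K (ev P B) := by
  classical
  have := Fintype.ofFinite ι
  have := (h.K_ev hP hK B.toFinset).1
  simpa using this

theorem mu_ev (h : InvMu G K mu) {ι : Type*} [Fintype ι] {P : ι → E} {D : E} (hP : IsPart P D)
    (hK : ∀ i, K (P i)) (B : Set ι) [DecidablePred (· ∈ B)] :
    mu (ev P B) = ∑ i with i ∈ B, mu (P i) := by
  have := (h.K_ev hP hK (Finset.univ.filter (· ∈ B))).2
  simpa using this

theorem mu_total (h : InvMu G K mu) {ι : Type*} [Fintype ι] {P : ι → E} {D : E} (hP : IsPart P D)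
    (hK : ∀ i, K (P i)) : mu D = ∑ i, mu (P i) := by
  have := (h.K_ev hP hK Finset.univ).2
  rw [Finset.coe_univ, hP.ev_univ] at this
  exact this

end

end InvMu

/-! ### star events indexed by raw stars -/

section raw
variable {G E : Type*} [CommGroup G] [ROMP E] [OMPAct G E]

/-- star event of a raw star (`⊥` if it is not allowed) -/
noncomputable def rawSt (St : Star → E) (r : RStar) : E := ev St (Subtype.val ⁻¹' {r})

theorem rawSt_val (St : Star → E) (s : Star) : rawSt St s.1 = St s := by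
  have : (Subtype.val ⁻¹' {s.1} : Set Star) = {s} := by
    ext t
    exact ⟨fun h => Subtype.ext h, fun h => congrArg Subtype.val h⟩
  rw [rawSt, this, ev_singleton]

theorem rawSt_ok (St : Star → E) {r : RStar} (h : r.OK) : rawSt St r = St ⟨r, h⟩ :=
  rawSt_val St ⟨r, h⟩

theorem rawSt_bot (St : Star → E) {r : RStar} (h : ¬ r.OK) : rawSt St r = ⊥ := by
  have : (Subtype.val ⁻¹' {r} : Set Star) = ∅ := by
    ext t
    refine iff_of_false (fun h1 => h ?_) (by simp)
    have h2 : t.1 = r := h1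
    exact h2 ▸ t.2
  rw [rawSt, this, ev_empty]

theorem part_raw {St : Star → E} {D : E} (h : IsPart St D) : IsPart (rawSt St) D :=
  h.map Subtype.val

end raw

theorem RStar.flip_flip (r : RStar) : r.flip.flip = r := by
  cases r; simp [RStar.flip]

theorem RStar.OK_flip_iff {r : RStar} : r.flip.OK ↔ r.OK :=
  ⟨fun h => by simpa [RStar.flip_flip] using RStar.OK_flip h, RStar.OK_flip⟩

/-- the raw star at the cell `j` of a long line with label `l` crossing at the next digit `j'` -/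
def sigR (a j j' : ℕ) (l : Label) : RStar :=
  if j' = 0 then
    ⟨true, l, l, ⟨tauOf a j, state a j (prev a j'), .B⟩, ⟨tauOf a j, state a j j', .A⟩⟩
  else
    ⟨true, ⟨l.tau, l.st, umem a (j - 1) j'⟩, ⟨l.tau, l.st, umem a j j'⟩,
      ⟨tauOf a j, state a j (prev a j'), .B⟩, ⟨tauOf a j, state a j j', .A⟩⟩

theorem sigR_domP (a j j' : ℕ) (l : Label) : (sigR a j j' l).domP = true := by
  unfold sigR; split_ifs <;> rfl

theorem sigR_Qf (a j j' : ℕ) (l : Label) :
    (sigR a j j' l).Qf = ⟨tauOf a j, state a j j', .A⟩ := by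
  unfold sigR; split_ifs <;> rfl

theorem sigR_Qb (a j j' : ℕ) (l : Label) :
    (sigR a j j' l).Qb = ⟨tauOf a j, state a j (prev a j'), .B⟩ := by
  unfold sigR; split_ifs <;> rfl

namespace LS

variable {G E : Type*} [CommGroup G] [ROMP E] [OMPAct G E]
variable {D : E} {p q : G} {a : ℕ} {c : ℕ → E} {St : Star → E}

theorem pow_c (h : LS D p q a c St) (j : ℕ) : p ^ j • c 0 = c j := by
  induction j with
  | zero => simp
  | succ j ih => rw [pow_succ', mul_smul, ih, h.p_c]

theorem meet_ev_St (h : LS D p q a c St) {j : ℕ} (hj : j < 3 * a) (A : Set Star) :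
    c j ⊓ₒ ev St A = ev (fun s => c j ⊓ₒ St s) A :=
  h.part_St.meet_ev (fun s => h.comm j hj s) A

theorem part_cell (h : LS D p q a c St) {j : ℕ} (hj : j < 3 * a) :
    IsPart (fun s => c j ⊓ₒ St s) (c j) := by
  have := h.part_St.restrict (fun s => h.comm j hj s)
  rwa [meet_eq_left (h.c_le j)] at this

theorem comm_raw (h : LS D p q a c St) {j : ℕ} (hj : j < 3 * a) (r : RStar) :
    Comm (c j) (rawSt St r) :=
  h.part_St.comm_right (fun s => h.comm j hj s) _

theorem part_cell_raw (h : LS D p q a c St) {j : ℕ} (hj : j < 3 * a) :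
    IsPart (fun r => c j ⊓ₒ rawSt St r) (c j) := by
  have := (part_raw h.part_St).restrict (fun r => h.comm_raw hj r)
  rwa [meet_eq_left (h.c_le j)] at this

theorem Lab_zero_eq (h : LS D p q a c St) (A : Set Label) :
    Lab p c St 0 A = ev (nextSt c St) {s | s.Qf ∈ A} := by
  have h3 : 0 < 3 * a := by have := h.three_le; omega
  rw [Lab, pow_zero, inv_one, one_smul, h.meet_ev_St h3, ev, ev]
  congr 1
  ext x
  simp only [Set.mem_image, Set.mem_ofPred_eq]
  constructor
  · rintro ⟨s, hs, rfl⟩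
    exact ⟨s.flip, hs, by simp [nextSt]⟩
  · rintro ⟨s, hs, rfl⟩
    exact ⟨s.flip, hs, rfl⟩

theorem le_of_labels (h : LS D p q a c St) {j : ℕ} (hj0 : 0 < j) (hj : j < 3 * a) {y : E}
    {l1 l2 l3 l4 : Label}
    (h1 : y ≤ c j ⊓ₒ ev St {s | s.Pb = l1}) (h2 : y ≤ c j ⊓ₒ ev St {s | s.Pf = l2})
    (h3 : y ≤ c j ⊓ₒ ev St {s | s.Qb = l3}) (h4 : y ≤ c j ⊓ₒ ev St {s | s.Qf = l4}) :
    y ≤ c j ⊓ₒ rawSt St ⟨true, l1, l2, l3, l4⟩ := by
  rw [h.meet_ev_St hj] at h1 h2 h3 h4
  have hR := h.part_cell hj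
  have h12 := le_meet (hR.comm_ev _ _) h1 h2
  rw [hR.ev_meet] at h12
  have h34 := le_meet (hR.comm_ev _ _) h3 h4
  rw [hR.ev_meet] at h34
  have h5 := le_meet (hR.comm_ev _ _) h12 h34
  rw [hR.ev_meet] at h5
  refine h5.trans ?_
  rw [rawSt, h.meet_ev_St hj, hR.ev_le_ev_iff]
  rintro s ⟨⟨e1, e2⟩, e3, e4⟩ hs
  apply h.dom j hj0 hj
  rintro ⟨e0, -⟩
  apply hs
  show s.1 = _
  simp only [Set.mem_ofPred_eq] at e1 e2 e3 e4
  rw [← e1, ← e2, ← e3, ← e4, ← e0]
  rfl

theorem smul_Lab (_h : LS D p q a c St) {j : ℕ} (A : Set Label) :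
    p ^ j • Lab p c St j A = c j ⊓ₒ ev St {s | s.Pf ∈ A} := by
  rw [Lab, smul_inv_smul]

theorem smul_Lab_pred (h : LS D p q a c St) {j : ℕ} (hj0 : 0 < j) (l : Label) :
    p ^ j • Lab p c St (j - 1) {l} = c j ⊓ₒ ev St {s | s.Pb = l} := by
  obtain ⟨i, rfl⟩ : ∃ i, j = i + 1 := ⟨j - 1, by omega⟩
  rw [Nat.add_sub_cancel, pow_succ', mul_smul, h.smul_Lab, smul_meet, h.p_c]
  have := h.P_shift l
  simp only [Set.mem_singleton_iff]
  rw [this]

theorem piece_le (h : LS D p q a c St) {j j' : ℕ} (hj0 : 0 < j) (hj : j < 3 * a)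
    (hj' : j' < 3 * (a + 1)) (s : Star) :
    p ^ j • (nextC q c St j' ⊓ₒ nextSt c St s) ≤ c j ⊓ₒ rawSt St (sigR a j j' s.Qf) := by
  have h' := h.next
  have hc := h'.comm j' hj' s
  have k1 : nextC q c St j' ⊓ₒ nextSt c St s ≤ nextC q c St j' := meet_le_left hc
  have k2 : nextC q c St j' ⊓ₒ nextSt c St s ≤ nextSt c St s := meet_le_right hc
  have hf := smul_le_smul (p ^ j) (k1.trans (h.X2f hj0 hj hj'))
  have hb := smul_le_smul (p ^ j) (k1.trans (h.X2b hj0 hj hj'))
  rw [smul_inv_smul] at hf hb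
  have hcomm : Comm (nextC q c St j') (Lab p c St 0 {s.Qf}) := by
    rw [h.Lab_zero_eq]
    exact h'.part_St.comm_right (fun t => h'.comm j' hj' t) _
  have k3 : nextSt c St s ≤ Lab p c St 0 {s.Qf} := by
    rw [h.Lab_zero_eq]
    exact h'.part_St.le_ev (i := s) (by simp)
  have k4 := le_meet hcomm k1 (k2.trans k3)
  rcases Nat.eq_zero_or_pos j' with h0 | h0
  · subst h0
    have e1 := smul_le_smul (p ^ j) (k4.trans (h.X1_zero hj s.Qf))
    have e2 := smul_le_smul (p ^ j) (k4.trans (h.X1_zero (j := j - 1) (by omega) s.Qf))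
    rw [h.smul_Lab] at e1
    rw [h.smul_Lab_pred hj0] at e2
    rw [sigR, if_pos rfl]
    exact h.le_of_labels hj0 hj e2 e1 hb hf
  · by_cases hL : s.Qf.tau = tauOf (a + 1) j' ∧ s.Qf.u = .A
    · have hs : s.Qf = ⟨tauOf (a + 1) j', s.Qf.st, .A⟩ := by
        rw [← hL.1, ← hL.2]
      have x1 := h.X1 (j := j) hj h0 hj' s.Qf.st
      have x2 := h.X1 (j := j - 1) (by omega) h0 hj' s.Qf.st
      rw [← hs] at x1 x2
      have e1 := smul_le_smul (p ^ j) (k4.trans x1)
      have e2 := smul_le_smul (p ^ j) (k4.trans x2)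
      rw [h.smul_Lab] at e1
      rw [h.smul_Lab_pred hj0] at e2
      rw [sigR, if_neg h0.ne', hL.1]
      exact h.le_of_labels hj0 hj e2 e1 hb hf
    · have := h.X1_bot h0 hj' s.Qf hL
      have e : nextC q c St j' ⊓ₒ nextSt c St s = ⊥ := le_bot_iff.1 (this ▸ k4)
      rw [e, smul_bot]
      exact bot_le

/-- the pieces over the cell `j` -/
theorem part_pieces (h : LS D p q a c St) (j : ℕ) :
    IsPart (fun i : Fin (3 * (a + 1)) × Star =>
      p ^ j • (nextC q c St i.1 ⊓ₒ nextSt c St i.2)) (c j) := by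
  have h' := h.next
  have := (h'.part_c.prod h'.part_St (fun i s => h'.comm i i.2 s)).smul (p ^ j)
  rwa [h.pow_c] at this

theorem cell_eq (h : LS D p q a c St) {j : ℕ} (hj0 : 0 < j) (hj : j < 3 * a) (r : RStar) :
    c j ⊓ₒ rawSt St r = ev (fun i : Fin (3 * (a + 1)) × Star =>
      p ^ j • (nextC q c St i.1 ⊓ₒ nextSt c St i.2)) {i | sigR a j i.1 i.2.Qf = r} := by
  have hT := h.part_pieces j
  have := (hT.map (fun i => sigR a j i.1 i.2.Qf)).eq_of_le (h.part_cell_raw hj) (by
    intro r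
    apply hT.ev_le
    rintro ⟨j', s⟩ hi
    have hi' : sigR a j j' s.Qf = r := hi
    rw [← hi']
    exact h.piece_le hj0 hj j'.2 s)
  have e := congrFun this r
  exact e.symm

theorem rawSt_next (_h : LS D p q a c St) (r : RStar) :
    rawSt (nextSt c St) r.flip = c 0 ⊓ₒ rawSt St r := by
  by_cases hr : r.OK
  · rw [rawSt_ok _ (RStar.OK_flip hr), rawSt_ok _ hr]
    show c 0 ⊓ₒ St _ = _
    congr 2
    apply Subtype.ext
    show r.flip.flip = r
    exact r.flip_flip
  · rw [rawSt_bot _ hr, rawSt_bot _ (fun h => hr (RStar.OK_flip_iff.1 h)), meet_bot]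

variable {A : Type*} [AddCommGroup A] {K : E → Prop} {mu : E → A}

theorem K_raw (hmu : InvMu G K mu) {x : E} {S : Star → E} (hK : ∀ s, K (x ⊓ₒ S s)) (r : RStar) :
    K (x ⊓ₒ rawSt S r) := by
  by_cases hr : r.OK
  · rw [rawSt_ok _ hr]; exact hK _
  · rw [rawSt_bot _ hr, meet_bot]; exact hmu.K_bot

theorem sum_raw (hmu : InvMu G K mu) (x : E) (S : Star → E) (P : RStar → Prop)
    [DecidablePred P] :
    ∑ r with P r, mu (x ⊓ₒ rawSt S r) = ∑ s : Star with P s.1, mu (x ⊓ₒ S s) := by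
  classical
  rw [Finset.sum_filter, Finset.sum_filter]
  rw [← Finset.sum_subset (Finset.subset_univ ((Finset.univ : Finset Star).map
    (⟨Subtype.val, Subtype.val_injective⟩ : Star ↪ RStar))) ?_, Finset.sum_map]
  · apply Finset.sum_congr rfl
    intro s _
    show (if P s.1 then mu (x ⊓ₒ rawSt S s.1) else 0) = _
    rw [rawSt_val]
  · intro r _ hr
    split_ifs with h
    · rw [rawSt_bot, meet_bot, hmu.bot]
      intro hok
      apply hr
      rw [Finset.mem_map]
      exact ⟨⟨r, hok⟩, Finset.mem_univ _, rfl⟩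
    · rfl

theorem mu_R0 (h : LS D p q a c St) (hmu : InvMu G K mu)
    (hK : ∀ j s, j < 3 * (a + 1) → K (nextC q c St j ⊓ₒ nextSt c St s)) (r : RStar) :
    mu (c 0 ⊓ₒ rawSt St r) =
      ∑ j ∈ Finset.range (3 * (a + 1)), mu (nextC q c St j ⊓ₒ rawSt (nextSt c St) r.flip) := by
  have h' := h.next
  rw [← h.rawSt_next]
  have hp := h'.part_c.restrict (x := rawSt (nextSt c St) r.flip)
    (fun i => (h'.comm_raw i.2 _).symm)
  have hle : rawSt (nextSt c St) r.flip ≤ c 0 := (part_raw h'.part_St).le_total _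
  rw [meet_eq_left hle] at hp
  have hKr : ∀ i : Fin (3 * (a + 1)), K (rawSt (nextSt c St) r.flip ⊓ₒ nextC q c St i) := by
    intro i
    rw [meet_comm]
    exact K_raw hmu (fun s => hK i s i.2) _
  rw [hmu.mu_total hp hKr, Finset.sum_range]
  apply Finset.sum_congr rfl
  intro i _
  rw [meet_comm]

theorem mu_R2 (h : LS D p q a c St) (hmu : InvMu G K mu)
    (hK : ∀ j s, j < 3 * a → K (c j ⊓ₒ St s)) {j : ℕ} (hj : j < 3 * a) :
    ∑ r, mu (c j ⊓ₒ rawSt St r) = mu (c 0) := by
  rw [← hmu.mu_total (h.part_cell_raw hj) (fun r => K_raw hmu (fun s => hK j s hj) r),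
    ← h.pow_c j, hmu.smul]
  have h0 : 0 < 3 * a := by omega
  have := hmu.K_ev' (h.part_cell h0) (fun s => hK 0 s h0) Set.univ
  rwa [(h.part_cell h0).ev_univ] at this

theorem mu_R1 (h : LS D p q a c St) (hmu : InvMu G K mu)
    (hK : ∀ j s, j < 3 * (a + 1) → K (nextC q c St j ⊓ₒ nextSt c St s))
    {j : ℕ} (hj0 : 0 < j) (hj : j < 3 * a) (r : RStar) :
    mu (c j ⊓ₒ rawSt St r) = ∑ j' ∈ Finset.range (3 * (a + 1)),
      ∑ l : Label with sigR a j j' l = r, ∑ s : RStar with s.Qf = l,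
        mu (nextC q c St j' ⊓ₒ rawSt (nextSt c St) s) := by
  classical
  rw [h.cell_eq hj0 hj r, hmu.mu_ev (h.part_pieces j)
    (fun i => hmu.K_smul _ (hK i.1 i.2 i.1.2)), Finset.sum_range]
  rw [Finset.sum_filter, Fintype.sum_prod_type]
  apply Finset.sum_congr rfl
  intro j' _
  have e1 : ∀ l, ∑ s : RStar with s.Qf = l, mu (nextC q c St j' ⊓ₒ rawSt (nextSt c St) s) =
      ∑ s : Star with s.Qf = l, mu (nextC q c St j' ⊓ₒ nextSt c St s) := by
    intro l
    rw [sum_raw hmu _ _ (fun s : RStar => s.Qf = l)]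
    rfl
  simp only [e1]
  rw [← Finset.sum_filter]
  rw [← Finset.sum_fiberwise_of_maps_to (t := Finset.univ.filter fun l => sigR a j j' l = r)
    (g := fun s : Star => s.Qf)]
  · apply Finset.sum_congr rfl
    intro l hl
    apply Finset.sum_congr
    · ext s
      simp only [Finset.mem_filter, Finset.mem_univ, true_and, Set.mem_ofPred_eq] at hl ⊢
      constructor
      · exact fun h => h.2
      · exact fun h => ⟨by rw [h, hl], h⟩
    · intro s _
      rw [hmu.smul _ (hK j' s j'.2)]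
  · intro s hs
    simpa using hs

end LS

/-! ### the hierarchy -/

section hier

variable {G E A : Type*} [CommGroup G] [ROMP E] [OMPAct G E] [AddCommGroup A]
variable {K : E → Prop} {mu : E → A}

/-- **Vanishing**: in a hierarchy of level structures, an additive invariant function with values
in a group of finite exponent, vanishing on the atoms of level `0`, vanishes on the atoms of all
levels. (`cc k j`, `SS k s` : digit and star events of level `k`.) -/
theorem mu_vanish (a0 : ℕ) (ha : Odd a0) {d : ℕ} (hd : 0 < d) (hA : ∀ x : A, d • x = 0)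
    (hmu : InvMu G K mu) (DD : ℕ → E) (pk qk : ℕ → G) (cc : ℕ → ℕ → E) (SS : ℕ → Star → E)
    (hLS : ∀ k, LS (DD k) (pk k) (qk k) (a0 + k) (cc k) (SS k))
    (hc : ∀ k, cc (k + 1) = nextC (qk k) (cc k) (SS k))
    (hS : ∀ k, SS (k + 1) = nextSt (cc k) (SS k))
    (hK : ∀ k j s, j < 3 * (a0 + k) → K (cc k j ⊓ₒ SS k s))
    (h0 : ∀ j s, j < 3 * a0 → mu (cc 0 j ⊓ₒ SS 0 s) = 0) :
    ∀ k j s, j < 3 * (a0 + k) → mu (cc k j ⊓ₒ SS k s) = 0 := by
  classical
  have hK' : ∀ k j s, j < 3 * ((a0 + k) + 1) → K (nextC (qk k) (cc k) (SS k) j ⊓ₒ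
      nextSt (cc k) (SS k) s) := by
    intro k j s hj
    rw [← hc, ← hS]
    exact hK (k + 1) j s hj
  have key := Mu.core (A := A) (Star := RStar) (Lab := Label) RStar.flip RStar.flip_flip
    RStar.Pf RStar.Qf (fun _ => rfl) a0 ha hd hA
    (fun k j r => mu (cc k j ⊓ₒ rawSt (SS k) r))
    (fun k j j' l => sigR (a0 + k) j j' l)
    (fun k j j' => ⟨tauOf (a0 + k) j, state (a0 + k) j j', .A⟩)
    (by
      intro k r
      have := (hLS k).mu_R0 hmu (hK' k) r
      rw [← hc, ← hS] at this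
      exact this)
    (by
      intro k j hj0 hj r
      have := (hLS k).mu_R1 hmu (hK' k) hj0 hj r
      rw [← hc, ← hS] at this
      exact this)
    (by
      intro k j hj
      have h1 := (hLS k).mu_R2 hmu (hK k) hj
      have h2 := (hLS k).mu_R2 hmu (hK k) (j := 0) (by omega)
      exact h1.trans h2.symm)
    (by
      intro k j j' l _ _ _
      exact sigR_Qf _ _ _ _)
    (by
      intro k j l _ _
      simp [sigR])
    (by
      intro j r hj
      show mu (cc 0 j ⊓ₒ rawSt (SS 0) r) = 0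
      by_cases hr : r.OK
      · rw [rawSt_ok _ hr]
        exact h0 j _ hj
      · rw [rawSt_bot _ hr, meet_bot, hmu.bot])
  intro k j s hj
  have := key k j s.1 hj
  simpa only [rawSt_val] using this

/-- version with the level structure of level `0` only -/
theorem mu_vanish' (a0 : ℕ) (ha : Odd a0) {d : ℕ} (hd : 0 < d) (hA : ∀ x : A, d • x = 0)
    (hmu : InvMu G K mu) (D : E) (pk qk : ℕ → G) (cc : ℕ → ℕ → E) (SS : ℕ → Star → E)
    (hLS : LS D (pk 0) (qk 0) a0 (cc 0) (SS 0))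
    (hp : ∀ k, pk (k + 1) = qk k) (hq : ∀ k, qk (k + 1) = pk k ^ (3 * (a0 + k)))
    (hc : ∀ k, cc (k + 1) = nextC (qk k) (cc k) (SS k))
    (hS : ∀ k, SS (k + 1) = nextSt (cc k) (SS k))
    (hK : ∀ k j s, j < 3 * (a0 + k) → K (cc k j ⊓ₒ SS k s))
    (h0 : ∀ j s, j < 3 * a0 → mu (cc 0 j ⊓ₒ SS 0 s) = 0) :
    ∀ k j s, j < 3 * (a0 + k) → mu (cc k j ⊓ₒ SS k s) = 0 := by
  have h : ∀ k, LS (if k = 0 then D else cc (k - 1) 0) (pk k) (qk k) (a0 + k) (cc k) (SS k) := by
    intro k
    induction k with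
    | zero => exact hLS
    | succ k ih =>
      have := ih.next
      rw [if_neg (Nat.succ_ne_zero k), Nat.add_sub_cancel, hp, hq, hc, hS]
      exact this
  exact mu_vanish a0 ha hd hA hmu _ pk qk cc SS h hc hS hK h0

/-- sums of atoms -/
theorem LS.mu_ev_zero {D : E} {p q : G} {a : ℕ} {c : ℕ → E} {St : Star → E}
    (h : LS D p q a c St) (hmu : InvMu G K mu) {j : ℕ} (hj : j < 3 * a)
    (hK : ∀ s, K (c j ⊓ₒ St s)) (h0 : ∀ s, mu (c j ⊓ₒ St s) = 0) (B : Set Star) :
    K (c j ⊓ₒ ev St B) ∧ mu (c j ⊓ₒ ev St B) = 0 := by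
  classical
  rw [h.meet_ev_St hj]
  refine ⟨hmu.K_ev' (h.part_cell hj) hK B, ?_⟩
  rw [hmu.mu_ev (h.part_cell hj) hK B]
  exact Finset.sum_eq_zero (fun s _ => h0 s)

end hier

end Crest.Agent.R189
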