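import Crest.Agent.R189.LiftEv
import Crest.Agent.R189.EvRomp
import Crest.Agent.R189.EvTrans
import Crest.Agent.R189.RompHom
import Crest.Agent.R189.MuVan
import Crest.Agent.R189.HierDefs
import Crest.Agent.R189.Tper

/-!
Row 189, E4 = M8 (helper47): the atoms of all levels lift to genuine events.

* `TModel.colMap` : the homomorphisms of models are maps of coloured groups;
* `invMu_mu` : the classes `mu B` are additive and invariant;
* `lift_cell` : if the atoms of level `0` lift, then all the events `c^(k)_j ⊓ ev St^(k) A` lift.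
-/

set_option autoImplicit false
set_option linter.unusedSectionVars false

namespace Crest.Agent.R189

open Equiv Equiv.Perm

/-! ## Models -/

namespace TModel

variable {A : Type} [Fintype A] {C : Type} [Fintype C] [DecidableEq C] {M : MatchData A}
  {G G' : Type} [Group G] [Group G'] (m : TModel M C G)

theorem HK_eq_lprod (c0 : C) (l : C → ℤ × ℤ) :
    (m.HK c0 l : G) = lprod Finset.univ (fun c => hpow m.h (l c) c c0) := by
  have h1 : ∀ c, hpow m.h (l c) c c0 = (m.pK c c0 (Multiplicative.ofAdd (l c)) : G) :=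
    fun c => (m.pK_coe c c0 (l c)).symm
  simp only [h1]
  exact (m.lprod_coe _ _).symm

/-- homomorphisms of models are maps of coloured groups -/
theorem colMap (φ : G →* G') (hφ : Function.Surjective φ) (hC : 30 ≤ Fintype.card C) :
    ColMap (m.colGrp hC) ((m.map φ hφ).colGrp hC) φ where
  surj := hφ
  one := fun _ => rfl
  H := fun l _ => by
    show φ (m.HK _ l : G) = ((m.map φ hφ).HK _ l : G')
    rw [HK_eq_lprod, HK_eq_lprod, map_lprod]
    exact lprod_congr (fun c _ => map_hpow φ m.h (l c) c _)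
  map_sub := fun S => by
    show (m.sub S).map φ = (m.map φ hφ).sub S
    unfold sub
    rw [MonoidHom.map_closure]
    congr 1
    ext g
    simp only [Set.mem_image, Set.mem_union, Set.mem_ofPred_eq]
    constructor
    · rintro ⟨_, ((⟨s, hs, rfl⟩ | ⟨i, a, b, ha, hb, rfl⟩) | ⟨x, s, hs, rfl⟩), rfl⟩
      · exact Or.inl (Or.inl ⟨s, hs, rfl⟩)
      · exact Or.inl (Or.inr ⟨i, a, b, ha, hb, rfl⟩)
      · exact Or.inr ⟨x, s, hs, rfl⟩
    · rintro ((⟨s, hs, rfl⟩ | ⟨i, a, b, ha, hb, rfl⟩) | ⟨x, s, hs, rfl⟩)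
      · exact ⟨m.one s, Or.inl (Or.inl ⟨s, hs, rfl⟩), rfl⟩
      · exact ⟨m.h i a b, Or.inl (Or.inr ⟨i, a, b, ha, hb, rfl⟩), rfl⟩
      · exact ⟨m.e x s, Or.inr ⟨x, s, hs, rfl⟩, rfl⟩

theorem map_letterEv (φ : G →* G') (hφ : Function.Surjective φ) (hC : 30 ≤ Fintype.card C)
    (x : A) : (m.letterEv hC x).map (m.colMap φ hφ hC) = (m.map φ hφ).letterEv hC x := rfl

/-- the map of coloured groups `T → T / Z(T)` -/
theorem colMap_modCenter (hC : 30 ≤ Fintype.card C) :
    ColMap (m.colGrp hC) (m.modCenter.colGrp hC) (QuotientGroup.mk' (Subgroup.center G)) :=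
  m.colMap _ _ hC

theorem map_letterEv_modCenter (hC : 30 ≤ Fintype.card C) (x : A) :
    (m.letterEv hC x).map (m.colMap_modCenter hC) = m.modCenter.letterEv hC x := rfl

end TModel

/-! ## The classes are additive and invariant -/

variable {C : Type} [Fintype C] [DecidableEq C] {V : Type} [AddCommGroup V]
  {T T' : Type} [Group T] [Group T'] {S : ColGrp C V T} {S' : ColGrp C V T'} {q : T →* T'}

section lift

variable {G : Type} [CommGroup G] [OMPAct G (Ev S')]

/-- every element of `G` acts on the events as a translation -/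
def ActTrans (G : Type) [CommGroup G] {S' : ColGrp C V T'} [OMPAct G (Ev S')] : Prop :=
  ∀ (g : G) (e : Ev S'), ∃ v : V, Ev.IsTrans v e (g • e)

theorem invMu_mu [Cls.IsCentral q] {B : Finset C} (hB : 5 ≤ B.card) (hB' : B ≠ Finset.univ)
    (h : ColMap S S' q) (htr : ActTrans G (S' := S')) :
    InvMu G (fun _ : Ev S' => True) (mu B h) where
  K_bot := trivial
  K_add := fun _ _ _ => trivial
  K_smul := fun _ _ _ => trivial
  add := fun {e f} hef _ _ => by
    have h1 := Ev.romp_orth.1 hef
    rw [Ev.romp_add h1]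
    exact mu_add hB h h1
  smul := fun g {e} _ => by
    obtain ⟨v, hv⟩ := htr g e
    exact mu_trans hB' h hv

/-- **E4.** If the atoms of level `0` lift, all the events `c^(k)_j ⊓ ev St^(k) A` lift. -/
theorem lift_cell [Centreless T'] [Cls.IsCentral q] (h : ColMap S S' q)
    (htr : ActTrans G (S' := S')) {D : Ev S'} {p r : G} {a : ℕ} (ha : Odd a)
    {c : ℕ → Ev S'} {St : Star → Ev S'} (hLS : LS D p r a c St)
    (h0 : ∀ j s, j < 3 * a → ∃ e : Ev S, e.map h = Romp.meet (c j) (St s))
    (k j : ℕ) (hj : j < 3 * (a + k)) (A : Set Star) :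
    ∃ e : Ev S, e.map h = Romp.meet (hc p r a c St k j) (Romp.ev (hSt p r a c St k) A) := by
  apply exists_lift h
  intro B hB hB'
  have hBu : B ≠ Finset.univ := by
    intro hu
    rw [hu, Finset.card_univ] at hB'
    have := S.card_C
    omega
  have hmu := invMu_mu (G := G) hB hBu h htr
  have h1 : ∀ k j s, j < 3 * (a + k) →
      mu B h (Romp.meet (hc p r a c St k j) (hSt p r a c St k s)) = 0 :=
    mu_vanish a ha (card_altOn_pos (B := B)) (MuGrp.nsmul (q := q) (B := B)) hmu
      (hD D p r a c St) (hP p r a) (hQ p r a) (hc p r a c St) (hSt p r a c St)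
      (fun k => hLS.lvl k) (fun _ => rfl) (fun _ => rfl) (fun _ _ _ _ => trivial)
      (by
        intro j s hj
        obtain ⟨e, he⟩ := h0 j s hj
        show mu B h (Romp.meet (c j) (St s)) = 0
        rw [← he]
        exact mu_map h e)
  exact ((hLS.lvl k).mu_ev_zero hmu hj (fun _ => trivial) (fun s => h1 k j s hj) A).2

/-- the digit events lift -/
theorem lift_digit [Centreless T'] [Cls.IsCentral q] (h : ColMap S S' q)
    (htr : ActTrans G (S' := S')) {D : Ev S'} {p r : G} {a : ℕ} (ha : Odd a)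
    {c : ℕ → Ev S'} {St : Star → Ev S'} (hLS : LS D p r a c St)
    (h0 : ∀ j s, j < 3 * a → ∃ e : Ev S, e.map h = Romp.meet (c j) (St s))
    (k j : ℕ) (hj : j < 3 * (a + k)) :
    ∃ e : Ev S, e.map h = hc p r a c St k j := by
  obtain ⟨e, he⟩ := lift_cell h htr ha hLS h0 k j hj Set.univ
  refine ⟨e, ?_⟩
  rw [he, (hLS.lvl k).meet_ev_St hj, ((hLS.lvl k).part_cell hj).ev_univ]

end lift

/-! ## Translations, morphisms -/

theorem actTrans : ActTrans (T' := T') (Multiplicative V) (S' := S') :=
  fun g e => ⟨g.toAdd, Ev.isTrans_trans g.toAdd e⟩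

namespace Ev

theorem map_trans (h : ColMap S S' q) (v : V) (e : Ev S) :
    (trans v e).map h = trans v (e.map h) := by
  refine eq_trans (fun σ hσ => ?_)
  have hc : (σ : Perm C).support.card < 30 := by rw [IsThreeCycle.card_supp hσ]; omega
  obtain ⟨l, hl, hlv⟩ := exists_lam (S := S) v hc
  exact ⟨l, hl, hlv, map_isTrans h (isTrans_trans v e) σ l hl hlv⟩

/-- the map on events as a morphism of orthomodular posets -/
def mapHom (h : ColMap S S' q) : Romp.OMPHom (Ev S) (Ev S') where
  toFun := Ev.map h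
  mono' := map_le h
  map_cpl' := map_compl h
  map_bot' := map_zero h
  map_add' := fun {e f} hef => by
    have h1 := romp_orth.1 hef
    rw [romp_add h1, romp_add (map_orth h h1), map_add h h1]

@[simp] theorem mapHom_apply (h : ColMap S S' q) (e : Ev S) : mapHom h e = e.map h := rfl

theorem mapHom_equiv (h : ColMap S S' q) :
    Romp.OMPHom.Equiv (Multiplicative V) (mapHom h) := fun g e => map_trans h g.toAdd e

end Ev

/-- **E4** for the translation action: if the atoms of level `0` lift, all the events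
`c^(k)_j ⊓ ev St^(k) A` lift. -/
theorem lift_cell' [Centreless T'] [Cls.IsCentral q] (h : ColMap S S' q)
    {D : Ev S'} {p r : Multiplicative V} {a : ℕ} (ha : Odd a)
    {c : ℕ → Ev S'} {St : Star → Ev S'} (hLS : LS D p r a c St)
    (h0 : ∀ j s, j < 3 * a → ∃ e : Ev S, e.map h = Romp.meet (c j) (St s))
    (k j : ℕ) (hj : j < 3 * (a + k)) (A : Set Star) :
    ∃ e : Ev S, e.map h = Romp.meet (hc p r a c St k j) (Romp.ev (hSt p r a c St k) A) :=
  lift_cell h actTrans ha hLS h0 k j hj A

theorem lift_digit' [Centreless T'] [Cls.IsCentral q] (h : ColMap S S' q)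
    {D : Ev S'} {p r : Multiplicative V} {a : ℕ} (ha : Odd a)
    {c : ℕ → Ev S'} {St : Star → Ev S'} (hLS : LS D p r a c St)
    (h0 : ∀ j s, j < 3 * a → ∃ e : Ev S, e.map h = Romp.meet (c j) (St s))
    (k j : ℕ) (hj : j < 3 * (a + k)) :
    ∃ e : Ev S, e.map h = hc p r a c St k j :=
  lift_digit h actTrans ha hLS h0 k j hj

end Crest.Agent.R189
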