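import Mathlib

/-!
Row 189, E4 (helper47): classes of homomorphisms `e : Q →* T'`, `Q` a finite perfect group, for a
central surjection `q : T →* T'`, in `(Q × Q → ker q) ⧸ coboundaries`. The class vanishes iff `e`
lifts to `Q →* T`; it is additive for commuting images, invariant under conjugation by elements of
the image of `q`, and killed by `|Q|`.
-/

set_option autoImplicit false
set_option linter.unusedSectionVars false

namespace Crest.Agent.R189.Cls

variable {T T' : Type*} [Group T] [Group T']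

/-- `q` has central kernel -/
class IsCentral (q : T →* T') : Prop where
  ker_le : q.ker ≤ Subgroup.center T

instance (q : T →* T') [hq : IsCentral q] : CommGroup q.ker :=
  { (inferInstance : Group q.ker) with
    mul_comm := fun a b => Subtype.ext (Subgroup.mem_center_iff.1 (hq.ker_le b.2) a) }

instance isCentral_mk : IsCentral (QuotientGroup.mk' (Subgroup.center T)) :=
  ⟨by rw [QuotientGroup.ker_mk']⟩

variable (q : T →* T') [hq : IsCentral q]

/-! ## Uniqueness of lifts -/

section uniq
variable {Q : Type*} [Group Q]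
include hq

theorem comm_of_ker {z : T} (hz : q z = 1) (t : T) : t * z = z * t :=
  Subgroup.mem_center_iff.1 (hq.ker_le hz) t

theorem perfect_to_comm {H : Type*} [CommGroup H] (hQ : commutator Q = ⊤) (φ : Q →* H) (x : Q) :
    φ x = 1 := by
  have h1 : commutator Q ≤ φ.ker := by
    rw [commutator_def, Subgroup.commutator_le]
    intro x _ y _
    rw [MonoidHom.mem_ker, map_commutatorElement, commutatorElement_eq_one_iff_mul_comm]
    exact mul_comm _ _
  exact h1 (by rw [hQ]; trivial)

/-- two homomorphisms on a perfect group which agree modulo the centre are equal -/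
theorem hom_eq_of_perfect (hQ : commutator Q = ⊤) {f g : Q →* T}
    (h : ∀ x, q (f x) = q (g x)) : f = g := by
  have hc : ∀ x, q (f x * (g x)⁻¹) = 1 := by
    intro x
    rw [map_mul, map_inv, h, mul_inv_cancel]
  let φ : Q →* q.ker := MonoidHom.mk' (fun x => ⟨f x * (g x)⁻¹, hc x⟩) (by
    intro x y
    apply Subtype.ext
    show f (x * y) * (g (x * y))⁻¹ = f x * (g x)⁻¹ * (f y * (g y)⁻¹)
    rw [map_mul, map_mul, mul_inv_rev]
    have h1 := comm_of_ker q (hc y) (g x)⁻¹
    calc f x * f y * ((g y)⁻¹ * (g x)⁻¹) = f x * ((f y * (g y)⁻¹) * (g x)⁻¹) := by group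
      _ = f x * ((g x)⁻¹ * (f y * (g y)⁻¹)) := by rw [h1]
      _ = f x * (g x)⁻¹ * (f y * (g y)⁻¹) := by group)
  ext x
  have h2 := perfect_to_comm q hQ φ x
  exact mul_inv_eq_one.1 (congrArg Subtype.val h2)

/-- version for set-theoretic lifts of a homomorphism to the quotient -/
theorem commute_of_perfect' (hQ : commutator Q = ⊤) (e : Q →* T') (s : Q → T)
    (hs : ∀ g, q (s g) = e g) (y : T)
    (h : ∀ x, e x * q y = q y * e x)
    (x : Q) : s x * y = y * s x := by
  have hc : ∀ x, q (s x * y * (s x)⁻¹ * y⁻¹) = 1 := by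
    intro x
    simp only [map_mul, map_inv, hs, h]
    group
  have hsm : ∀ x x', ∃ z, q z = 1 ∧ s (x * x') = s x * s x' * z := by
    intro x x'
    refine ⟨(s x * s x')⁻¹ * s (x * x'), ?_, by group⟩
    simp only [map_mul, map_inv, hs]
    group
  have key : ∀ x x', s (x * x') * y * (s (x * x'))⁻¹ * y⁻¹ =
      (s x * y * (s x)⁻¹ * y⁻¹) * (s x' * y * (s x')⁻¹ * y⁻¹) := by
    intro x x'
    obtain ⟨z, hz, hz'⟩ := hsm x x'
    rw [hz']
    have hz1 := comm_of_ker q hz
    have h1 := comm_of_ker q (hc x')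
    calc s x * s x' * z * y * (s x * s x' * z)⁻¹ * y⁻¹
        = s x * s x' * (z * (y * z⁻¹)) * (s x')⁻¹ * (s x)⁻¹ * y⁻¹ := by group
      _ = s x * s x' * ((y * z⁻¹) * z) * (s x')⁻¹ * (s x)⁻¹ * y⁻¹ := by rw [hz1]
      _ = s x * ((s x' * y * (s x')⁻¹ * y⁻¹) * (y * (s x)⁻¹ * y⁻¹)) := by group
      _ = s x * ((y * (s x)⁻¹ * y⁻¹) * (s x' * y * (s x')⁻¹ * y⁻¹)) := by
          rw [h1]
      _ = _ := by group
  let φ : Q →* q.ker := MonoidHom.mk' (fun x => ⟨s x * y * (s x)⁻¹ * y⁻¹, hc x⟩)
    (fun x x' => Subtype.ext (key x x'))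
  have h3 : s x * y * (s x)⁻¹ * y⁻¹ = 1 := congrArg Subtype.val (perfect_to_comm q hQ φ x)
  calc s x * y = (s x * y * (s x)⁻¹ * y⁻¹) * (y * s x) := by group
    _ = y * s x := by rw [h3, one_mul]

/-- an element which commutes with the image modulo the kernel commutes -/
theorem commute_of_perfect (hQ : commutator Q = ⊤) (f : Q →* T) (y : T)
    (h : ∀ x, q (f x) * q y = q y * q (f x)) (x : Q) : f x * y = y * f x :=
  commute_of_perfect' q hQ (q.comp f) f (fun _ => rfl) y h x

end uniq

/-! ## The class -/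

section cls
variable (Q : Type*) [Group Q] (A : Type*) [AddCommGroup A]

/-- coboundary -/
def cob : (Q → A) →+ (Q × Q → A) where
  toFun φ := fun p => φ p.1 + φ p.2 - φ (p.1 * p.2)
  map_zero' := by ext; simp
  map_add' := by intro φ ψ; ext p; simp; abel

/-- cochains modulo coboundaries -/
abbrev Coch : Type _ := (Q × Q → A) ⧸ (cob Q A).range

variable {Q A}

theorem mk_eq_mk {c d : Q × Q → A} (φ : Q → A)
    (h : ∀ g k, c (g, k) = d (g, k) + (φ g + φ k - φ (g * k))) :
    (QuotientAddGroup.mk c : Coch Q A) = QuotientAddGroup.mk d := by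
  rw [eq_comm, QuotientAddGroup.eq]
  refine ⟨φ, ?_⟩
  ext ⟨g, k⟩
  show φ g + φ k - φ (g * k) = -d (g, k) + c (g, k)
  rw [h]; abel

end cls

section main
variable {Q : Type*} [Group Q]

/-- the kernel as an additive group -/
abbrev Zc (q : T →* T') : Type _ := Additive q.ker

variable {q}

/-- the underlying element -/
def Zc.val (z : Zc q) : T := z.toMul

@[simp] theorem Zc.val_add (z w : Zc q) : (z + w).val = z.val * w.val := rfl
@[simp] theorem Zc.val_neg (z : Zc q) : (-z).val = z.val⁻¹ := rfl
@[simp] theorem Zc.val_sub (z w : Zc q) : (z - w).val = z.val * w.val⁻¹ := by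
  rw [sub_eq_add_neg]; rfl
@[simp] theorem Zc.val_zero : (0 : Zc q).val = 1 := rfl
theorem Zc.ext {z w : Zc q} (h : z.val = w.val) : z = w := Subtype.ext h
theorem Zc.map (z : Zc q) : q z.val = 1 := z.toMul.2
omit hq in
theorem Zc.map' (z : Zc q) : q z.val = 1 := z.toMul.2
theorem zc_comm (z : Zc q) (t : T) : t * z.val = z.val * t := comm_of_ker q z.map t

/-- an element of the kernel -/
def Zc.mk (z : T) (h : q z = 1) : Zc q := Additive.ofMul ⟨z, h⟩

@[simp] theorem Zc.val_mk (z : T) (h : q z = 1) : (Zc.mk z h).val = z := rfl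

/-- `s` is a set-theoretic lift of `e` -/
def IsSec (q : T →* T') (e : Q →* T') (s : Q → T) : Prop := ∀ g, q (s g) = e g

omit hq in
theorem IsSec.mem {e : Q →* T'} {s : Q → T} (hs : IsSec q e s) (g k : Q) :
    q (s g * s k * (s (g * k))⁻¹) = 1 := by
  simp only [map_mul, map_inv, hs g, hs k, hs (g * k)]
  group

/-- the factor set of a section -/
def fac {e : Q →* T'} {s : Q → T} (hs : IsSec q e s) : Q × Q → Zc q :=
  fun p => Zc.mk (s p.1 * s p.2 * (s (p.1 * p.2))⁻¹) (hs.mem p.1 p.2)

theorem fac_eq {e : Q →* T'} {s : Q → T} (hs : IsSec q e s) (g k : Q) :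
    s g * s k = (fac hs (g, k)).val * s (g * k) := by
  show s g * s k = s g * s k * (s (g * k))⁻¹ * s (g * k)
  group

theorem fac_unique {e : Q →* T'} {s : Q → T} (hs : IsSec q e s) (g k : Q)
    (z : Zc q) (h : s g * s k = z.val * s (g * k)) : fac hs (g, k) = z := by
  apply Zc.ext
  show s g * s k * (s (g * k))⁻¹ = _
  rw [h]; group

theorem mk_fac_eq {e : Q →* T'} {s s' : Q → T} (hs : IsSec q e s)
    (hs' : IsSec q e s') :
    (QuotientAddGroup.mk (fac hs') : Coch Q (Zc q)) = QuotientAddGroup.mk (fac hs) := by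
  have hz : ∀ g, q (s' g * (s g)⁻¹) = 1 := by
    intro g
    rw [map_mul, map_inv, hs g, hs' g, mul_inv_cancel]
  set φ : Q → Zc q := fun g => Zc.mk (s' g * (s g)⁻¹) (hz g) with hφ
  have hφ' : ∀ g, s' g = (φ g).val * s g := by
    intro g
    show s' g = s' g * (s g)⁻¹ * s g
    group
  apply mk_eq_mk φ
  intro g k
  apply fac_unique
  rw [hφ' g, hφ' k, hφ' (g * k)]
  simp only [Zc.val_add, Zc.val_sub]
  calc (φ g).val * s g * ((φ k).val * s k)
      = (φ g).val * (s g * (φ k).val) * s k := by group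
    _ = (φ g).val * ((φ k).val * s g) * s k := by rw [zc_comm]
    _ = (φ g).val * (φ k).val * (s g * s k) := by group
    _ = ((φ g).val * (φ k).val) * (fac hs (g, k)).val * s (g * k) := by
        rw [fac_eq hs, ← mul_assoc]
    _ = (fac hs (g, k)).val * ((φ g).val * (φ k).val) * s (g * k) := by
        rw [zc_comm (fac hs (g, k))]
    _ = _ := by group

variable (hs : Function.Surjective q)
include hs

/-- the class of `e` -/
noncomputable def cls (e : Q →* T') : Coch Q (Zc q) :=
  QuotientAddGroup.mk (fac (q := q) (e := e) (s := fun g => Function.surjInv hs (e g))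
    fun g => Function.surjInv_eq hs (e g))

omit hq in
theorem isSec_out (e : Q →* T') : IsSec q e (fun g => Function.surjInv hs (e g)) :=
  fun g => Function.surjInv_eq hs (e g)

theorem cls_eq {e : Q →* T'} {s : Q → T} (h : IsSec q e s) :
    cls hs e = QuotientAddGroup.mk (fac h) := mk_fac_eq h (isSec_out hs e)

/-- the class vanishes iff `e` lifts -/
theorem cls_eq_zero_iff (e : Q →* T') :
    cls hs e = 0 ↔ ∃ θ : Q →* T, ∀ g, q (θ g) = e g := by
  constructor
  · intro h
    have hs' := isSec_out hs e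
    set s : Q → T := fun g => Function.surjInv hs (e g) with hsdef
    rw [cls_eq hs hs', ← QuotientAddGroup.mk_zero, eq_comm, QuotientAddGroup.eq] at h
    obtain ⟨φ, hφ⟩ := h
    have hφ' : ∀ g k, fac hs' (g, k) = φ g + φ k - φ (g * k) := by
      intro g k
      have h1 := congrFun hφ (g, k)
      have h2 : (cob Q (Zc q)) φ (g, k) = fac hs' (g, k) := by simpa using h1
      exact h2.symm
    refine ⟨MonoidHom.mk' (fun g => (φ g).val⁻¹ * s g) ?_, ?_⟩
    · intro g k
      have h2 := fac_eq hs' g k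
      rw [hφ' g k, Zc.val_sub, Zc.val_add] at h2
      have hc1 : s g * (φ k).val⁻¹ = (φ k).val⁻¹ * s g := by
        have := zc_comm (-(φ k)) (s g)
        rwa [Zc.val_neg] at this
      have hc2 := zc_comm (φ k) (φ g).val
      show (φ (g * k)).val⁻¹ * s (g * k) = (φ g).val⁻¹ * s g * ((φ k).val⁻¹ * s k)
      calc (φ (g * k)).val⁻¹ * s (g * k)
          = ((φ g).val * (φ k).val)⁻¹ *
            ((φ g).val * (φ k).val * (φ (g * k)).val⁻¹ * s (g * k)) := by group
        _ = ((φ g).val * (φ k).val)⁻¹ * (s g * s k) := by rw [h2]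
        _ = ((φ k).val * (φ g).val)⁻¹ * (s g * s k) := by rw [hc2]
        _ = (φ g).val⁻¹ * ((φ k).val⁻¹ * s g) * s k := by group
        _ = (φ g).val⁻¹ * (s g * (φ k).val⁻¹) * s k := by rw [hc1]
        _ = _ := by group
    · intro g
      show q ((φ g).val⁻¹ * s g) = e g
      rw [map_mul, map_inv, (φ g).map, hs' g]
      group
  · rintro ⟨θ, hθ⟩
    have hs' : IsSec q e (fun g => θ g) := hθ
    rw [cls_eq hs hs']
    have h0 : fac hs' = 0 := by
      funext ⟨g, k⟩
      apply fac_unique
      show θ g * θ k = 1 * θ (g * k)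
      rw [map_mul, one_mul]
    rw [h0]; rfl

/-- invariance under conjugation -/
theorem cls_conj (t : T) {e f : Q →* T'}
    (h : ∀ g, f g = q t * e g * (q t)⁻¹) : cls hs f = cls hs e := by
  have h1 := isSec_out hs e
  set s : Q → T := fun g => Function.surjInv hs (e g) with hsdef
  have h2 : IsSec q f (fun g => t * s g * t⁻¹) := by
    intro g
    rw [h g, map_mul, map_mul, map_inv, h1 g]
  rw [cls_eq hs h1, cls_eq hs h2]
  congr 1
  funext ⟨g, k⟩
  apply fac_unique
  have h3 := zc_comm (fac h1 (g, k)) t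
  calc t * s g * t⁻¹ * (t * s k * t⁻¹) = t * (s g * s k) * t⁻¹ := by group
    _ = t * ((fac h1 (g, k)).val * s (g * k)) * t⁻¹ := by rw [fac_eq h1]
    _ = (t * (fac h1 (g, k)).val) * s (g * k) * t⁻¹ := by group
    _ = ((fac h1 (g, k)).val * t) * s (g * k) * t⁻¹ := by rw [h3]
    _ = _ := by group

/-- additivity for commuting images -/
theorem cls_mul (hQ : commutator Q = ⊤) {e f u : Q →* T'}
    (hc : ∀ g k, e g * f k = f k * e g) (hu : ∀ g, u g = e g * f g) :
    cls hs u = cls hs e + cls hs f := by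
  have h1 := isSec_out hs e
  have h2 := isSec_out hs f
  set s : Q → T := fun g => Function.surjInv hs (e g) with hsdef
  set r : Q → T := fun g => Function.surjInv hs (f g) with hrdef
  have hcomm : ∀ g k, s g * r k = r k * s g := fun g k =>
    commute_of_perfect' q hQ e s h1 (r k) (fun x => by rw [h2 k]; exact hc x k) g
  have h3 : IsSec q u (fun g => s g * r g) := by
    intro g
    rw [hu g, map_mul, h1 g, h2 g]
  rw [cls_eq hs h1, cls_eq hs h2, cls_eq hs h3, ← QuotientAddGroup.mk_add]
  congr 1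
  funext ⟨g, k⟩
  apply fac_unique
  have h4 := zc_comm (fac h2 (g, k)) ((fac h1 (g, k)).val * s (g * k))
  calc s g * r g * (s k * r k) = s g * (r g * s k) * r k := by group
    _ = s g * (s k * r g) * r k := by rw [hcomm]
    _ = (s g * s k) * (r g * r k) := by group
    _ = ((fac h1 (g, k)).val * s (g * k)) * ((fac h2 (g, k)).val * r (g * k)) := by
        rw [fac_eq h1, fac_eq h2]
    _ = (((fac h1 (g, k)).val * s (g * k)) * (fac h2 (g, k)).val) * r (g * k) := by group
    _ = ((fac h2 (g, k)).val * ((fac h1 (g, k)).val * s (g * k))) * r (g * k) := by rw [h4]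
    _ = ((fac h2 (g, k)).val * (fac h1 (g, k)).val) * (s (g * k) * r (g * k)) := by group
    _ = ((fac h1 (g, k)).val * (fac h2 (g, k)).val) * (s (g * k) * r (g * k)) := by
        rw [zc_comm (fac h1 (g, k))]
    _ = _ := rfl

omit hs in
/-- the cocycle identity -/
theorem fac_cocycle {e : Q →* T'} {s : Q → T} (h : IsSec q e s) (g k l : Q) :
    fac h (g, k) + fac h (g * k, l) = fac h (g, k * l) + fac h (k, l) := by
  apply Zc.ext
  simp only [Zc.val_add]
  have h1 : s g * s k * s l = (fac h (g, k)).val * (fac h (g * k, l)).val *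
      s (g * k * l) := by
    calc s g * s k * s l = (fac h (g, k)).val * s (g * k) * s l := by rw [fac_eq h g k]
      _ = (fac h (g, k)).val * (s (g * k) * s l) := mul_assoc _ _ _
      _ = (fac h (g, k)).val * ((fac h (g * k, l)).val * s (g * k * l)) := by
          rw [fac_eq h (g * k) l]
      _ = _ := (mul_assoc _ _ _).symm
  have h2 : s g * s k * s l = (fac h (g, k * l)).val * (fac h (k, l)).val *
      s (g * k * l) := by
    calc s g * s k * s l = s g * (s k * s l) := mul_assoc _ _ _
      _ = (s g * (fac h (k, l)).val) * s (k * l) := by rw [fac_eq h k l, mul_assoc]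
      _ = (fac h (k, l)).val * (s g * s (k * l)) := by rw [zc_comm, mul_assoc]
      _ = (fac h (k, l)).val * ((fac h (g, k * l)).val * s (g * (k * l))) := by
          rw [fac_eq h g (k * l)]
      _ = ((fac h (k, l)).val * (fac h (g, k * l)).val) * s (g * k * l) := by
          rw [← mul_assoc, ← mul_assoc g k l]
      _ = _ := by rw [zc_comm (fac h (g, k * l))]
  rw [h1] at h2
  exact mul_right_cancel h2

/-- the class is killed by the order of `Q` -/
theorem card_nsmul_cls [Finite Q] (e : Q →* T') : Nat.card Q • cls hs e = 0 := by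
  classical
  have := Fintype.ofFinite Q
  have h1 := isSec_out hs e
  rw [cls_eq hs h1, ← QuotientAddGroup.mk_nsmul, ← QuotientAddGroup.mk_zero]
  apply mk_eq_mk (fun g => ∑ l, fac h1 (g, l))
  intro g k
  have h2 : ∑ l, (fac h1 (g, k) + fac h1 (g * k, l)) = ∑ l, (fac h1 (g, k * l) + fac h1 (k, l)) :=
    Finset.sum_congr rfl fun l _ => fac_cocycle h1 g k l
  have h3 : ∑ l, fac h1 (g, k * l) = ∑ l, fac h1 (g, l) :=
    Equiv.sum_comp (Equiv.mulLeft k) (fun l => fac h1 (g, l))
  rw [Finset.sum_add_distrib, Finset.sum_add_distrib, Finset.sum_const, Finset.card_univ,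
    h3] at h2
  simp only [Pi.smul_apply, Pi.zero_apply, zero_add]
  rw [Nat.card_eq_fintype_card, ← sub_eq_zero]
  rw [← sub_eq_zero] at h2
  rw [← h2]
  abel

end main

end Crest.Agent.R189.Cls
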