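import Crest.Agent.R189.EvOrder
import Crest.Agent.R189.AltPerf
import Crest.Agent.R189.LiftCls

/-!
Row 189, E4 (helper47): lifting events along a central surjection `q : T →* T'` of coloured groups.

* `ColMap S S' q` : `q` is a surjection compatible with the colour structures; `ColGrp.map`;
* `Ev.map` : image of an event; injective, reflects order, orthogonality and translations when `q` is
  central;
* `mu` : the obstruction class of an event on the even permutations supported in `B`; additive,
  translation invariant, killed by `|altOn B|`;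
* `exists_lift` : an event all of whose classes vanish is the image of a (unique) event.
-/

set_option autoImplicit false
set_option linter.unusedSectionVars false

namespace Crest.Agent.R189

open Equiv Equiv.Perm AltPres
open scoped commutatorElement

variable {C : Type} [Fintype C] [DecidableEq C] {V : Type} [AddCommGroup V]
  {T T' : Type} [Group T] [Group T']

/-! ## Perfectness -/

theorem altOn_le (A : Finset C) : altOn A ≤ alternatingGroup C := fun _ h => h.1

theorem commutator_alt (h : 30 ≤ Fintype.card C) : commutator (alternatingGroup C) = ⊤ :=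
  commutator_alternatingGroup_eq_top (by rw [Nat.card_eq_fintype_card]; omega)

/-- restriction of a homomorphism to `altOn B` -/
def resOn {G : Type} [Group G] (e : alternatingGroup C →* G) (B : Finset C) : altOn B →* G :=
  e.comp (Subgroup.inclusion (altOn_le B))

@[simp] theorem resOn_apply {G : Type} [Group G] (e : alternatingGroup C →* G) (B : Finset C)
    (g : Perm C) (hg : g ∈ altOn B) : resOn e B ⟨g, hg⟩ = e ⟨g, hg.1⟩ := rfl

/-! ## Maps of coloured groups -/

/-- `q` is a surjection compatible with the colour structures -/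
structure ColMap (S : ColGrp C V T) (S' : ColGrp C V T') (q : T →* T') : Prop where
  surj : Function.Surjective q
  one : ∀ σ, q (S.one σ) = S'.one σ
  H : ∀ l : C → V, ∑ c, l c = 0 → q (S.H l) = S'.H l
  map_sub : ∀ A, (S.sub A).map q = S'.sub A

/-- push-forward of a colour structure -/
def ColGrp.map (S : ColGrp C V T) (q : T →* T') (hq : Function.Surjective q) : ColGrp C V T' where
  one := q.comp S.one
  H := fun l => q (S.H l)
  sub := fun A => (S.sub A).map q
  card_C := S.card_C
  H_add := fun l m hl hm => by rw [S.H_add l m hl hm, map_mul]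
  one_H := fun σ l hl => by
    rw [← S.one_H σ l hl]
    simp
  sub_mono := fun A B h => Subgroup.map_mono (S.sub_mono A B h)
  sub_comm := by
    rintro A B h _ ⟨x, hx, rfl⟩ _ ⟨y, hy, rfl⟩
    rw [← map_mul, ← map_mul, S.sub_comm A B h x hx y hy]
  one_mem := fun σ A h => ⟨_, S.one_mem σ A h, rfl⟩
  H_mem := fun l A h1 h2 => ⟨_, S.H_mem l A h1 h2, rfl⟩
  one_sub := by
    rintro σ A _ ⟨x, hx, rfl⟩
    exact ⟨_, S.one_sub σ A x hx, by simp⟩
  sub_gen := by
    intro A
    refine (Subgroup.map_mono (S.sub_gen A)).trans ?_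
    rw [MonoidHom.map_closure, Subgroup.closure_le]
    rintro _ ⟨x, ⟨B, hB, hc, hx⟩, rfl⟩
    exact Subgroup.subset_closure ⟨B, hB, hc, ⟨x, hx, rfl⟩⟩
  sub_univ := by
    rw [S.sub_univ]
    exact Subgroup.map_top_of_surjective q hq

theorem ColGrp.colMap (S : ColGrp C V T) (q : T →* T') (hq : Function.Surjective q) :
    ColMap S (S.map q hq) q where
  surj := hq
  one := fun _ => rfl
  H := fun _ _ => rfl
  map_sub := fun _ => rfl

variable {S : ColGrp C V T} {S' : ColGrp C V T'} {q : T →* T'}

namespace Ev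

/-- image of an event -/
def map (h : ColMap S S' q) (e : Ev S) : Ev S' where
  hom := q.comp e.hom
  mem := fun σ A h1 h2 => by
    rw [← h.map_sub]
    exact ⟨_, e.mem σ A h1 h2, rfl⟩
  equivar := fun σ τ => by
    rw [← h.one]
    show q (S.one τ) * q (e.hom σ) * (q (S.one τ))⁻¹ = q (e.hom (τ * σ * τ⁻¹))
    rw [← e.equivar σ τ]
    simp

@[simp] theorem map_hom (h : ColMap S S' q) (e : Ev S) (σ : alternatingGroup C) :
    (e.map h).hom σ = q (e.hom σ) := rfl

theorem map_unit (h : ColMap S S' q) : (unit S).map h = unit S' := by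
  ext σ; exact h.one σ

theorem map_zero (h : ColMap S S' q) : (zero S).map h = zero S' := by
  ext σ; simp [zero]

theorem map_le (h : ColMap S S' q) {e f : Ev S} (hef : e ≤ f) : e.map h ≤ f.map h := by
  intro σ τ
  simp only [map_hom]
  rw [← hef σ τ]; simp

theorem map_orth (h : ColMap S S' q) {e f : Ev S} (hef : Orth e f) : Orth (e.map h) (f.map h) := by
  intro σ τ
  simp only [map_hom]
  rw [← map_mul, ← map_mul, hef σ τ]

theorem map_compl (h : ColMap S S' q) (e : Ev S) : (compl e).map h = compl (e.map h) := by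
  ext σ
  simp [h.one]

theorem map_add (h : ColMap S S' q) {e f : Ev S} (hef : Orth e f) :
    (add e f hef).map h = add (e.map h) (f.map h) (map_orth h hef) := by
  ext σ; simp

theorem map_isTrans (h : ColMap S S' q) {v : V} {e f : Ev S} (hef : IsTrans v e f) :
    IsTrans v (e.map h) (f.map h) := by
  intro σ l hl h1
  simp only [map_hom]
  rw [hef σ l hl h1, ← h.H l hl]; simp

variable [hc : Cls.IsCentral q]

theorem map_injective (h : ColMap S S' q) : Function.Injective (Ev.map h) := by
  intro e f hef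
  ext σ
  have h1 : e.hom = f.hom := Cls.hom_eq_of_perfect q (commutator_alt S.card_C)
    (fun x => congrArg (fun e : Ev S' => e.hom x) hef)
  rw [h1]

theorem map_le_iff (h : ColMap S S' q) {e f : Ev S} : e.map h ≤ f.map h ↔ e ≤ f := by
  refine ⟨fun hef σ τ => ?_, map_le h⟩
  have h1 : (MulAut.conj (f.hom τ)).toMonoidHom.comp e.hom =
      e.hom.comp (MulAut.conj τ).toMonoidHom :=
    Cls.hom_eq_of_perfect q (commutator_alt S.card_C) (fun x => by
      have := hef x τ
      simp only [map_hom] at this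
      show q (f.hom τ * e.hom x * (f.hom τ)⁻¹) = q (e.hom (τ * x * τ⁻¹))
      rw [← this]; simp)
  exact DFunLike.congr_fun h1 σ

theorem map_orth_iff (h : ColMap S S' q) {e f : Ev S} : Orth (e.map h) (f.map h) ↔ Orth e f := by
  refine ⟨fun hef σ τ => ?_, map_orth h⟩
  exact Cls.commute_of_perfect q (commutator_alt S.card_C) e.hom (f.hom τ) (fun x => hef x τ) σ

theorem map_eq_zero_iff (h : ColMap S S' q) {e : Ev S} : e.map h = zero S' ↔ e = zero S := by
  rw [← map_zero h]
  exact (map_injective h).eq_iff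

/-- the difference of two translating vectors acts trivially -/
theorem H_conj_eq (e : Ev S) (σ : alternatingGroup C) (hσ : (σ : Perm C).support.card ≤ 20)
    (v : V) (l m : C → V) (hl : ∑ c, l c = 0) (hm : ∑ c, m c = 0)
    (h1 : ∀ c ∈ (σ : Perm C).support, l c = v) (h2 : ∀ c ∈ (σ : Perm C).support, m c = v) :
    S.H l * e.hom σ * (S.H l)⁻¹ = S.H m * e.hom σ * (S.H m)⁻¹ := by
  have h3 : ∑ c, (l - m) c = 0 := by simp [Finset.sum_sub_distrib, hl, hm]
  have h4 : S.H l = S.H m * S.H (l - m) := by
    rw [← S.H_add m (l - m) hm h3]; congr 1; abel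
  have h5 : e.hom σ * S.H (l - m) = S.H (l - m) * e.hom σ := by
    refine e.comm_sub σ hσ (B := Finset.univ \ (σ : Perm C).support) ?_ ?_
    · exact Finset.disjoint_sdiff
    · refine S.H_mem _ _ h3 ?_
      intro c hc
      have h6 : c ∈ (σ : Perm C).support := by simpa using hc
      simp [h1 c h6, h2 c h6]
  rw [h4]
  calc S.H m * S.H (l - m) * e.hom σ * (S.H m * S.H (l - m))⁻¹
      = S.H m * (S.H (l - m) * e.hom σ) * (S.H (l - m))⁻¹ * (S.H m)⁻¹ := by group
    _ = _ := by rw [← h5]; group

end Ev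

/-- a vector of sum zero with value `v` on `B` -/
theorem exists_vec (v : V) {B : Finset C} (hB : B ≠ Finset.univ) :
    ∃ l : C → V, ∑ c, l c = 0 ∧ ∀ c ∈ B, l c = v := by
  obtain ⟨d, hd⟩ : ∃ d, d ∉ B := by
    by_contra h
    exact hB (Finset.eq_univ_iff_forall.2 fun x => by
      by_contra hx
      exact h ⟨x, hx⟩)
  refine ⟨fun c => if c ∈ B then v else if c = d then -(B.card • v) else 0, ?_, ?_⟩
  · have h1 : ∀ c, (if c ∈ B then v else if c = d then -(B.card • v) else 0) =
        (if c ∈ B then v else 0) + (if c = d then -(B.card • v) else 0) := by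
      intro c
      by_cases h : c ∈ B
      · have : c ≠ d := fun h' => hd (h' ▸ h)
        simp [h, this]
      · simp [h]
    rw [Finset.sum_congr rfl (fun c _ => h1 c), Finset.sum_add_distrib]
    simp
  · intro c hc
    simp [hc]

namespace Ev

variable [hc : Cls.IsCentral q]

theorem map_isTrans_iff (h : ColMap S S' q) {v : V} {e f : Ev S} :
    IsTrans v (e.map h) (f.map h) ↔ IsTrans v e f := by
  refine ⟨fun hef σ l hl h1 => ?_, map_isTrans h⟩
  -- the statement for large supports
  have key : ∀ (B : Finset C) (m : C → V), 5 ≤ B.card → ∑ c, m c = 0 → (∀ c ∈ B, m c = v) →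
      ∀ (g : Perm C) (hg : g ∈ altOn B),
        f.hom ⟨g, hg.1⟩ = S.H m * e.hom ⟨g, hg.1⟩ * (S.H m)⁻¹ := by
    intro B m hB hm hmv g hg
    have h2 : resOn f.hom B = (MulAut.conj (S.H m)).toMonoidHom.comp (resOn e.hom B) :=
      Cls.hom_eq_of_perfect q (commutator_altOn hB) (fun x => by
        have h3 := hef ⟨x.1, x.2.1⟩ m hm (fun c hc => hmv c (x.2.2 hc))
        simp only [map_hom] at h3
        rw [← h.H m hm] at h3
        show q (f.hom ⟨x.1, x.2.1⟩) = q (S.H m * e.hom ⟨x.1, x.2.1⟩ * (S.H m)⁻¹)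
        rw [h3]; simp)
    exact DFunLike.congr_fun h2 ⟨g, hg⟩
  by_cases h5 : 5 ≤ (σ : Perm C).support.card
  · exact key _ l h5 hl h1 σ.1 ⟨σ.2, subset_rfl⟩
  · obtain ⟨B, hB1, hB2, -⟩ := S.exists_superset (A := (σ : Perm C).support) (B := ∅) (by simp) 5
      (by omega) (by simp)
    have hBne : B ≠ Finset.univ := by
      intro h
      rw [h, Finset.card_univ] at hB2
      have := S.card_C
      omega
    obtain ⟨m, hm, hm'⟩ := exists_vec v hBne
    rw [H_conj_eq e σ (by omega) v l m hl hm h1 (fun c hc => hm' c (hB1 hc))]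
    exact key B m (by omega) hm hm' σ.1 ⟨σ.2, hB1⟩

end Ev

/-! ## The classes -/

section mu
variable (B : Finset C) [hc : Cls.IsCentral q]

variable (q) in
/-- the value group of the classes: killed by `|altOn B|` -/
abbrev MuGrp (B : Finset C) : Type :=
  (nsmulAddMonoidHom (α := Cls.Coch (altOn B) (Cls.Zc q)) (Nat.card (altOn B))).ker

theorem MuGrp.nsmul (x : MuGrp q B) : Nat.card (altOn B) • x = 0 := by
  apply Subtype.ext
  exact x.2

theorem card_altOn_pos : 0 < Nat.card (altOn B) := Nat.card_pos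

/-- the class of an event -/
noncomputable def mu (h : ColMap S S' q) (e : Ev S') : MuGrp q B :=
  ⟨Cls.cls h.surj (resOn e.hom B), Cls.card_nsmul_cls h.surj (resOn e.hom B)⟩

variable {B}

theorem mu_add (hB : 5 ≤ B.card) (h : ColMap S S' q) {e f : Ev S'} (hef : Ev.Orth e f) :
    mu B h (Ev.add e f hef) = mu B h e + mu B h f := by
  apply Subtype.ext
  exact Cls.cls_mul h.surj (commutator_altOn hB) (fun g k => hef _ _) (fun g => rfl)

theorem mu_trans (hB : B ≠ Finset.univ) (h : ColMap S S' q) {v : V} {e f : Ev S'}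
    (hef : Ev.IsTrans v e f) : mu B h f = mu B h e := by
  obtain ⟨l, hl, hl'⟩ := exists_vec v hB
  apply Subtype.ext
  refine Cls.cls_conj h.surj (S.H l) (fun g => ?_)
  rw [h.H l hl]
  exact hef ⟨g.1, g.2.1⟩ l hl (fun c hc => hl' c (g.2.2 hc))

theorem mu_map (h : ColMap S S' q) (e : Ev S) : mu B h (e.map h) = 0 := by
  apply Subtype.ext
  exact (Cls.cls_eq_zero_iff h.surj _).2 ⟨resOn e.hom B, fun g => rfl⟩

/-- an event all of whose classes vanish lifts -/
theorem exists_lift (h : ColMap S S' q) (e : Ev S')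
    (h0 : ∀ B : Finset C, 5 ≤ B.card → B.card ≤ 10 → mu B h e = 0) : ∃ e' : Ev S, e'.map h = e := by
  classical
  -- local lifts
  have hloc : ∀ B : Finset C, 5 ≤ B.card → B.card ≤ 10 →
      ∃ θ : altOn B →* T, ∀ g, q (θ g) = resOn e.hom B g := by
    intro B hB hB'
    have h1 := h0 B hB hB'
    exact (Cls.cls_eq_zero_iff h.surj _).1 (congrArg Subtype.val h1)
  choose! θ hθ using hloc
  -- compatibility
  have hcomp : ∀ B B' : Finset C, 5 ≤ B.card → B'.card ≤ 10 → ∀ hBB' : B ⊆ B',
      ∀ (g : Perm C) (hg : g ∈ altOn B), θ B ⟨g, hg⟩ = θ B' ⟨g, altOn_mono hBB' hg⟩ := by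
    intro B B' hB hB' hBB' g hg
    have h1 : θ B = (θ B').comp (Subgroup.inclusion (altOn_mono hBB')) :=
      Cls.hom_eq_of_perfect q (commutator_altOn hB) (fun x => by
        rw [hθ B hB ((Finset.card_le_card hBB').trans hB')]
        exact (hθ B' (hB.trans (Finset.card_le_card hBB')) hB'
          (Subgroup.inclusion (altOn_mono hBB') x)).symm)
    exact DFunLike.congr_fun h1 ⟨g, hg⟩
  -- a five element set containing the support of a three-cycle
  have hex : ∀ z : Perm C, z.IsThreeCycle → ∃ B : Finset C, z.support ⊆ B ∧ B.card = 5 := by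
    intro z hz
    obtain ⟨B, hB1, hB2, -⟩ := S.exists_superset (A := z.support) (B := ∅) (by simp) 5
      (by rw [hz.card_support]; omega) (by simp)
    exact ⟨B, hB1, hB2⟩
  choose! Bz hBz1 hBz2 using hex
  let φ : Perm C → T := fun z => if hz : z.IsThreeCycle then
    θ (Bz z) ⟨z, threeCycle_mem hz (hBz1 z hz)⟩ else 1
  have hφ : ∀ z (hz : z.IsThreeCycle), φ z = θ (Bz z) ⟨z, threeCycle_mem hz (hBz1 z hz)⟩ := by
    intro z hz
    simp only [φ, dif_pos hz]
  have hag : ∀ B : Finset C, B.card = 5 → ∃ ψ : altOn B →* T, Agrees φ ψ := by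
    intro B hB
    refine ⟨θ B, fun z hz hzB => ?_⟩
    rw [hφ z hz]
    have hc10 : (B ∪ Bz z).card ≤ 10 := by
      have := Finset.card_union_le B (Bz z)
      rw [hB, hBz2 z hz] at this
      exact this
    rw [hcomp B (B ∪ Bz z) (by omega) hc10 Finset.subset_union_left,
      hcomp (Bz z) (B ∪ Bz z) (by rw [hBz2 z hz]) hc10 Finset.subset_union_right]
  obtain ⟨ψ, hψ⟩ := exists_alt_hom' (by have := S.card_C; omega) hag
  -- the projection
  have hqψ : ∀ σ, q (ψ σ) = e.hom σ := by
    have h1 : q.comp ψ = e.hom := alt_hom_ext (fun z hz => by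
      show q (ψ _) = _
      rw [hψ z hz, hφ z hz, hθ (Bz z) (by rw [hBz2 z hz]) (by rw [hBz2 z hz]; omega)]
      rfl)
    exact fun σ => DFunLike.congr_fun h1 σ
  have hperf := commutator_alt S.card_C
  refine ⟨⟨ψ, ?_, ?_⟩, ?_⟩
  · -- locality
    intro σ A hσA hA
    -- elements of `altOn A` whose image is in `sub A`
    have hA' := commutator_altOn hA
    have h1 : commutator (altOn A) ≤ (S.sub A).comap (resOn ψ A) := by
      rw [commutator_def, Subgroup.commutator_le]
      intro x _ y _
      rw [Subgroup.mem_comap, map_commutatorElement]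
      -- representatives in `sub A`
      have h2 : ∀ x : altOn A, ∃ t ∈ S.sub A, ∃ z, q z = 1 ∧ resOn ψ A x = t * z := by
        intro x
        have h3 : e.hom ⟨x.1, x.2.1⟩ ∈ (S.sub A).map q := by
          rw [h.map_sub]
          exact e.mem _ A x.2.2 hA
        obtain ⟨t, ht, ht'⟩ := h3
        refine ⟨t, ht, t⁻¹ * resOn ψ A x, ?_, by group⟩
        rw [map_mul, map_inv, ht', ← hqψ]
        exact inv_mul_cancel _
      obtain ⟨t, ht, z, hz, h3⟩ := h2 x
      obtain ⟨u, hu, w, hw, h4⟩ := h2 y
      have hz' := Cls.comm_of_ker q hz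
      have hw' := Cls.comm_of_ker q hw
      have h5 : ⁅resOn ψ A x, resOn ψ A y⁆ = ⁅t, u⁆ := by
        rw [h3, h4, commutatorElement_def, commutatorElement_def]
        calc t * z * (u * w) * (t * z)⁻¹ * (u * w)⁻¹
            = t * (z * (u * w * z⁻¹)) * t⁻¹ * (u * w)⁻¹ := by group
          _ = t * ((u * w * z⁻¹) * z) * t⁻¹ * (u * w)⁻¹ := by rw [hz']
          _ = t * u * (w * (t⁻¹ * w⁻¹)) * u⁻¹ := by group
          _ = t * u * ((t⁻¹ * w⁻¹) * w) * u⁻¹ := by rw [hw']
          _ = t * u * t⁻¹ * u⁻¹ := by group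
      rw [h5]
      exact (S.sub A).mul_mem ((S.sub A).mul_mem ((S.sub A).mul_mem ht hu) ((S.sub A).inv_mem ht))
        ((S.sub A).inv_mem hu)
    have h2 : (⟨σ.1, σ.2, hσA⟩ : altOn A) ∈ commutator (altOn A) := by rw [hA']; trivial
    exact h1 h2
  · -- equivariance
    intro σ τ
    have h1 : (MulAut.conj (S.one τ)).toMonoidHom.comp ψ = ψ.comp (MulAut.conj τ).toMonoidHom :=
      Cls.hom_eq_of_perfect q hperf (fun x => by
        show q (S.one τ * ψ x * (S.one τ)⁻¹) = q (ψ (τ * x * τ⁻¹))
        rw [hqψ (τ * x * τ⁻¹), ← e.equivar x τ, map_mul, map_mul, map_inv, h.one, hqψ])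
    exact DFunLike.congr_fun h1 σ
  · ext σ
    exact hqψ σ

end mu

end Crest.Agent.R189
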