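import Crest.Agent.R189.Romp

/-!
Row 189, E2 step 7: abstract marker chain in an orthomodular poset.
-/

namespace Crest.Agent.R189
namespace MarkChain
open Romp

variable {E : Type*} [OMP E]

/-- A telescoping chain of orthogonal decompositions gives a partition. -/
theorem isPart_of_chain {N : ℕ} {J : E} {A X : ℕ → E}
    (h0 : Orth (A 0) (X 0)) (hJ : J = A 0 +ₒ X 0)
    (hs : ∀ i, i + 1 < N → Orth (A (i+1)) (X (i+1)) ∧ A i = A (i+1) +ₒ X (i+1))
    (hN0 : 0 < N) (hN : A (N-1) = ⊥) :
    IsPart (fun i : Fin N => X i) J := by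
  have hle : ∀ i, i < N → ∀ j, i ≤ j → j < N → A j ≤ A i := by
    intro i hi j hij
    induction j, hij using Nat.le_induction with
    | base => intro _; exact le_rfl
    | succ j hij ih =>
      intro hj
      obtain ⟨h1, h2⟩ := hs j hj
      exact le_trans (by rw [h2]; exact le_add_left h1) (ih (by omega))
  have hXA : ∀ i j, i < j → j < N → X j ≤ A i := by
    intro i j hij hj
    obtain ⟨j, rfl⟩ : ∃ k, j = k + 1 := ⟨j - 1, by omega⟩
    obtain ⟨h1, h2⟩ := hs j hj
    exact le_trans (by rw [h2]; exact le_add_right h1) (hle i (by omega) j (by omega) (by omega))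
  have hAX : ∀ i, i < N → Orth (A i) (X i) := by
    intro i hi
    rcases Nat.eq_zero_or_pos i with rfl | hpos
    · exact h0
    · obtain ⟨k, rfl⟩ : ∃ k, i = k + 1 := ⟨i - 1, by omega⟩
      exact (hs k hi).1
  have horth : ∀ i j : ℕ, i < j → j < N → Orth (X j) (X i) := by
    intro i j hij hj
    exact (hAX i (by omega)).mono_left (hXA i j hij hj)
  refine IsPart.of_isLUB ?_ ?_
  · intro i j hij
    rcases lt_or_gt_of_ne (fun h => hij (Fin.ext h)) with h | h
    · exact (horth i j h j.2).symm
    · exact horth j i h i.2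
  · constructor
    · rintro _ ⟨i, rfl⟩
      rcases Nat.eq_zero_or_pos i.1 with h | hpos
      · show X i.1 ≤ J
        rw [h, hJ]; exact le_add_right h0
      · show X i.1 ≤ J
        have h1 := hXA 0 i.1 hpos i.2
        rw [hJ]; exact le_trans h1 (le_add_left h0)
    · intro y hy
      have hy' : ∀ i, i < N → X i ≤ y := fun i hi => hy ⟨⟨i, hi⟩, rfl⟩
      have hA : ∀ k, k < N → A (N - 1 - k) ≤ y := by
        intro k hk
        induction k with
        | zero => simp only [Nat.sub_zero, hN]; exact bot_le
        | succ k ih =>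
          have ih := ih (by omega)
          have e : N - 1 - (k+1) + 1 = N - 1 - k := by omega
          obtain ⟨h1, h2⟩ := hs (N - 1 - (k+1)) (by omega)
          rw [e] at h1 h2
          rw [h2]
          exact add_le h1 ih (hy' _ (by omega))
      have h1 := hA (N-1) (by omega)
      simp only [Nat.sub_self] at h1
      rw [hJ]
      exact add_le h0 h1 (hy' 0 hN0)

end MarkChain
end Crest.Agent.R189
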