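import Mathlib
import Crest.Prelude.Def_Amenable

/-!
# Row 189: invariant means on sets (author: helper84)

A mean on a type `Ω` is a functional `m : (Ω → ℝ) → ℝ` which is additive, homogeneous, positive and
normalised on *bounded* functions (nothing is required on unbounded functions).
-/

set_option autoImplicit false

namespace Crest.Agent.R189.MeanF

open Filter

/-- bounded real valued function -/
def Bdd {Ω : Type*} (f : Ω → ℝ) : Prop := ∃ C : ℝ, ∀ x, |f x| ≤ C

section Bdd
variable {Ω : Type*} {f g : Ω → ℝ}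

lemma Bdd.add (hf : Bdd f) (hg : Bdd g) : Bdd (f + g) := by
  obtain ⟨C, hC⟩ := hf
  obtain ⟨D, hD⟩ := hg
  exact ⟨C + D, fun x => (abs_add_le _ _).trans (add_le_add (hC x) (hD x))⟩

lemma Bdd.smul (c : ℝ) (hf : Bdd f) : Bdd (c • f) := by
  obtain ⟨C, hC⟩ := hf
  exact ⟨|c| * C, fun x => by
    simpa [abs_mul] using mul_le_mul_of_nonneg_left (hC x) (abs_nonneg c)⟩

lemma Bdd.neg (hf : Bdd f) : Bdd (-f) := by
  obtain ⟨C, hC⟩ := hf
  exact ⟨C, fun x => by simpa using hC x⟩

lemma Bdd.sub (hf : Bdd f) (hg : Bdd g) : Bdd (f - g) := by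
  rw [sub_eq_add_neg]
  exact hf.add hg.neg

lemma Bdd.const (c : ℝ) : Bdd (fun _ : Ω => c) := ⟨|c|, fun _ => le_rfl⟩

lemma Bdd.comp {Ω' : Type*} (hf : Bdd f) (φ : Ω' → Ω) : Bdd (fun x => f (φ x)) := by
  obtain ⟨C, hC⟩ := hf
  exact ⟨C, fun x => hC _⟩

lemma Bdd.of_le {C : ℝ} (h : ∀ x, |f x| ≤ C) : Bdd f := ⟨C, h⟩

open Classical in
lemma Bdd.indicator (s : Set Ω) : Bdd (fun x => if x ∈ s then (1 : ℝ) else 0) :=
  ⟨1, fun x => by by_cases hx : x ∈ s <;> simp [hx]⟩

end Bdd

/-- means (finitely additive integrals) on a type -/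
structure IsMean {Ω : Type*} (m : (Ω → ℝ) → ℝ) : Prop where
  add : ∀ f g, Bdd f → Bdd g → m (f + g) = m f + m g
  smul : ∀ (c : ℝ) f, Bdd f → m (c • f) = c * m f
  nonneg : ∀ f, Bdd f → (∀ x, 0 ≤ f x) → 0 ≤ m f
  one : m (fun _ => 1) = 1

namespace IsMean

variable {Ω : Type*} {m : (Ω → ℝ) → ℝ} (hm : IsMean m)
include hm

lemma neg {f : Ω → ℝ} (hf : Bdd f) : m (-f) = - m f := by
  have := hm.smul (-1) f hf
  simpa using this

lemma sub {f g : Ω → ℝ} (hf : Bdd f) (hg : Bdd g) : m (f - g) = m f - m g := by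
  rw [sub_eq_add_neg, hm.add f (-g) hf hg.neg, hm.neg hg]
  ring

lemma const (c : ℝ) : m (fun _ => c) = c := by
  have := hm.smul c (fun _ => 1) (Bdd.const 1)
  rw [hm.one] at this
  have h2 : (c • (fun _ : Ω => (1 : ℝ))) = fun _ => c := by
    funext x; simp
  rw [h2] at this
  simpa using this

lemma zero : m (fun _ => 0) = 0 := hm.const 0

lemma mono {f g : Ω → ℝ} (hf : Bdd f) (hg : Bdd g) (h : ∀ x, f x ≤ g x) : m f ≤ m g := by
  have := hm.nonneg (g - f) (hg.sub hf) (fun x => by simpa using h x)
  rw [hm.sub hg hf] at this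
  linarith

lemma abs_le {f : Ω → ℝ} {C : ℝ} (h : ∀ x, |f x| ≤ C) : |m f| ≤ C := by
  have hf : Bdd f := ⟨C, h⟩
  rw [_root_.abs_le]
  constructor
  · have := hm.mono (Bdd.const (-C)) hf (fun x => (_root_.abs_le.mp (h x)).1)
    rwa [hm.const] at this
  · have := hm.mono hf (Bdd.const C) (fun x => (_root_.abs_le.mp (h x)).2)
    rwa [hm.const] at this

lemma abs_sub_le {f g : Ω → ℝ} {C : ℝ} (hf : Bdd f) (hg : Bdd g) (h : ∀ x, |f x - g x| ≤ C) :
    |m f - m g| ≤ C := by
  rw [← hm.sub hf hg]
  exact hm.abs_le (f := f - g) h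

/-- push-forward of a mean -/
lemma map {Ω' : Type*} (φ : Ω → Ω') : IsMean (fun f : Ω' → ℝ => m (fun x => f (φ x))) where
  add f g hf hg := hm.add (fun x => f (φ x)) (fun x => g (φ x)) (hf.comp φ) (hg.comp φ)
  smul c f hf := hm.smul c (fun x => f (φ x)) (hf.comp φ)
  nonneg _ hf h := hm.nonneg _ (hf.comp φ) (fun _ => h _)
  one := hm.one

/-- integration of a family of means against a mean -/
lemma bind {Ω' : Type*} {n : Ω → (Ω' → ℝ) → ℝ} (hn : ∀ x, IsMean (n x)) :
    IsMean (fun f : Ω' → ℝ => m (fun x => n x f)) where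
  add f g hf hg := by
    obtain ⟨C, hC⟩ := id hf
    obtain ⟨D, hD⟩ := id hg
    have h := hm.add (fun x => n x f) (fun x => n x g) ⟨C, fun x => (hn x).abs_le hC⟩
      ⟨D, fun x => (hn x).abs_le hD⟩
    rw [← h]
    congr 1
    funext x
    exact (hn x).add f g hf hg
  smul c f hf := by
    obtain ⟨C, hC⟩ := id hf
    have h := hm.smul c (fun x => n x f) ⟨C, fun x => (hn x).abs_le hC⟩
    rw [← h]
    congr 1
    funext x
    exact (hn x).smul c f hf
  nonneg f hf h := by
    obtain ⟨C, hC⟩ := id hf
    exact hm.nonneg _ ⟨C, fun x => (hn x).abs_le hC⟩ (fun x => (hn x).nonneg f hf h)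
  one := by
    have : (fun x => n x (fun _ => 1)) = fun _ : Ω => (1 : ℝ) := by
      funext x; exact (hn x).one
    rw [this]
    exact hm.one

omit hm in
lemma bdd_bind {Ω' : Type*} {n : Ω → (Ω' → ℝ) → ℝ} (hn : ∀ x, IsMean (n x)) {f : Ω' → ℝ}
    (hf : Bdd f) : Bdd (fun x => n x f) := by
  obtain ⟨C, hC⟩ := hf
  exact ⟨C, fun x => (hn x).abs_le hC⟩

/-- two bounded functions which agree on a set of full mean have the same mean -/
lemma congr_ae {f g : Ω → ℝ} (hf : Bdd f) (hg : Bdd g) (s : Set Ω)
    [DecidablePred (· ∈ s)]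
    (hs : m (fun x => if x ∈ s then 1 else 0) = 1) (h : ∀ x ∈ s, f x = g x) : m f = m g := by
  obtain ⟨C, hC⟩ := (hf.sub hg)
  have hC0 : ∀ x, |f x - g x| ≤ |C| := fun x => (hC x).trans (le_abs_self C)
  have hb : Bdd (fun x => if x ∈ s then (1 : ℝ) else 0) :=
    ⟨1, fun x => by by_cases hx : x ∈ s <;> simp [hx]⟩
  have hc : m (fun x => if x ∈ s then 0 else |C|) = 0 := by
    have h1 : (fun x => if x ∈ s then 0 else |C|)
        = |C| • ((fun _ => 1) - fun x => if x ∈ s then (1 : ℝ) else 0) := by
      funext x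
      by_cases hx : x ∈ s <;> simp [hx]
    rw [h1, hm.smul _ _ ((Bdd.const 1).sub hb), hm.sub (Bdd.const 1) hb, hm.one, hs]
    ring
  have hcb : Bdd (fun x => if x ∈ s then 0 else |C|) :=
    ⟨|C|, fun x => by by_cases hx : x ∈ s <;> simp [hx]⟩
  have h1 : m (f - g) ≤ 0 := by
    rw [← hc]
    refine hm.mono (hf.sub hg) hcb (fun x => ?_)
    by_cases hx : x ∈ s
    · simp [hx, h x hx]
    · simpa [hx] using (_root_.abs_le.mp (hC0 x)).2
  have h2 : m (g - f) ≤ 0 := by
    rw [← hc]
    refine hm.mono (hg.sub hf) hcb (fun x => ?_)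
    by_cases hx : x ∈ s
    · simp [hx, h x hx]
    · have := (_root_.abs_le.mp (hC0 x)).1
      simp only [hx, if_false, Pi.sub_apply]
      linarith
  rw [hm.sub hf hg] at h1
  rw [hm.sub hg hf] at h2
  linarith

end IsMean

/-- ultralimit of a bounded family -/
noncomputable def ulim {I : Type*} (U : Ultrafilter I) (a : I → ℝ) : ℝ := limUnder (U : Filter I) a

lemma tendsto_ulim {I : Type*} (U : Ultrafilter I) {a : I → ℝ} {C : ℝ} (h : ∀ i, |a i| ≤ C) :
    Tendsto a U (nhds (ulim U a)) := by
  have hc : IsCompact (Set.Icc (-C) C) := isCompact_Icc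
  have hm : ∀ i, a i ∈ Set.Icc (-C) C := fun i => abs_le.mp (h i)
  obtain ⟨x, -, hx⟩ := hc.ultrafilter_le_nhds (U.map a)
    (by
      rw [le_principal_iff]
      show a ⁻¹' (Set.Icc (-C) C) ∈ (U : Filter I)
      exact Filter.mem_of_superset Filter.univ_mem (fun i _ => hm i))
  have hx' : Tendsto a U (nhds x) := hx
  have h2 : ulim U a = x := hx'.limUnder_eq
  rw [h2]
  exact hx'

lemma ulim_eq {I : Type*} (U : Ultrafilter I) {a : I → ℝ} {x : ℝ} (h : Tendsto a U (nhds x)) :
    ulim U a = x := h.limUnder_eq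

/-- ultralimits of means are means -/
lemma isMean_ulim {I Ω : Type*} (U : Ultrafilter I) {m : I → (Ω → ℝ) → ℝ}
    (hm : ∀ i, IsMean (m i)) : IsMean (fun f : Ω → ℝ => ulim U (fun i => m i f)) where
  add f g hf hg := by
    obtain ⟨C, hC⟩ := id hf
    obtain ⟨D, hD⟩ := id hg
    apply ulim_eq
    have h := (tendsto_ulim U (fun i => (hm i).abs_le hC)).add
      (tendsto_ulim U (fun i => (hm i).abs_le hD))
    refine h.congr (fun i => ?_)
    exact ((hm i).add f g hf hg).symm
  smul c f hf := by
    obtain ⟨C, hC⟩ := id hf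
    apply ulim_eq
    have h := (tendsto_ulim U (fun i => (hm i).abs_le hC)).const_mul c
    refine h.congr (fun i => ?_)
    exact ((hm i).smul c f hf).symm
  nonneg f hf h := by
    obtain ⟨C, hC⟩ := id hf
    exact ge_of_tendsto' (tendsto_ulim U (fun i => (hm i).abs_le hC))
      (fun i => (hm i).nonneg f hf h)
  one := by
    apply ulim_eq
    refine Tendsto.congr (fun i => ((hm i).one).symm) tendsto_const_nhds

/-- `Ω` carries a `G`-invariant mean. -/
def InvMean (G Ω : Type*) [Group G] [MulAction G Ω] : Prop :=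
  ∃ m : (Ω → ℝ) → ℝ, IsMean m ∧ ∀ (g : G) (f : Ω → ℝ), Bdd f → m (fun x => f (g • x)) = m f

/-- functional form of amenability (invariant mean on bounded functions) -/
def Amen (G : Type*) [Group G] : Prop := InvMean G G

lemma amen_iff {G : Type*} [Group G] : Amen G ↔
    ∃ m : (G → ℝ) → ℝ, IsMean m ∧ ∀ (g : G) (f : G → ℝ), Bdd f → m (fun x => f (g * x)) = m f :=
  Iff.rfl

open Classical in
open scoped Pointwise ENNReal in
/-- the functional form implies the frozen definition -/
theorem Amen.amenable {G : Type*} [Group G] (h : Amen G) : Crest.GroupTheory.Amenable G := by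
  obtain ⟨m, hm, hinv⟩ := h
  refine ⟨fun s => ENNReal.ofReal (m (fun x => if x ∈ s then 1 else 0)), ?_, ?_, ?_⟩
  · simp [hm.one]
  · intro s t hst
    refine (congrArg ENNReal.ofReal (congrArg m (a₂ := (fun x => if x ∈ s then (1 : ℝ) else 0) +
      fun x => if x ∈ t then (1 : ℝ) else 0) (funext fun x => ?_))).trans ?_
    · by_cases hs : x ∈ s
      · have ht : x ∉ t := fun ht => Set.disjoint_left.mp hst hs ht
        simp [hs, ht]
      · by_cases ht : x ∈ t <;> simp [hs, ht]
    rw [← ENNReal.ofReal_add (hm.nonneg _ (Bdd.indicator s) (fun x => by by_cases hx : x ∈ s <;> simp [hx]))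
      (hm.nonneg _ (Bdd.indicator t) (fun x => by by_cases hx : x ∈ t <;> simp [hx])),
      ← hm.add _ _ (Bdd.indicator s) (Bdd.indicator t)]
  · intro g s
    show ENNReal.ofReal (m (fun x => if x ∈ g • s then 1 else 0)) =
      ENNReal.ofReal (m (fun x => if x ∈ s then 1 else 0))
    rw [← hinv g _ (Bdd.indicator (g • s))]
    simp only [Set.smul_mem_smul_set_iff]

/-- almost invariant families of means give invariant means -/
theorem invMean_of_approx {G Ω I : Type*} [Group G] [MulAction G Ω] (F : Filter I) [F.NeBot]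
    (m : I → (Ω → ℝ) → ℝ) (hm : ∀ i, IsMean (m i))
    (h : ∀ (g : G) (f : Ω → ℝ), Bdd f →
      Tendsto (fun i => m i (fun x => f (g • x)) - m i f) F (nhds 0)) :
    ∃ n : (Ω → ℝ) → ℝ, IsMean n ∧ (∀ (g : G) (f : Ω → ℝ), Bdd f → n (fun x => f (g • x)) = n f) ∧
      ∀ (f : Ω → ℝ) (c : ℝ), Bdd f → Tendsto (fun i => m i f) F (nhds c) → n f = c := by
  classical
  let U : Ultrafilter I := Ultrafilter.of F
  have hU : (U : Filter I) ≤ F := Ultrafilter.of_le F
  refine ⟨fun f => ulim U (fun i => m i f), isMean_ulim U hm, ?_, ?_⟩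
  · intro g f hf
    obtain ⟨C, hC⟩ := id hf
    apply ulim_eq
    have h1 := tendsto_ulim U (a := fun i => m i f) (fun i => (hm i).abs_le hC)
    have h2 := (h g f hf).mono_left hU
    have h3 := h2.add h1
    rw [zero_add] at h3
    exact h3.congr (fun i => by ring)
  · intro f c _ hc
    exact ulim_eq U (hc.mono_left hU)

/-- a group with an invariant mean on a `G`-set with amenable stabilisers is amenable -/
theorem amen_of_invMean {G Ω : Type*} [Group G] [MulAction G Ω] (h : InvMean G Ω)
    (hst : ∀ x : Ω, Amen (MulAction.stabilizer G x)) : Amen G := by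
  classical
  obtain ⟨μ, hμ, hinv⟩ := h
  choose n hn hninv using fun x : Ω => (amen_iff.mp (hst x))
  -- orbit representatives
  let rep : Ω → Ω := fun x => (Quotient.mk (MulAction.orbitRel G Ω) x).out
  have hrep : ∀ x, ∃ t : G, t • rep x = x := by
    intro x
    have : (MulAction.orbitRel G Ω).r (rep x) x := Quotient.mk_out x
    have h2 : rep x ∈ MulAction.orbit G x := MulAction.orbitRel_apply.mp this
    obtain ⟨g, hg⟩ := h2
    exact ⟨g⁻¹, by rw [← hg]; simp⟩
  choose t ht using hrep
  have hrepg : ∀ (g : G) x, rep (g • x) = rep x := by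
    intro g x
    have : Quotient.mk (MulAction.orbitRel G Ω) (g • x) = Quotient.mk (MulAction.orbitRel G Ω) x :=
      Quotient.sound (MulAction.orbitRel_apply.mpr ⟨g, rfl⟩)
    simp only [rep, this]
  let q : Ω → (G → ℝ) → ℝ := fun x f => n (rep x) (fun h => f (t x * (h : G)))
  have hq : ∀ x, IsMean (q x) := fun x =>
    (hn (rep x)).map (fun h : MulAction.stabilizer G (rep x) => t x * (h : G))
  -- equivariance
  have key : ∀ (y : Ω) (a b : G) (f : G → ℝ), Bdd f → a • y = b • y →
      n y (fun h => f (a * (h : G))) = n y (fun h => f (b * (h : G))) := by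
    intro y a b f hf hab
    have hs : b⁻¹ * a ∈ MulAction.stabilizer G y := by
      rw [MulAction.mem_stabilizer_iff, mul_smul, hab, inv_smul_smul]
    have := hninv y ⟨b⁻¹ * a, hs⟩ (fun h => f (b * (h : G))) (hf.comp _)
    rw [← this]
    congr 1
    funext h
    simp [mul_assoc]
  refine amen_iff.mpr ⟨fun f => μ (fun x => q x f), hμ.bind hq, ?_⟩
  intro g f hf
  show μ (fun x => q x (fun y => f (g * y))) = μ (fun x => q x f)
  rw [← hinv g (fun x => q x f) (IsMean.bdd_bind hq hf)]
  congr 1
  funext x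
  have h1 : q (g • x) f = n (rep x) (fun h => f (t (g • x) * (h : G))) := by
    simp only [q]
    have hh : ∀ y, y = rep x → n y (fun h => f (t (g • x) * (h : G)))
        = n (rep x) (fun h => f (t (g • x) * (h : G))) := by
      rintro y rfl; rfl
    exact hh _ (hrepg g x)
  rw [h1]
  have h2 := key (rep x) (g * t x) (t (g • x)) f hf (by
    rw [mul_smul, ht x]
    have := ht (g • x)
    rw [hrepg] at this
    exact this.symm)
  rw [← h2]
  simp only [q, mul_assoc]

/-- trivial groups -/
lemma amen_of_subsingleton {G : Type*} [Group G] [Subsingleton G] : Amen G := by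
  refine amen_iff.mpr ⟨fun f => f 1, ⟨fun _ _ _ _ => rfl, fun _ _ _ => rfl,
    fun _ _ h => h 1, rfl⟩, ?_⟩
  intro g f _
  exact congrArg f (Subsingleton.elim _ _)

/-- amenability passes to groups mapping injectively to an amenable group -/
theorem Amen.of_injective {H G : Type*} [Group H] [Group G] (h : Amen G) (φ : H →* G)
    (hφ : Function.Injective φ) : Amen H := by
  let _ : MulAction H G := MulAction.compHom G φ
  obtain ⟨m, hm, hinv⟩ := h
  refine amen_of_invMean (Ω := G) ⟨m, hm, fun g f hf => hinv (φ g) f hf⟩ (fun x => ?_)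
  have : Subsingleton (MulAction.stabilizer H x) := by
    constructor
    intro a b
    have key : ∀ a : MulAction.stabilizer H x, (a : H) = 1 := by
      intro a
      have ha := a.2
      rw [MulAction.mem_stabilizer_iff] at ha
      have ha' : φ (a : H) * x = x := ha
      exact hφ (by simpa using ha')
    exact Subtype.ext ((key a).trans (key b).symm)
  exact amen_of_subsingleton

theorem Amen.subgroup {G : Type*} [Group G] (h : Amen G) (H : Subgroup G) : Amen H :=
  h.of_injective H.subtype H.subtype_injective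

theorem Amen.of_mulEquiv {H G : Type*} [Group H] [Group G] (h : Amen G) (e : H ≃* G) : Amen H :=
  h.of_injective e.toMonoidHom e.injective

/-- amenability passes to images -/
theorem Amen.of_surjective {G Q : Type*} [Group G] [Group Q] (h : Amen G) (φ : G →* Q)
    (hφ : Function.Surjective φ) : Amen Q := by
  obtain ⟨m, hm, hinv⟩ := amen_iff.mp h
  refine amen_iff.mpr ⟨_, hm.map φ, ?_⟩
  intro q f hf
  obtain ⟨g, rfl⟩ := hφ q
  have := hinv g (fun x => f (φ x)) (hf.comp φ)
  simpa using this

/-- extensions -/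
theorem amen_of_ker {G Q : Type*} [Group G] [Group Q] (φ : G →* Q) (hQ : Amen Q)
    (hK : Amen φ.ker) : Amen G := by
  let _ : MulAction G Q := MulAction.compHom Q φ
  obtain ⟨m, hm, hinv⟩ := hQ
  refine amen_of_invMean (Ω := Q) ⟨m, hm, fun g f hf => hinv (φ g) f hf⟩ (fun x => ?_)
  have hle : ∀ g : G, g ∈ MulAction.stabilizer G x → g ∈ φ.ker := by
    intro g hg
    rw [MulAction.mem_stabilizer_iff] at hg
    have hg' : φ g * x = x := hg
    rw [MonoidHom.mem_ker]
    simpa using hg'
  exact hK.of_injective (Subgroup.inclusion (K := φ.ker) hle) (Subgroup.inclusion_injective _)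

/-- an amenable group acting on a nonempty set has an invariant mean -/
theorem Amen.invMean {G Ω : Type*} [Group G] [MulAction G Ω] [Nonempty Ω] (h : Amen G) :
    InvMean G Ω := by
  obtain ⟨m, hm, hinv⟩ := amen_iff.mp h
  obtain ⟨x₀⟩ := ‹Nonempty Ω›
  refine ⟨_, hm.map (fun g => g • x₀), ?_⟩
  intro g f hf
  have := hinv g (fun x => f (x • x₀)) (hf.comp _)
  simpa [mul_smul] using this

/-- a group which is locally contained in amenable subgroups is amenable -/
theorem amen_of_local {G : Type*} [Group G]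
    (h : ∀ S : Finset G, ∃ H : Subgroup G, (∀ g ∈ S, g ∈ H) ∧ Amen H) : Amen G := by
  classical
  choose H hSH hH using h
  choose n hn hninv using fun S : Finset G => (amen_iff.mp (hH S))
  obtain ⟨m, hm, hinv, -⟩ := invMean_of_approx (G := G) (Ω := G) (atTop : Filter (Finset G))
    (fun S f => n S (fun h => f (h : G)))
    (fun S => (hn S).map (fun h : H S => (h : G))) (by
      intro g f hf
      refine tendsto_const_nhds.congr' ?_
      filter_upwards [eventually_ge_atTop ({g} : Finset G)] with S hS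
      have hg : g ∈ H S := hSH S g (hS (Finset.mem_singleton_self g))
      have := hninv S ⟨g, hg⟩ (fun h => f (h : G)) (hf.comp _)
      have h2 : n S (fun h => f (g • (h : G))) = n S (fun h => f (h : G)) := by
        simpa using this
      rw [h2, sub_self])
  exact amen_iff.mpr ⟨m, hm, hinv⟩

/-- increasing unions of amenable subgroups -/
theorem amen_of_directed {G I : Type*} [Group G] [Nonempty I] (K : I → Subgroup G)
    (hdir : Directed (· ≤ ·) K) (hK : ∀ i, Amen (K i)) (hall : ∀ g : G, ∃ i, g ∈ K i) :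
    Amen G := by
  classical
  apply amen_of_local
  intro S
  have : ∃ i, ∀ g ∈ S, g ∈ K i := by
    induction S using Finset.induction_on with
    | empty => exact ⟨Classical.arbitrary I, by simp⟩
    | insert a S ha ih =>
      obtain ⟨i, hi⟩ := ih
      obtain ⟨j, hj⟩ := hall a
      obtain ⟨k, hk1, hk2⟩ := hdir i j
      refine ⟨k, fun g hg => ?_⟩
      rcases Finset.mem_insert.mp hg with rfl | hg
      · exact hk2 hj
      · exact hk1 (hi g hg)
  obtain ⟨i, hi⟩ := this
  exact ⟨K i, hi, hK i⟩

/-- finite groups are amenable -/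
theorem amen_of_finite {G : Type*} [Group G] [Finite G] : Amen G := by
  classical
  have := Fintype.ofFinite G
  refine amen_iff.mpr ⟨fun f : G → ℝ => (∑ x : G, f x) / (Fintype.card G : ℝ), ?_, ?_⟩
  · have hc : (Fintype.card G : ℝ) ≠ 0 := by
      exact_mod_cast Fintype.card_ne_zero
    refine ⟨?_, ?_, ?_, ?_⟩
    · intro f g _ _
      simp only [Pi.add_apply, Finset.sum_add_distrib, add_div]
    · intro c f _
      simp only [Pi.smul_apply, smul_eq_mul, ← Finset.mul_sum, mul_div_assoc]
    · intro f _ h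
      exact div_nonneg (Finset.sum_nonneg (fun x _ => h x)) (Nat.cast_nonneg _)
    · simp [hc]
  · intro g f _
    show (∑ x : G, f (g * x)) / (Fintype.card G : ℝ) = (∑ x : G, f x) / (Fintype.card G : ℝ)
    rw [Fintype.sum_equiv (Equiv.mulLeft g) (fun x => f (g * x)) f (fun x => rfl)]

/-- bi-invariant means on amenable groups -/
theorem Amen.biinv {G : Type*} [Group G] (h : Amen G) :
    ∃ m : (G → ℝ) → ℝ, IsMean m ∧ (∀ (g : G) (f : G → ℝ), Bdd f → m (fun x => f (g * x)) = m f) ∧
      (∀ (g : G) (f : G → ℝ), Bdd f → m (fun x => f (x * g)) = m f) := by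
  obtain ⟨m, hm, hinv⟩ := amen_iff.mp h
  have hR : IsMean (fun f : G → ℝ => m (fun y => f y⁻¹)) := hm.map (fun y => y⁻¹)
  have hRinv : ∀ (g : G) (f : G → ℝ), Bdd f →
      m (fun y => f (y⁻¹ * g)) = m (fun y => f y⁻¹) := by
    intro g f hf
    have := hinv g⁻¹ (fun y => f y⁻¹) (hf.comp _)
    simpa using this
  refine ⟨fun f => m (fun x => m (fun y => f (x * y⁻¹))),
    hm.bind (n := fun x f => m (fun y => f (x * y⁻¹))) (fun x => hm.map (fun y => x * y⁻¹)), ?_, ?_⟩
  · intro g f hf
    have := hinv g (fun x => m (fun y => f (x * y⁻¹)))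
      (IsMean.bdd_bind (n := fun x f => m (fun y => f (x * y⁻¹)))
        (fun x => hm.map (fun y => x * y⁻¹)) hf)
    dsimp only
    rw [← this]
    simp only [mul_assoc]
  · intro g f hf
    show m (fun x => m (fun y => f (x * y⁻¹ * g))) = m (fun x => m (fun y => f (x * y⁻¹)))
    congr 1
    funext x
    have := hRinv g (fun z => f (x * z)) (hf.comp _)
    simp only [← mul_assoc] at this
    exact this

/-- `ℤ` is amenable -/
theorem amen_int : Amen (Multiplicative ℤ) := by
  classical
  obtain ⟨m, hm, hinv, -⟩ := invMean_of_approx (G := Multiplicative ℤ) (Ω := Multiplicative ℤ)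
    (atTop : Filter ℕ)
    (fun N f => (∑ i ∈ Finset.range (N + 1), f (Multiplicative.ofAdd (i : ℤ))) / ((N : ℝ) + 1))
    (by
      intro N
      have hc : ((N : ℝ) + 1) ≠ 0 := by positivity
      refine ⟨?_, ?_, ?_, ?_⟩
      · intro f g _ _
        simp [Finset.sum_add_distrib, add_div]
      · intro c f _
        simp [← Finset.mul_sum, mul_div_assoc]
      · intro f _ h
        exact div_nonneg (Finset.sum_nonneg (fun x _ => h _)) (by positivity)
      · simp [hc])
    (by
      intro g f hf
      obtain ⟨C, hC⟩ := hf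
      have hC0 : 0 ≤ C := (abs_nonneg _).trans (hC 1)
      -- reduce to the generator by additivity in g
      have key : ∀ (k : ℕ) (h : Multiplicative ℤ → ℝ), (∀ x, |h x| ≤ C) → ∀ N : ℕ,
          |∑ i ∈ Finset.range (N + 1), h (Multiplicative.ofAdd ((i : ℤ) + k))
            - ∑ i ∈ Finset.range (N + 1), h (Multiplicative.ofAdd (i : ℤ))| ≤ 2 * C * k := by
        intro k h hh N
        induction k with
        | zero => simp
        | succ k ih =>
          have h1 : ∑ i ∈ Finset.range (N + 1), h (Multiplicative.ofAdd ((i : ℤ) + (k + 1 : ℕ)))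
              - ∑ i ∈ Finset.range (N + 1), h (Multiplicative.ofAdd ((i : ℤ) + k))
              = h (Multiplicative.ofAdd ((N + 1 : ℕ) + k : ℤ)) - h (Multiplicative.ofAdd (k : ℤ)) := by
            have := Finset.sum_range_sub
              (fun i : ℕ => h (Multiplicative.ofAdd ((i : ℤ) + k))) (N + 1)
            rw [← Finset.sum_sub_distrib]
            rw [← Finset.sum_sub_distrib] at *
            simp only [Nat.cast_zero, zero_add] at this
            rw [← this]
            refine Finset.sum_congr rfl (fun i _ => ?_)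
            congr 3
            push_cast
            ring
          have h2 : |h (Multiplicative.ofAdd ((N + 1 : ℕ) + k : ℤ))
              - h (Multiplicative.ofAdd (k : ℤ))| ≤ 2 * C := by
            have a1 := hh (Multiplicative.ofAdd ((N + 1 : ℕ) + k : ℤ))
            have a2 := hh (Multiplicative.ofAdd (k : ℤ))
            rw [abs_le] at *
            constructor <;> linarith [a1.1, a1.2, a2.1, a2.2]
          have h3 := abs_add_le
            (∑ i ∈ Finset.range (N + 1), h (Multiplicative.ofAdd ((i : ℤ) + (k + 1 : ℕ)))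
              - ∑ i ∈ Finset.range (N + 1), h (Multiplicative.ofAdd ((i : ℤ) + k)))
            (∑ i ∈ Finset.range (N + 1), h (Multiplicative.ofAdd ((i : ℤ) + k))
            - ∑ i ∈ Finset.range (N + 1), h (Multiplicative.ofAdd (i : ℤ)))
          rw [h1] at h3
          have h4 : (∑ i ∈ Finset.range (N + 1), h (Multiplicative.ofAdd ((i : ℤ) + (k + 1 : ℕ)))
              - ∑ i ∈ Finset.range (N + 1), h (Multiplicative.ofAdd (i : ℤ))) =
              (h (Multiplicative.ofAdd ((N + 1 : ℕ) + k : ℤ)) - h (Multiplicative.ofAdd (k : ℤ))) +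
              (∑ i ∈ Finset.range (N + 1), h (Multiplicative.ofAdd ((i : ℤ) + k))
            - ∑ i ∈ Finset.range (N + 1), h (Multiplicative.ofAdd (i : ℤ))) := by
            rw [← h1]; ring
          have h5 : 2 * C * ((k + 1 : ℕ) : ℝ) = 2 * C * k + 2 * C := by push_cast; ring
          rw [h4, h5]
          refine h3.trans ?_
          linarith
      have key2 : ∀ N : ℕ,
          |∑ i ∈ Finset.range (N + 1), f (g * Multiplicative.ofAdd (i : ℤ))
            - ∑ i ∈ Finset.range (N + 1), f (Multiplicative.ofAdd (i : ℤ))|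
            ≤ 2 * C * (Multiplicative.toAdd g).natAbs := by
        intro N
        rcases Int.natAbs_eq (Multiplicative.toAdd g) with hz | hz
        · have := key (Multiplicative.toAdd g).natAbs f hC N
          refine le_trans (le_of_eq ?_) this
          congr 2
          refine Finset.sum_congr rfl (fun i _ => ?_)
          congr 1
          rw [← hz, add_comm, ofAdd_add, ofAdd_toAdd]
        · have := key (Multiplicative.toAdd g).natAbs (fun x => f (g * x)) (fun x => hC _) N
          rw [abs_sub_comm]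
          refine le_trans (le_of_eq ?_) this
          congr 2
          refine Finset.sum_congr rfl (fun i _ => ?_)
          congr 1
          have : g = Multiplicative.ofAdd (-((Multiplicative.toAdd g).natAbs : ℤ)) := by
            rw [← hz, ofAdd_toAdd]
          rw [this, ← ofAdd_add, ← this]
          congr 1
          ring
      have hlim : Tendsto (fun N : ℕ => 2 * C * (Multiplicative.toAdd g).natAbs / ((N : ℝ) + 1))
          atTop (nhds 0) := by
        exact tendsto_const_nhds.div_atTop
          (tendsto_natCast_atTop_atTop.atTop_add tendsto_const_nhds)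
      refine squeeze_zero_norm (fun N => ?_) hlim
      rw [Real.norm_eq_abs, ← sub_div, abs_div]
      have hN : (0 : ℝ) < (N : ℝ) + 1 := by positivity
      rw [abs_of_pos hN]
      exact div_le_div_of_nonneg_right (key2 N) hN.le)
  exact amen_iff.mpr ⟨m, hm, hinv⟩

end Crest.Agent.R189.MeanF
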