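import Crest.Agent.R189.RNDefs

/-!
# Row 189, part E2, step 8: the digits of the next level

`MarkerData q a c0 m iota IT X` collects the outputs of steps 1-7. Results (namespace `MarkerData`):
`part`, `per`, `cn_eq`, `le_sp`, `le_Zp`, `le_sm`, `le_Zm`, `le_iota`, `le_IT`.
-/

set_option autoImplicit false

namespace Crest.Agent.R189

open Romp

theorem sv_pos_cases {a j : ℕ} (ha : 2 ≤ a) (hj : j < 3 * (a + 1)) :
    (j = 0 ∧ sv (a + 1) j = .f ∧ pos a j = a) ∨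
    (0 < j ∧ j < a + 1 ∧ sv (a + 1) j = .s0 ∧ pos a j = a + j) ∨
    (a + 1 ≤ j ∧ j < 2 * a + 2 ∧ sv (a + 1) j = .s1 ∧ pos a j = j - 1) ∨
    (2 * a + 2 ≤ j ∧ j < 3 * a + 2 ∧ sv (a + 1) j = .s2 ∧ pos a j = j - (a + 2)) ∨
    (j = 3 * a + 2 ∧ sv (a + 1) j = .l ∧ pos a j = 2 * a) := by
  rcases Nat.lt_or_ge j (a + 1) with h1 | h1
  · have hm : j % (a + 1) = j := Nat.mod_eq_of_lt h1
    rcases Nat.eq_zero_or_pos j with h0 | h0
    · left
      subst h0
      simp [sv, pos]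
    · right; left
      refine ⟨h0, h1, ?_, ?_⟩
      · rw [sv, if_neg (by omega), if_neg (by omega), if_pos h1]
      · rw [pos, hm]
  · rcases Nat.lt_or_ge j (2 * a + 2) with h2 | h2
    · have hm : j % (a + 1) = j - (a + 1) := by
        rw [Nat.mod_eq_sub_mod h1]
        exact Nat.mod_eq_of_lt (by omega)
      right; right; left
      refine ⟨h1, h2, ?_, ?_⟩
      · rw [sv, if_neg (by omega), if_neg (by omega), if_neg (by omega), if_pos (by omega)]
      · rw [pos, hm]; omega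
    · have hm : j % (a + 1) = j - 2 * (a + 1) := by
        rw [Nat.mod_eq_sub_mod (by omega), Nat.mod_eq_sub_mod (by omega)]
        rw [Nat.mod_eq_of_lt (by omega)]
        omega
      rcases Nat.lt_or_ge j (3 * a + 2) with h3 | h3
      · right; right; right; left
        refine ⟨h2, h3, ?_, ?_⟩
        · rw [sv, if_neg (by omega), if_neg (by omega), if_neg (by omega), if_neg (by omega)]
        · rw [pos, hm]; omega
      · right; right; right; right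
        refine ⟨by omega, ?_, ?_⟩
        · rw [sv, if_neg (by omega), if_pos (by omega)]
        · rw [pos, hm]; omega

/-! ### Boolean computations -/

section Bool

variable {Ω : Type}

def spB (M : Set Ω) (T : Tau → Set Ω) (s : S) : Set Ω :=
  if s = .f then M else {w | ∃ th : Tau, th.snd = s ∧ w ∈ T th}
def smB (M : Set Ω) (T : Tau → Set Ω) (s : S) : Set Ω :=
  if s = .l then M else {w | ∃ th : Tau, th.fst = s ∧ w ∈ T th}
def ZpB (a : ℕ) (M : Set Ω) (T : Tau → Set Ω) (X : ℕ → Set Ω) (i : ℕ) : Set Ω :=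
  if i = a then M ∪ {w | ∃ th : Tau, th.reset = true ∧ w ∈ T th} else X (i - 1)
def ZmB (a : ℕ) (M : Set Ω) (T : Tau → Set Ω) (X : ℕ → Set Ω) (i : ℕ) : Set Ω :=
  if i = 2 * a then M ∪ {w | ∃ th : Tau, th.reset = true ∧ w ∈ T th} else X i

def cB (a : ℕ) (M : Set Ω) (T : Tau → Set Ω) (X : ℕ → Set Ω) (j : ℕ) : Set Ω :=
  spB M T (sv (a + 1) j) ∩ ZpB a M T X (pos a j)

def cmB (a : ℕ) (M : Set Ω) (T : Tau → Set Ω) (X : ℕ → Set Ω) (j : ℕ) : Set Ω :=
  smB M T (sv (a + 1) j) ∩ ZmB a M T X (pos a j)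

structure BoolData (a : ℕ) (M : Set Ω) (T : Tau → Set Ω) (X : ℕ → Set Ω) : Prop where
  two_le : 2 ≤ a
  MT : ∀ {w th}, w ∈ M → w ∈ T th → False
  TT : ∀ {w th th'}, w ∈ T th → w ∈ T th' → th = th'
  XX : ∀ {w i j}, a ≤ i → i < 2 * a → a ≤ j → j < 2 * a → w ∈ X i → w ∈ X j → i = j
  X_mv : ∀ {w i}, a ≤ i → i < 2 * a → w ∈ X i → ∃ th, th.reset = false ∧ w ∈ T th
  mv_X : ∀ {w th}, th.reset = false → w ∈ T th → ∃ i, a ≤ i ∧ i < 2 * a ∧ w ∈ X i
  X_00 : ∀ {w}, w ∈ X a → w ∈ T .t00 → False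
  X_f0 : ∀ {w i}, a < i → i < 2 * a → w ∈ X i → w ∈ T .f0 → False
  X_2l : ∀ {w i}, a ≤ i → i + 1 < 2 * a → w ∈ X i → w ∈ T .t2l → False
  X_22 : ∀ {w}, w ∈ X (2 * a - 1) → w ∈ T .t22 → False

namespace BoolData

variable {a : ℕ} {M : Set Ω} {T : Tau → Set Ω} {X : ℕ → Set Ω}

/-- `w` is in the next level row `j` -/
theorem cases (h : BoolData a M T X) {w : Ω} (hw : w ∈ M ∨ ∃ th, w ∈ T th) :
    (w ∈ M) ∨ (∃ th, th.reset = true ∧ w ∈ T th) ∨
    (∃ th i, th.reset = false ∧ w ∈ T th ∧ a ≤ i ∧ i < 2 * a ∧ w ∈ X i) := by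
  rcases hw with hw | ⟨th, hw⟩
  · exact Or.inl hw
  · rcases hb : th.reset with _ | _
    · right; right
      obtain ⟨i, h1, h2, h3⟩ := h.mv_X hb hw
      exact ⟨th, i, hb, hw, h1, h2, h3⟩
    · right; left; exact ⟨th, hb, hw⟩

variable (h : BoolData a M T X)
include h

theorem spB_M {w : Ω} (hw : w ∈ M) (s : S) : w ∈ spB M T s ↔ s = .f := by
  unfold spB
  split_ifs with hs
  · simp [hw, hs]
  · simp only [hs, iff_false]
    rintro ⟨th, -, hT⟩
    exact h.MT hw hT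

theorem smB_M {w : Ω} (hw : w ∈ M) (s : S) : w ∈ smB M T s ↔ s = .l := by
  unfold smB
  split_ifs with hs
  · simp [hw, hs]
  · simp only [hs, iff_false]
    rintro ⟨th, -, hT⟩
    exact h.MT hw hT

theorem spB_T {w : Ω} {th : Tau} (hw : w ∈ T th) (s : S) : w ∈ spB M T s ↔ s = th.snd := by
  unfold spB
  split_ifs with hs
  · subst hs
    have : ¬ (S.f = th.snd) := by cases th <;> decide
    simp only [this, iff_false]
    exact fun hM => h.MT hM hw
  · constructor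
    · rintro ⟨th', h1, h2⟩
      rw [h.TT hw h2, h1]
    · rintro rfl
      exact ⟨th, rfl, hw⟩

theorem smB_T {w : Ω} {th : Tau} (hw : w ∈ T th) (s : S) : w ∈ smB M T s ↔ s = th.fst := by
  unfold smB
  split_ifs with hs
  · subst hs
    have : ¬ (S.l = th.fst) := by cases th <;> decide
    simp only [this, iff_false]
    exact fun hM => h.MT hM hw
  · constructor
    · rintro ⟨th', h1, h2⟩
      rw [h.TT hw h2, h1]
    · rintro rfl
      exact ⟨th, rfl, hw⟩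

/-- no marker -/
theorem ZpB_n {w : Ω} (hw : w ∈ M ∨ ∃ th, th.reset = true ∧ w ∈ T th) {i : ℕ} (h1 : a ≤ i)
    (h2 : i ≤ 2 * a) : w ∈ ZpB a M T X i ↔ i = a := by
  unfold ZpB
  split_ifs with hs
  · simp only [hs, iff_true]
    exact hw
  · simp only [hs, iff_false]
    intro hX
    obtain ⟨th, hb, hT⟩ := h.X_mv (by omega) (by omega) hX
    rcases hw with hw | ⟨th', hb', hT'⟩
    · exact h.MT hw hT
    · have := h.TT hT hT'
      subst this
      rw [hb] at hb'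
      cases hb'

theorem ZmB_n {w : Ω} (hw : w ∈ M ∨ ∃ th, th.reset = true ∧ w ∈ T th) {i : ℕ} (h1 : a ≤ i)
    (h2 : i ≤ 2 * a) : w ∈ ZmB a M T X i ↔ i = 2 * a := by
  unfold ZmB
  split_ifs with hs
  · simp only [hs, iff_true]
    exact hw
  · simp only [hs, iff_false]
    intro hX
    obtain ⟨th, hb, hT⟩ := h.X_mv (by omega) (by omega) hX
    rcases hw with hw | ⟨th', hb', hT'⟩
    · exact h.MT hw hT
    · have := h.TT hT hT'
      subst this
      rw [hb] at hb'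
      cases hb'

theorem ZpB_X {w : Ω} {th : Tau} {k : ℕ} (hb : th.reset = false) (hT : w ∈ T th) (k1 : a ≤ k)
    (k2 : k < 2 * a) (hX : w ∈ X k) {i : ℕ} (h1 : a ≤ i) (h2 : i ≤ 2 * a) :
    w ∈ ZpB a M T X i ↔ i = k + 1 := by
  unfold ZpB
  split_ifs with hs
  · have : ¬ (i = k + 1) := by omega
    simp only [this, iff_false]
    rintro (hM | ⟨th', hb', hT'⟩)
    · exact h.MT hM hT
    · have := h.TT hT hT'
      subst this
      rw [hb] at hb'
      cases hb'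
  · constructor
    · intro hX'
      have := h.XX k1 k2 (by omega) (by omega) hX hX'
      omega
    · rintro rfl
      simpa using hX

theorem ZmB_X {w : Ω} {th : Tau} {k : ℕ} (hb : th.reset = false) (hT : w ∈ T th) (k1 : a ≤ k)
    (k2 : k < 2 * a) (hX : w ∈ X k) {i : ℕ} (h1 : a ≤ i) (h2 : i ≤ 2 * a) :
    w ∈ ZmB a M T X i ↔ i = k := by
  unfold ZmB
  split_ifs with hs
  · have : ¬ (i = k) := by omega
    simp only [this, iff_false]
    rintro (hM | ⟨th', hb', hT'⟩)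
    · exact h.MT hM hT
    · have := h.TT hT hT'
      subst this
      rw [hb] at hb'
      cases hb'
  · constructor
    · intro hX'
      exact (h.XX k1 k2 (by omega) (by omega) hX hX').symm
    · rintro rfl
      exact hX

/-- location of a point -/
theorem exists_loc {w : Ω} (hw : w ∈ M ∨ ∃ th, w ∈ T th) :
    ∃ l, l < 3 * (a + 1) ∧ (∀ j, j < 3 * (a + 1) → (w ∈ cB a M T X j ↔ j = l)) ∧
      (∀ j, j < 3 * (a + 1) → (w ∈ cmB a M T X j ↔ (j + 1) % (3 * (a + 1)) = l)) := by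
  have ha := h.two_le
  have hmod : ∀ j, j < 3 * (a + 1) → (j + 1 < 3 * (a + 1) ∧ (j + 1) % (3 * (a + 1)) = j + 1) ∨
      (j + 1 = 3 * (a + 1) ∧ (j + 1) % (3 * (a + 1)) = 0) := by
    intro j hj
    rcases Nat.lt_or_ge (j + 1) (3 * (a + 1)) with h1 | h1
    · exact Or.inl ⟨h1, Nat.mod_eq_of_lt h1⟩
    · right
      have : j + 1 = 3 * (a + 1) := by omega
      exact ⟨this, by rw [this, Nat.mod_self]⟩
  have hpos : ∀ j, j < 3 * (a + 1) → a ≤ pos a j ∧ pos a j ≤ 2 * a := by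
    intro j hj
    rcases sv_pos_cases ha hj with ⟨h0, h1, h2⟩ | ⟨h0, h0', h1, h2⟩ | ⟨h0, h0', h1, h2⟩ |
      ⟨h0, h0', h1, h2⟩ | ⟨h0, h1, h2⟩ <;> omega
  rcases h.cases hw with hM | ⟨th, hb, hT⟩ | ⟨th, k, hb, hT, k1, k2, hX⟩
  · refine ⟨0, by omega, fun j hj => ?_, fun j hj => ?_⟩
    · rw [cB, Set.mem_inter_iff, h.spB_M hM,
        h.ZpB_n (Or.inl hM) (hpos j hj).1 (hpos j hj).2]
      rcases sv_pos_cases ha hj with ⟨h0, h1, h2⟩ | ⟨h0, h0', h1, h2⟩ | ⟨h0, h0', h1, h2⟩ |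
        ⟨h0, h0', h1, h2⟩ | ⟨h0, h1, h2⟩ <;> rw [h1, h2] <;> simp <;> omega
    · rw [cmB, Set.mem_inter_iff, h.smB_M hM,
        h.ZmB_n (Or.inl hM) (hpos j hj).1 (hpos j hj).2]
      rcases hmod j hj with ⟨g1, g2⟩ | ⟨g1, g2⟩ <;> rw [g2] <;>
      rcases sv_pos_cases ha hj with ⟨h0, h1, h2⟩ | ⟨h0, h0', h1, h2⟩ | ⟨h0, h0', h1, h2⟩ |
        ⟨h0, h0', h1, h2⟩ | ⟨h0, h1, h2⟩ <;> rw [h1, h2] <;> simp <;> omega
  · have hth : th = .t01 ∨ th = .t12 := by
      revert hb; cases th <;> decide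
    rcases hth with rfl | rfl
    · refine ⟨a + 1, by omega, fun j hj => ?_, fun j hj => ?_⟩
      · rw [cB, Set.mem_inter_iff, h.spB_T hT,
          h.ZpB_n (Or.inr ⟨_, hb, hT⟩) (hpos j hj).1 (hpos j hj).2]
        rcases sv_pos_cases ha hj with ⟨h0, h1, h2⟩ | ⟨h0, h0', h1, h2⟩ | ⟨h0, h0', h1, h2⟩ |
          ⟨h0, h0', h1, h2⟩ | ⟨h0, h1, h2⟩ <;> rw [h1, h2] <;> simp [Tau.snd] <;> omega
      · rw [cmB, Set.mem_inter_iff, h.smB_T hT,
          h.ZmB_n (Or.inr ⟨_, hb, hT⟩) (hpos j hj).1 (hpos j hj).2]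
        rcases hmod j hj with ⟨g1, g2⟩ | ⟨g1, g2⟩ <;> rw [g2] <;>
        rcases sv_pos_cases ha hj with ⟨h0, h1, h2⟩ | ⟨h0, h0', h1, h2⟩ | ⟨h0, h0', h1, h2⟩ |
          ⟨h0, h0', h1, h2⟩ | ⟨h0, h1, h2⟩ <;> rw [h1, h2] <;> simp [Tau.fst] <;> omega
    · refine ⟨2 * a + 2, by omega, fun j hj => ?_, fun j hj => ?_⟩
      · rw [cB, Set.mem_inter_iff, h.spB_T hT,
          h.ZpB_n (Or.inr ⟨_, hb, hT⟩) (hpos j hj).1 (hpos j hj).2]
        rcases sv_pos_cases ha hj with ⟨h0, h1, h2⟩ | ⟨h0, h0', h1, h2⟩ | ⟨h0, h0', h1, h2⟩ |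
          ⟨h0, h0', h1, h2⟩ | ⟨h0, h1, h2⟩ <;> rw [h1, h2] <;> simp [Tau.snd] <;> omega
      · rw [cmB, Set.mem_inter_iff, h.smB_T hT,
          h.ZmB_n (Or.inr ⟨_, hb, hT⟩) (hpos j hj).1 (hpos j hj).2]
        rcases hmod j hj with ⟨g1, g2⟩ | ⟨g1, g2⟩ <;> rw [g2] <;>
        rcases sv_pos_cases ha hj with ⟨h0, h1, h2⟩ | ⟨h0, h0', h1, h2⟩ | ⟨h0, h0', h1, h2⟩ |
          ⟨h0, h0', h1, h2⟩ | ⟨h0, h1, h2⟩ <;> rw [h1, h2] <;> simp [Tau.fst] <;> omega
  · have key : ∀ l, l < 3 * (a + 1) →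
        (∀ j, j < 3 * (a + 1) → ((sv (a + 1) j = th.snd ∧ pos a j = k + 1) ↔ j = l)) →
        (∀ j, j < 3 * (a + 1) → ((sv (a + 1) j = th.fst ∧ pos a j = k) ↔
          (j + 1) % (3 * (a + 1)) = l)) → 
        ∃ l, l < 3 * (a + 1) ∧ (∀ j, j < 3 * (a + 1) → (w ∈ cB a M T X j ↔ j = l)) ∧
          (∀ j, j < 3 * (a + 1) → (w ∈ cmB a M T X j ↔ (j + 1) % (3 * (a + 1)) = l)) := by
      intro l hl H1 H2
      refine ⟨l, hl, fun j hj => ?_, fun j hj => ?_⟩
      · rw [← H1 j hj, cB, Set.mem_inter_iff, h.spB_T hT,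
          h.ZpB_X hb hT k1 k2 hX (hpos j hj).1 (hpos j hj).2]
      · rw [← H2 j hj, cmB, Set.mem_inter_iff, h.smB_T hT,
          h.ZmB_X hb hT k1 k2 hX (hpos j hj).1 (hpos j hj).2]
    cases th
    · -- f0
      have hk : k = a := by
        by_contra hne
        exact h.X_f0 (by omega) k2 hX hT
      refine key 1 (by omega) (fun j hj => ?_) (fun j hj => ?_)
      · rcases sv_pos_cases ha hj with ⟨h0, h1, h2⟩ | ⟨h0, h0', h1, h2⟩ | ⟨h0, h0', h1, h2⟩ |
          ⟨h0, h0', h1, h2⟩ | ⟨h0, h1, h2⟩ <;> rw [h1, h2] <;> simp [Tau.snd] <;> omega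
      · rcases hmod j hj with ⟨g1, g2⟩ | ⟨g1, g2⟩ <;> rw [g2] <;>
        rcases sv_pos_cases ha hj with ⟨h0, h1, h2⟩ | ⟨h0, h0', h1, h2⟩ | ⟨h0, h0', h1, h2⟩ |
          ⟨h0, h0', h1, h2⟩ | ⟨h0, h1, h2⟩ <;> rw [h1, h2] <;> simp [Tau.fst] <;> omega
    · -- t00
      have hk : a < k := by
        by_contra hne
        have : k = a := by omega
        subst this
        exact h.X_00 hX hT
      refine key (k + 1 - a) (by omega) (fun j hj => ?_) (fun j hj => ?_)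
      · rcases sv_pos_cases ha hj with ⟨h0, h1, h2⟩ | ⟨h0, h0', h1, h2⟩ | ⟨h0, h0', h1, h2⟩ |
          ⟨h0, h0', h1, h2⟩ | ⟨h0, h1, h2⟩ <;> rw [h1, h2] <;> simp [Tau.snd] <;> omega
      · rcases hmod j hj with ⟨g1, g2⟩ | ⟨g1, g2⟩ <;> rw [g2] <;>
        rcases sv_pos_cases ha hj with ⟨h0, h1, h2⟩ | ⟨h0, h0', h1, h2⟩ | ⟨h0, h0', h1, h2⟩ |
          ⟨h0, h0', h1, h2⟩ | ⟨h0, h1, h2⟩ <;> rw [h1, h2] <;> simp [Tau.fst] <;> omega
    · cases hb
    · -- t11
      refine key (k + 2) (by omega) (fun j hj => ?_) (fun j hj => ?_)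
      · rcases sv_pos_cases ha hj with ⟨h0, h1, h2⟩ | ⟨h0, h0', h1, h2⟩ | ⟨h0, h0', h1, h2⟩ |
          ⟨h0, h0', h1, h2⟩ | ⟨h0, h1, h2⟩ <;> rw [h1, h2] <;> simp [Tau.snd] <;> omega
      · rcases hmod j hj with ⟨g1, g2⟩ | ⟨g1, g2⟩ <;> rw [g2] <;>
        rcases sv_pos_cases ha hj with ⟨h0, h1, h2⟩ | ⟨h0, h0', h1, h2⟩ | ⟨h0, h0', h1, h2⟩ |
          ⟨h0, h0', h1, h2⟩ | ⟨h0, h1, h2⟩ <;> rw [h1, h2] <;> simp [Tau.fst] <;> omega
    · cases hb
    · -- t22
      have hk : k + 1 < 2 * a := by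
        by_contra hne
        have : k = 2 * a - 1 := by omega
        subst this
        exact h.X_22 hX hT
      refine key (a + k + 3) (by omega) (fun j hj => ?_) (fun j hj => ?_)
      · rcases sv_pos_cases ha hj with ⟨h0, h1, h2⟩ | ⟨h0, h0', h1, h2⟩ | ⟨h0, h0', h1, h2⟩ |
          ⟨h0, h0', h1, h2⟩ | ⟨h0, h1, h2⟩ <;> rw [h1, h2] <;> simp [Tau.snd] <;> omega
      · rcases hmod j hj with ⟨g1, g2⟩ | ⟨g1, g2⟩ <;> rw [g2] <;>
        rcases sv_pos_cases ha hj with ⟨h0, h1, h2⟩ | ⟨h0, h0', h1, h2⟩ | ⟨h0, h0', h1, h2⟩ |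
          ⟨h0, h0', h1, h2⟩ | ⟨h0, h1, h2⟩ <;> rw [h1, h2] <;> simp [Tau.fst] <;> omega
    · -- t2l
      have hk : k + 1 = 2 * a := by
        by_contra hne
        exact h.X_2l k1 (by omega) hX hT
      refine key (3 * a + 2) (by omega) (fun j hj => ?_) (fun j hj => ?_)
      · rcases sv_pos_cases ha hj with ⟨h0, h1, h2⟩ | ⟨h0, h0', h1, h2⟩ | ⟨h0, h0', h1, h2⟩ |
          ⟨h0, h0', h1, h2⟩ | ⟨h0, h1, h2⟩ <;> rw [h1, h2] <;> simp [Tau.snd] <;> omega
      · rcases hmod j hj with ⟨g1, g2⟩ | ⟨g1, g2⟩ <;> rw [g2] <;>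
        rcases sv_pos_cases ha hj with ⟨h0, h1, h2⟩ | ⟨h0, h0', h1, h2⟩ | ⟨h0, h0', h1, h2⟩ |
          ⟨h0, h0', h1, h2⟩ | ⟨h0, h1, h2⟩ <;> rw [h1, h2] <;> simp [Tau.fst] <;> omega


omit h in
/-- `w` is in the total -/
theorem total_of_mem_cB {w : Ω} {j : ℕ} (hw : w ∈ cB a M T X j) : w ∈ M ∨ ∃ th, w ∈ T th := by
  have h1 := hw.1
  unfold spB at h1
  split_ifs at h1
  · exact Or.inl h1
  · obtain ⟨th, -, h2⟩ := h1
    exact Or.inr ⟨th, h2⟩

omit h in
theorem total_of_mem_cmB {w : Ω} {j : ℕ} (hw : w ∈ cmB a M T X j) : w ∈ M ∨ ∃ th, w ∈ T th := by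
  have h1 := hw.1
  unfold smB at h1
  split_ifs at h1
  · exact Or.inl h1
  · obtain ⟨th, -, h2⟩ := h1
    exact Or.inr ⟨th, h2⟩

omit h in
theorem cB_zero : cB a M T X 0 = M := by
  unfold cB spB ZpB
  have h1 : sv (a + 1) 0 = .f := by simp [sv]
  have h2 : pos a 0 = a := by simp [pos]
  rw [h1, h2, if_pos rfl, if_pos rfl]
  exact Set.inter_eq_left.2 Set.subset_union_left

theorem disj_cB {i j : ℕ} (hi : i < 3 * (a + 1)) (hj : j < 3 * (a + 1)) (hij : i ≠ j) :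
    Disjoint (cB a M T X i) (cB a M T X j) := by
  rw [Set.disjoint_left]
  intro w h1 h2
  obtain ⟨l, -, hl, -⟩ := h.exists_loc (total_of_mem_cB h1)
  exact hij (((hl i hi).1 h1).trans ((hl j hj).1 h2).symm)

theorem union_cB : (⋃ j : Fin (3 * (a + 1)), cB a M T X j) = M ∪ ⋃ th, T th := by
  ext w
  simp only [Set.mem_iUnion, Set.mem_union]
  constructor
  · rintro ⟨j, hj⟩
    exact total_of_mem_cB hj
  · intro hw
    obtain ⟨l, hl0, hl, -⟩ := h.exists_loc hw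
    exact ⟨⟨l, hl0⟩, (hl l hl0).2 rfl⟩

theorem cmB_eq {j : ℕ} (hj : j < 3 * (a + 1)) :
    cmB a M T X j = cB a M T X ((j + 1) % (3 * (a + 1))) := by
  have hlt : (j + 1) % (3 * (a + 1)) < 3 * (a + 1) := Nat.mod_lt _ (by omega)
  ext w
  constructor
  · intro hw
    obtain ⟨l, hl0, hl, hl'⟩ := h.exists_loc (total_of_mem_cmB hw)
    exact (hl _ hlt).2 ((hl' j hj).1 hw)
  · intro hw
    obtain ⟨l, hl0, hl, hl'⟩ := h.exists_loc (total_of_mem_cB hw)
    exact (hl' j hj).2 ((hl _ hlt).1 hw)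

end BoolData

end Bool

/-! ### the ROMP version -/

variable {G E : Type*} [CommGroup G] [ROMP E] [OMPAct G E]

/-- `s^+(s)`: `m` if `s = f`, `iota ∧ [second component of P.tau = s]` otherwise
(`IT th = iota ∧ [P.tau = th]`). -/
noncomputable def spE (m : E) (IT : Tau → E) (s : S) : E :=
  if s = .f then m else ev IT {th | th.snd = s}

/-- `s^-(s)`: `m` if `s = l`, `iota ∧ [first component of P.tau = s]` otherwise. -/
noncomputable def smE (m : E) (IT : Tau → E) (s : S) : E :=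
  if s = .l then m else ev IT {th | th.fst = s}

/-- `Z^+_i`: `m + iota^rs` if `i = a`, `X_{i-1}` if `a < i`. -/
noncomputable def ZpE (a : ℕ) (m : E) (IT : Tau → E) (X : ℕ → E) (i : ℕ) : E :=
  if i = a then m +ₒ ev IT {th | th.reset = true} else X (i - 1)

/-- `Z^-_i`: `m + iota^rs` if `i = 2a`, `X_i` if `i < 2a`. -/
noncomputable def ZmE (a : ℕ) (m : E) (IT : Tau → E) (X : ℕ → E) (i : ℕ) : E :=
  if i = 2 * a then m +ₒ ev IT {th | th.reset = true} else X i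

/-- outputs of steps 1-7 used in step 8 -/
structure MarkerData (q : G) (a : ℕ) (c0 m iota : E) (IT : Tau → E) (X : ℕ → E) : Prop where
  two_le : 2 ≤ a
  orth : Orth m iota
  add : m +ₒ iota = c0
  part_IT : IsPart IT iota
  comm_X : ∀ i, a ≤ i → i < 2 * a → ∀ th, Comm (X i) (IT th)
  part_X : IsPart (fun i : Fin a => X (a + i)) (ev IT {th | th.reset = false})
  X_00 : X a ⊓ₒ IT .t00 = ⊥
  X_f0 : ∀ i, a < i → i < 2 * a → X i ⊓ₒ IT .f0 = ⊥
  X_2l : ∀ i, a ≤ i → i + 1 < 2 * a → X i ⊓ₒ IT .t2l = ⊥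
  X_22 : X (2 * a - 1) ⊓ₒ IT .t22 = ⊥
  q_sp : ∀ s, q • spE m IT s = smE m IT s
  q_Z : ∀ i, a ≤ i → i ≤ 2 * a → q • ZpE a m IT X i = ZmE a m IT X i

theorem rn3_tauOf_fst {a i : ℕ} (ha : 3 ≤ a) (h0 : 0 < i) (hi : i < 3 * a) :
    (tauOf a i).fst = sv a (i - 1) := by
  unfold tauOf sv
  split_ifs <;> first | rfl | (exfalso; omega)

theorem rn3_tauOf_snd {a i : ℕ} (ha : 3 ≤ a) (h0 : 0 < i) (hi : i < 3 * a) :
    (tauOf a i).snd = sv a i := by
  unfold tauOf sv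
  split_ifs <;> first | rfl | (exfalso; omega)

theorem rn3_eq_tauOf {a i : ℕ} (ha : 3 ≤ a) (h0 : 0 < i) (hi : i < 3 * a) {th : Tau}
    (h1 : th.fst = sv a (i - 1)) (h2 : th.snd = sv a i) : th = tauOf a i :=
  Tau.ext_pair _ _ (h1.trans (rn3_tauOf_fst ha h0 hi).symm) (h2.trans (rn3_tauOf_snd ha h0 hi).symm)

namespace MarkerData

variable {q : G} {a : ℕ} {c0 m iota : E} {IT : Tau → E} {X : ℕ → E}

theorem orth_m_IT (h : MarkerData q a c0 m iota IT X) (th : Tau) : Orth m (IT th) :=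
  h.orth.mono_right (h.part_IT.le_total th)

theorem X_le (h : MarkerData q a c0 m iota IT X) {i : ℕ} (h1 : a ≤ i) (h2 : i < 2 * a) :
    X i ≤ ev IT {th | th.reset = false} := by
  have := h.part_X.le_total ⟨i - a, by omega⟩
  simpa [show a + (i - a) = i by omega] using this

theorem X_le_iota (h : MarkerData q a c0 m iota IT X) {i : ℕ} (h1 : a ≤ i) (h2 : i < 2 * a) :
    X i ≤ iota := (h.X_le h1 h2).trans (h.part_IT.ev_le_total _)

theorem X_orth (h : MarkerData q a c0 m iota IT X) {i j : ℕ} (h1 : a ≤ i) (h2 : i < 2 * a)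
    (h3 : a ≤ j) (h4 : j < 2 * a) (hij : i ≠ j) : Orth (X i) (X j) := by
  have := h.part_X.orth (i := ⟨i - a, by omega⟩) (j := ⟨j - a, by omega⟩)
    (by intro hh; apply hij; have := congrArg Fin.val hh; simp only at this; omega)
  simpa [show a + (i - a) = i by omega, show a + (j - a) = j by omega] using this

theorem exists_bool (h : MarkerData q a c0 m iota IT X) :
    ∃ (Ω : Type) (R : BoolRep E Ω) (M : Set Ω) (T : Tau → Set Ω) (Y : ℕ → Set Ω),
      m = R.φ M ∧ (∀ th, IT th = R.φ (T th)) ∧ (∀ i, a ≤ i → i < 2 * a → X i = R.φ (Y i)) ∧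
      BoolData a M T Y ∧
      (∀ y, Comm y m → (∀ th, Comm y (IT th)) → (∀ i, a ≤ i → i < 2 * a → Comm y (X i)) →
        ∀ A, Comm y (R.φ A)) := by
  let x : Option (Tau ⊕ Fin a) → E := fun o => match o with
    | none => m
    | some (.inl th) => IT th
    | some (.inr i) => X (a + i)
  have hx0 : ∀ i : Fin a, a ≤ a + (i : ℕ) ∧ a + (i : ℕ) < 2 * a := fun i => ⟨by omega, by omega⟩
  have hmX : ∀ i : Fin a, Orth m (X (a + i)) := fun i =>
    h.orth.mono_right (h.X_le_iota (hx0 i).1 (hx0 i).2)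
  have hx : ∀ i j, Comm (x i) (x j) := by
    rintro (_ | th | i) (_ | th' | j)
    · exact comm_self _
    · exact comm_of_orth (h.orth_m_IT th')
    · exact comm_of_orth (hmX j)
    · exact (comm_of_orth (h.orth_m_IT th)).symm
    · by_cases hth : th = th'
      · subst hth; exact comm_self _
      · exact comm_of_orth (h.part_IT.orth hth)
    · exact (h.comm_X _ (hx0 j).1 (hx0 j).2 th).symm
    · exact (comm_of_orth (hmX i)).symm
    · exact h.comm_X _ (hx0 i).1 (hx0 i).2 th'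
    · by_cases hij : i = j
      · subst hij; exact comm_self _
      · exact comm_of_orth (h.part_X.orth hij)
  obtain ⟨Ω, R, XX, hXX, hcomm⟩ := exists_boolRep x hx
  have hT : ∀ th, IT th = R.φ (XX (some (.inl th))) := fun th => hXX (some (.inl th))
  have hM : m = R.φ (XX none) := hXX none
  let Y : ℕ → Set Ω := fun i => if hi : a ≤ i ∧ i < 2 * a then
    XX (some (.inr ⟨i - a, by omega⟩)) else ∅
  have hY : ∀ i, a ≤ i → i < 2 * a → X i = R.φ (Y i) := by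
    intro i h1 h2
    have e : Y i = XX (some (.inr ⟨i - a, by omega⟩)) := dif_pos ⟨h1, h2⟩
    rw [e, ← hXX]
    show X i = X (a + (i - a))
    rw [show a + (i - a) = i by omega]
  have hYf : ∀ i : Fin a, Y (a + i) = XX (some (.inr i)) := by
    intro i
    have e : Y (a + i) = XX (some (.inr ⟨a + i - a, by omega⟩)) :=
      dif_pos ⟨(hx0 i).1, (hx0 i).2⟩
    rw [e]
    congr 3
    exact Fin.ext (by simp)
  have hTT : ∀ th th', th ≠ th' → Disjoint (XX (some (.inl th))) (XX (some (.inl th'))) := by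
    intro th th' hne
    rw [← R.orth_iff, ← hT, ← hT]
    exact h.part_IT.orth hne
  have hYY : ∀ i j : Fin a, i ≠ j → Disjoint (Y (a + i)) (Y (a + j)) := by
    intro i j hne
    rw [← R.orth_iff, ← hY _ (hx0 i).1 (hx0 i).2, ← hY _ (hx0 j).1 (hx0 j).2]
    exact h.part_X.orth hne
  have hU : (⋃ i : Fin a, Y (a + i)) = ⋃ th ∈ {th : Tau | th.reset = false},
      XX (some (.inl th)) := by
    apply R.inj
    rw [← R.ev (fun th : Tau => XX (some (.inl th)))]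
    have e1 : (fun th => R.φ (XX (some (.inl th)))) = IT := funext fun th => (hT th).symm
    rw [e1, ← h.part_X.ev_univ]
    have e2 : (fun i : Fin a => X (a + i)) = fun i : Fin a => R.φ (Y (a + i)) :=
      funext fun i => hY _ (hx0 i).1 (hx0 i).2
    rw [e2, R.ev (fun i : Fin a => Y (a + i))]
    simp
  have hmeet : ∀ {i th}, a ≤ i → i < 2 * a → X i ⊓ₒ IT th = ⊥ → ∀ {w}, w ∈ Y i →
      w ∈ XX (some (.inl th)) → False := by
    intro i th h1 h2 h3 w w1 w2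
    rw [hY i h1 h2, hT, R.meet, ← R.empty] at h3
    have := R.inj h3
    have hw : w ∈ Y i ∩ XX (some (.inl th)) := ⟨w1, w2⟩
    rw [this] at hw
    exact hw
  refine ⟨Ω, R, XX none, fun th => XX (some (.inl th)), Y, hM, hT, hY, ?_, ?_⟩
  · refine ⟨h.two_le, ?_, ?_, ?_, ?_, ?_, ?_, ?_, ?_, ?_⟩
    · intro w th w1 w2
      have : Disjoint (XX none) (XX (some (.inl th))) := by
        rw [← R.orth_iff, ← hM, ← hT]
        exact h.orth_m_IT th
      exact Set.disjoint_left.1 this w1 w2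
    · intro w th th' w1 w2
      by_contra hne
      exact Set.disjoint_left.1 (hTT th th' hne) w1 w2
    · intro w i j h1 h2 h3 h4 w1 w2
      by_contra hne
      have := hYY ⟨i - a, by omega⟩ ⟨j - a, by omega⟩
        (by intro hh; apply hne; have := congrArg Fin.val hh; simp only at this; omega)
      simp only [show a + (i - a) = i by omega, show a + (j - a) = j by omega] at this
      exact Set.disjoint_left.1 this w1 w2
    · intro w i h1 h2 w1
      have hw : w ∈ ⋃ i : Fin a, Y (a + i) := by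
        refine Set.mem_iUnion.2 ⟨⟨i - a, by omega⟩, ?_⟩
        simpa only [show a + (i - a) = i by omega] using w1
      rw [hU] at hw
      simpa using hw
    · intro w th hb w1
      have hw : w ∈ ⋃ th ∈ {th : Tau | th.reset = false}, XX (some (.inl th)) := by
        simp only [Set.mem_iUnion]
        exact ⟨th, hb, w1⟩
      rw [← hU] at hw
      obtain ⟨i, hi⟩ := Set.mem_iUnion.1 hw
      exact ⟨a + i, (hx0 i).1, (hx0 i).2, hi⟩
    · intro w w1 w2
      exact hmeet le_rfl (by have := h.two_le; omega) h.X_00 w1 w2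
    · intro w i h1 h2 w1 w2
      exact hmeet h1.le h2 (h.X_f0 i h1 h2) w1 w2
    · intro w i h1 h2 w1 w2
      exact hmeet h1 (by omega) (h.X_2l i h1 h2) w1 w2
    · intro w w1 w2
      have := h.two_le
      exact hmeet (by omega) (by omega) h.X_22 w1 w2
  · intro y y1 y2 y3
    apply hcomm
    rintro (_ | th | i)
    · exact y1
    · exact y2 th
    · exact y3 _ (hx0 i).1 (hx0 i).2

theorem exists_bool' (h : MarkerData q a c0 m iota IT X) :
    ∃ (Ω : Type) (R : BoolRep E Ω) (M : Set Ω) (T : Tau → Set Ω) (Y : ℕ → Set Ω),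
      m = R.φ M ∧ (∀ th, IT th = R.φ (T th)) ∧ BoolData a M T Y ∧
      (∀ s, spE m IT s = R.φ (spB M T s)) ∧ (∀ s, smE m IT s = R.φ (smB M T s)) ∧
      (∀ i, a ≤ i → i ≤ 2 * a → ZpE a m IT X i = R.φ (ZpB a M T Y i)) ∧
      (∀ i, a ≤ i → i ≤ 2 * a → ZmE a m IT X i = R.φ (ZmB a M T Y i)) ∧
      iota = R.φ (⋃ th, T th) ∧ c0 = R.φ (M ∪ ⋃ th, T th) ∧
      (∀ y, Comm y m → (∀ th, Comm y (IT th)) → (∀ i, a ≤ i → i < 2 * a → Comm y (X i)) →
        ∀ A, Comm y (R.φ A)) := by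
  obtain ⟨Ω, R, M, T, Y, hM, hT, hY, hB, hc⟩ := h.exists_bool
  have hTT : ∀ th th', th ≠ th' → Disjoint (T th) (T th') := by
    intro th th' hne
    rw [Set.disjoint_left]
    intro w w1 w2
    exact hne (hB.TT w1 w2)
  have hev : ∀ A : Set Tau, ev IT A = R.φ (⋃ th ∈ A, T th) := by
    intro A
    rw [← R.ev, ← funext hT]
  have hres : m +ₒ ev IT {th | th.reset = true} =
      R.φ (M ∪ {w | ∃ th : Tau, th.reset = true ∧ w ∈ T th}) := by
    rw [hM, hev, R.add]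
    · congr 2
      ext w; simp
    · rw [Set.disjoint_left]
      intro w w1 w2
      simp only [Set.mem_iUnion] at w2
      obtain ⟨th, -, w3⟩ := w2
      exact hB.MT w1 w3
  have hiota : iota = R.φ (⋃ th, T th) := by
    rw [← h.part_IT.ev_univ, hev]
    congr 1
    simp
  refine ⟨Ω, R, M, T, Y, hM, hT, hB, ?_, ?_, ?_, ?_, hiota, ?_, hc⟩
  · intro s
    unfold spE spB
    split_ifs with hs
    · exact hM
    · rw [hev]
      congr 1
      ext w; simp
  · intro s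
    unfold smE smB
    split_ifs with hs
    · exact hM
    · rw [hev]
      congr 1
      ext w; simp
  · intro i h1 h2
    unfold ZpE ZpB
    split_ifs with hs
    · exact hres
    · exact hY _ (by omega) (by omega)
  · intro i h1 h2
    unfold ZmE ZmB
    split_ifs with hs
    · exact hres
    · exact hY _ (by omega) (by omega)
  · rw [← h.add]
    nth_rewrite 1 [hM]
    rw [hiota, R.add]
    rw [Set.disjoint_left]
    intro w w1 w2
    obtain ⟨th, w3⟩ := Set.mem_iUnion.1 w2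
    exact hB.MT w1 w3

theorem pos_bounds (h : MarkerData q a c0 m iota IT X) {j : ℕ} (hj : j < 3 * (a + 1)) :
    a ≤ pos a j ∧ pos a j ≤ 2 * a := by
  have := sv_pos_cases h.two_le hj
  omega

/-- all consequences in Boolean form -/
theorem main (h : MarkerData q a c0 m iota IT X) :
    ∃ (Ω : Type) (R : BoolRep E Ω) (M : Set Ω) (T : Tau → Set Ω) (Y : ℕ → Set Ω),
      m = R.φ M ∧ (∀ th, IT th = R.φ (T th)) ∧ BoolData a M T Y ∧
      (∀ s, spE m IT s = R.φ (spB M T s)) ∧ (∀ s, smE m IT s = R.φ (smB M T s)) ∧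
      (∀ i, a ≤ i → i ≤ 2 * a → ZpE a m IT X i = R.φ (ZpB a M T Y i)) ∧
      (∀ i, a ≤ i → i ≤ 2 * a → ZmE a m IT X i = R.φ (ZmB a M T Y i)) ∧
      iota = R.φ (⋃ th, T th) ∧ c0 = R.φ (M ∪ ⋃ th, T th) ∧
      (∀ y, Comm y m → (∀ th, Comm y (IT th)) → (∀ i, a ≤ i → i < 2 * a → Comm y (X i)) →
        ∀ A, Comm y (R.φ A)) ∧
      (∀ j, j < 3 * (a + 1) → q ^ j • m = R.φ (cB a M T Y j)) ∧
      q ^ (3 * (a + 1)) • m = m := by
  obtain ⟨Ω, R, M, T, Y, hM, hT, hB, hsp, hsm, hZp, hZm, hi, hc0, hc⟩ := h.exists_bool'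
  have hstep : ∀ j, j < 3 * (a + 1) →
      q • R.φ (cB a M T Y j) = R.φ (cB a M T Y ((j + 1) % (3 * (a + 1)))) := by
    intro j hj
    obtain ⟨p1, p2⟩ := h.pos_bounds hj
    rw [← hB.cmB_eq hj, cB, cmB, ← R.meet, ← R.meet, ← hsp, ← hsm, ← hZp _ p1 p2, ← hZm _ p1 p2,
      smul_meet, h.q_sp, h.q_Z _ p1 p2]
  have hpow : ∀ j, j < 3 * (a + 1) → q ^ j • m = R.φ (cB a M T Y j) := by
    intro j
    induction j with
    | zero =>
      intro _
      rw [pow_zero, one_smul, BoolData.cB_zero]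
      exact hM
    | succ j ih =>
      intro hj
      rw [pow_succ', mul_smul, ih (by omega), hstep j (by omega), Nat.mod_eq_of_lt hj]
  refine ⟨Ω, R, M, T, Y, hM, hT, hB, hsp, hsm, hZp, hZm, hi, hc0, hc, hpow, ?_⟩
  have e : 3 * (a + 1) = (3 * (a + 1) - 1) + 1 := by omega
  rw [e, pow_succ', mul_smul, hpow _ (by omega), hstep _ (by omega), ← e, Nat.mod_self, BoolData.cB_zero]
  exact hM.symm

/-- `q^{n'} m = m`, `n' = 3 (a + 1)` -/
theorem per (h : MarkerData q a c0 m iota IT X) : q ^ (3 * (a + 1)) • m = m := by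
  obtain ⟨Ω, R, M, T, Y, hM, hT, hB, hsp, hsm, hZp, hZm, hi, hc0, hc, hpow, hper⟩ := h.main
  exact hper

/-- the next level digits form a partition of `c_0` -/
theorem part (h : MarkerData q a c0 m iota IT X) :
    IsPart (fun j : Fin (3 * (a + 1)) => q ^ (j : ℕ) • m) c0 := by
  obtain ⟨Ω, R, M, T, Y, hM, hT, hB, hsp, hsm, hZp, hZm, hi, hc0, hc, hpow, hper⟩ := h.main
  have e : (fun j : Fin (3 * (a + 1)) => q ^ (j : ℕ) • m) =
      fun j : Fin (3 * (a + 1)) => R.φ (cB a M T Y j) := funext fun j => hpow j j.2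
  have hd : ∀ i j : Fin (3 * (a + 1)), i ≠ j → Disjoint (cB a M T Y i) (cB a M T Y j) :=
    fun i j hij => hB.disj_cB i.2 j.2 (fun hh => hij (Fin.ext hh))
  rw [e]
  constructor
  · intro i j hij
    rw [R.orth_iff]
    exact hd i j hij
  · rw [R.ev (fun j : Fin (3 * (a + 1)) => cB a M T Y j), hc0, ← hB.union_cB]
    simp

/-- formula for the digits -/
theorem cn_eq (h : MarkerData q a c0 m iota IT X) {j : ℕ} (hj : j < 3 * (a + 1)) :
    q ^ j • m = spE m IT (sv (a + 1) j) ⊓ₒ ZpE a m IT X (pos a j) := by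
  obtain ⟨Ω, R, M, T, Y, hM, hT, hB, hsp, hsm, hZp, hZm, hi, hc0, hc, hpow, hper⟩ := h.main
  obtain ⟨p1, p2⟩ := h.pos_bounds hj
  rw [hsp, hZp _ p1 p2, R.meet, hpow j hj]
  rfl

theorem le_sp (h : MarkerData q a c0 m iota IT X) {j : ℕ} (hj : j < 3 * (a + 1)) :
    q ^ j • m ≤ spE m IT (sv (a + 1) j) := by
  obtain ⟨Ω, R, M, T, Y, hM, hT, hB, hsp, hsm, hZp, hZm, hi, hc0, hc, hpow, hper⟩ := h.main
  rw [hpow j hj, hsp, R.le_iff]
  exact Set.inter_subset_left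

theorem le_Zp (h : MarkerData q a c0 m iota IT X) {j : ℕ} (hj : j < 3 * (a + 1)) :
    q ^ j • m ≤ ZpE a m IT X (pos a j) := by
  obtain ⟨Ω, R, M, T, Y, hM, hT, hB, hsp, hsm, hZp, hZm, hi, hc0, hc, hpow, hper⟩ := h.main
  obtain ⟨p1, p2⟩ := h.pos_bounds hj
  rw [hpow j hj, hZp _ p1 p2, R.le_iff]
  exact Set.inter_subset_right

theorem prev_lt {a j : ℕ} (hj : j < 3 * (a + 1)) : prev a j < 3 * (a + 1) := by
  unfold prev; split_ifs <;> omega

theorem smul_prev (h : MarkerData q a c0 m iota IT X) {j : ℕ} (hj : j < 3 * (a + 1)) :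
    q • q ^ prev a j • m = q ^ j • m := by
  unfold prev
  split_ifs with h0
  · subst h0
    rw [← mul_smul, ← pow_succ', Nat.sub_add_cancel (by omega), h.per, pow_zero, one_smul]
  · rw [← mul_smul, ← pow_succ', Nat.sub_add_cancel (by omega)]

theorem le_sm (h : MarkerData q a c0 m iota IT X) {j : ℕ} (hj : j < 3 * (a + 1)) :
    q ^ j • m ≤ smE m IT (sv (a + 1) (prev a j)) := by
  rw [← h.smul_prev hj, ← h.q_sp, smul_le_smul_iff]
  exact h.le_sp (prev_lt hj)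

theorem le_Zm (h : MarkerData q a c0 m iota IT X) {j : ℕ} (hj : j < 3 * (a + 1)) :
    q ^ j • m ≤ ZmE a m IT X (pos a (prev a j)) := by
  obtain ⟨p1, p2⟩ := h.pos_bounds (prev_lt hj)
  rw [← h.smul_prev hj, ← h.q_Z _ p1 p2, smul_le_smul_iff]
  exact h.le_Zp (prev_lt hj)

/-- `c'_j' = s^-(sv (j'-1)) ∧ Z^-_{pos (j'-1)}` -/
theorem cn_eq' (h : MarkerData q a c0 m iota IT X) {j : ℕ} (hj : j < 3 * (a + 1)) :
    q ^ j • m = smE m IT (sv (a + 1) (prev a j)) ⊓ₒ ZmE a m IT X (pos a (prev a j)) := by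
  obtain ⟨p1, p2⟩ := h.pos_bounds (prev_lt hj)
  rw [← h.smul_prev hj, h.cn_eq (prev_lt hj), smul_meet, h.q_sp, h.q_Z _ p1 p2]

theorem le_IT (h : MarkerData q a c0 m iota IT X) {j : ℕ} (h0 : 0 < j) (hj : j < 3 * (a + 1)) :
    q ^ j • m ≤ IT (tauOf (a + 1) j) := by
  obtain ⟨Ω, R, M, T, Y, hM, hT, hB, hsp, hsm, hZp, hZm, hi, hc0, hc, hpow, hper⟩ := h.main
  have h2 := h.two_le
  have e1 : cB a M T Y j ⊆ spB M T (sv (a + 1) j) := Set.inter_subset_left
  have e2 : cB a M T Y j ⊆ smB M T (sv (a + 1) (j - 1)) := by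
    have := hB.cmB_eq (j := j - 1) (by omega)
    rw [Nat.sub_add_cancel (by omega), Nat.mod_eq_of_lt hj] at this
    rw [← this]
    exact Set.inter_subset_left
  have n1 : sv (a + 1) j ≠ .f := by
    have := sv_pos_cases h2 hj
    rcases this with ⟨h0, h1, h2⟩ | ⟨h0, h0', h1, h2⟩ | ⟨h0, h0', h1, h2⟩ |
        ⟨h0, h0', h1, h2⟩ | ⟨h0, h1, h2⟩ <;> rw [h1] <;> first | decide | omega
  have n2 : sv (a + 1) (j - 1) ≠ .l := by
    have := sv_pos_cases (j := j - 1) h2 (by omega)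
    rcases this with ⟨h0, h1, h2⟩ | ⟨h0, h0', h1, h2⟩ | ⟨h0, h0', h1, h2⟩ |
        ⟨h0, h0', h1, h2⟩ | ⟨h0, h1, h2⟩ <;> rw [h1] <;> first | decide | omega
  rw [hpow j hj, hT, R.le_iff]
  intro w hw
  have w1 := e1 hw
  have w2 := e2 hw
  rw [spB, if_neg n1] at w1
  rw [smB, if_neg n2] at w2
  obtain ⟨th, t1, t2⟩ := w1
  obtain ⟨th', t3, t4⟩ := w2
  have := hB.TT t2 t4
  subst this
  rw [← rn3_eq_tauOf (by omega) h0 hj t3 t1]
  exact t2

theorem le_iota (h : MarkerData q a c0 m iota IT X) {j : ℕ} (h0 : 0 < j)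
    (hj : j < 3 * (a + 1)) : q ^ j • m ≤ iota :=
  (h.le_IT h0 hj).trans (h.part_IT.le_total _)

/-- `y` commuting with `m`, `IT th`, `X i` commutes with the digits -/
theorem comm_cn (h : MarkerData q a c0 m iota IT X) {y : E} (h1 : Comm y m)
    (h2 : ∀ th, Comm y (IT th)) (h3 : ∀ i, a ≤ i → i < 2 * a → Comm y (X i)) {j : ℕ}
    (hj : j < 3 * (a + 1)) : Comm y (q ^ j • m) := by
  obtain ⟨Ω, R, M, T, Y, hM, hT, hB, hsp, hsm, hZp, hZm, hi, hc0, hc, hpow, hper⟩ := h.main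
  rw [hpow j hj]
  exact hc y h1 h2 h3 _

end MarkerData

end Crest.Agent.R189
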