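import Crest.Agent.R189.RN2
import Crest.Agent.R189.RN1
import Crest.Agent.R189.RN3

/-!
Row 189, E2 steps 6-7 for a level structure `LS` (interface of 738's `RNDefs`, `RNBasic`, `RN5`).

* `LS.rowSys : RowSys a (c 0) m (Row · {·})`
-/

set_option autoImplicit false

namespace Crest.Agent.R189
open Romp RN2

variable {G E : Type*} [CommGroup G] [ROMP E] [OMPAct G E]
variable {D : E} {p q : G} {a : ℕ} {c : ℕ → E} {St : Star → E}

namespace LS

/-- the row atoms -/
noncomputable def rowAt (p : G) (c : ℕ → E) (St : Star → E) (i : ℕ) (s : Star) : E :=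
  Row p c St i {s}

theorem ev_rowAt (h : LS D p q a c St) (i : ℕ) (A : Set Star) :
    ev (rowAt p c St i) A = Row p c St i A := (h.Row_eq_ev i A).symm

theorem rowSys_of (h : LS D p q a c St) (hm : ModeFacts p q a c St) :
    RowSys a (c 0) (modeEv q (c 0) St) (rowAt p c St) where
  ha := h.three_le
  part i _ := h.rowPart i
  null i h1 h2 s hs := h.Row_atom_bot h1 h2 hs
  link i hi lam := by
    rw [h.ev_rowAt, h.ev_rowAt]
    exact h.Lab_eq_Row_succ i {lam}
  hm i h1 h2 := by
    have h3 := h.three_le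
    rw [h.ev_rowAt, hm.row i h1 h2]
    refine h.Row_eq_Row (by omega) (by omega) fun s h4 h5 => ?_
    show Rt s ↔ s.Qf.s = some .f
    refine (fact_Rf _ (RN2.core_mem h4) ?_).symm
    show s.Qb.tau.active = true
    rw [h5]
    unfold tauOf
    split_ifs <;> first | rfl | omega

theorem rowSys (h : LS D p q a c St) : RowSys a (c 0) (modeEv q (c 0) St) (rowAt p c St) :=
  h.rowSys_of h.modeFacts

/-- L8 on the row atoms -/
theorem shift_row (h : LS D p q a c St) {i : ℕ} (h0 : 0 < i) (h1 : i < 3 * a)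
    (st : Option (S × Rel)) :
    q • ev (rowAt p c St i) {s | s.Qf.st = st} = ev (rowAt p c St i) {s | s.Qb.st = st} := by
  rw [h.ev_rowAt, h.ev_rowAt]
  exact h.q_Row h0 h1 {st}

/-- `iota = c 0 - m` -/
noncomputable abbrev io (q : G) (c : ℕ → E) (St : Star → E) : E := c 0 -ₒ modeEv q (c 0) St

/-- `IT th = iota ∧ [P.tau = th]` -/
noncomputable def ITe (q : G) (c : ℕ → E) (St : Star → E) (th : Tau) : E :=
  io q c St ⊓ₒ ev St {s | s.Pb.tau = th}

/-- marker events -/
noncomputable def Xe (p : G) (c : ℕ → E) (St : Star → E) (i : ℕ) : E :=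
  Row p c St i {s | ¬ Rt s ∧ mv s ∧ s.Pf.u = .x}

theorem X_eq (h : LS D p q a c St) (i : ℕ) : h.rowSys.X i = Xe p c St i := h.ev_rowAt i _

theorem IT_eq (h : LS D p q a c St) (th : Tau) :
    h.rowSys.IT th = io q c St ⊓ₒ Row p c St 0 {s | s.Pb.tau = th} := by
  rw [h.rowSys.IT_eq_meet, h.ev_rowAt]

/-- 578's `MarkerData` -/
theorem markerData (h : LS D p q a c St) :
    MarkerData q a (c 0) (modeEv q (c 0) St) (c 0 -ₒ modeEv q (c 0) St)
      h.rowSys.IT h.rowSys.X where
  two_le := by have := h.three_le; omega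
  orth := orth_sub h.rowSys.m_le
  add := add_sub h.rowSys.m_le
  part_IT := h.rowSys.IT_part
  comm_X i h1 h2 th := h.rowSys.X_comm_IT h1 h2 th
  part_X := by rw [← h.rowSys.J_eq_IT]; exact h.rowSys.X_part
  X_00 := h.rowSys.X_00
  X_f0 i h1 h2 := h.rowSys.X_f0 h1 h2
  X_2l i h1 h2 := h.rowSys.X_2l h1 h2
  X_22 := h.rowSys.X_22
  q_sp s := by
    have h3 := h.three_le
    exact h.rowSys.q_sp q (h.shift_row (i := a) (by omega) (by omega)) s
  q_Z i h1 h2 := by
    have h3 := h.three_le
    have hs := h.rowSys.shift_Z q (i := i) (by omega) (h.shift_row (i := i) (by omega) (by omega))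
    have hK : h.rowSys.K = modeEv q (c 0) St +ₒ ev h.rowSys.IT {th | th.reset = true} := by
      rw [h.rowSys.K_eq, h.rowSys.Jr_eq_IT]
    have e1 : ZpE a (modeEv q (c 0) St) h.rowSys.IT h.rowSys.X i = h.rowSys.Zp i := by
      unfold ZpE
      split_ifs with hi
      · rw [hi, h.rowSys.Zp_first, hK]
      · have h4 := h.rowSys.Zp_succ (i := i - 1) (by omega) (by omega)
        rw [show i - 1 + 1 = i by omega] at h4
        exact h4.symm
    have e2 : ZmE a (modeEv q (c 0) St) h.rowSys.IT h.rowSys.X i = h.rowSys.Zm i := by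
      unfold ZmE
      split_ifs with hi
      · rw [hi, h.rowSys.Zm_last, hK]
      · exact (h.rowSys.Zm_eq h1 (by omega)).symm
    rw [e1, e2, hs]

end LS
end Crest.Agent.R189
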