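import Crest.Agent.R189.RN1
import Crest.Agent.R189.StarFacts

/-!
# Row 189, part E2, step 9: centrality of the next level digits (L4')

`comm_next_core` : the digits `C j` (partition of `c 0` cyclically shifted by `q`, `C 0 = A₀ ⊓ B₀`)
commute with every star event `c 0 ⊓ St s`.
The facts of the earlier steps are hypotheses.
-/

set_option autoImplicit false

namespace Crest.Agent.R189

open Romp

section

variable {G E : Type*} [CommGroup G] [ROMP E] [OMPAct G E]

/-- an event commuting with the label events of three half edges and the `domP` bit commutes with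
every star -/
theorem comm_star_of_labels {T : Star → E} {D x : E} (hT : IsPart T D)
    (h0 : Comm x (ev T {s | s.domP = true}))
    (hQ : ∀ L : Label, Comm x (ev T {s | s.Qb = L}))
    (hf : ∀ L : Label, Comm x (ev T {s | s.Pf = L}))
    (hb : ∀ L : Label, Comm x (ev T {s | s.Pb = L}))
    (hD : Comm x D) (s : Star) : Comm x (T s) := by
  have h0' : Comm x (ev T {t | t.domP = s.domP}) := by
    cases hs : s.domP with
    | true => exact h0
    | false =>
      have h1 : ev T {t : Star | t.domP = false} = D -ₒ ev T {t : Star | t.domP = true} := by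
        rw [hT.sub_ev]
        congr 1
        ext t
        simp
      rw [h1]
      exact hD.sub_right h0 (hT.ev_le_total _)
  have key : T s = ((ev T {t | t.domP = s.domP} ⊓ₒ ev T {t | t.Qb = s.Qb}) ⊓ₒ
      ev T {t | t.Pf = s.Pf}) ⊓ₒ ev T {t | t.Pb = s.Pb} := by
    rw [hT.ev_meet, hT.ev_meet, hT.ev_meet, ← ev_singleton (P := T) s]
    congr 1
    ext t
    constructor
    · intro ht
      rw [Set.mem_singleton_iff] at ht
      subst ht
      exact ⟨⟨⟨rfl, rfl⟩, rfl⟩, rfl⟩
    · rintro ⟨⟨⟨h1, h2⟩, h3⟩, h4⟩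
      exact Star.eq_of_Qb _ _ h1 h4 h3 h2
  rw [key]
  refine Comm.meet_right (Comm.meet_right (Comm.meet_right h0' (hQ _) (hT.comm_ev _ _))
    (hf _) ?_) (hb _) ?_
  · rw [hT.ev_meet]; exact hT.comm_ev _ _
  · rw [hT.ev_meet, hT.ev_meet]; exact hT.comm_ev _ _

/-- **Step 9 (centrality), core.** `T s = c 0 ∧ St s`, `C j` the next level digits. -/
theorem comm_next_core {T : Star → E} {c0 : E} (hT : IsPart T c0) {q : G} {N : ℕ} (hN : 1 < N)
    {C : ℕ → E} (hC : ∀ j, q • C j = C (j + 1)) (hper : C N = C 0)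
    (horth : ∀ j, 0 < j → j < N → Orth (C j) (C 0))
    (hle : ∀ j, j < N → C j ≤ c0)
    -- (L7)
    (hQ : ∀ L : Label, q • ev T {s | s.Qf = L} = ev T {s | s.Qb = L})
    -- step 3
    {A0 B0 : E} (hA0 : A0 = q • ev T {s | s.Pf.tau = .t2l})
    (hB0 : B0 = q⁻¹ • ev T {s | s.Pf.tau = .f0})
    (hAB : Comm A0 B0) (hm : C 0 = A0 ⊓ₒ B0) (hA1 : A0 -ₒ C 0 ≤ C 1)
    -- (a)
    (hPf : ∀ j, j < N → ∀ L : Label, Comm (C j) (ev T {s | s.Pf = L}))
    (hPb : ∀ j, j < N → ∀ L : Label, Comm (C j) (ev T {s | s.Pb = L}))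
    -- (b)
    (hV : ev T {s | s.domP = true} ≤ C 0)
    (h1f : ∃ L : Label, C 1 ≤ ev T {s | s.Pf = L})
    (h1b : ∃ L : Label, C 1 ≤ ev T {s | s.Pb = L}) :
    ∀ j s, Comm (C j) (T s) := by
  have hm_le : C 0 ≤ A0 := by rw [hm]; exact meet_le_left hAB
  -- periodicity
  have hperj : ∀ j, C (j + N) = C j := by
    intro j
    induction j with
    | zero => simpa using hper
    | succ j ih => rw [show j + 1 + N = (j + N) + 1 by ring, ← hC, ih, hC]
  have hmod : ∀ j, C j = C (j % N) := by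
    intro j
    induction j using Nat.strong_induction_on with
    | _ j ih =>
      by_cases hj : j < N
      · rw [Nat.mod_eq_of_lt hj]
      · have h1 : j = (j - N) + N := by omega
        rw [h1, hperj, Nat.add_mod_right]
        exact ih _ (by omega)
  have hNpos : 0 < N := by omega
  have hle' : ∀ j, C j ≤ c0 := fun j => by rw [hmod j]; exact hle _ (Nat.mod_lt _ hNpos)
  have hPf' : ∀ j, ∀ L : Label, Comm (C j) (ev T {s | s.Pf = L}) := fun j => by
    rw [hmod j]; exact hPf _ (Nat.mod_lt _ hNpos)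
  have hPb' : ∀ j, ∀ L : Label, Comm (C j) (ev T {s | s.Pb = L}) := fun j => by
    rw [hmod j]; exact hPb _ (Nat.mod_lt _ hNpos)
  have hV' : ∀ j, Comm (C j) (ev T {s | s.domP = true}) := by
    intro j
    rw [hmod j]
    rcases Nat.eq_zero_or_pos (j % N) with h0 | h0
    · rw [h0]; exact comm_of_ge hV
    · exact comm_of_orth ((horth _ h0 (Nat.mod_lt _ hNpos)).mono_right hV)
  -- `R_μ ~ B₀`
  have hRB : ∀ L : Label, Comm B0 (ev T {s | s.Qf = L}) := by
    intro L
    rw [hB0, comm_inv_smul_iff, hQ]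
    exact hT.comm_ev _ _
  -- labels commute with `A₀`
  have hA0add : C 0 +ₒ (A0 -ₒ C 0) = A0 := add_sub hm_le
  have hAo : Orth (C 0) (A0 -ₒ C 0) := orth_sub hm_le
  have hAf : ∀ L : Label, Comm A0 (ev T {s | s.Pf = L}) := by
    intro L
    obtain ⟨L1, hL1⟩ := h1f
    rw [← hA0add]
    refine Comm.add_left (hPf 0 hNpos L) ?_ hAo
    by_cases hL : L = L1
    · subst hL; exact comm_of_le (hA1.trans hL1)
    · refine comm_of_orth (Orth.mono_left ?_ (hA1.trans hL1))
      refine hT.ev_orth ?_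
      rw [Set.disjoint_left]
      intro s hs hs'
      exact hL (hs'.symm.trans hs)
  have hAb : ∀ L : Label, Comm A0 (ev T {s | s.Pb = L}) := by
    intro L
    obtain ⟨L1, hL1⟩ := h1b
    rw [← hA0add]
    refine Comm.add_left (hPb 0 hNpos L) ?_ hAo
    by_cases hL : L = L1
    · subst hL; exact comm_of_le (hA1.trans hL1)
    · refine comm_of_orth (Orth.mono_left ?_ (hA1.trans hL1))
      refine hT.ev_orth ?_
      rw [Set.disjoint_left]
      intro s hs hs'
      exact hL (hs'.symm.trans hs)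
  have hAQ : ∀ L : Label, Comm A0 (ev T {s | s.Qb = L}) := by
    intro L
    rw [hA0, ← hQ, smul_comm_iff]
    exact hT.comm_ev _ _
  have hA0c : Comm A0 c0 := by
    rw [← hA0add]
    exact Comm.add_left (comm_of_le (hle 0 hNpos)) (comm_of_le (hA1.trans (hle 1 hN))) hAo
  have hAT : ∀ s, Comm A0 (T s) :=
    comm_star_of_labels hT (comm_of_ge (hV.trans hm_le)) hAQ hAf hAb hA0c
  -- `R_μ ~ A₀ ∧ B₀ = C 0`
  have hR0 : ∀ L : Label, Comm (C 0) (ev T {s | s.Qf = L}) := by
    intro L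
    rw [hm]
    exact Comm.meet_left (hT.comm_right hAT _) (hRB L) hAB
  -- induction
  have hstep : ∀ j, (∀ L : Label, Comm (C j) (ev T {s | s.Qf = L})) → ∀ s, Comm (C (j + 1)) (T s) := by
    intro j hj
    refine comm_star_of_labels hT (hV' _) ?_ (hPf' _) (hPb' _) (comm_of_le (hle' _))
    intro L
    rw [← hC, ← hQ, smul_comm_iff]
    exact hj L
  have hR : ∀ j, ∀ L : Label, Comm (C j) (ev T {s | s.Qf = L}) := by
    intro j
    induction j with
    | zero => exact hR0
    | succ j ih => exact fun L => hT.comm_right (hstep j ih) _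
  intro j
  have h1 : C j = C ((j + (N - 1)) + 1) := by
    rw [show j + (N - 1) + 1 = j + N by omega, hperj]
  rw [h1]
  exact hstep _ (hR _)

end

/-! ### the statement for a level structure -/

section

variable {G E : Type*} [CommGroup G] [ROMP E] [OMPAct G E]
variable {D : E} {p q : G} {a : ℕ} {c : ℕ → E} {St : Star → E}

namespace LS

variable (h : LS D p q a c St)
include h

/-- Step 9 (a), forward: an event of some row algebra, which is below `[Pf.u = A]` or commutes
with all labels, commutes with `[Pf = L]`. -/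
theorem comm_Pf_of {x : E} {i : ℕ} (hi : i < 3 * a) {A : Set Star} (hx : x = Row p c St i A)
    {j : ℕ} (hj : j < 3 * a) {v : Mem} (hv : x ≤ Lab p c St j {L | L.u = v}) (L : Label) :
    Comm x (Lab p c St j {L}) := by
  have hts : Comm x (Lab p c St j {L' | (L'.tau, L'.st) ∈ ({(L.tau, L.st)} : Set _)}) := by
    rw [h.Lab_tau_st hj, ← h.Lab_tau_st hi, hx, Lab_eq_Row]
    exact h.Row_comm _ _ _
  by_cases hL : L.u = v
  · have e : Lab p c St j {L} = Lab p c St j {L' | (L'.tau, L'.st) ∈ ({(L.tau, L.st)} : Set _)} ⊓ₒ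
        Lab p c St j {L | L.u = v} := by
      rw [Lab_eq_Row, Lab_eq_Row, Lab_eq_Row, h.Row_meet]
      congr 1
      ext s
      simp only [Set.mem_ofPred_eq, Set.mem_singleton_iff, Set.mem_inter_iff, Prod.mk.injEq]
      constructor
      · rintro rfl; exact ⟨⟨rfl, rfl⟩, hL⟩
      · rintro ⟨⟨h1, h2⟩, h3⟩
        rw [← hL] at h3
        revert h1 h2 h3
        cases s.Pf; cases L
        rintro h1 h2 h3
        simp only at h1 h2 h3
        subst h1 h2 h3
        rfl
    rw [e]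
    refine Comm.meet_right hts (comm_of_le hv) ?_
    rw [Lab_eq_Row, Lab_eq_Row]
    exact h.Row_comm _ _ _
  · refine comm_of_orth (Orth.mono_left ?_ hv)
    rw [Lab_eq_Row, Lab_eq_Row]
    refine h.Row_orth _ ?_
    rw [Set.disjoint_left]
    rintro s hs hs'
    simp only [Set.mem_ofPred_eq, Set.mem_singleton_iff] at hs hs'
    rw [hs'] at hs
    exact hL hs

/-- **Step 9 (L4')** : the next level digits commute with the next level stars. -/
theorem comm_next_of
    (hpart : IsPart (fun j : Fin (3 * (a + 1)) => nextC q c St j) (c 0))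
    (hper : nextC q c St (3 * (a + 1)) = nextC q c St 0)
    (hpn : p ^ (3 * a) • modeEv q (c 0) St = modeEv q (c 0) St)
    (hAB : Comm (q • (c 0 ⊓ₒ ev St {s | s.Pf.tau = .t2l}))
      (q⁻¹ • (c 0 ⊓ₒ ev St {s | s.Pf.tau = .f0})))
    (hA1 : (q • (c 0 ⊓ₒ ev St {s | s.Pf.tau = .t2l})) -ₒ modeEv q (c 0) St ≤
      q • modeEv q (c 0) St)
    (hmL : ∀ j, j < 3 * a → ∀ L : Label, Comm (modeEv q (c 0) St) (Lab p c St j {L}))
    (hrow : ∀ j', 0 < j' → j' < 3 * (a + 1) → ∃ i, i < 3 * a ∧ ∃ A : Set Star,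
      nextC q c St j' = Row p c St i A)
    (hiA : c 0 -ₒ modeEv q (c 0) St ≤ Lab p c St 0 {L | L.u = .A})
    (hiB : c 0 -ₒ modeEv q (c 0) St ≤ Lab p c St (3 * a - 1) {L | L.u = .B})
    (hdom : c 0 -ₒ modeEv q (c 0) St ≤ Row p c St 0 {s | s.domP = false}) :
    ∀ j', ∀ s, Comm (nextC q c St j') (nextSt c St s) := by
  have ha := h.three_le
  have hT : IsPart (fun s => c 0 ⊓ₒ St s) (c 0) := h.capPart 0
  have hev : ∀ A : Set Star, ev (fun s => c 0 ⊓ₒ St s) A = c 0 ⊓ₒ ev St A :=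
    fun A => (h.cap_eq_ev 0 A).symm
  have hevR : ∀ A : Set Star, ev (fun s => c 0 ⊓ₒ St s) A = Row p c St 0 A :=
    fun A => by rw [hev, Row_zero']
  have hC : ∀ j, q • nextC q c St j = nextC q c St (j + 1) := by
    intro j; rw [nextC, nextC, pow_succ', mul_smul]
  have h0 : nextC q c St 0 = modeEv q (c 0) St := by rw [nextC, pow_zero, one_smul]
  have h1 : nextC q c St 1 = q • modeEv q (c 0) St := by rw [nextC, pow_one]
  have hmle : modeEv q (c 0) St ≤ c 0 := by
    have := hpart.le_total ⟨0, by omega⟩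
    simpa [h0] using this
  have horth : ∀ j, 0 < j → j < 3 * (a + 1) → Orth (nextC q c St j) (nextC q c St 0) := by
    intro j hj0 hj
    exact hpart.orth (i := ⟨j, hj⟩) (j := ⟨0, by omega⟩) (by
      intro hh; rw [Fin.mk.injEq] at hh; omega)
  have hle : ∀ j, j < 3 * (a + 1) → nextC q c St j ≤ c 0 := fun j hj => hpart.le_total ⟨j, hj⟩
  -- `C j ≤ iota`
  have hio : ∀ j, 0 < j → j < 3 * (a + 1) → nextC q c St j ≤ c 0 -ₒ modeEv q (c 0) St := by
    intro j hj0 hj
    rw [le_sub_iff hmle]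
    refine ⟨hle j hj, ?_⟩
    rw [← h0]
    exact horth j hj0 hj
  -- `p^n` invariance
  have hpnC : ∀ j, p ^ (3 * a) • nextC q c St j = nextC q c St j := by
    intro j
    rw [nextC, smul_swap, hpn]
  -- (a) forward
  have hPf : ∀ j, j < 3 * (a + 1) → ∀ L : Label,
      Comm (nextC q c St j) (ev (fun s => c 0 ⊓ₒ St s) {s | s.Pf = L}) := by
    intro j hj L
    have e : ev (fun s => c 0 ⊓ₒ St s) {s | s.Pf = L} = Lab p c St 0 {L} := by
      rw [hevR, Lab_eq_Row]; rfl
    rw [e]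
    rcases Nat.eq_zero_or_pos j with hj0 | hj0
    · subst hj0; rw [h0]; exact hmL 0 (by omega) L
    · obtain ⟨i, hi, A, hA⟩ := hrow j hj0 hj
      exact h.comm_Pf_of hi hA (by omega) ((hio j hj0 hj).trans hiA) L
  have hPbL : ∀ j, j < 3 * (a + 1) → ∀ L : Label,
      Comm (nextC q c St j) (Lab p c St (3 * a - 1) {L}) := by
    intro j hj L
    rcases Nat.eq_zero_or_pos j with hj0 | hj0
    · subst hj0; rw [h0]; exact hmL _ (by omega) L
    · obtain ⟨i, hi, A, hA⟩ := hrow j hj0 hj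
      exact h.comm_Pf_of hi hA (by omega) ((hio j hj0 hj).trans hiB) L
  have hPb : ∀ j, j < 3 * (a + 1) → ∀ L : Label,
      Comm (nextC q c St j) (ev (fun s => c 0 ⊓ₒ St s) {s | s.Pb = L}) := by
    intro j hj L
    have e : ev (fun s => c 0 ⊓ₒ St s) {s | s.Pb = L} = p ^ (3 * a) • Lab p c St (3 * a - 1) {L} := by
      rw [hevR, h.pn_Lab]; rfl
    rw [e, ← hpnC j, smul_comm_iff]
    exact hPbL j hj L
  -- (b)
  have hV : ev (fun s => c 0 ⊓ₒ St s) {s | s.domP = true} ≤ nextC q c St 0 := by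
    rw [h0, hevR]
    have h2 : Orth (Row p c St 0 {s | s.domP = true}) (c 0 -ₒ modeEv q (c 0) St) := by
      refine Orth.mono_right (h.Row_orth 0 ?_) hdom
      rw [Set.disjoint_left]
      intro s hs hs'
      simp only [Set.mem_ofPred_eq] at hs hs'
      rw [hs] at hs'
      exact absurd hs' (by decide)
    have h3 : Row p c St 0 {s | s.domP = true} ≤
        modeEv q (c 0) St +ₒ (c 0 -ₒ modeEv q (c 0) St) := by
      rw [add_sub hmle]; exact h.Row_le _ _
    exact le_of_le_add (orth_sub hmle) h3 h2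
  -- `C 1` has a known label
  have hC1io := hio 1 (by omega) (by omega)
  have hm_le_B : modeEv q (c 0) St ≤ q⁻¹ • (c 0 ⊓ₒ ev St {s | s.Pf.tau = .f0}) :=
    meet_le_right hAB
  have hC1t : nextC q c St 1 ≤ Row p c St 0 {s | s.Pf.tau = .f0} := by
    have := smul_le_smul q hm_le_B
    rw [smul_inv_smul] at this
    rw [h1, Row_zero']
    exact this
  have hstP : ∀ s : Star, s.Pf.tau = .f0 → s.Pf.st = none := fun s hs =>
    Star.st_none s.Pf_valid (by rw [hs]; rfl)
  have hstP' : ∀ s : Star, s.Pb.tau = .f0 → s.Pb.st = none := fun s hs =>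
    Star.st_none s.Pb_valid (by rw [hs]; rfl)
  have h1f : ∃ L : Label, nextC q c St 1 ≤ ev (fun s => c 0 ⊓ₒ St s) {s | s.Pf = L} := by
    refine ⟨⟨.f0, none, .A⟩, ?_⟩
    rw [hevR]
    refine (h.le_Row_inter hC1t (hC1io.trans hiA)).trans (h.Row_mono 0 ?_)
    rintro s ⟨hs1, hs2⟩
    simp only [Set.mem_ofPred_eq] at hs1 hs2 ⊢
    have hs3 := hstP s hs1
    revert hs1 hs2 hs3
    cases s.Pf
    rintro h1 h2 h3
    simp only at h1 h2 h3
    subst h1 h2 h3
    rfl
  have h1b : ∃ L : Label, nextC q c St 1 ≤ ev (fun s => c 0 ⊓ₒ St s) {s | s.Pb = L} := by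
    refine ⟨⟨.f0, none, .B⟩, ?_⟩
    rw [hevR]
    have hB : nextC q c St 1 ≤ Row p c St 0 {s | s.Pb ∈ ({L | L.u = .B} : Set Label)} := by
      rw [← h.pn_Lab, ← hpnC 1]
      exact smul_le_smul _ (hC1io.trans hiB)
    refine (h.le_Row_inter hC1t hB).trans (h.Row_mono 0 ?_)
    rintro s ⟨hs1, hs2⟩
    simp only [Set.mem_ofPred_eq] at hs1 hs2 ⊢
    rw [← s.P_tau] at hs1
    have hs3 := hstP' s hs1
    revert hs1 hs2 hs3
    cases s.Pb
    rintro h1 h2 h3
    simp only at h1 h2 h3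
    subst h1 h2 h3
    rfl
  intro j' s
  refine comm_next_core hT (q := q) (N := 3 * (a + 1)) (by omega) hC hper horth hle ?_ rfl rfl
    ?_ ?_ ?_ hPf hPb hV h1f h1b j' s.flip
  · intro L
    rw [hevR, hevR]
    exact h.q_Row0 {L}
  · rw [hev, hev]; exact hAB
  · rw [hev, hev, h0]; rfl
  · rw [hev, h0, h1]; exact hA1

/-- Step 9 with the facts of `RN1.lean` filled in. Left: steps 6-8. -/
theorem comm_next_of_steps
    (hpart : IsPart (fun j : Fin (3 * (a + 1)) => nextC q c St j) (c 0))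
    (hper : nextC q c St (3 * (a + 1)) = nextC q c St 0)
    (hrow : ∀ j', 0 < j' → j' < 3 * (a + 1) → ∃ i, i < 3 * a ∧ ∃ A : Set Star,
      nextC q c St j' = Row p c St i A)
    (hiA : c 0 -ₒ modeEv q (c 0) St ≤ Lab p c St 0 {L | L.u = .A})
    (hiB : c 0 -ₒ modeEv q (c 0) St ≤ Lab p c St (3 * a - 1) {L | L.u = .B})
    (hdom : c 0 -ₒ modeEv q (c 0) St ≤ Row p c St 0 {s | s.domP = false}) :
    ∀ j', ∀ s, Comm (nextC q c St j') (nextSt c St s) := by
  have e1 : h.T {.t2l} = c 0 ⊓ₒ ev St {s | s.Pf.tau = .t2l} := Row_zero' _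
  have e2 : h.T {.f0} = c 0 ⊓ₒ ev St {s | s.Pf.tau = .f0} := Row_zero' _
  refine h.comm_next_of hpart hper h.pow_m ?_ ?_ (fun j hj L => h.comm_m_Lab hj {L}) hrow hiA hiB hdom
  · rw [← e1, ← e2]; exact h.comm_A_B
  · rw [← e1]
    obtain ⟨X, hX, hA, hX2⟩ := h.A_eq
    rw [hA]
    have : h.m +ₒ X -ₒ modeEv q (c 0) St = X := add_sub_cancel hX
    rw [this]
    exact hX2

end LS

end

end Crest.Agent.R189
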