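import Crest.Agent.R189.RN2b
import Crest.Agent.R189.RN4

/-!
# Row 189, THEOREM RN: `iota` facts for level structures, centrality, assembly
-/

set_option autoImplicit false

namespace Crest.Agent.R189

open Romp RN2

variable {G E : Type*} [CommGroup G] [ROMP E] [OMPAct G E]
variable {D : E} {p q : G} {a : ℕ} {c : ℕ → E} {St : Star → E}

namespace LS

theorem iota_le_Lab_A (h : LS D p q a c St) {j : ℕ} (hj : j < a) :
    c 0 -ₒ modeEv q (c 0) St ≤ Lab p c St j {L | L.u = .A} := by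
  have h1 := h.rowSys.iota_le_A hj
  rwa [h.ev_rowAt] at h1

theorem iota_le_Lab_B (h : LS D p q a c St) {j : ℕ} (hj : 2 * a ≤ j) (hj' : j < 3 * a) :
    c 0 -ₒ modeEv q (c 0) St ≤ Lab p c St j {L | L.u = .B} := by
  have h1 := h.rowSys.iota_le_B hj hj'
  rwa [h.ev_rowAt] at h1

theorem iota_le_Row0 (h : LS D p q a c St) :
    c 0 -ₒ modeEv q (c 0) St ≤ Row p c St 0 {s | s.Pf.u = .A ∧ s.Pb.u = .B ∧ s.domP = false} := by
  have h1 := h.rowSys.iota_le_domQ (p ^ (3 * a)) h.pow_m (h.pn_c 0) (by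
    intro lam
    rw [h.ev_rowAt, h.ev_rowAt]
    exact (h.pn_Lab {lam}).symm)
  rwa [h.ev_rowAt] at h1

theorem iota_le_dom (h : LS D p q a c St) :
    c 0 -ₒ modeEv q (c 0) St ≤ Row p c St 0 {s | s.domP = false} :=
  h.iota_le_Row0.trans (h.Row_mono 0 fun _ hs => hs.2.2)

/-- assembly of `LS.next` from the outputs of step 8 -/
theorem next_of' (h : LS D p q a c St)
    (hpart : IsPart (fun j : Fin (3 * (a + 1)) => nextC q c St j) (c 0))
    (hper : q ^ (3 * (a + 1)) • modeEv q (c 0) St = modeEv q (c 0) St)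
    (hrow : ∀ j', 0 < j' → j' < 3 * (a + 1) → ∃ i, i < 3 * a ∧ ∃ A : Set Star,
      nextC q c St j' = Row p c St i A)
    (hdom : ∀ j, 0 < j → j < 3 * (a + 1) → ∀ s : Star,
      ¬ (s.domP = true ∧ s.Qb.tau = tauOf (a + 1) j) → nextC q c St j ⊓ₒ nextSt c St s = ⊥) :
    LS (c 0) q (p ^ (3 * a)) (a + 1) (nextC q c St) (nextSt c St) :=
  h.next_of h.modeFacts hpart hper
    (fun j _ s => h.comm_next_of_steps hpart
      (by simp only [nextC]; rw [hper]; simp) hrow
      (h.iota_le_Lab_A (by have := h.three_le; omega))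
      (h.iota_le_Lab_B (by have := h.three_le; omega) (by have := h.three_le; omega))
      h.iota_le_dom j s) hdom

end LS

end Crest.Agent.R189
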