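import Crest.Agent.R189.RNBasic

/-!
# Row 189, part E2: (X1), (X2)  (helper281)

Everything is deduced, for a fixed stage `j' < 3(a+1)` and an arbitrary `x : E`, from `XHyp`:
the memory of the `P` line along the rows and the states of the active wires.
-/

set_option autoImplicit false

namespace Crest.Agent.R189.RNX

open Romp

/-! ### facts on `coreList` -/

theorem core_quiet : ∀ k ∈ coreList, k.ts.active = false →
    k.b = none ∧ k.b' = none ∧ k.u = k.u' := by decide +kernel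

theorem core_R : ∀ k ∈ coreList, ∀ cl : Cls, k.ts.cls = some cl →
    k.b.map Prod.fst = some S.l → k.b'.map Prod.fst = some S.f →
    k.u = k.u' ∧ k.b = some (Rtrans cl).1 ∧ k.b' = some (Rtrans cl).2 := by decide +kernel

/-- table of the I-type transitions: `(class, r, r', u, u')` -/
def tab (reset : Bool) (cl : Cls) (r r' : Rel) (u u' : Mem) : Bool :=
  match reset, cl, r, r', u, u' with
  | true, .alpha, .p, .z, .A, .A => true
  | true, .mu, .p, .m, .A, .A => true
  | true, .beta, .z, .m, .A, .B => true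
  | false, _, .p, .p, .A, .A => true
  | false, _, .z, .p, .A, .x => true
  | false, _, .m, .z, .x, .B => true
  | false, _, .m, .m, .B, .B => true
  | _, _, _, _, _, _ => false

theorem core_I : ∀ k ∈ coreList, ∀ cl : Cls, k.ts.cls = some cl →
    k.b'.map Prod.fst ≠ some S.f →
    k.b.map Prod.fst = some k.t.fst ∧ k.b'.map Prod.fst = some k.t.snd ∧
    ∃ r r' : Rel, k.b.map Prod.snd = some r ∧ k.b'.map Prod.snd = some r' ∧
      tab k.t.reset cl r r' k.u k.u' = true := by decide +kernel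

theorem core_A : ∀ k ∈ coreList, k.u' = .A → k.u = .A := by decide +kernel
theorem core_B : ∀ k ∈ coreList, k.u = .B → k.u' = .B := by decide +kernel

/-! ### facts on stars dominated by `P` -/

/-- the core of a star dominated by `P` -/
def coreOf (s : Star) : Core := ⟨s.Pb.tau, s.Pb.u, s.Pf.u, s.Qb.tau, s.Qb.st, s.Qf.st⟩

theorem rule_of_domP (s : Star) (h : s.domP = true) :
    s.Pb.tau = s.Pf.tau ∧ s.Pb.st = s.Pf.st ∧ s.Qb.tau = s.Qf.tau ∧ s.Qb.u = .B ∧ s.Qf.u = .A ∧
      coreOf s ∈ coreList := by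
  obtain ⟨⟨d, b, f, b', f'⟩, hs⟩ := s
  cases d
  · simp [Star.domP] at h
  · simp only [RStar.OK, Rule] at hs
    obtain ⟨h1, h2, -, h4, h5, h6, h7⟩ := hs
    exact ⟨h1, h2, h4, h5, h6, h7⟩

theorem star_quiet (s : Star) (h : s.domP = true) (ha : s.Qb.tau.active = false) :
    s.Qb.st = none ∧ s.Qf.st = none ∧ s.Pb = s.Pf := by
  obtain ⟨h1, h2, h3, h4, h5, h6⟩ := rule_of_domP s h
  obtain ⟨e1, e2, e3⟩ := core_quiet _ h6 ha
  refine ⟨e1, e2, ?_⟩
  cases hb : s.Pb; cases hf : s.Pf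
  simp_all [coreOf]

theorem star_R (s : Star) (h : s.domP = true) (cl : Cls) (hc : s.Qb.tau.cls = some cl)
    (hb : s.Qb.s = some .l) (hf : s.Qf.s = some .f) :
    s.Pb = s.Pf ∧ s.Qb.st = some (Rtrans cl).1 ∧ s.Qf.st = some (Rtrans cl).2 := by
  obtain ⟨h1, h2, h3, h4, h5, h6⟩ := rule_of_domP s h
  obtain ⟨e1, e2, e3⟩ := core_R _ h6 cl hc hb hf
  refine ⟨?_, e2, e3⟩
  cases hb : s.Pb; cases hf : s.Pf
  simp_all [coreOf]

theorem star_I (s : Star) (h : s.domP = true) (cl : Cls) (hc : s.Qb.tau.cls = some cl)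
    (hf : s.Qf.s ≠ some .f) :
    s.Qb.s = some s.Pf.tau.fst ∧ s.Qf.s = some s.Pf.tau.snd ∧
      ∃ r r' : Rel, s.Qb.r = some r ∧ s.Qf.r = some r' ∧
        tab s.Pf.tau.reset cl r r' s.Pb.u s.Pf.u = true := by
  obtain ⟨h1, h2, h3, h4, h5, h6⟩ := rule_of_domP s h
  have := core_I _ h6 cl hc hf
  simp only [coreOf, h1] at this
  exact this

theorem star_A (s : Star) (h : s.domP = true) (hu : s.Pf.u = .A) : s.Pb.u = .A :=
  core_A _ (rule_of_domP s h).2.2.2.2.2 hu

theorem star_B (s : Star) (h : s.domP = true) (hu : s.Pb.u = .B) : s.Pf.u = .B :=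
  core_B _ (rule_of_domP s h).2.2.2.2.2 hu

/-! ### arithmetic of the stage functions -/

theorem sv_zero (A : ℕ) : sv A 0 = .f := by simp [sv]

theorem sv_ne_f {A j : ℕ} (hj : j ≠ 0) : sv A j ≠ .f := by
  unfold sv; rw [if_neg hj]; split_ifs <;> simp

theorem sv_last {A : ℕ} (hA : 1 ≤ A) : sv A (3 * A - 1) = .l := by
  unfold sv; rw [if_neg (by omega), if_pos rfl]

theorem tauOf_fst {A i : ℕ} (hA : 2 ≤ A) (h0 : 0 < i) (hi : i < 3 * A) :
    (tauOf A i).fst = sv A (i - 1) := by
  unfold tauOf sv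
  split_ifs <;> first | rfl | (exfalso; omega)

theorem tauOf_snd {A i : ℕ} (hA : 2 ≤ A) (h0 : 0 < i) (hi : i < 3 * A) :
    (tauOf A i).snd = sv A i := by
  unfold tauOf sv
  split_ifs <;> first | rfl | (exfalso; omega)

theorem cls_active {a i : ℕ} (ha : 3 ≤ a) (h1 : a ≤ i) (h2 : i ≤ 2 * a) :
    (tauOf a i).cls = some (if i = a then .alpha else if i = 2 * a then .beta else .mu) := by
  unfold tauOf; split_ifs <;> first | rfl | (exfalso; omega)

theorem not_active {a i : ℕ} (ha : 3 ≤ a) (h : ¬ (a ≤ i ∧ i ≤ 2 * a)) :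
    (tauOf a i).active = false := by
  unfold tauOf; split_ifs <;> first | rfl | (exfalso; omega)

theorem reset_tauOf {A i : ℕ} (hA : 3 ≤ A) : (tauOf A i).reset = decide (i = A ∨ i = 2 * A) := by
  unfold tauOf; split_ifs <;> simp [Tau.reset] <;> omega

theorem mod_zero_iff {a j' : ℕ} (h0 : 0 < j') (hj' : j' < 3 * (a + 1)) :
    j' % (a + 1) = 0 ↔ (j' = a + 1 ∨ j' = 2 * (a + 1)) := by
  constructor
  · intro h
    obtain ⟨k, hk⟩ := Nat.dvd_of_mod_eq_zero h
    have hk3 : k < 3 := by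
      by_contra hc
      have : (a + 1) * 3 ≤ (a + 1) * k := Nat.mul_le_mul_left _ (by omega)
      omega
    interval_cases k <;> omega
  · rintro (h | h)
    · rw [h]; exact Nat.mod_self _
    · rw [h, Nat.mul_mod_left]

/-- position of the marker before stage `j'`, reset case -/
theorem pos_reset {a j' : ℕ} (h0 : 0 < j') (h : j' % (a + 1) = 0) :
    pos a (j' - 1) = 2 * a ∧ pos a j' = a := by
  obtain ⟨k, hk⟩ := Nat.dvd_of_mod_eq_zero h
  have hk0 : 0 < k := by
    rcases Nat.eq_zero_or_pos k with rfl | h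
    · omega
    · exact h
  obtain ⟨k, rfl⟩ : ∃ m, k = m + 1 := ⟨k - 1, by omega⟩
  have e : j' - 1 = a + (a + 1) * k := by
    rw [hk, Nat.mul_succ]; omega
  refine ⟨?_, ?_⟩
  · rw [pos, e, Nat.add_mul_mod_self_left, Nat.mod_eq_of_lt (by omega)]; omega
  · rw [pos, h, add_zero]

/-- position of the marker, move case -/
theorem pos_move {a j' : ℕ} (h : j' % (a + 1) ≠ 0) :
    pos a j' = pos a (j' - 1) + 1 := by
  have e := Nat.mod_add_div j' (a + 1)
  have hlt : j' % (a + 1) < a + 1 := Nat.mod_lt _ (Nat.succ_pos a)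
  have e2 : j' - 1 = (j' % (a + 1) - 1) + (a + 1) * (j' / (a + 1)) := by
    omega
  have e3 : (j' - 1) % (a + 1) = j' % (a + 1) - 1 := by
    rw [e2, Nat.add_mul_mod_self_left, Nat.mod_eq_of_lt (by omega)]
  rw [pos, pos, e3]; omega

theorem pos_ge (a j' : ℕ) : a ≤ pos a j' := Nat.le_add_right _ _

theorem pos_le (a j' : ℕ) : pos a j' ≤ 2 * a := by
  have hlt : j' % (a + 1) < a + 1 := Nat.mod_lt _ (Nat.succ_pos a)
  unfold pos; omega

theorem pos_zero (a : ℕ) : pos a 0 = a := by simp [pos]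

theorem pos_prev_zero (a : ℕ) : pos a (prev a 0) = 2 * a := by
  have e : prev a 0 = a + (a + 1) * 2 := by simp [prev]; omega
  rw [pos, e, Nat.add_mul_mod_self_left, Nat.mod_eq_of_lt (by omega)]; omega

theorem prev_pos {a j' : ℕ} (h : 0 < j') : prev a j' = j' - 1 := by
  rw [prev, if_neg (by omega)]

theorem umem_lt {a j j' : ℕ} (h0 : 0 < j') (h : j < pos a (j' - 1)) : umem a j j' = .A := by
  unfold umem
  by_cases hm : j' % (a + 1) = 0
  · rw [if_pos hm, if_pos (by rw [(pos_reset h0 hm).1] at h; exact h)]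
  · rw [if_neg hm, if_pos h]

theorem umem_eq_reset {a j' : ℕ} (h0 : 0 < j') (hm : j' % (a + 1) = 0) :
    umem a (pos a (j' - 1)) j' = .B := by
  unfold umem
  rw [if_pos hm, (pos_reset h0 hm).1, if_neg (by omega)]

theorem umem_eq_move {a j' : ℕ} (hm : j' % (a + 1) ≠ 0) :
    umem a (pos a (j' - 1)) j' = .x := by
  unfold umem
  rw [if_neg hm, if_neg (by omega), if_pos rfl]

theorem umem_gt {a j j' : ℕ} (h0 : 0 < j') (h : pos a (j' - 1) < j) : umem a j j' = .B := by
  unfold umem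
  by_cases hm : j' % (a + 1) = 0
  · rw [if_pos hm, if_neg (by rw [(pos_reset h0 hm).1] at h; omega)]
  · rw [if_neg hm, if_neg (by omega), if_neg (by omega)]

theorem tab_reset_z : ∀ (r' : Rel) (u u' : Mem), tab true .beta .z r' u u' = true →
    u = .A ∧ u' = .B := by decide

theorem tab_move_z : ∀ (cl : Cls) (r' : Rel) (u u' : Mem), tab false cl .z r' u u' = true →
    u = .A ∧ u' = .x := by decide

theorem tab_move_x : ∀ (cl : Cls) (r r' : Rel) (u' : Mem), tab false cl r r' .x u' = true →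
    r = .m ∧ r' = .z ∧ u' = .B := by decide

theorem tab_move_B : ∀ (cl : Cls) (r r' : Rel) (u' : Mem), tab false cl r r' .B u' = true →
    r = .m ∧ r' = .m ∧ u' = .B := by decide

theorem tab_move_AA : ∀ (cl : Cls) (r r' : Rel), tab false cl r r' .A .A = true →
    r = .p ∧ r' = .p := by decide

theorem tab_move_Ax : ∀ (cl : Cls) (r r' : Rel), tab false cl r r' .A .x = true →
    r = .z ∧ r' = .p := by decide

theorem tab_reset : ∀ (cl : Cls) (r r' : Rel) (u u' : Mem), tab true cl r r' u u' = true →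
    (cl = .alpha → r = .p ∧ r' = .z) ∧ (cl = .mu → r = .p ∧ r' = .m) ∧
    (cl = .beta → r = .z ∧ r' = .m) := by decide

theorem sgn_lt {m i : ℕ} (h : i < m) : sgn m i = .p := by rw [sgn, if_pos h]
theorem sgn_self (m : ℕ) : sgn m m = .z := by rw [sgn, if_neg (by omega), if_pos rfl]
theorem sgn_gt {m i : ℕ} (h : m < i) : sgn m i = .m := by
  rw [sgn, if_neg (by omega), if_neg (by omega)]

/-- the signs before and after a crossing with an active wire `j`, read off the memory -/
theorem sgn_tab {a j j' : ℕ} (ha : 3 ≤ a) (h0 : 0 < j') (hj' : j' < 3 * (a + 1)) (h1 : a ≤ j)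
    (h2 : j ≤ 2 * a) {cl : Cls} (hcl : (tauOf a j).cls = some cl) {r r' : Rel}
    (ht : tab (tauOf (a + 1) j').reset cl r r' (umem a (j - 1) j') (umem a j j') = true) :
    r = sgn (pos a (j' - 1)) j ∧ r' = sgn (pos a j') j := by
  rw [reset_tauOf (by omega)] at ht
  by_cases hm : j' % (a + 1) = 0
  · rw [decide_eq_true ((mod_zero_iff h0 hj').1 hm)] at ht
    obtain ⟨t1, t2, t3⟩ := tab_reset _ _ _ _ _ ht
    obtain ⟨p1, p2⟩ := pos_reset h0 hm
    rw [p1, p2]
    rw [cls_active ha h1 h2] at hcl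
    rcases Nat.eq_or_lt_of_le h1 with e | e
    · subst e
      rw [if_pos rfl, Option.some_inj] at hcl
      obtain ⟨rfl, rfl⟩ := t1 hcl.symm
      exact ⟨(sgn_lt (by omega)).symm, (sgn_self _).symm⟩
    · rw [if_neg (by omega)] at hcl
      rcases Nat.eq_or_lt_of_le h2 with e' | e'
      · subst e'
        rw [if_pos rfl, Option.some_inj] at hcl
        obtain ⟨rfl, rfl⟩ := t3 hcl.symm
        exact ⟨(sgn_self _).symm, (sgn_gt (by omega)).symm⟩
      · rw [if_neg (by omega), Option.some_inj] at hcl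
        obtain ⟨rfl, rfl⟩ := t2 hcl.symm
        exact ⟨(sgn_lt (by omega)).symm, (sgn_gt (by omega)).symm⟩
  · rw [decide_eq_false (fun hc => hm ((mod_zero_iff h0 hj').2 hc))] at ht
    rw [pos_move hm]
    rcases Nat.lt_trichotomy j (pos a (j' - 1)) with e | e | e
    · rw [umem_lt h0 (by omega), umem_lt h0 e] at ht
      obtain ⟨rfl, rfl⟩ := tab_move_AA _ _ _ ht
      exact ⟨(sgn_lt e).symm, (sgn_lt (by omega)).symm⟩
    · rw [umem_lt h0 (by omega), e, umem_eq_move hm] at ht
      obtain ⟨rfl, rfl⟩ := tab_move_Ax _ _ _ ht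
      exact ⟨by rw [e]; exact (sgn_self _).symm, (sgn_lt (by omega)).symm⟩
    · rw [umem_gt h0 e] at ht
      rcases Nat.eq_or_lt_of_le e with e' | e'
      · have e2 : j - 1 = pos a (j' - 1) := by omega
        rw [e2, umem_eq_move hm] at ht
        obtain ⟨rfl, rfl, -⟩ := tab_move_x _ _ _ _ ht
        exact ⟨(sgn_gt e).symm, by rw [← e']; exact (sgn_self _).symm⟩
      · rw [umem_gt h0 (by omega)] at ht
        obtain ⟨rfl, rfl, -⟩ := tab_move_B _ _ _ _ ht
        exact ⟨(sgn_gt e).symm, (sgn_gt (by omega)).symm⟩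

/-! ### the hypotheses -/

variable {G E : Type*} [CommGroup G] [ROMP E] [OMPAct G E]
variable {D : E} {p q : G} {a : ℕ} {c : ℕ → E} {St : Star → E}

/-- what is used of `x = nextC q c St j'` -/
structure XHyp (p : G) (a : ℕ) (c : ℕ → E) (St : Star → E) (j' : ℕ) (x : E) : Prop where
  /-- the states of the active wires after stage `j'` -/
  f : ∀ i, a ≤ i → i ≤ 2 * a → x ≤ Row p c St i {s | s.Qf.s = some (sv (a + 1) j')}
  /-- the states of the active wires before stage `j'` -/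
  b : ∀ i, a ≤ i → i ≤ 2 * a → x ≤ Row p c St i {s | s.Qb.s = some (sv (a + 1) (prev a j'))}
  /-- the marker before stage `j'` -/
  z : x ≤ Row p c St (pos a (prev a j')) {s | s.Qb.r = some .z}

theorem meet_le_left' {e f : E} : e ⊓ₒ f ≤ e := by
  unfold Romp.meet Romp.glb
  split_ifs with h
  · exact (Classical.choose_spec h).1 (by simp)
  · exact bot_le

theorem meet_le_right' {e f : E} : e ⊓ₒ f ≤ f := by
  rw [Romp.meet_comm]; exact meet_le_left'

section rows

variable (h : LS D p q a c St)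
include h

theorem le_and {x : E} {j : ℕ} {A B : Set Star} (h1 : x ≤ Row p c St j A)
    (h2 : x ≤ Row p c St j B) : x ≤ Row p c St j {s | s ∈ A ∧ s ∈ B} := by
  have := le_meet (h.Row_comm j A B) h1 h2
  rwa [h.Row_meet] at this

theorem le_dom {x : E} {j : ℕ} (h0 : 0 < j) (hj : j < 3 * a) {A B : Set Star}
    (hx : x ≤ Row p c St j A)
    (hAB : ∀ s ∈ A, s.domP = true → s.Qb.tau = tauOf a j → s ∈ B) : x ≤ Row p c St j B :=
  hx.trans (h.Row_le_Row h0 hj hAB)

theorem row_succ (j : ℕ) (A : Set Label) :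
    Row p c St j {s | s.Pf ∈ A} = Row p c St (j + 1) {s | s.Pb ∈ A} :=
  h.Lab_eq_Row_succ j A

theorem row_pred {j : ℕ} (hj : 0 < j) (A : Set Label) :
    Row p c St j {s | s.Pb ∈ A} = Row p c St (j - 1) {s | s.Pf ∈ A} :=
  (h.Lab_eq_Row_pred hj A).symm

variable {j' : ℕ} {x : E}

/-- type of the `P` line, `j' ≠ 0` -/
theorem le_tau (h0 : 0 < j') (hj' : j' < 3 * (a + 1)) (H : XHyp p a c St j' x) (j : ℕ) :
    x ≤ Row p c St j {s | s.Pf.tau = tauOf (a + 1) j'} := by
  have ha := h.three_le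
  have e : x ≤ Row p c St a {s | s.Pf.tau ∈ ({tauOf (a + 1) j'} : Set Tau)} := by
    refine le_dom h (by omega) (by omega) (le_and h (H.f a le_rfl (by omega))
      (H.b a le_rfl (by omega))) ?_
    rintro s ⟨h1, h2⟩ hd ht
    simp only [Set.mem_ofPred_eq] at h1 h2
    obtain ⟨i1, i2, -⟩ := star_I s hd _ (by rw [ht]; exact cls_active ha le_rfl (by omega))
      (by rw [h1]; intro hc; exact sv_ne_f (by omega) (Option.some_inj.1 hc))
    rw [h1, Option.some_inj] at i2
    rw [h2, Option.some_inj, prev_pos h0] at i1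
    simp only [Set.mem_ofPred_eq, Set.mem_singleton_iff]
    apply Tau.ext_pair
    · rw [← i1, tauOf_fst (by omega) h0 hj']
    · rw [← i2, tauOf_snd (by omega) h0 hj']
  rw [h.Row_tau] at e
  have e' := e
  rw [← h.Row_tau j] at e'
  exact e'

/-- all the information on an active row, `j' ≠ 0` -/
theorem le_active (h0 : 0 < j') (hj' : j' < 3 * (a + 1)) (H : XHyp p a c St j' x) {j : ℕ}
    (h1 : a ≤ j) (h2 : j ≤ 2 * a) {A : Set Star} (hA : x ≤ Row p c St j A) :
    x ≤ Row p c St j {s | s ∈ A ∧ s.domP = true ∧ s.Qb.tau = tauOf a j ∧ ∃ r r' : Rel,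
      s.Qb.st = some (sv (a + 1) (j' - 1), r) ∧ s.Qf.st = some (sv (a + 1) j', r') ∧
      tab (tauOf (a + 1) j').reset
        (if j = a then .alpha else if j = 2 * a then .beta else .mu) r r' s.Pb.u s.Pf.u = true} := by
  have ha := h.three_le
  refine le_dom h (by omega) (by omega) (le_and h hA (le_and h (le_tau h h0 hj' H j)
    (le_and h (H.f j h1 h2) (H.b j h1 h2)))) ?_
  rintro s ⟨h3, h4, h5, h6⟩ hd ht
  simp only [Set.mem_ofPred_eq] at h4 h5 h6
  rw [prev_pos h0] at h6
  obtain ⟨i1, i2, r, r', i3, i4, i5⟩ := star_I s hd _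
    (by rw [ht]; exact cls_active ha h1 h2)
      (by rw [h5]; intro hc; exact sv_ne_f (by omega) (Option.some_inj.1 hc))
  refine ⟨h3, hd, ht, r, r', ?_, ?_, ?_⟩
  · simp only [Label.s, Label.r] at h6 i3
    cases hq : s.Qb.st with
    | none => simp [hq] at h6
    | some y => simp only [hq, Option.map_some, Option.some_inj] at h6 i3; simp [← h6, ← i3]
  · simp only [Label.s, Label.r] at h5 i4
    cases hq : s.Qf.st with
    | none => simp [hq] at h5
    | some y => simp only [hq, Option.map_some, Option.some_inj] at h5 i4; simp [← h5, ← i4]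
  · rw [h4] at i5; exact i5

/-- base case: the memory around the marker -/
theorem le_base (h0 : 0 < j') (hj' : j' < 3 * (a + 1)) (H : XHyp p a c St j' x) :
    x ≤ Row p c St (pos a (j' - 1)) {s | s.Pb.u = .A ∧
      s.Pf.u = umem a (pos a (j' - 1)) j'} := by
  have ha := h.three_le
  have hp1 := pos_ge a (j' - 1)
  have hp2 := pos_le a (j' - 1)
  have hz := H.z
  rw [prev_pos h0] at hz
  refine (le_active h h0 hj' H hp1 hp2 hz).trans (h.Row_mono _ ?_)
  rintro s ⟨h1, -, -, r, r', i1, -, i3⟩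
  simp only [Set.mem_ofPred_eq, Label.r, i1, Option.map_some, Option.some_inj] at h1
  subst h1
  rw [reset_tauOf (by omega)] at i3
  by_cases hm : j' % (a + 1) = 0
  · rw [decide_eq_true ((mod_zero_iff h0 hj').1 hm), (pos_reset h0 hm).1, if_neg (by omega),
      if_pos rfl] at i3
    obtain ⟨t1, t2⟩ := tab_reset_z _ _ _ i3
    exact ⟨t1, by rw [t2, umem_eq_reset h0 hm]⟩
  · rw [decide_eq_false (fun hc => hm ((mod_zero_iff h0 hj').2 hc))] at i3
    obtain ⟨t1, t2⟩ := tab_move_z _ _ _ _ i3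
    exact ⟨t1, by rw [t2, umem_eq_move hm]⟩

theorem le_down (h0 : 0 < j') (hj' : j' < 3 * (a + 1)) (H : XHyp p a c St j' x) (k : ℕ)
    (hk : k < pos a (j' - 1)) :
    x ≤ Row p c St (pos a (j' - 1) - 1 - k) {s | s.Pf.u = .A} := by
  have ha := h.three_le
  have hp1 := pos_ge a (j' - 1)
  have hp2 := pos_le a (j' - 1)
  induction k with
  | zero =>
    have := row_pred h (show 0 < pos a (j' - 1) by omega) {L | L.u = Mem.A}
    simp only [Set.mem_ofPred_eq] at this
    rw [Nat.sub_zero, ← this]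
    exact (le_base h h0 hj' H).trans (h.Row_mono _ fun s hs => hs.1)
  | succ k ih =>
    have e := ih (by omega)
    have := row_pred h (show 0 < pos a (j' - 1) - 1 - k by omega) {L | L.u = Mem.A}
    simp only [Set.mem_ofPred_eq] at this
    rw [show pos a (j' - 1) - 1 - (k + 1) = pos a (j' - 1) - 1 - k - 1 by omega, ← this]
    exact le_dom h (by omega) (by omega) e fun s hs hd _ => star_A s hd hs

theorem le_up (h0 : 0 < j') (hj' : j' < 3 * (a + 1)) (H : XHyp p a c St j' x) (k : ℕ)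
    (hk : pos a (j' - 1) + 1 + k < 3 * a) :
    x ≤ Row p c St (pos a (j' - 1) + 1 + k) {s | s.Pf.u = .B} := by
  have ha := h.three_le
  have hp1 := pos_ge a (j' - 1)
  have hp2 := pos_le a (j' - 1)
  induction k with
  | zero =>
    have hb : x ≤ Row p c St (pos a (j' - 1)) {s | s.Pf ∈ {L : Label | L.u =
        umem a (pos a (j' - 1)) j'}} :=
      (le_base h h0 hj' H).trans (h.Row_mono _ fun s hs => hs.2)
    rw [row_succ h] at hb
    by_cases hm : j' % (a + 1) = 0
    · rw [umem_eq_reset h0 hm] at hb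
      exact le_dom h (by omega) (by omega) hb fun s hs hd _ => star_B s hd hs
    · rw [umem_eq_move hm] at hb
      have hp := pos_move hm
      have hp3 := pos_le a j'
      refine (le_active h h0 hj' H (by omega) (by omega) hb).trans (h.Row_mono _ ?_)
      rintro s ⟨h1, -, -, r, r', -, -, i3⟩
      simp only [Set.mem_ofPred_eq] at h1
      rw [reset_tauOf (by omega),
        decide_eq_false (fun hc => hm ((mod_zero_iff h0 hj').2 hc)), h1] at i3
      exact (tab_move_x _ _ _ _ i3).2.2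
  | succ k ih =>
    have e := ih (by omega)
    have := row_succ h (pos a (j' - 1) + 1 + k) {L | L.u = Mem.B}
    simp only [Set.mem_ofPred_eq] at this
    rw [this] at e
    exact le_dom h (by omega) (by omega) e fun s hs hd _ => star_B s hd hs

/-- the memory of the `P` line after the wire `j`, `j' ≠ 0` -/
theorem le_mem (h0 : 0 < j') (hj' : j' < 3 * (a + 1)) (H : XHyp p a c St j' x) {j : ℕ}
    (hj : j < 3 * a) : x ≤ Row p c St j {s | s.Pf.u = umem a j j'} := by
  rcases Nat.lt_trichotomy j (pos a (j' - 1)) with e | e | e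
  · have := le_down h h0 hj' H (pos a (j' - 1) - 1 - j) (by omega)
    rw [show pos a (j' - 1) - 1 - (pos a (j' - 1) - 1 - j) = j by omega] at this
    rw [umem_lt h0 e]; exact this
  · subst e
    exact (le_base h h0 hj' H).trans (h.Row_mono _ fun s hs => hs.2)
  · have := le_up h h0 hj' H (j - pos a (j' - 1) - 1) (by omega)
    rw [show pos a (j' - 1) + 1 + (j - pos a (j' - 1) - 1) = j by omega] at this
    rw [umem_gt h0 e]; exact this

/-- on an active row at the stage `0`, everything is R-type -/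
theorem le_R (H : XHyp p a c St 0 x) {j : ℕ} (h1 : a ≤ j) (h2 : j ≤ 2 * a) :
    x ≤ Row p c St j {s | s.domP = true ∧ s.Qb.tau = tauOf a j ∧ s.Pb = s.Pf ∧
      s.Qb.st = some (Rtrans (if j = a then .alpha else if j = 2 * a then .beta else .mu)).1 ∧
      s.Qf.st = some (Rtrans (if j = a then .alpha else if j = 2 * a then .beta else .mu)).2} := by
  have ha := h.three_le
  refine le_dom h (by omega) (by omega) (le_and h (H.f j h1 h2) (H.b j h1 h2)) ?_
  rintro s ⟨h5, h6⟩ hd ht
  simp only [Set.mem_ofPred_eq] at h5 h6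
  have e : prev a 0 = 3 * (a + 1) - 1 := rfl
  rw [sv_zero] at h5
  rw [e, sv_last (by omega)] at h6
  obtain ⟨i1, i2, i3⟩ := star_R s hd _ (by rw [ht]; exact cls_active ha h1 h2) h6 h5
  exact ⟨hd, ht, i1, i2, i3⟩

/-- stage `0`: the `P` line is unchanged along all rows -/
theorem le_quiet (H : XHyp p a c St 0 x) (hx : x ≤ c 0) {j : ℕ} (h0 : 0 < j) (hj : j < 3 * a) :
    x ≤ Row p c St j {s | s.Pb = s.Pf} := by
  have ha := h.three_le
  by_cases hc : a ≤ j ∧ j ≤ 2 * a
  · exact (le_R h H hc.1 hc.2).trans (h.Row_mono _ fun s hs => hs.2.2.1)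
  · refine le_dom h h0 hj (hx.trans (h.Row_univ j).ge) fun s _ hd ht => ?_
    exact (star_quiet s hd (by rw [ht]; exact not_active ha hc)).2.2

/-- **(X1)**, `j' = 0` -/
theorem X1_zero (H : XHyp p a c St 0 x) (hx : x ≤ c 0) {j : ℕ} (hj : j < 3 * a) (L : Label) :
    x ⊓ₒ Lab p c St 0 {L} ≤ Lab p c St j {L} := by
  induction j with
  | zero => exact meet_le_right'
  | succ j ih =>
    have e : x ⊓ₒ Lab p c St 0 {L} ≤ Row p c St (j + 1) {s | s.Pb ∈ ({L} : Set Label)} := by
      rw [← h.Lab_eq_Row_succ]; exact ih (by omega)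
    have e2 := (meet_le_left' (e := x) (f := Lab p c St 0 {L})).trans
      (le_quiet h H hx (Nat.succ_pos j) hj)
    refine (le_and h e e2).trans (h.Row_mono _ ?_)
    rintro s ⟨h1, h2⟩
    simp only [Set.mem_ofPred_eq] at h1 h2 ⊢
    rw [← h2]; exact h1

/-- **(X1)**, `j' ≠ 0` -/
theorem X1 (H : XHyp p a c St j' x) {j : ℕ} (hj : j < 3 * a) (h0 : 0 < j')
    (hj' : j' < 3 * (a + 1)) (st : Option (S × Rel)) :
    x ⊓ₒ Lab p c St 0 {(⟨tauOf (a + 1) j', st, .A⟩ : Label)} ≤
      Lab p c St j {(⟨tauOf (a + 1) j', st, umem a j j'⟩ : Label)} := by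
  set y := x ⊓ₒ Lab p c St 0 {(⟨tauOf (a + 1) j', st, .A⟩ : Label)} with hy
  have y1 : y ≤ x := meet_le_left'
  have y2 : y ≤ Lab p c St 0 {L | L.st ∈ ({st} : Set (Option (S × Rel)))} := by
    refine (meet_le_right').trans (h.Row_mono 0 ?_)
    intro s hs
    simp only [Set.mem_singleton_iff, Set.mem_ofPred_eq] at hs ⊢
    rw [hs]
  rw [← h.Lab_st hj] at y2
  have y3 := y1.trans (le_tau h h0 hj' H j)
  have y4 := y1.trans (le_mem h h0 hj' H hj)
  refine (le_and h y2 (le_and h y3 y4)).trans (h.Row_mono _ ?_)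
  rintro s ⟨h1, h2, h3⟩
  simp only [Set.mem_singleton_iff, Set.mem_ofPred_eq] at h1 h2 h3 ⊢
  rw [← h1, ← h2, ← h3]

/-- **(X1)**, `j' ≠ 0`, other labels -/
theorem X1_bot (H : XHyp p a c St j' x) (h0 : 0 < j') (hj' : j' < 3 * (a + 1)) (L : Label)
    (hL : ¬ (L.tau = tauOf (a + 1) j' ∧ L.u = .A)) : x ⊓ₒ Lab p c St 0 {L} = ⊥ := by
  have ha := h.three_le
  have hp1 := pos_ge a (j' - 1)
  set y := x ⊓ₒ Lab p c St 0 {L} with hy
  have y1 : y ≤ x := meet_le_left'
  have y2 : y ≤ Lab p c St 0 {L} := meet_le_right'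
  have y3 := y1.trans (le_tau h h0 hj' H 0)
  have y4 := y1.trans (le_mem h h0 hj' H (show 0 < 3 * a by omega))
  have y5 := (le_and h y2 (le_and h y3 y4)).trans (h.Row_mono (B := ∅) _ ?_)
  · rw [h.Row_empty] at y5
    exact le_bot_iff.1 y5
  · rintro s ⟨h1, h2, h3⟩
    simp only [Set.mem_singleton_iff, Set.mem_ofPred_eq] at h1 h2 h3
    rw [umem_lt h0 (by omega)] at h3
    rw [h1] at h2 h3
    exact hL ⟨h2, h3⟩

/-- both states of the wire `j` -/
theorem le_states (hj' : j' < 3 * (a + 1)) (H : XHyp p a c St j' x) (hx : x ≤ c 0) {j : ℕ}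
    (hj0 : 0 < j) (hj : j < 3 * a) :
    x ≤ Row p c St j {s | s.domP = true ∧ s.Qb.tau = tauOf a j ∧
      s.Qb.st = state a j (prev a j') ∧ s.Qf.st = state a j j'} := by
  have ha := h.three_le
  by_cases hc : a ≤ j ∧ j ≤ 2 * a
  · obtain ⟨h1, h2⟩ := hc
    have e1 : ∀ k, state a j k = some (sv (a + 1) k, sgn (pos a k) j) := fun k => by
      rw [state, if_pos ⟨h1, h2⟩]
    rcases Nat.eq_zero_or_pos j' with rfl | h0
    · refine (le_R h H h1 h2).trans (h.Row_mono _ ?_)
      rintro s ⟨hd, ht, -, i1, i2⟩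
      refine ⟨hd, ht, ?_, ?_⟩
      · rw [i1, e1, pos_prev_zero]
        have e : prev a 0 = 3 * (a + 1) - 1 := rfl
        rw [e, sv_last (by omega)]
        rcases Nat.eq_or_lt_of_le h1 with e | e
        · subst e
          rw [if_pos rfl, sgn_lt (by omega)]; rfl
        · rw [if_neg (by omega)]
          rcases Nat.eq_or_lt_of_le h2 with e' | e'
          · subst e'
            rw [if_pos rfl, sgn_self]; rfl
          · rw [if_neg (by omega), sgn_lt (by omega)]; rfl
      · rw [i2, e1, pos_zero, sv_zero]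
        rcases Nat.eq_or_lt_of_le h1 with e | e
        · subst e
          rw [if_pos rfl, sgn_self]; rfl
        · rw [if_neg (by omega), sgn_gt (by omega)]
          split_ifs <;> rfl
    · have e2 : x ≤ Row p c St j {s | s.Pb ∈ {L : Label | L.u = umem a (j - 1) j'}} := by
        rw [row_pred h hj0]
        exact le_mem h h0 hj' H (by omega)
      refine (le_active h h0 hj' H h1 h2 (le_and h e2 (le_mem h h0 hj' H hj))).trans
        (h.Row_mono _ ?_)
      rintro s ⟨⟨h3, h4⟩, hd, ht, r, r', i1, i2, i3⟩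
      simp only [Set.mem_ofPred_eq] at h3 h4
      rw [h3, h4] at i3
      obtain ⟨rfl, rfl⟩ := sgn_tab ha h0 hj' h1 h2 (cls_active ha h1 h2) i3
      exact ⟨hd, ht, by rw [i1, e1, prev_pos h0], by rw [i2, e1]⟩
  · refine le_dom h hj0 hj (hx.trans (h.Row_univ j).ge) fun s _ hd ht => ?_
    obtain ⟨i1, i2, -⟩ := star_quiet s hd (by rw [ht]; exact not_active ha hc)
    have e1 : ∀ k, state a j k = none := fun k => by rw [state, if_neg hc]
    exact ⟨hd, ht, by rw [i1, e1], by rw [i2, e1]⟩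

/-- **(X2)**, forward label of the row `j` -/
theorem X2f (hj' : j' < 3 * (a + 1)) (H : XHyp p a c St j' x) (hx : x ≤ c 0) {j : ℕ}
    (hj0 : 0 < j) (hj : j < 3 * a) :
    x ≤ (p ^ j)⁻¹ • (c j ⊓ₒ ev St {s | s.Qf = (⟨tauOf a j, state a j j', .A⟩ : Label)}) := by
  refine (le_states h hj' H hx hj0 hj).trans (h.Row_mono _ ?_)
  rintro s ⟨hd, ht, -, i2⟩
  obtain ⟨-, -, h3, -, h5, -⟩ := rule_of_domP s hd
  simp only [Set.mem_ofPred_eq]
  rw [← ht, ← i2, ← h5, h3]

/-- **(X2)**, backward label of the row `j` -/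
theorem X2b (hj' : j' < 3 * (a + 1)) (H : XHyp p a c St j' x) (hx : x ≤ c 0) {j : ℕ}
    (hj0 : 0 < j) (hj : j < 3 * a) :
    x ≤ (p ^ j)⁻¹ •
      (c j ⊓ₒ ev St {s | s.Qb = (⟨tauOf a j, state a j (prev a j'), .B⟩ : Label)}) := by
  refine (le_states h hj' H hx hj0 hj).trans (h.Row_mono _ ?_)
  rintro s ⟨hd, ht, i1, -⟩
  obtain ⟨-, -, h3, h4, -, -⟩ := rule_of_domP s hd
  simp only [Set.mem_ofPred_eq]
  rw [← ht, ← i1, ← h4]

end rows

end Crest.Agent.R189.RNX
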