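import Crest.Agent.R189.RN3b
import Crest.Agent.R189.RN2b
import Crest.Agent.R189.RNX
import Crest.Agent.R189.RN6

/-!
# Row 189, step 8 for a level structure

`LS.next_part`, `LS.next_per`, `LS.next_row`, `LS.next_dom`, `LS.xHyp`.
-/

set_option autoImplicit false

namespace Crest.Agent.R189

open Romp RN2

variable {G E : Type*} [CommGroup G] [ROMP E] [OMPAct G E]
variable {D : E} {p q : G} {a : ℕ} {c : ℕ → E} {St : Star → E}

namespace LS

theorem next_part (h : LS D p q a c St) :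
    IsPart (fun j : Fin (3 * (a + 1)) => nextC q c St j) (c 0) := h.markerData.part

theorem next_per (h : LS D p q a c St) :
    q ^ (3 * (a + 1)) • modeEv q (c 0) St = modeEv q (c 0) St := h.markerData.per

theorem IT_le (h : LS D p q a c St) (th : Tau) :
    h.rowSys.IT th ≤ Row p c St 0 {s | s.Pf.tau = th} := by
  have h3 := h.three_le
  have e : Row p c St 0 {s | s.Pf.tau = th} = ev (rowAt p c St a) {s | s.Pf.tau = th} := by
    rw [h.ev_rowAt]
    exact (h.Row_tau a {th}).symm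
  rw [e]
  refine (h.rowSys.part a (by omega)).ev_mono ?_
  rintro s ⟨-, h2⟩
  show s.Pf.tau = th
  rw [← s.P_tau]
  exact h2

/-- (L5') -/
theorem next_dom (h : LS D p q a c St) : ∀ j, 0 < j → j < 3 * (a + 1) → ∀ s : Star,
    ¬ (s.domP = true ∧ s.Qb.tau = tauOf (a + 1) j) → nextC q c St j ⊓ₒ nextSt c St s = ⊥ :=
  h.next_dom_of h.markerData h.IT_le h.iota_le_dom

theorem sp_eq (h : LS D p q a c St) {i : ℕ} (h1 : a ≤ i) (h2 : i ≤ 2 * a) (σ : S) :
    spE (modeEv q (c 0) St) h.rowSys.IT σ = Row p c St i {s | s.Qf.s = some σ} := by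
  rw [← h.ev_rowAt, h.rowSys.sp_row h1 h2]
  rfl

theorem sm_eq (h : LS D p q a c St) {i : ℕ} (h1 : a ≤ i) (h2 : i ≤ 2 * a) (σ : S) :
    smE (modeEv q (c 0) St) h.rowSys.IT σ = Row p c St i {s | s.Qb.s = some σ} := by
  rw [← h.ev_rowAt, h.rowSys.sm_row h1 h2]
  rfl

theorem K_eq' (h : LS D p q a c St) :
    modeEv q (c 0) St +ₒ ev h.rowSys.IT {th | th.reset = true} = h.rowSys.K := by
  rw [h.rowSys.K_eq, h.rowSys.Jr_eq_IT]

theorem Zm_eq' (h : LS D p q a c St) {i : ℕ} (h1 : a ≤ i) (h2 : i ≤ 2 * a) :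
    ZmE a (modeEv q (c 0) St) h.rowSys.IT h.rowSys.X i = Row p c St i {s | s.Qb.r = some .z} := by
  rw [← h.ev_rowAt]
  unfold ZmE
  split_ifs with hi
  · rw [h.K_eq', hi]
    exact h.rowSys.Zm_last.symm
  · exact (h.rowSys.Zm_eq h1 (by omega)).symm

theorem Zp_eq' (h : LS D p q a c St) {i : ℕ} (h1 : a ≤ i) (h2 : i ≤ 2 * a) :
    ZpE a (modeEv q (c 0) St) h.rowSys.IT h.rowSys.X i = Row p c St i {s | s.Qf.r = some .z} := by
  rw [← h.ev_rowAt]
  unfold ZpE
  split_ifs with hi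
  · rw [h.K_eq', hi]
    exact h.rowSys.Zp_first.symm
  · have := (h.rowSys.Zp_succ (i := i - 1) (by omega) (by omega)).symm
    rw [Nat.sub_add_cancel (by omega)] at this
    exact this

/-- each next level digit is a row event -/
theorem next_eq_row (h : LS D p q a c St) {j : ℕ} (hj : j < 3 * (a + 1)) :
    nextC q c St j = Row p c St (pos a j)
      ({s | s.Qf.s = some (sv (a + 1) j)} ∩ {s | s.Qf.r = some .z}) := by
  obtain ⟨p1, p2⟩ := h.markerData.pos_bounds hj
  have := h.markerData.cn_eq hj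
  rw [h.sp_eq p1 p2, h.Zp_eq' p1 p2, h.Row_meet] at this
  exact this

/-- the same, read backward -/
theorem next_eq_row_b (h : LS D p q a c St) {j : ℕ} (hj : j < 3 * (a + 1)) :
    nextC q c St j = Row p c St (pos a (prev a j))
      ({s | s.Qb.s = some (sv (a + 1) (prev a j))} ∩ {s | s.Qb.r = some .z}) := by
  obtain ⟨p1, p2⟩ := h.markerData.pos_bounds (MarkerData.prev_lt hj)
  have := h.markerData.cn_eq' hj
  rw [h.sm_eq p1 p2, h.Zm_eq' p1 p2, h.Row_meet] at this
  exact this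

theorem next_row (h : LS D p q a c St) : ∀ j', 0 < j' → j' < 3 * (a + 1) →
    ∃ i, i < 3 * a ∧ ∃ A : Set Star, nextC q c St j' = Row p c St i A := by
  intro j _ hj
  have h3 := h.three_le
  obtain ⟨p1, p2⟩ := h.markerData.pos_bounds hj
  exact ⟨pos a j, by omega, _, h.next_eq_row hj⟩

theorem xHyp (h : LS D p q a c St) {j' : ℕ} (hj' : j' < 3 * (a + 1)) :
    RNX.XHyp p a c St j' (nextC q c St j') where
  f i h1 h2 := by
    rw [← h.sp_eq h1 h2]
    exact h.markerData.le_sp hj'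
  b i h1 h2 := by
    rw [← h.sm_eq h1 h2]
    exact h.markerData.le_sm hj'
  z := by
    obtain ⟨p1, p2⟩ := h.markerData.pos_bounds (MarkerData.prev_lt hj')
    rw [← h.Zm_eq' p1 p2]
    exact h.markerData.le_Zm hj'

theorem next_le (h : LS D p q a c St) {j' : ℕ} (hj' : j' < 3 * (a + 1)) :
    nextC q c St j' ≤ c 0 := h.next_part.le_total ⟨j', hj'⟩

end LS

end Crest.Agent.R189
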