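import Crest.Agent.R189.RN6
import Crest.Agent.R189.RN3c
import Crest.Agent.R189.RNX

/-!
# Row 189, THEOREM RN (renormalisation) with (X1), (X2)

RN1 (helper535): steps 1-5; RN2, RN2b (helper829): steps 6-7; RN3, RN3b, RN3c (helper578): step 8;
RN4 (helper310): step 9; RNBasic, RN5, RN6 (helper738): step 10; RNX (helper281): (X1), (X2).
-/

set_option autoImplicit false

namespace Crest.Agent.R189

open Romp

variable {G E : Type*} [CommGroup G] [ROMP E] [OMPAct G E]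
variable {D : E} {p q : G} {a : ℕ} {c : ℕ → E} {St : Star → E}

/-- **Theorem RN** -/
theorem LS.next (h : LS D p q a c St) :
    LS (c 0) q (p ^ (3 * a)) (a + 1) (nextC q c St) (nextSt c St) :=
  h.next_of' h.next_part h.next_per h.next_row h.next_dom

/-- (X1), `j' = 0` -/
theorem LS.X1_zero (h : LS D p q a c St) {j : ℕ} (hj : j < 3 * a) (L : Label) :
    nextC q c St 0 ⊓ₒ Lab p c St 0 {L} ≤ Lab p c St j {L} :=
  RNX.X1_zero h (h.xHyp (by omega : 0 < 3 * (a + 1))) (h.next_le (by omega)) hj L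

/-- (X1), `j' ≠ 0` -/
theorem LS.X1 (h : LS D p q a c St) {j j' : ℕ} (hj : j < 3 * a) (h0 : 0 < j')
    (hj' : j' < 3 * (a + 1)) (st : Option (S × Rel)) :
    nextC q c St j' ⊓ₒ Lab p c St 0 {(⟨tauOf (a + 1) j', st, .A⟩ : Label)} ≤
      Lab p c St j {(⟨tauOf (a + 1) j', st, umem a j j'⟩ : Label)} :=
  RNX.X1 h (h.xHyp hj') hj h0 hj' st

/-- (X1), `j' ≠ 0`, other labels -/
theorem LS.X1_bot (h : LS D p q a c St) {j' : ℕ} (h0 : 0 < j') (hj' : j' < 3 * (a + 1))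
    (L : Label) (hL : ¬ (L.tau = tauOf (a + 1) j' ∧ L.u = .A)) :
    nextC q c St j' ⊓ₒ Lab p c St 0 {L} = ⊥ :=
  RNX.X1_bot h (h.xHyp hj') h0 hj' L hL

/-- (X2), forward label of the row `j` -/
theorem LS.X2f (h : LS D p q a c St) {j j' : ℕ} (hj0 : 0 < j) (hj : j < 3 * a)
    (hj' : j' < 3 * (a + 1)) :
    nextC q c St j' ≤
      (p ^ j)⁻¹ • (c j ⊓ₒ ev St {s | s.Qf = (⟨tauOf a j, state a j j', .A⟩ : Label)}) :=
  RNX.X2f h hj' (h.xHyp hj') (h.next_le (by omega)) hj0 hj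

/-- (X2), backward label of the row `j` -/
theorem LS.X2b (h : LS D p q a c St) {j j' : ℕ} (hj0 : 0 < j) (hj : j < 3 * a)
    (hj' : j' < 3 * (a + 1)) :
    nextC q c St j' ≤
      (p ^ j)⁻¹ • (c j ⊓ₒ ev St {s | s.Qb = (⟨tauOf a j, state a j (prev a j'), .B⟩ : Label)}) :=
  RNX.X2b h hj' (h.xHyp hj') (h.next_le (by omega)) hj0 hj

end Crest.Agent.R189
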