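import Crest.Agent.R189.Romp
import Crest.Agent.R189.Star
import Crest.Agent.R189.MarkChain

/-!
Row 189, E2 steps 6 and 7 (note 7931): `iota` facts, marker chain, the partitions `Zm`, `Zp`.

Everything is stated for a `RowSys`: `Row i s = p^{-i} • (c_i ⊓ St s)` (`0 ≤ i < 3a`), a family of
partitions of `c0` indexed by the stars.
-/

set_option autoImplicit false

namespace Crest.Agent.R189
namespace RN2
open Romp MarkChain

/-! ### finite facts on stars -/

/-- the core of a star whose `P` line dominates -/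
def coreP (s : Star) : Core := ⟨s.Pb.tau, s.Pb.u, s.Pf.u, s.Qb.tau, s.Qb.st, s.Qf.st⟩

theorem core_mem {s : Star} (h : s.domP = true) : coreP s ∈ coreList := by
  have h2 := s.2
  unfold RStar.OK at h2
  have h3 : s.1.domP = true := h
  rw [if_pos h3] at h2
  obtain ⟨_, _, _, _, _, _, h7⟩ := h2
  first | exact h7 | exact h7.1

theorem rule_P {s : Star} (h : s.domP = true) : Rule s.Pb s.Pf s.Qb s.Qf := by
  have h2 := s.2
  unfold RStar.OK at h2
  have h3 : s.1.domP = true := h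
  rwa [if_pos h3] at h2

theorem rule_Q {s : Star} (h : s.domP = false) : Rule s.Qb s.Qf s.Pb s.Pf := by
  have h2 := s.2
  unfold RStar.OK at h2
  have h3 : s.1.domP = false := h
  rwa [if_neg (by rw [h3]; decide)] at h2

theorem tau_P (s : Star) : s.Pb.tau = s.Pf.tau := by
  cases h : s.domP
  · exact (rule_Q h).2.2.2.1
  · exact (rule_P h).1

/-- `R`-type (on an active row) -/
def Rt (s : Star) : Prop := s.Qb.s = some .l
/-- the `P` line is of a move type -/
def mv (s : Star) : Prop := s.Pb.tau.reset = false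

def cR (c : Core) : Bool := c.b.map Prod.fst == some .l
def cmv (c : Core) : Bool := c.t.reset == false
def rb (c : Core) : Option Rel := c.b.map Prod.snd
def rf (c : Core) : Option Rel := c.b'.map Prod.snd

set_option maxRecDepth 100000 in
theorem fact_blank : ∀ c ∈ coreList, c.ts.active = false → c.u = c.u' := by decide
set_option maxRecDepth 100000 in
theorem fact_R : ∀ c ∈ coreList, c.ts.active = true → cR c = true → c.u = c.u' := by decide
set_option maxRecDepth 100000 in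
theorem fact_alpha : ∀ c ∈ coreList, c.ts = .t01 → cR c = false →
    c.u = .A ∧ (cmv c = true → c.u' ≠ .B) ∧ (cmv c = false → c.u' = .A) := by decide
set_option maxRecDepth 100000 in
theorem fact_mu_rs : ∀ c ∈ coreList, c.ts = .t11 → cR c = false → cmv c = false →
    c.u = .A ∧ c.u' = .A := by decide
set_option maxRecDepth 100000 in
theorem fact_mu_mv : ∀ c ∈ coreList, c.ts = .t11 → cR c = false → cmv c = true →
    ((c.u = .A ∧ c.u' ≠ .B) ∨ (c.u ≠ .A ∧ c.u' = .B)) := by decide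
set_option maxRecDepth 100000 in
theorem fact_beta : ∀ c ∈ coreList, c.ts = .t12 → cR c = false →
    c.u' = .B ∧ (cmv c = true → c.u ≠ .A) ∧ (cmv c = false → c.u = .A) := by decide
set_option maxRecDepth 100000 in
theorem fact_zb_am : ∀ c ∈ coreList, (c.ts = .t01 ∨ c.ts = .t11) →
    (rb c = some .z ↔ (cR c = false ∧ cmv c = true ∧ c.u' = .x)) := by decide
set_option maxRecDepth 100000 in
theorem fact_zb_be : ∀ c ∈ coreList, c.ts = .t12 →
    (rb c = some .z ↔ ¬ (cR c = false ∧ cmv c = true)) := by decide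
set_option maxRecDepth 100000 in
theorem fact_zf_al : ∀ c ∈ coreList, c.ts = .t01 →
    (rf c = some .z ↔ ¬ (cR c = false ∧ cmv c = true)) := by decide
set_option maxRecDepth 100000 in
theorem fact_zf_mb : ∀ c ∈ coreList, (c.ts = .t11 ∨ c.ts = .t12) →
    (rf c = some .z ↔ (cR c = false ∧ cmv c = true ∧ c.u = .x)) := by decide
set_option maxRecDepth 100000 in
theorem fact_Rf : ∀ c ∈ coreList, c.ts.active = true →
    (c.b'.map Prod.fst = some S.f ↔ c.b.map Prod.fst = some S.l) := by decide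
set_option maxRecDepth 100000 in
theorem fact_I : ∀ c ∈ coreList, c.ts.active = true → cR c = false →
    c.b.map Prod.fst = some c.t.fst ∧ c.b'.map Prod.fst = some c.t.snd := by decide
set_option maxRecDepth 100000 in
theorem fact_00 : ∀ c ∈ coreList, c.ts = .t01 → cR c = false → c.u' = .x → c.t ≠ .t00 := by decide
set_option maxRecDepth 100000 in
theorem fact_f0 : ∀ c ∈ coreList, c.ts = .t11 → cR c = false → c.u' = .x → c.t ≠ .f0 := by decide
set_option maxRecDepth 100000 in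
theorem fact_2l : ∀ c ∈ coreList, c.ts = .t11 → cR c = false → c.u = .x → c.t ≠ .t2l := by decide
set_option maxRecDepth 100000 in
theorem fact_22 : ∀ c ∈ coreList, c.ts = .t12 → cR c = false → c.u = .x → c.t ≠ .t22 := by decide
set_option maxRecDepth 100000 in
theorem fact_dom_u : ∀ c ∈ coreList, ¬ (c.u = .B ∧ c.u' = .A) := by decide


/-- adding one orthogonal element to a partition -/
theorem isPart_cons {E : Type*} [OMP E] {n : ℕ} {P : Fin n → E} {D K D' : E}
    (h : IsPart P D) (hK : Orth K D) (hD : K +ₒ D = D') : IsPart (Fin.cons K P : Fin (n+1) → E) D' := by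
  refine IsPart.of_isLUB ?_ ?_
  · intro i j hij
    refine Fin.cases ?_ (fun i' => ?_) i hij
    · intro hij
      refine Fin.cases ?_ (fun j' => ?_) j hij
      · intro h; exact absurd rfl h
      · intro _
        simp only [Fin.cons_zero, Fin.cons_succ]
        exact hK.mono_right (h.le_total j')
    · intro hij
      refine Fin.cases ?_ (fun j' => ?_) j hij
      · intro _
        simp only [Fin.cons_zero, Fin.cons_succ]
        exact (hK.mono_right (h.le_total i')).symm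
      · intro hij
        simp only [Fin.cons_succ]
        exact h.orth (fun h => hij (by rw [h]))
  · constructor
    · rintro _ ⟨i, rfl⟩
      refine Fin.cases ?_ (fun i' => ?_) i
      · simp only [Fin.cons_zero]; rw [← hD]; exact le_add_left hK
      · simp only [Fin.cons_succ]; rw [← hD]
        exact le_trans (h.le_total i') (le_add_right hK)
    · intro y hy
      rw [← hD]
      refine add_le hK ?_ ?_
      · have := hy ⟨0, rfl⟩
        simpa using this
      · refine h.isLUB_range.2 ?_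
        rintro _ ⟨i, rfl⟩
        have := hy ⟨i.succ, rfl⟩
        simpa using this

/-! ### the row system -/

/-- `Row i s = p^{-i} • (c_i ⊓ St s)`, `0 ≤ i < 3a`; the events of the row `i` moved to `c0`. -/
structure RowSys {E : Type*} [OMP E] (a : ℕ) (c0 m : E) (Row : ℕ → Star → E) : Prop where
  ha : 3 ≤ a
  part : ∀ i, i < 3 * a → IsPart (Row i) c0
  /-- on a row `i ≠ 0` the `P` line dominates and the `Q` line has type `tauOf a i` -/
  null : ∀ i, 1 ≤ i → i < 3 * a → ∀ s : Star, ¬ (s.domP = true ∧ s.Qb.tau = tauOf a i) →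
    Row i s = ⊥
  /-- the label of the `P` line between the rows `i` and `i+1` -/
  link : ∀ i, i + 1 < 3 * a → ∀ lam : Label,
    ev (Row i) {s | s.Pf = lam} = ev (Row (i+1)) {s | s.Pb = lam}
  /-- the mode event -/
  hm : ∀ i, a ≤ i → i ≤ 2 * a → ev (Row i) {s | Rt s} = m

theorem tauOf_a {a : ℕ} (_ : 3 ≤ a) : tauOf a a = .t01 := by
  unfold tauOf
  rw [if_neg (by omega), if_neg (by omega), if_pos rfl]
theorem tauOf_mu {a i : ℕ} (_ : 3 ≤ a) (h1 : a < i) (h2 : i < 2 * a) : tauOf a i = .t11 := by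
  unfold tauOf
  rw [if_neg (by omega), if_neg (by omega), if_neg (by omega), if_pos (by omega)]
theorem tauOf_2a {a : ℕ} (ha : 3 ≤ a) : tauOf a (2 * a) = .t12 := by
  unfold tauOf
  rw [if_neg (by omega), if_neg (by omega), if_neg (by omega), if_neg (by omega), if_pos rfl]
theorem tauOf_blank {a i : ℕ} (ha : 3 ≤ a) (h1 : 1 ≤ i) (h : i < a ∨ 2 * a < i) :
    (tauOf a i).active = false := by
  unfold tauOf
  split_ifs <;> first | rfl | omega

namespace RowSys

variable {E : Type*} [OMP E] {a : ℕ} {c0 m : E} {Row : ℕ → Star → E}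
variable (H : RowSys a c0 m Row)
include H

/-- compare two events on a row `i ≠ 0` -/
theorem row_congr {i : ℕ} (h1 : 1 ≤ i) (h2 : i < 3 * a) {A B : Set Star}
    (h : ∀ s : Star, s.domP = true → s.Qb.tau = tauOf a i → (s ∈ A ↔ s ∈ B)) :
    ev (Row i) A = ev (Row i) B := by
  refine (H.part i h2).ev_eq_ev ?_ ?_
  · intro s hs hs'
    refine H.null i h1 h2 s ?_
    rintro ⟨h3, h4⟩
    exact hs' ((h s h3 h4).1 hs)
  · intro s hs hs'
    refine H.null i h1 h2 s ?_
    rintro ⟨h3, h4⟩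
    exact hs' ((h s h3 h4).2 hs)

theorem row_mono {i : ℕ} (h1 : 1 ≤ i) (h2 : i < 3 * a) {A B : Set Star}
    (h : ∀ s : Star, s.domP = true → s.Qb.tau = tauOf a i → s ∈ A → s ∈ B) :
    ev (Row i) A ≤ ev (Row i) B := by
  refine (H.part i h2).ev_le_ev_iff.2 ?_
  intro s hs hs'
  refine H.null i h1 h2 s ?_
  rintro ⟨h3, h4⟩
  exact hs' (h s h3 h4 hs)

theorem link_set {i : ℕ} (h : i + 1 < 3 * a) (B : Set Label) :
    ev (Row i) {s | s.Pf ∈ B} = ev (Row (i+1)) {s | s.Pb ∈ B} := by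
  have h1 := (H.part i (by omega)).ev_map Star.Pf B
  have h2 := (H.part (i+1) h).ev_map Star.Pb B
  have h3 : (fun k => ev (Row i) (Star.Pf ⁻¹' {k})) = fun k => ev (Row (i+1)) (Star.Pb ⁻¹' {k}) := by
    funext k
    exact H.link i h k
  rw [h3] at h1
  exact h1.symm.trans h2

/-- blank rows do not change the `P` label -/
theorem blank {i : ℕ} (h1 : 1 ≤ i) (h2 : i < 3 * a) (h : i < a ∨ 2 * a < i) (B : Set Label) :
    ev (Row i) {s | s.Pf ∈ B} = ev (Row i) {s | s.Pb ∈ B} := by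
  refine H.row_congr h1 h2 ?_
  intro s h3 h4
  have h5 : s.Pb = s.Pf := by
    have hr := rule_P h3
    have hf := fact_blank _ (core_mem h3) (by
      show (s.Qb.tau).active = false
      rw [h4]; exact tauOf_blank H.ha h1 h)
    have h6 : s.Pb.u = s.Pf.u := hf
    have h7 := hr.1
    have h8 := hr.2.1
    cases hb : s.Pb; cases hc : s.Pf
    simp only [hb, hc] at h6 h7 h8
    simp [h6, h7, h8]
  show s.Pf ∈ B ↔ s.Pb ∈ B
  rw [h5]

/-- `R`-type crossings do not change the `P` label -/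
theorem Rt_label {s : Star} {i : ℕ} (h1 : a ≤ i) (h2 : i ≤ 2 * a) (h3 : s.domP = true)
    (h4 : s.Qb.tau = tauOf a i) (hR : Rt s) : s.Pb = s.Pf := by
  have hr := rule_P h3
  have hf := fact_R _ (core_mem h3) (by
    show (s.Qb.tau).active = true
    rw [h4]
    have ha := H.ha
    rcases Nat.lt_or_ge a i with h5 | h5
    · rcases Nat.lt_or_ge i (2*a) with h6 | h6
      · rw [tauOf_mu ha h5 h6]; rfl
      · have : i = 2 * a := by omega
        rw [this, tauOf_2a ha]; rfl
    · have : i = a := by omega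
      rw [this, tauOf_a ha]; rfl) (by
    show (s.Qb.st.map Prod.fst == some .l) = true
    have : s.Qb.st.map Prod.fst = some .l := hR
    rw [this]; rfl)
  have h6 : s.Pb.u = s.Pf.u := hf
  have h7 := hr.1
  have h8 := hr.2.1
  cases hb : s.Pb; cases hc : s.Pf
  simp only [hb, hc] at h6 h7 h8
  simp [h6, h7, h8]

/-- the `P` label after the row `j < a` -/
theorem low {j : ℕ} (h : j < a) (B : Set Label) :
    ev (Row j) {s | s.Pf ∈ B} = ev (Row 0) {s | s.Pf ∈ B} := by
  have ha := H.ha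
  induction j with
  | zero => rfl
  | succ j ih =>
    rw [H.blank (by omega) (by omega) (Or.inl h), ← H.link_set (by omega), ih (by omega)]

/-- the `P` label after the row `j ≥ 2a` -/
theorem high {j : ℕ} (h : 2 * a ≤ j) (h' : j < 3 * a) (B : Set Label) :
    ev (Row j) {s | s.Pf ∈ B} = ev (Row (2 * a)) {s | s.Pf ∈ B} := by
  induction j, h using Nat.le_induction with
  | base => rfl
  | succ j hj ih =>
    rw [H.blank (by omega) (by omega) (Or.inr (by omega)), ← H.link_set (by omega), ih (by omega)]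

/-- the type of the `P` line -/
theorem tau_row {j : ℕ} (h : j < 3 * a) (B : Set Tau) :
    ev (Row j) {s | s.Pb.tau ∈ B} = ev (Row 0) {s | s.Pb.tau ∈ B} := by
  induction j with
  | zero => rfl
  | succ j ih =>
    have h1 := H.link_set h (Label.tau ⁻¹' B)
    have h2 : ({s | s.Pf ∈ Label.tau ⁻¹' B} : Set Star) = {s | s.Pb.tau ∈ B} := by
      ext s; simp [tau_P s]
    have h3 : ({s | s.Pb ∈ Label.tau ⁻¹' B} : Set Star) = {s | s.Pb.tau ∈ B} := by
      ext s; simp
    rw [h2, h3] at h1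
    rw [← h1, ih (by omega)]


/-! #### `iota = c0 - m` on active rows -/

theorem m_le : m ≤ c0 := by
  have ha := H.ha
  rw [← H.hm a le_rfl (by omega)]
  exact (H.part a (by omega)).ev_le_total _

theorem iota_row {i : ℕ} (h1 : a ≤ i) (h2 : i ≤ 2 * a) :
    c0 -ₒ m = ev (Row i) {s | ¬ Rt s} := by
  have ha := H.ha
  rw [← H.hm i h1 h2, (H.part i (by omega)).sub_ev]
  rfl

/-- `iota ∧ [P.tau move]` -/
noncomputable def J (_ : RowSys a c0 m Row) : E := ev (Row a) {s | ¬ Rt s ∧ mv s}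

theorem J_row {i : ℕ} (h1 : a ≤ i) (h2 : i ≤ 2 * a) :
    H.J = ev (Row i) {s | ¬ Rt s ∧ mv s} := by
  have ha := H.ha
  have key : ∀ j, a ≤ j → j ≤ 2 * a → ev (Row j) {s | ¬ Rt s ∧ mv s} =
      (c0 -ₒ m) ⊓ₒ ev (Row 0) {s | s.Pb.tau ∈ ({t | t.reset = false} : Set Tau)} := by
    intro j hj1 hj2
    rw [H.iota_row hj1 hj2, ← H.tau_row (j := j) (by omega), (H.part j (by omega)).ev_meet]
    rfl
  rw [key i h1 h2]
  exact key a le_rfl (by omega)

theorem J_le_iota : H.J ≤ c0 -ₒ m := by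
  have ha := H.ha
  rw [H.iota_row (i := a) le_rfl (by omega)]
  exact (H.part a (by omega)).ev_mono (fun s hs => hs.1)

theorem J_le : H.J ≤ c0 := le_trans H.J_le_iota (sub_le H.m_le)

/-- `K = m + iota ∧ [P.tau reset] = c0 - J` -/
noncomputable def K (H : RowSys a c0 m Row) : E := c0 -ₒ H.J

theorem K_row {i : ℕ} (h1 : a ≤ i) (h2 : i ≤ 2 * a) :
    H.K = ev (Row i) {s | ¬ (¬ Rt s ∧ mv s)} := by
  have ha := H.ha
  show c0 -ₒ H.J = _
  rw [H.J_row h1 h2, (H.part i (by omega)).sub_ev]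
  rfl

theorem J_orth_K : Orth H.J H.K := orth_sub H.J_le
theorem J_add_K : H.J +ₒ H.K = c0 := add_sub H.J_le

/-- `iota ∧ [P.tau reset]` -/
noncomputable def Jr (_ : RowSys a c0 m Row) : E := ev (Row a) {s | ¬ Rt s ∧ ¬ mv s}

theorem Jr_row {i : ℕ} (h1 : a ≤ i) (h2 : i ≤ 2 * a) :
    H.Jr = ev (Row i) {s | ¬ Rt s ∧ ¬ mv s} := by
  have ha := H.ha
  have key : ∀ j, a ≤ j → j ≤ 2 * a → ev (Row j) {s | ¬ Rt s ∧ ¬ mv s} =
      (c0 -ₒ m) ⊓ₒ ev (Row 0) {s | s.Pb.tau ∈ ({t | ¬ t.reset = false} : Set Tau)} := by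
    intro j hj1 hj2
    rw [H.iota_row hj1 hj2, ← H.tau_row (j := j) (by omega), (H.part j (by omega)).ev_meet]
    rfl
  rw [key i h1 h2]
  exact key a le_rfl (by omega)

theorem J_orth_Jr : Orth H.J H.Jr := by
  have ha := H.ha
  exact (H.part a (by omega)).ev_orth (by
    rw [Set.disjoint_left]; rintro s ⟨_, h⟩ ⟨_, h'⟩; exact h' h)

theorem J_add_Jr : H.J +ₒ H.Jr = c0 -ₒ m := by
  have ha := H.ha
  rw [H.iota_row (i := a) le_rfl (by omega)]
  show ev _ _ +ₒ ev _ _ = _
  rw [(H.part a (by omega)).ev_add]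
  · congr 1
    ext s
    by_cases h : mv s <;> simp [h]
  · rw [Set.disjoint_left]; rintro s ⟨_, h⟩ ⟨_, h'⟩; exact h' h

theorem K_eq : H.K = m +ₒ H.Jr := by
  have ha := H.ha
  have e1 := H.hm a le_rfl (by omega)
  have e2 : ev (Row a) {s | Rt s} +ₒ ev (Row a) {s | ¬ Rt s ∧ ¬ mv s} =
      ev (Row a) {s | ¬ (¬ Rt s ∧ mv s)} := by
    rw [(H.part a (by omega)).ev_add]
    · congr 1
      ext s
      by_cases h : mv s <;> by_cases h2 : Rt s <;> simp [h, h2]
    · rw [Set.disjoint_left]; rintro s h ⟨h', _⟩; exact h' h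
  rw [e1] at e2
  rw [H.K_row (i := a) le_rfl (by omega)]
  exact e2.symm

/-! #### the marker chain -/

/-- memory after the row `i` equal to `u` (on `J`) -/
noncomputable def T (_ : RowSys a c0 m Row) (i : ℕ) (u : Mem) : E :=
  ev (Row i) {s | ¬ Rt s ∧ mv s ∧ s.Pf.u = u}
/-- memory before the row `i` equal to `u` (on `J`) -/
noncomputable def Tb (_ : RowSys a c0 m Row) (i : ℕ) (u : Mem) : E :=
  ev (Row i) {s | ¬ Rt s ∧ mv s ∧ s.Pb.u = u}

theorem T_eq_meet {i : ℕ} (h1 : a ≤ i) (h2 : i ≤ 2 * a) (u : Mem) :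
    H.T i u = H.J ⊓ₒ ev (Row i) {s | s.Pf ∈ ({L | L.u = u} : Set Label)} := by
  have ha := H.ha
  rw [H.J_row h1 h2, (H.part i (by omega)).ev_meet]
  show ev _ _ = ev _ _
  congr 1
  ext s
  simp [and_assoc]

theorem Tb_eq_meet {i : ℕ} (h1 : a ≤ i) (h2 : i ≤ 2 * a) (u : Mem) :
    H.Tb i u = H.J ⊓ₒ ev (Row i) {s | s.Pb ∈ ({L | L.u = u} : Set Label)} := by
  have ha := H.ha
  rw [H.J_row h1 h2, (H.part i (by omega)).ev_meet]
  show ev _ _ = ev _ _
  congr 1
  ext s
  simp [and_assoc]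

theorem T_succ {i : ℕ} (h1 : a ≤ i) (h2 : i + 1 ≤ 2 * a) (u : Mem) :
    H.T i u = H.Tb (i+1) u := by
  have ha := H.ha
  rw [H.T_eq_meet h1 (by omega), H.Tb_eq_meet (by omega) h2, H.link_set (by omega)]

/-- the marker event `X_i = [u after row i is x]` on `J`, `a ≤ i < 2a` -/
noncomputable def X (H : RowSys a c0 m Row) (i : ℕ) : E := H.T i .x

omit [OMP E] H in
theorem cR_iff {s : Star} : cR (coreP s) = false ↔ ¬ Rt s := by
  have h : cR (coreP s) = (s.Qb.st.map Prod.fst == some S.l) := rfl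
  rw [h]
  show _ ↔ ¬ (s.Qb.st.map Prod.fst = some S.l)
  cases s.Qb.st.map Prod.fst with
  | none => simp
  | some v => cases v <;> simp


omit [OMP E] H in
theorem cmv_iff {s : Star} : cmv (coreP s) = true ↔ mv s := by
  show (s.Pb.tau.reset == false) = true ↔ s.Pb.tau.reset = false
  cases s.Pb.tau.reset <;> simp

omit [OMP E] H in
theorem cmv_iff' {s : Star} : cmv (coreP s) = false ↔ ¬ mv s := by
  show (s.Pb.tau.reset == false) = false ↔ ¬ s.Pb.tau.reset = false
  cases s.Pb.tau.reset <;> simp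

/-- alpha row -/
theorem T_alpha : H.J = H.T a .A +ₒ H.T a .x ∧ Orth (H.T a .A) (H.T a .x) := by
  have ha := H.ha
  have hp := H.part a (by omega)
  have hd : Disjoint {s : Star | ¬ Rt s ∧ mv s ∧ s.Pf.u = .A} {s | ¬ Rt s ∧ mv s ∧ s.Pf.u = .x} := by
    rw [Set.disjoint_left]; rintro s ⟨_, _, h⟩ ⟨_, _, h'⟩; rw [h] at h'; cases h'
  refine ⟨?_, hp.ev_orth hd⟩
  show ev _ _ = ev _ _ +ₒ ev _ _
  rw [hp.ev_add hd]
  refine H.row_congr (by omega) (by omega) ?_
  intro s h3 h4
  rw [tauOf_a ha] at h4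
  have hf := fact_alpha _ (core_mem h3) h4
  constructor
  · rintro ⟨h1, h2⟩
    have h5 : s.Pf.u ≠ .B := (hf (cR_iff.2 h1)).2.1 (cmv_iff.2 h2)
    rcases hu : s.Pf.u with _ | _ | _
    · left; exact ⟨h1, h2, hu⟩
    · right; exact ⟨h1, h2, hu⟩
    · exact absurd hu h5
  · rintro (⟨h1, h2, _⟩ | ⟨h1, h2, _⟩) <;> exact ⟨h1, h2⟩

/-- mu rows -/
theorem T_mu {i : ℕ} (h1 : a < i) (h2 : i < 2 * a) :
    H.Tb i .A = H.T i .A +ₒ H.T i .x ∧ Orth (H.T i .A) (H.T i .x) := by
  have ha := H.ha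
  have hp := H.part i (by omega)
  have hd : Disjoint {s : Star | ¬ Rt s ∧ mv s ∧ s.Pf.u = .A} {s | ¬ Rt s ∧ mv s ∧ s.Pf.u = .x} := by
    rw [Set.disjoint_left]; rintro s ⟨_, _, h⟩ ⟨_, _, h'⟩; rw [h] at h'; cases h'
  refine ⟨?_, hp.ev_orth hd⟩
  show ev _ _ = ev _ _ +ₒ ev _ _
  rw [hp.ev_add hd]
  refine H.row_congr (by omega) (by omega) ?_
  intro s h3 h4
  rw [tauOf_mu ha h1 h2] at h4
  constructor
  · rintro ⟨h5, h6, h7⟩
    have h7' : (coreP s).u = .A := h7
    have h8 : s.Pf.u ≠ .B := by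
      rcases fact_mu_mv _ (core_mem h3) h4 (cR_iff.2 h5) (cmv_iff.2 h6) with ⟨_, h⟩ | ⟨h, _⟩
      · exact h
      · exact absurd h7' h
    rcases hu : s.Pf.u with _ | _ | _
    · left; exact ⟨h5, h6, hu⟩
    · right; exact ⟨h5, h6, hu⟩
    · exact absurd hu h8
  · intro h
    have h5 : ¬ Rt s := by rcases h with h | h <;> exact h.1
    have h6 : mv s := by rcases h with h | h <;> exact h.2.1
    have h7 : s.Pf.u ≠ .B := by
      rcases h with h | h
      · rw [h.2.2]; decide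
      · rw [h.2.2]; decide
    have h8 : (coreP s).u = .A := by
      rcases fact_mu_mv _ (core_mem h3) h4 (cR_iff.2 h5) (cmv_iff.2 h6) with ⟨h, _⟩ | ⟨_, h⟩
      · exact h
      · exact absurd h h7
    exact ⟨h5, h6, h8⟩

/-- beta row -/
theorem T_beta : H.Tb (2 * a) .A = ⊥ := by
  have ha := H.ha
  refine (H.part (2 * a) (by omega)).ev_eq_bot_iff.2 ?_
  rintro s ⟨h1, h2, h3⟩
  refine H.null (2 * a) (by omega) (by omega) s ?_
  rintro ⟨h4, h5⟩
  rw [tauOf_2a ha] at h5
  exact (fact_beta _ (core_mem h4) h5 (cR_iff.2 h1)).2.1 (cmv_iff.2 h2) h3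

/-- **the marker partition** -/
theorem X_part : IsPart (fun k : Fin a => H.X (a + k)) H.J := by
  have ha := H.ha
  refine isPart_of_chain (N := a) (J := H.J) (A := fun k => H.T (a + k) .A)
    (X := fun k => H.X (a + k)) ?_ ?_ ?_ (by omega) ?_
  · exact H.T_alpha.2
  · exact H.T_alpha.1
  · intro i hi
    have h := H.T_mu (i := a + (i+1)) (by omega) (by omega)
    refine ⟨h.2, ?_⟩
    show H.T (a + i) .A = H.T (a + (i+1)) .A +ₒ H.T (a + (i+1)) .x
    rw [← h.1]
    exact H.T_succ (by omega) (by omega) .A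
  · have h := H.T_succ (i := a + (a - 1)) (by omega) (by omega) .A
    have e : a + (a - 1) + 1 = 2 * a := by omega
    rw [e] at h
    show H.T (a + (a-1)) .A = ⊥
    rw [h, H.T_beta]

theorem X_le_J {i : ℕ} (h1 : a ≤ i) (h2 : i ≤ 2 * a) : H.X i ≤ H.J := by
  have ha := H.ha
  rw [H.J_row h1 h2]
  exact (H.part i (by omega)).ev_mono (fun s hs => ⟨hs.1, hs.2.1⟩)


/-! #### position of the marker relative to a row -/

theorem T_A_anti {i j : ℕ} (h1 : a ≤ i) (h2 : i ≤ j) (h3 : j < 2 * a) : H.T j .A ≤ H.T i .A := by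
  induction j, h2 using Nat.le_induction with
  | base => exact le_rfl
  | succ j hj ih =>
    obtain ⟨e, ho⟩ := H.T_mu (i := j+1) (by omega) h3
    refine le_trans ?_ (ih (by omega))
    rw [H.T_succ (i := j) (by omega) (by omega), e]
    exact le_add_left ho

/-- `X_j ≤ [u = A]` after the rows `i < j` -/
theorem X_le_T_A {i j : ℕ} (h1 : a ≤ i) (h2 : i < j) (h3 : j < 2 * a) : H.X j ≤ H.T i .A := by
  obtain ⟨k, rfl⟩ : ∃ k, j = k + 1 := ⟨j - 1, by omega⟩
  obtain ⟨e, ho⟩ := H.T_mu (i := k+1) (by omega) h3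
  refine le_trans ?_ (H.T_A_anti h1 (j := k) (by omega) (by omega))
  rw [H.T_succ (i := k) (by omega) (by omega), e]
  exact le_add_right ho

theorem T_B_mono {i j : ℕ} (h1 : a ≤ i) (h2 : i ≤ j) (h3 : j ≤ 2 * a) : H.T i .B ≤ H.T j .B := by
  have ha := H.ha
  induction j, h2 using Nat.le_induction with
  | base => exact le_rfl
  | succ j hj ih =>
    refine le_trans (ih (by omega)) ?_
    rw [H.T_succ (i := j) (by omega) (by omega)]
    refine H.row_mono (by omega) (by omega) ?_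
    rintro s h4 h5 ⟨h6, h7, h8⟩
    refine ⟨h6, h7, ?_⟩
    rcases Nat.lt_or_ge (j+1) (2*a) with h9 | h9
    · rw [tauOf_mu ha (by omega) h9] at h5
      rcases fact_mu_mv _ (core_mem h4) h5 (cR_iff.2 h6) (cmv_iff.2 h7) with ⟨h, _⟩ | ⟨_, h⟩
      · have h8' : (coreP s).u = .B := h8
        rw [h8'] at h; cases h
      · exact h
    · have e : j + 1 = 2 * a := by omega
      rw [e, tauOf_2a ha] at h5
      exact (fact_beta _ (core_mem h4) h5 (cR_iff.2 h6)).1

/-- `X_i ≤ [u = B]` after the rows `j > i` -/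
theorem X_le_T_B {i j : ℕ} (h1 : a ≤ i) (h2 : i < j) (h3 : j ≤ 2 * a) : H.X i ≤ H.T j .B := by
  have ha := H.ha
  refine le_trans ?_ (H.T_B_mono (i := i+1) (by omega) (by omega) h3)
  show H.T i .x ≤ _
  rw [H.T_succ (i := i) (by omega) (by omega)]
  refine H.row_mono (by omega) (by omega) ?_
  rintro s h4 h5 ⟨h6, h7, h8⟩
  refine ⟨h6, h7, ?_⟩
  have h8' : (coreP s).u = .x := h8
  rcases Nat.lt_or_ge (i+1) (2*a) with h9 | h9
  · rw [tauOf_mu ha (by omega) h9] at h5
    rcases fact_mu_mv _ (core_mem h4) h5 (cR_iff.2 h6) (cmv_iff.2 h7) with ⟨h, _⟩ | ⟨_, h⟩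
    · rw [h8'] at h; cases h
    · exact h
  · have e : i + 1 = 2 * a := by omega
    rw [e, tauOf_2a ha] at h5
    exact (fact_beta _ (core_mem h4) h5 (cR_iff.2 h6)).1

theorem T_le {i : ℕ} (h : i < 3 * a) (u : Mem) :
    H.T i u ≤ ev (Row i) {s | s.Pf.u = u} :=
  (H.part i h).ev_mono (fun _ hs => hs.2.2)

/-! #### step 6 -/

/-- before the marker zone the memory is `A` (on `iota`) -/
theorem iota_le_A {j : ℕ} (h : j < a) : c0 -ₒ m ≤ ev (Row j) {s | s.Pf.u = .A} := by
  have ha := H.ha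
  have h1 := H.low h {L | L.u = .A}
  have h2 := H.low (j := a - 1) (by omega) {L | L.u = .A}
  have h3 := H.link_set (i := a - 1) (by omega) {L | L.u = .A}
  have e : a - 1 + 1 = a := by omega
  rw [e] at h3
  have h4 : ev (Row j) {s | s.Pf.u = .A} = ev (Row a) {s | s.Pb.u = .A} :=
    (h1.trans h2.symm).trans h3
  rw [h4, H.iota_row (i := a) le_rfl (by omega)]
  refine H.row_mono (by omega) (by omega) ?_
  intro s h5 h6 h7
  rw [tauOf_a ha] at h6
  exact (fact_alpha _ (core_mem h5) h6 (cR_iff.2 h7)).1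

/-- after the marker zone the memory is `B` (on `iota`) -/
theorem iota_le_B {j : ℕ} (h : 2 * a ≤ j) (h' : j < 3 * a) :
    c0 -ₒ m ≤ ev (Row j) {s | s.Pf.u = .B} := by
  have ha := H.ha
  have h1 := H.high h h' {L | L.u = .B}
  have h4 : ev (Row j) {s | s.Pf.u = .B} = ev (Row (2*a)) {s | s.Pf.u = .B} := h1
  rw [h4, H.iota_row (i := 2*a) (by omega) (by omega)]
  refine H.row_mono (by omega) (by omega) ?_
  intro s h5 h6 h7
  rw [tauOf_2a ha] at h6
  exact (fact_beta _ (core_mem h5) h6 (cR_iff.2 h7)).1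

/-- `Jr` (reset): memory `A` before the last active row -/
theorem Jr_le_A {j : ℕ} (h : j < 2 * a) : H.Jr ≤ ev (Row j) {s | s.Pf.u = .A} := by
  have ha := H.ha
  rcases Nat.lt_or_ge j a with h1 | h1
  · refine le_trans ?_ (H.iota_le_A h1)
    rw [← H.J_add_Jr]
    exact le_add_right H.J_orth_Jr
  · rw [H.Jr_row h1 (by omega)]
    refine H.row_mono (by omega) (by omega) ?_
    rintro s h5 h6 ⟨h7, h8⟩
    rcases Nat.lt_or_ge a j with h9 | h9
    · rw [tauOf_mu ha h9 h] at h6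
      exact (fact_mu_rs _ (core_mem h5) h6 (cR_iff.2 h7) (cmv_iff'.2 h8)).2
    · have e : j = a := by omega
      rw [e, tauOf_a ha] at h6
      exact (fact_alpha _ (core_mem h5) h6 (cR_iff.2 h7)).2.2 (cmv_iff'.2 h8)

theorem Jr_le_B {j : ℕ} (h : 2 * a ≤ j) (h' : j < 3 * a) : H.Jr ≤ ev (Row j) {s | s.Pf.u = .B} := by
  refine le_trans ?_ (H.iota_le_B h h')
  rw [← H.J_add_Jr]
  exact le_add_right H.J_orth_Jr

/-- position of the marker: `X_i ≤ [u = A]` after the rows `j < i` (all rows `0 ≤ j`) -/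
theorem X_le_A {i j : ℕ} (h1 : a ≤ i) (h2 : i < 2 * a) (h3 : j < i) :
    H.X i ≤ ev (Row j) {s | s.Pf.u = .A} := by
  rcases Nat.lt_or_ge j a with h4 | h4
  · exact le_trans (H.X_le_J h1 (by omega)) (le_trans H.J_le_iota (H.iota_le_A h4))
  · exact le_trans (H.X_le_T_A h4 h3 h2) (H.T_le (by omega) .A)

theorem X_le_x {i : ℕ} (h2 : i < 2 * a) : H.X i ≤ ev (Row i) {s | s.Pf.u = .x} := by
  have ha := H.ha
  exact H.T_le (by omega) .x

theorem X_le_B {i j : ℕ} (h1 : a ≤ i) (h2 : i < 2 * a) (h3 : i < j) (h4 : j < 3 * a) :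
    H.X i ≤ ev (Row j) {s | s.Pf.u = .B} := by
  rcases Nat.lt_or_ge j (2*a) with h5 | h5
  · exact le_trans (H.X_le_T_B h1 h3 (by omega)) (H.T_le (by omega) .B)
  · exact le_trans (H.X_le_J h1 (by omega)) (le_trans H.J_le_iota (H.iota_le_B h5 h4))

/-- on `m` all `P` labels are constant -/
theorem m_label {j : ℕ} (h : j < 3 * a) (B : Set Label) :
    m ⊓ₒ ev (Row j) {s | s.Pf ∈ B} = m ⊓ₒ ev (Row 0) {s | s.Pf ∈ B} := by
  have ha := H.ha
  induction j with
  | zero => rfl
  | succ j ih =>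
    have ih := ih (by omega)
    rw [← ih]
    rcases Nat.lt_or_ge (j+1) a with h1 | h1
    · rw [H.blank (i := j+1) (by omega) h (Or.inl h1), H.link_set h]
    rcases Nat.lt_or_ge (2*a) (j+1) with h2 | h2
    · rw [H.blank (i := j+1) (by omega) h (Or.inr h2), H.link_set h]
    rw [H.link_set h, ← H.hm (j+1) h1 h2]
    rw [(H.part (j+1) h).ev_meet, (H.part (j+1) h).ev_meet]
    refine H.row_congr (by omega) h ?_
    intro s h3 h4
    constructor
    · rintro ⟨h5, h6⟩
      refine ⟨h5, ?_⟩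
      show s.Pb ∈ B
      rw [H.Rt_label h1 h2 h3 h4 h5]; exact h6
    · rintro ⟨h5, h6⟩
      refine ⟨h5, ?_⟩
      show s.Pf ∈ B
      rw [← H.Rt_label h1 h2 h3 h4 h5]; exact h6

/-- `iota ≤ [domP = false]` on the row `0`.  `P` acts as `p^n`. -/
theorem iota_le_domQ {G : Type*} [Group G] [OMPAct G E] (P : G) (hPm : P • m = m) (hPc : P • c0 = c0)
    (hwrap : ∀ lam : Label, ev (Row 0) {s | s.Pb = lam} = P • ev (Row (3*a-1)) {s | s.Pf = lam}) :
    c0 -ₒ m ≤ ev (Row 0) {s | s.Pf.u = .A ∧ s.Pb.u = .B ∧ s.domP = false} := by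
  have ha := H.ha
  have hp := H.part 0 (by omega)
  have hB : c0 -ₒ m ≤ ev (Row 0) {s | s.Pb.u = .B} := by
    have h1 := hp.ev_map Star.Pb {L | L.u = .B}
    have h2 := (H.part (3*a-1) (by omega)).ev_map Star.Pf {L | L.u = .B}
    have h3 : (fun k => ev (Row 0) (Star.Pb ⁻¹' {k})) =
        fun k => P • ev (Row (3*a-1)) (Star.Pf ⁻¹' {k}) := by
      funext k
      exact hwrap k
    rw [h3, ← smul_ev, h2] at h1
    have h4 : ev (Row 0) {s | s.Pb.u = .B} = P • ev (Row (3*a-1)) {s | s.Pf.u = .B} := h1.symm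
    rw [h4]
    have h5 : P • (c0 -ₒ m) = c0 -ₒ m := by rw [Romp.smul_sub, hPm, hPc]
    rw [← h5]
    exact smul_le_smul P (H.iota_le_B (by omega) (by omega))
  have hA := H.iota_le_A (j := 0) (by omega)
  have hAB : c0 -ₒ m ≤ ev (Row 0) ({s | s.Pf.u = .A} ∩ {s | s.Pb.u = .B}) := by
    rw [← hp.ev_meet]
    exact le_meet (hp.comm_ev _ _) hA hB
  refine le_trans hAB (hp.ev_mono ?_)
  rintro s ⟨h1, h2⟩
  refine ⟨h1, h2, ?_⟩
  cases h : s.domP
  · rfl
  · exact absurd ⟨h2, h1⟩ (fact_dom_u _ (core_mem h))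

/-! #### the zero-sign events -/

/-- `Z^-_i = [Qb.r = 0]` -/
noncomputable def Zm (_ : RowSys a c0 m Row) (i : ℕ) : E := ev (Row i) {s | s.Qb.r = some .z}
/-- `Z^+_i = [Qf.r = 0]` -/
noncomputable def Zp (_ : RowSys a c0 m Row) (i : ℕ) : E := ev (Row i) {s | s.Qf.r = some .z}

theorem Zm_eq {i : ℕ} (h1 : a ≤ i) (h2 : i < 2 * a) : H.Zm i = H.X i := by
  have ha := H.ha
  refine H.row_congr (by omega) (by omega) ?_
  intro s h3 h4
  have h5 : s.Qb.tau = .t01 ∨ s.Qb.tau = .t11 := by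
    rcases Nat.lt_or_ge a i with h9 | h9
    · right; rw [h4, tauOf_mu ha h9 h2]
    · left; have e : i = a := by omega
      rw [h4, e, tauOf_a ha]
  have h6 := fact_zb_am _ (core_mem h3) h5
  rw [cR_iff, cmv_iff] at h6
  exact h6

theorem Zm_last : H.Zm (2 * a) = H.K := by
  have ha := H.ha
  rw [H.K_row (i := 2*a) (by omega) le_rfl]
  refine H.row_congr (by omega) (by omega) ?_
  intro s h3 h4
  rw [tauOf_2a ha] at h4
  have h6 := fact_zb_be _ (core_mem h3) h4
  rw [cR_iff, cmv_iff] at h6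
  exact h6

theorem Zp_first : H.Zp a = H.K := by
  have ha := H.ha
  rw [H.K_row (i := a) le_rfl (by omega)]
  refine H.row_congr (by omega) (by omega) ?_
  intro s h3 h4
  rw [tauOf_a ha] at h4
  have h6 := fact_zf_al _ (core_mem h3) h4
  rw [cR_iff, cmv_iff] at h6
  exact h6

theorem Zp_succ {i : ℕ} (h1 : a ≤ i) (h2 : i < 2 * a) : H.Zp (i+1) = H.X i := by
  have ha := H.ha
  show _ = H.T i .x
  rw [H.T_succ h1 (by omega)]
  refine H.row_congr (by omega) (by omega) ?_
  intro s h3 h4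
  have h5 : s.Qb.tau = .t11 ∨ s.Qb.tau = .t12 := by
    rcases Nat.lt_or_ge (i+1) (2*a) with h9 | h9
    · left; rw [h4, tauOf_mu ha (by omega) h9]
    · right; have e : i + 1 = 2 * a := by omega
      rw [h4, e, tauOf_2a ha]
  have h6 := fact_zf_mb _ (core_mem h3) h5
  rw [cR_iff, cmv_iff] at h6
  exact h6


/-- `Z^+_a, ..., Z^+_{2a}` is a partition of `c0` -/
theorem Zp_part : IsPart (fun k : Fin (a+1) => H.Zp (a + k)) c0 := by
  have h := isPart_cons H.X_part H.J_orth_K.symm (D' := c0) (by rw [Romp.add_comm', H.J_add_K])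
  have e : (fun k : Fin (a+1) => H.Zp (a + k)) = Fin.cons H.K (fun k : Fin a => H.X (a + k)) := by
    funext k
    refine Fin.cases ?_ (fun k' => ?_) k
    · simp only [Fin.cons_zero]
      exact H.Zp_first
    · simp only [Fin.cons_succ]
      exact H.Zp_succ (i := a + k') (by omega) (by omega)
  rw [e]; exact h

/-- `Z^-_a, ..., Z^-_{2a}` is a partition of `c0` -/
theorem Zm_part : IsPart (fun k : Fin (a+1) => H.Zm (a + k)) c0 := by
  have ha := H.ha
  refine IsPart.of_isLUB ?_ ?_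
  · intro i j hij
    show Orth (H.Zm (a + i)) (H.Zm (a + j))
    by_cases hi : (i : ℕ) = a
    · by_cases hj : (j : ℕ) = a
      · exact absurd (Fin.ext (hi.trans hj.symm)) hij
      · have e1 : a + (i:ℕ) = 2 * a := by omega
        rw [e1, H.Zm_last, H.Zm_eq (i := a + j) (by omega) (by omega)]
        exact (H.J_orth_K.mono_left (H.X_le_J (by omega) (by omega))).symm
    · by_cases hj : (j : ℕ) = a
      · have e1 : a + (j:ℕ) = 2 * a := by omega
        rw [e1, H.Zm_last, H.Zm_eq (i := a + i) (by omega) (by omega)]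
        exact H.J_orth_K.mono_left (H.X_le_J (by omega) (by omega))
      · rw [H.Zm_eq (i := a + i) (by omega) (by omega), H.Zm_eq (i := a + j) (by omega) (by omega)]
        exact H.X_part.orth (i := ⟨i, by omega⟩) (j := ⟨j, by omega⟩)
          (fun h => hij (Fin.ext (by simpa using congrArg Fin.val h)))
  · constructor
    · rintro _ ⟨i, rfl⟩
      exact (H.part (a + i) (by omega)).ev_le_total _
    · intro y hy
      rw [← H.J_add_K]
      refine add_le H.J_orth_K ?_ ?_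
      · refine H.X_part.isLUB_range.2 ?_
        rintro _ ⟨i, rfl⟩
        have h1 := hy ⟨⟨i, by omega⟩, rfl⟩
        have h2 : H.Zm (a + i) ≤ y := h1
        rw [H.Zm_eq (i := a + i) (by omega) (by omega)] at h2
        exact h2
      · have h1 := hy ⟨⟨a, by omega⟩, rfl⟩
        have h2 : H.Zm (a + a) ≤ y := h1
        have e1 : a + a = 2 * a := by omega
        rw [e1, H.Zm_last] at h2
        exact h2

/-- if `Q` shifts the states on the row `i` (L8), it shifts every event about the state. -/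
theorem shift_st {G : Type*} [Group G] [OMPAct G E] (Q : G) {i : ℕ} (h2 : i < 3 * a)
    (hq : ∀ st : Option (S × Rel), Q • ev (Row i) {s | s.Qf.st = st} = ev (Row i) {s | s.Qb.st = st})
    (B : Set (Option (S × Rel))) :
    Q • ev (Row i) {s | s.Qf.st ∈ B} = ev (Row i) {s | s.Qb.st ∈ B} := by
  have h3 := (H.part i h2).ev_map (fun s : Star => s.Qf.st) B
  have h4 := (H.part i h2).ev_map (fun s : Star => s.Qb.st) B
  have h5 : (fun k => ev (Row i) ((fun s : Star => s.Qb.st) ⁻¹' {k})) =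
      fun k => Q • ev (Row i) ((fun s : Star => s.Qf.st) ⁻¹' {k}) := by
    funext k
    exact (hq k).symm
  rw [h5, ← smul_ev, h3] at h4
  exact h4

theorem shift_Z {G : Type*} [Group G] [OMPAct G E] (Q : G) {i : ℕ} (h2 : i < 3 * a)
    (hq : ∀ st : Option (S × Rel), Q • ev (Row i) {s | s.Qf.st = st} = ev (Row i) {s | s.Qb.st = st}) :
    Q • H.Zp i = H.Zm i :=
  H.shift_st Q h2 hq {st | st.map Prod.snd = some .z}


/-! #### the types on `iota` -/

theorem active_row {i : ℕ} (h1 : a ≤ i) (h2 : i ≤ 2 * a) : (tauOf a i).active = true := by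
  have ha := H.ha
  unfold tauOf
  split_ifs <;> first | rfl | omega

/-- `IT th = iota ∧ [P.tau = th]` -/
noncomputable def IT (_ : RowSys a c0 m Row) (th : Tau) : E :=
  ev (Row a) {s | ¬ Rt s ∧ s.Pb.tau = th}

theorem IT_row {i : ℕ} (h1 : a ≤ i) (h2 : i ≤ 2 * a) (th : Tau) :
    H.IT th = ev (Row i) {s | ¬ Rt s ∧ s.Pb.tau = th} := by
  have ha := H.ha
  have key : ∀ j, a ≤ j → j ≤ 2 * a → ev (Row j) {s | ¬ Rt s ∧ s.Pb.tau = th} =
      (c0 -ₒ m) ⊓ₒ ev (Row 0) {s | s.Pb.tau ∈ ({th} : Set Tau)} := by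
    intro j hj1 hj2
    rw [H.iota_row hj1 hj2, ← H.tau_row (j := j) (by omega), (H.part j (by omega)).ev_meet]
    rfl
  rw [key i h1 h2]
  exact key a le_rfl (by omega)

theorem IT_eq_meet (th : Tau) :
    H.IT th = (c0 -ₒ m) ⊓ₒ ev (Row 0) {s | s.Pb.tau = th} := by
  have ha := H.ha
  have h := H.iota_row (i := a) le_rfl (by omega)
  have h2 := H.tau_row (j := a) (by omega) ({th} : Set Tau)
  have h3 : ev (Row 0) {s | s.Pb.tau = th} = ev (Row a) {s | s.Pb.tau = th} := h2.symm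
  rw [h, h3, (H.part a (by omega)).ev_meet]
  rfl

theorem ev_IT {i : ℕ} (h1 : a ≤ i) (h2 : i ≤ 2 * a) (B : Set Tau) :
    ev H.IT B = ev (Row i) {s | ¬ Rt s ∧ s.Pb.tau ∈ B} := by
  have ha := H.ha
  have hp := H.part i (by omega)
  have hx : ∀ s, Comm (ev (Row i) {s | ¬ Rt s}) (Row i s) := fun s => by
    have := hp.comm_ev {s | ¬ Rt s} {s}
    rwa [ev_singleton] at this
  have hr := hp.restrict hx
  have e : H.IT = fun th => ev (fun s => ev (Row i) {s | ¬ Rt s} ⊓ₒ Row i s)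
      ((fun s : Star => s.Pb.tau) ⁻¹' {th}) := by
    funext th
    rw [← hp.meet_ev hx, hp.ev_meet, H.IT_row h1 h2]
    rfl
  rw [e, hr.ev_map, ← hp.meet_ev hx, hp.ev_meet]
  rfl

theorem IT_part : IsPart H.IT (c0 -ₒ m) := by
  have ha := H.ha
  have hp := H.part a (by omega)
  have hx : ∀ s, Comm (ev (Row a) {s | ¬ Rt s}) (Row a s) := fun s => by
    have := hp.comm_ev {s | ¬ Rt s} {s}
    rwa [ev_singleton] at this
  have hr := hp.restrict hx
  have e : H.IT = fun th => ev (fun s => ev (Row a) {s | ¬ Rt s} ⊓ₒ Row a s)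
      ((fun s : Star => s.Pb.tau) ⁻¹' {th}) := by
    funext th
    rw [← hp.meet_ev hx, hp.ev_meet, H.IT_row le_rfl (by omega)]
    rfl
  have h2 := hr.map (fun s : Star => s.Pb.tau)
  rw [← e] at h2
  have h3 : ev (Row a) {s | ¬ Rt s} ⊓ₒ c0 = c0 -ₒ m := by
    rw [meet_eq_left (hp.ev_le_total _), ← H.iota_row le_rfl (by omega)]
  rwa [h3] at h2

theorem J_eq_IT : H.J = ev H.IT {th | th.reset = false} := by
  have ha := H.ha
  rw [H.ev_IT (i := a) le_rfl (by omega), H.J_row (i := a) le_rfl (by omega)]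
  rfl

theorem Jr_eq_IT : H.Jr = ev H.IT {th | th.reset = true} := by
  have ha := H.ha
  rw [H.ev_IT (i := a) le_rfl (by omega), H.Jr_row (i := a) le_rfl (by omega)]
  congr 1
  ext s
  show ¬ Rt s ∧ ¬ s.Pb.tau.reset = false ↔ ¬ Rt s ∧ s.Pb.tau.reset = true
  simp

theorem X_comm_IT {i : ℕ} (h1 : a ≤ i) (h2 : i < 2 * a) (th : Tau) : Comm (H.X i) (H.IT th) := by
  rw [H.IT_row h1 (by omega)]
  exact (H.part i (by omega)).comm_ev _ _

theorem X_IT_row {i : ℕ} (h1 : a ≤ i) (h2 : i < 2 * a) (th : Tau) :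
    H.X i ⊓ₒ H.IT th = ev (Row i) {s | ¬ Rt s ∧ mv s ∧ s.Pf.u = .x ∧ s.Pb.tau = th} := by
  rw [H.IT_row h1 (by omega)]
  show ev _ _ ⊓ₒ ev _ _ = _
  rw [(H.part i (by omega)).ev_meet]
  congr 1
  ext s
  show (¬ Rt s ∧ mv s ∧ s.Pf.u = .x) ∧ (¬ Rt s ∧ s.Pb.tau = th) ↔ _
  exact ⟨fun h => ⟨h.1.1, h.1.2.1, h.1.2.2, h.2.2⟩, fun h => ⟨⟨h.1, h.2.1, h.2.2.1⟩, h.1, h.2.2.2⟩⟩

theorem X_IT_row_succ {i : ℕ} (h1 : a ≤ i) (h2 : i < 2 * a) (th : Tau) :
    H.X i ⊓ₒ H.IT th = ev (Row (i+1)) {s | ¬ Rt s ∧ mv s ∧ s.Pb.u = .x ∧ s.Pb.tau = th} := by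
  rw [H.IT_row (i := i+1) (by omega) (by omega)]
  show H.T i .x ⊓ₒ _ = _
  rw [H.T_succ h1 (by omega)]
  show ev _ _ ⊓ₒ ev _ _ = _
  rw [(H.part (i+1) (by omega)).ev_meet]
  congr 1
  ext s
  show (¬ Rt s ∧ mv s ∧ s.Pb.u = .x) ∧ (¬ Rt s ∧ s.Pb.tau = th) ↔ _
  exact ⟨fun h => ⟨h.1.1, h.1.2.1, h.1.2.2, h.2.2⟩, fun h => ⟨⟨h.1, h.2.1, h.2.2.1⟩, h.1, h.2.2.2⟩⟩

theorem X_00 : H.X a ⊓ₒ H.IT .t00 = ⊥ := by
  have ha := H.ha
  rw [H.X_IT_row le_rfl (by omega), (H.part a (by omega)).ev_eq_bot_iff]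
  rintro s ⟨h1, _, h3, h4⟩
  refine H.null a (by omega) (by omega) s ?_
  rintro ⟨h5, h6⟩
  rw [tauOf_a ha] at h6
  exact fact_00 _ (core_mem h5) h6 (cR_iff.2 h1) h3 h4

theorem X_f0 {i : ℕ} (h1 : a < i) (h2 : i < 2 * a) : H.X i ⊓ₒ H.IT .f0 = ⊥ := by
  have ha := H.ha
  rw [H.X_IT_row (by omega) h2, (H.part i (by omega)).ev_eq_bot_iff]
  rintro s ⟨h3, _, h4, h5⟩
  refine H.null i (by omega) (by omega) s ?_
  rintro ⟨h6, h7⟩
  rw [tauOf_mu ha h1 h2] at h7
  exact fact_f0 _ (core_mem h6) h7 (cR_iff.2 h3) h4 h5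

theorem X_2l {i : ℕ} (h1 : a ≤ i) (h2 : i + 1 < 2 * a) : H.X i ⊓ₒ H.IT .t2l = ⊥ := by
  have ha := H.ha
  rw [H.X_IT_row_succ h1 (by omega), (H.part (i+1) (by omega)).ev_eq_bot_iff]
  rintro s ⟨h3, _, h4, h5⟩
  refine H.null (i+1) (by omega) (by omega) s ?_
  rintro ⟨h6, h7⟩
  rw [tauOf_mu ha (by omega) h2] at h7
  exact fact_2l _ (core_mem h6) h7 (cR_iff.2 h3) h4 h5

theorem X_22 : H.X (2 * a - 1) ⊓ₒ H.IT .t22 = ⊥ := by
  have ha := H.ha
  have e : 2 * a - 1 + 1 = 2 * a := by omega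
  rw [H.X_IT_row_succ (by omega) (by omega), (H.part (2*a-1+1) (by omega)).ev_eq_bot_iff]
  rintro s ⟨h3, _, h4, h5⟩
  refine H.null (2*a-1+1) (by omega) (by omega) s ?_
  rintro ⟨h6, h7⟩
  rw [e, tauOf_2a ha] at h7
  exact fact_22 _ (core_mem h6) h7 (cR_iff.2 h3) h4 h5

/-- `s^+(s)` on the active row `i` -/
theorem sp_row {i : ℕ} (h1 : a ≤ i) (h2 : i ≤ 2 * a) (v : S) :
    ev (Row i) {s | s.Qf.s = some v} = if v = .f then m else ev H.IT {th | th.snd = v} := by
  have ha := H.ha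
  split_ifs with hv
  · rw [← H.hm i h1 h2]
    refine H.row_congr (by omega) (by omega) ?_
    intro s h3 h4
    subst hv
    exact fact_Rf _ (core_mem h3) (by
      show s.Qb.tau.active = true
      rw [h4]; exact H.active_row h1 h2)
  · rw [H.ev_IT h1 h2]
    refine H.row_congr (by omega) (by omega) ?_
    intro s h3 h4
    have hact : (coreP s).ts.active = true := by
      show s.Qb.tau.active = true
      rw [h4]; exact H.active_row h1 h2
    by_cases hR : Rt s
    · have h5 : s.Qf.s = some .f := (fact_Rf _ (core_mem h3) hact).2 hR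
      constructor
      · intro h6
        have h6' : s.Qf.s = some v := h6
        rw [h5] at h6'
        exact absurd (Option.some.inj h6').symm hv
      · intro h6; exact absurd hR h6.1
    · have h5 : s.Qf.s = some s.Pb.tau.snd := (fact_I _ (core_mem h3) hact (cR_iff.2 hR)).2
      constructor
      · intro h6
        have h6' : s.Qf.s = some v := h6
        rw [h5] at h6'
        exact ⟨hR, Option.some.inj h6'⟩
      · rintro ⟨_, h7⟩
        show s.Qf.s = some v
        rw [h5]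
        exact congrArg some h7

/-- `s^-(s)` on the active row `i` -/
theorem sm_row {i : ℕ} (h1 : a ≤ i) (h2 : i ≤ 2 * a) (v : S) :
    ev (Row i) {s | s.Qb.s = some v} = if v = .l then m else ev H.IT {th | th.fst = v} := by
  have ha := H.ha
  split_ifs with hv
  · rw [← H.hm i h1 h2]
    subst hv
    rfl
  · rw [H.ev_IT h1 h2]
    refine H.row_congr (by omega) (by omega) ?_
    intro s h3 h4
    have hact : (coreP s).ts.active = true := by
      show s.Qb.tau.active = true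
      rw [h4]; exact H.active_row h1 h2
    by_cases hR : Rt s
    · have h5 : s.Qb.s = some .l := hR
      constructor
      · intro h6
        have h6' : s.Qb.s = some v := h6
        rw [h5] at h6'
        exact absurd (Option.some.inj h6').symm hv
      · intro h6; exact absurd hR h6.1
    · have h5 : s.Qb.s = some s.Pb.tau.fst := (fact_I _ (core_mem h3) hact (cR_iff.2 hR)).1
      constructor
      · intro h6
        have h6' : s.Qb.s = some v := h6
        rw [h5] at h6'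
        exact ⟨hR, Option.some.inj h6'⟩
      · rintro ⟨_, h7⟩
        show s.Qb.s = some v
        rw [h5]
        exact congrArg some h7

theorem q_sp {G : Type*} [Group G] [OMPAct G E] (Q : G)
    (hq : ∀ st : Option (S × Rel), Q • ev (Row a) {s | s.Qf.st = st} = ev (Row a) {s | s.Qb.st = st})
    (v : S) :
    Q • (if v = .f then m else ev H.IT {th | th.snd = v}) =
      if v = .l then m else ev H.IT {th | th.fst = v} := by
  have ha := H.ha
  rw [← H.sp_row (i := a) le_rfl (by omega), ← H.sm_row (i := a) le_rfl (by omega)]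
  exact H.shift_st Q (by omega) hq {st | st.map Prod.fst = some v}

end RowSys

end RN2
end Crest.Agent.R189
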