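import Crest.Agent.R189.RN3
import Crest.Agent.R189.RN1

/-!
# Row 189, step 8 in `LS` form

Given `H : MarkerData q a (c 0) (modeEv q (c 0) St) iota IT X` and the inequalities
`IT th ≤ Row 0 {Pf.tau = th}`, `iota ≤ Row 0 {domP = false}`:
`LS.next_part`, `LS.next_per`, `LS.next_dom`.
-/

set_option autoImplicit false

namespace Crest.Agent.R189

open Romp

variable {G E : Type*} [CommGroup G] [ROMP E] [OMPAct G E]
variable {D : E} {p q : G} {a : ℕ} {c : ℕ → E} {St : Star → E}
variable {iota : E} {IT : Tau → E} {X : ℕ → E}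

namespace LS

theorem next_part_of (H : MarkerData q a (c 0) (modeEv q (c 0) St) iota IT X) :
    IsPart (fun j : Fin (3 * (a + 1)) => nextC q c St j) (c 0) := H.part

theorem next_per_of (H : MarkerData q a (c 0) (modeEv q (c 0) St) iota IT X) :
    q ^ (3 * (a + 1)) • modeEv q (c 0) St = modeEv q (c 0) St := H.per

theorem next_le_tau_of (_h : LS D p q a c St)
    (H : MarkerData q a (c 0) (modeEv q (c 0) St) iota IT X)
    (hIT : ∀ th, IT th ≤ Row p c St 0 {s | s.Pf.tau = th}) {j : ℕ} (h0 : 0 < j)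
    (hj : j < 3 * (a + 1)) :
    nextC q c St j ≤ Row p c St 0 {s | s.Pf.tau = tauOf (a + 1) j} :=
  (H.le_IT h0 hj).trans (hIT _)

/-- (L5') -/
theorem next_dom_of (h : LS D p q a c St)
    (H : MarkerData q a (c 0) (modeEv q (c 0) St) iota IT X)
    (hIT : ∀ th, IT th ≤ Row p c St 0 {s | s.Pf.tau = th})
    (hdom : iota ≤ Row p c St 0 {s | s.domP = false}) :
    ∀ j, 0 < j → j < 3 * (a + 1) → ∀ s : Star,
      ¬ (s.domP = true ∧ s.Qb.tau = tauOf (a + 1) j) → nextC q c St j ⊓ₒ nextSt c St s = ⊥ := by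
  intro j h0 hj s hs
  apply meet_eq_bot_of_orth
  have e1 : nextC q c St j ≤ Row p c St 0 ({s | s.domP = false} ∩ {s | s.Pf.tau = tauOf (a + 1) j}) :=
    h.le_Row_inter ((H.le_iota h0 hj).trans hdom) (h.next_le_tau_of H hIT h0 hj)
  have e2 : nextSt c St s = Row p c St 0 {s.flip} := by
    rw [h.Row_zero, ev_singleton]; rfl
  rw [e2]
  refine (h.Row_orth 0 ?_).mono_left e1
  rw [Set.disjoint_singleton_right]
  rintro ⟨h1, h2⟩
  apply hs
  simp only [Set.mem_ofPred_eq, Star.flip_domP] at h1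
  simp only [Set.mem_ofPred_eq, Star.flip_Pf] at h2
  refine ⟨by simpa using h1, ?_⟩
  rw [Star.Q_tau]
  exact h2

end LS

end Crest.Agent.R189
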