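import Crest.Agent.R189.RNBasic

/-!
# Row 189, THEOREM RN, step 10: (L1')-(L3'), (L6')-(L8') and the assembly of `LS.next`
-/

set_option autoImplicit false

namespace Crest.Agent.R189

open Romp

/-! ### finite facts -/

namespace RN5

set_option maxRecDepth 20000 in
theorem core_blank : ∀ k ∈ coreList, k.ts.active = false → k.u = k.u' := by decide

set_option maxRecDepth 20000 in
theorem core_R : ∀ k ∈ coreList, k.b'.map Prod.fst = some .f → k.u = k.u' := by decide

/-- robust accessor -/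
theorem core_mem {D D' L L' : Label} (h : Rule D D' L L') :
    (⟨D.tau, D.u, D'.u, L.tau, L.st, L'.st⟩ : Core) ∈ coreList := by
  obtain ⟨h1, h2, h3, h4, h5, h6, h7⟩ := h
  first | exact h7 | exact h7.1

end RN5

theorem Star.P_const_of_blank (s : Star) (h : s.domP = true) (ha : s.Qb.tau.active = false) :
    s.Pb = s.Pf := by
  obtain ⟨⟨d, b, f, b', f'⟩, hs⟩ := s
  cases d
  · simp [Star.domP] at h
  · simp only [RStar.OK, if_true] at hs
    have hu := RN5.core_blank _ (RN5.core_mem hs) ha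
    obtain ⟨h1, h2, -⟩ := hs
    cases b; cases f
    simp only [Star.Pb, Star.Pf] at *
    subst h1 h2 hu
    rfl

theorem Star.P_const_of_R (s : Star) (h : s.domP = true) (hR : s.Qf.s = some .f) :
    s.Pb = s.Pf := by
  obtain ⟨⟨d, b, f, b', f'⟩, hs⟩ := s
  cases d
  · simp [Star.domP] at h
  · simp only [RStar.OK, if_true] at hs
    have hu := RN5.core_R _ (RN5.core_mem hs) hR
    obtain ⟨h1, h2, -⟩ := hs
    cases b; cases f
    simp only [Star.Pb, Star.Pf] at *
    subst h1 h2 hu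
    rfl

theorem RN5.tauOf_bounds {a i : ℕ} (hi : (tauOf a i).active = true) (h3 : 3 ≤ a) (hi0 : 0 < i) :
    a ≤ i ∧ i ≤ 2 * a := by
  unfold tauOf at hi
  split_ifs at hi <;> first | (simp [Tau.active, Tau.cls] at hi; done) | omega

variable {G E : Type*} [CommGroup G] [ROMP E] [OMPAct G E]
variable {D : E} {p q : G} {a : ℕ} {c : ℕ → E} {St : Star → E}

namespace LS

/-! ### next level stars -/

theorem ev_nextSt (h : LS D p q a c St) (A : Set Star) :
    ev (nextSt c St) A = c 0 ⊓ₒ ev St {s | s.flip ∈ A} := by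
  rw [h.cap_eq_ev]
  unfold nextSt ev
  congr 1
  ext e
  constructor
  · rintro ⟨s, hs, rfl⟩
    exact ⟨s.flip, by simpa using hs, rfl⟩
  · rintro ⟨s, hs, rfl⟩
    exact ⟨s.flip, hs, by simp⟩

theorem next_part_St (h : LS D p q a c St) : IsPart (nextSt c St) (c 0) := by
  refine ⟨fun {i j} hij => ?_, ?_⟩
  · exact (h.capPart 0).orth (fun hc => hij (by simpa using congrArg Star.flip hc))
  · rw [h.ev_nextSt]
    have : {s : Star | s.flip ∈ (Set.univ : Set Star)} = Set.univ := by ext; simp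
    rw [this, h.part_St.ev_univ, h.meet_D]

/-- the three facts of steps 2-5 used here -/
structure ModeFacts (p q : G) (a : ℕ) (c : ℕ → E) (St : Star → E) : Prop where
  le : modeEv q (c 0) St ≤ c 0
  inv : p ^ (3 * a) • modeEv q (c 0) St = modeEv q (c 0) St
  row : ∀ i, a ≤ i → i ≤ 2 * a → modeEv q (c 0) St = Row p c St i {s | s.Qf.s = some .f}
  comm_Lab : ∀ j, j < 3 * a → ∀ A, Comm (modeEv q (c 0) St) (Lab p c St j A)

/-- on the mode event the label of the `P` line is constant -/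
theorem mode_Lab (h : LS D p q a c St) (hm : ModeFacts p q a c St) {j : ℕ} (hj : j < 3 * a)
    (A : Set Label) :
    modeEv q (c 0) St ⊓ₒ Lab p c St j A = modeEv q (c 0) St ⊓ₒ Lab p c St 0 A := by
  induction j with
  | zero => rfl
  | succ j ih =>
    rw [← ih (by omega), h.Lab_eq_Row_succ j, Lab_eq_Row]
    have h3 := h.three_le
    by_cases hact : (tauOf a (j + 1)).active = true
    · have hi := RN5.tauOf_bounds hact h3 (Nat.succ_pos j)
      rw [hm.row (j + 1) hi.1 hi.2, h.Row_meet, h.Row_meet]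
      refine h.Row_eq_Row (Nat.succ_pos j) hj fun s h1 _ => ?_
      simp only [Set.mem_inter_iff, Set.mem_setOf_eq]
      constructor
      · rintro ⟨h4, h5⟩; exact ⟨h4, by rwa [s.P_const_of_R h1 h4]⟩
      · rintro ⟨h4, h5⟩; exact ⟨h4, by rwa [← s.P_const_of_R h1 h4]⟩
    · congr 1
      refine h.Row_eq_Row (Nat.succ_pos j) hj fun s h1 h2 => ?_
      have : s.Qb.tau.active = false := by rw [h2]; simpa using hact
      simp [s.P_const_of_blank h1 this]

theorem pn_nextC (hm : ModeFacts p q a c St) (j' : ℕ) :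
    p ^ (3 * a) • nextC q c St j' = nextC q c St j' := by
  unfold nextC
  rw [smul_swap, hm.inv]

/-- (L7') -/
theorem next_Q_shift0 (h : LS D p q a c St) (hm : ModeFacts p q a c St) (L : Label) :
    p ^ (3 * a) • (nextC q c St 0 ⊓ₒ ev (nextSt c St) {s | s.Qf = L}) =
      nextC q c St 0 ⊓ₒ ev (nextSt c St) {s | s.Qb = L} := by
  have e0 : nextC q c St 0 = modeEv q (c 0) St := by simp [nextC]
  have e1 : ev (nextSt c St) {s | s.Qf = L} = Lab p c St 0 {L} := by
    rw [h.ev_nextSt, Lab_eq_Row, h.Row_zero]; rfl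
  have e2 : ev (nextSt c St) {s | s.Qb = L} = Row p c St 0 {s | s.Pb ∈ ({L} : Set Label)} := by
    rw [h.ev_nextSt, h.Row_zero]; rfl
  have hn := h.n_pos
  rw [e0, e1, e2, ← h.pn_Lab, ← h.mode_Lab hm (j := 3 * a - 1) (by omega) {L}, smul_meet, hm.inv]

/-- (L8') -/
theorem next_Q_shift (h : LS D p q a c St) (hm : ModeFacts p q a c St) (j' : ℕ)
    (th : Option (S × Rel)) :
    p ^ (3 * a) • (nextC q c St j' ⊓ₒ ev (nextSt c St) {s | s.Qf.st = th}) =
      nextC q c St j' ⊓ₒ ev (nextSt c St) {s | s.Qb.st = th} := by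
  have e1 : ev (nextSt c St) {s | s.Qf.st = th} = Lab p c St 0 {L | L.st ∈ ({th} : Set _)} := by
    rw [h.ev_nextSt, Lab_eq_Row, h.Row_zero]; rfl
  have e2 : ev (nextSt c St) {s | s.Qb.st = th} =
      Row p c St 0 {s | s.Pb ∈ {L : Label | L.st ∈ ({th} : Set _)}} := by
    rw [h.ev_nextSt, h.Row_zero]; rfl
  have hn := h.n_pos
  rw [e1, e2, ← h.pn_Lab, h.Lab_st (j := 3 * a - 1) (by omega), smul_meet, pn_nextC hm]

/-- assembly of **Theorem RN** -/
theorem next_of (h : LS D p q a c St) (hm : ModeFacts p q a c St)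
    (hpart : IsPart (fun j : Fin (3 * (a + 1)) => nextC q c St j) (c 0))
    (hper : q ^ (3 * (a + 1)) • modeEv q (c 0) St = modeEv q (c 0) St)
    (hcomm : ∀ j, j < 3 * (a + 1) → ∀ s, Comm (nextC q c St j) (nextSt c St s))
    (hdom : ∀ j, 0 < j → j < 3 * (a + 1) → ∀ s : Star,
      ¬ (s.domP = true ∧ s.Qb.tau = tauOf (a + 1) j) → nextC q c St j ⊓ₒ nextSt c St s = ⊥) :
    LS (c 0) q (p ^ (3 * a)) (a + 1) (nextC q c St) (nextSt c St) where
  three_le := by have := h.three_le; omega
  part_c := hpart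
  p_c j := by simp only [nextC]; rw [← mul_smul, ← pow_succ']
  per := by simp only [nextC]; rw [hper]; simp
  q_c := pn_nextC hm
  part_St := h.next_part_St
  comm := hcomm
  dom := hdom
  P_shift L := by
    rw [h.ev_nextSt, h.ev_nextSt]; exact h.Q_shift0 L
  Q_shift0 := h.next_Q_shift0 hm
  Q_shift j _ _ th := h.next_Q_shift hm j th

end LS

end Crest.Agent.R189
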