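import Crest.Agent.R189.UP
import Crest.Agent.R189.TowerMap
import Crest.Agent.R189.GpTower

/-!
# Row 189 (S0289): sections over towers (K2)

`q : T →* Gp V letter C` central surjection.  If `Alt(C)_E` is good (`θ : alternatingGroup C →* T`
with `q (θ s) = ev E s`) then the tower group `Alt(ι × C)_E` (`GpTower.tw`) is good:
`exists_sec`.  For a finite family of pairwise disjoint events, `exists_secFam` gives the section of
the product of the tower groups.
-/

set_option autoImplicit false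
set_option linter.unusedSectionVars false

open Equiv Equiv.Perm Finset

namespace Crest.Agent.R189.SecW

open Crest.Agent.R189.AltPres Crest.Agent.R189.UP Crest.Agent.R189.Tower

variable {V X A C : Type} [AddCommGroup V] [AddAction V X] {letter : X → A} [Finite A]
  [Fintype C] [DecidableEq C] {T : Type} [Group T]

/-- the pieces of a tower: position `pos i`, colour `c` -/
def pc {ι : Type} (pos : ι → V) : ι × C → V × C := fun p => (pos p.1, p.2)

/-- explicit action of the tower of `E` -/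
theorem tw_pc {ι : Type} {E : Set X} {pos : ι → V} (h : MS E (pc (C := C) pos))
    (z : Perm (ι × C)) {y : X} (hy : y ∈ E) (i : ι) (c : C) :
    tw h z (pos i +ᵥ y, c) = (pos (z (i, c)).1 +ᵥ y, (z (i, c)).2) :=
  tw_apply (M := pc pos) h z hy (i, c)

/-- the section over the tower of one event -/
theorem exists_sec (q : T →* Gp V letter C) (hq : Function.Surjective q)
    (hK : q.ker ≤ Subgroup.center T) (hC : 30 ≤ Fintype.card C) {E : Set X}
    (hE : Clo V letter E) (θ : alternatingGroup C →* T)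
    (hθ : ∀ s, (q (θ s) : Perm (X × C)) = ev E (s : Perm C))
    {ι : Type} [Fintype ι] [DecidableEq ι] (pos : ι → V) (hM : MS E (pc (C := C) pos)) :
    ∃ Φ : alternatingGroup (ι × C) →* T,
      ∀ z, (q (Φ z) : Perm (X × C)) = tw hM (z : Perm (ι × C)) := by
  classical
  by_cases hne : Nonempty ι
  swap
  · refine ⟨1, fun z => ?_⟩
    have hz : (z : Perm (ι × C)) = 1 := by
      apply Equiv.ext
      intro x
      exact absurd ⟨x.1⟩ hne
    rw [hz, map_one, MonoidHom.one_apply, map_one, Subgroup.coe_one]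
  obtain ⟨i0⟩ := hne
  obtain ⟨A₀, hA₀⟩ : ∃ A₀ : Finset C, A₀.card = 7 := by
    obtain ⟨B, -, hB⟩ := exists_subset_card_eq (s := (univ : Finset C)) (n := 7)
      (by rw [card_univ]; omega)
    exact ⟨B, hB⟩
  obtain ⟨d, hd⟩ := exists_notMem_of_card_lt (S := A₀) (by omega)
  have hHm : (H (lamOf A₀ (pos i0) d) : Perm (X × C)) ∈ Gp V letter C :=
    H_mem_Gp (lamOf_sum A₀ (pos i0) d)
  obtain ⟨g, hg⟩ := hq ⟨_, hHm⟩
  let B₀ : Finset (ι × C) := A₀.map ⟨fun c => (i0, c), fun c c' h => (Prod.ext_iff.1 h).2⟩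
  have hB₀ : B₀.card = 7 := by rw [card_map, hA₀]
  have hmemB : ∀ p : ι × C, p ∈ B₀ ↔ p.1 = i0 ∧ p.2 ∈ A₀ := by
    intro p
    rw [mem_map]
    constructor
    · rintro ⟨c, hc, rfl⟩
      exact ⟨rfl, hc⟩
    · rintro ⟨h1, h2⟩
      exact ⟨p.2, h2, Prod.ext h1.symm rfl⟩
  let f : {x // x ∈ B₀} ↪ C := ⟨fun p => p.1.2, by
    intro p p' h
    have h1 := (hmemB p.1).1 p.2
    have h2 := (hmemB p'.1).1 p'.2
    exact Subtype.ext (Prod.ext (h1.1.trans h2.1.symm) h)⟩
  let φ : alternatingGroup (ι × C) →* Gp V letter C :=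
    { toFun := fun z => ⟨tw hM z, tw_mem_Gp (by omega) hE hM z z.2⟩
      map_one' := by
        apply Subtype.ext
        simp
      map_mul' := by
        intro a b
        apply Subtype.ext
        simp }
  let ψ : altOn B₀ →* T := conjHom g (θ.comp ((altMap f).comp (restr B₀)))
  have hψ : ∀ x, q (ψ x) = φ (inc B₀ x) := by
    intro x
    apply Subtype.ext
    have e0 : (q (ψ x) : Perm (X × C)) = H (lamOf A₀ (pos i0) d) *
        ev E (altMap f (restr B₀ x) : Perm C) * (H (lamOf A₀ (pos i0) d))⁻¹ := by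
      change ((q (conjHom g _ x) : Gp V letter C) : Perm (X × C)) = _
      rw [conjHom_apply, map_mul, map_mul, map_inv, Subgroup.coe_mul, Subgroup.coe_mul,
        Subgroup.coe_inv, hg, MonoidHom.comp_apply, hθ]
      rfl
    have hfix : ∀ c, c ∉ A₀ → (altMap f (restr B₀ x) : Perm C) c = c := by
      intro c hc
      apply altMap_apply_of_notMem
      rintro ⟨p, rfl⟩
      exact hc ((hmemB p.1).1 p.2).2
    have hx0 : ∀ c, (x : Perm (ι × C)) (i0, c) = (i0, (altMap f (restr B₀ x) : Perm C) c) := by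
      intro c
      by_cases hc : c ∈ A₀
      · have hmem : (i0, c) ∈ B₀ := (hmemB _).2 ⟨rfl, hc⟩
        have e1 := altMap_apply f (restr B₀ x) ⟨(i0, c), hmem⟩
        have e2 : f ⟨(i0, c), hmem⟩ = c := rfl
        rw [e2] at e1
        rw [e1]
        have e3 := (hmemB _).1 ((restr B₀ x : Perm {x // x ∈ B₀}) ⟨(i0, c), hmem⟩).2
        refine Prod.ext ?_ ?_
        · exact e3.1
        · rfl
      · rw [hfix c hc]
        by_contra h
        exact hc ((hmemB _).1 (x.2.2 (mem_support.2 h))).2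
    have hxi : ∀ i c, i ≠ i0 → (x : Perm (ι × C)) (i, c) = (i, c) := by
      intro i c hi
      by_contra h
      exact hi ((hmemB _).1 (x.2.2 (mem_support.2 h))).1
    rw [e0, H_conj_ev _ (pos i0) E _ (by
      intro c hc
      refine lamOf_mem hd ?_
      by_contra h
      exact hc (hfix c h))]
    symm
    change tw hM (x : Perm (ι × C)) = _
    apply tw_eq_iff
    · rintro y hy ⟨i, c⟩
      by_cases hi : i = i0
      · subst hi
        rw [hx0]
        exact ev_apply_mem (show pos i +ᵥ y ∈ {x | -pos i +ᵥ x ∈ E} by simpa using hy) c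
      · rw [hxi i c hi]
        refine ev_apply_notMem ?_ c
        intro h
        have h' : -pos i0 +ᵥ (pos i +ᵥ y) ∈ E := h
        refine hM (i, c) (i0, c) (fun h => hi (congrArg Prod.fst h)) y hy _ h' rfl ?_
        change pos i +ᵥ y = pos i0 +ᵥ (-pos i0 +ᵥ (pos i +ᵥ y))
        simp
    · rintro ⟨y, c⟩ hp
      refine ev_apply_notMem ?_ c
      intro h
      refine hp _ h (i0, c) ?_
      refine Prod.ext ?_ rfl
      change y = pos i0 +ᵥ (-pos i0 +ᵥ y)
      simp
  obtain ⟨Φ, hΦ⟩ := exists_alt_lift hq hK φ B₀ hB₀.ge ψ hψ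
  refine ⟨Φ, fun z => ?_⟩
  rw [hΦ]
  rfl

theorem noncommProd_fix {K : Type*} {Y : Type*} (s : Finset K) (f : K → Perm Y) (hc)
    (p : Y) (h : ∀ i ∈ s, f i p = p) : s.noncommProd f hc p = p := by
  have : s.noncommProd f hc ∈ MulAction.stabilizer (Perm Y) p := by
    apply Subgroup.noncommProd_mem
    intro i hi
    exact h i hi
  exact this

theorem noncommProd_apply {K : Type*} [DecidableEq K] {Y : Type*} (s : Finset K)
    (f : K → Perm Y) (hc) {κ : K} (hκ : κ ∈ s) (p : Y)
    (h : ∀ i ∈ s, i ≠ κ → f i (f κ p) = f κ p) : s.noncommProd f hc p = f κ p := by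
  have e := noncommProd_erase_mul s hκ f hc
  rw [← e, Perm.mul_apply]
  apply noncommProd_fix
  intro i hi
  exact h i (mem_of_mem_erase hi) (ne_of_mem_erase hi)

/-- the section over the product of the towers of a finite family of disjoint events -/
theorem exists_secFam (q : T →* Gp V letter C) (hq : Function.Surjective q)
    (hK : q.ker ≤ Subgroup.center T) (hC : 30 ≤ Fintype.card C)
    {K : Type} [Fintype K] (E : K → Set X) (hE : ∀ κ, Clo V letter (E κ))
    (hdisj : ∀ κ κ', κ ≠ κ' → Disjoint (E κ) (E κ'))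
    (θ : K → alternatingGroup C →* T)
    (hθ : ∀ κ s, (q (θ κ s) : Perm (X × C)) = ev (E κ) (s : Perm C))
    {ι : Type} [Fintype ι] [DecidableEq ι] (pos : ι → V)
    (hM : MS (⋃ κ, E κ) (pc (C := C) pos)) :
    ∃ Φ : (K → alternatingGroup (ι × C)) →* T,
      (∀ z κ y, y ∈ E κ → ∀ i c, (q (Φ z) : Perm (X × C)) (pos i +ᵥ y, c) =
        (pos ((z κ : Perm (ι × C)) (i, c)).1 +ᵥ y, ((z κ : Perm (ι × C)) (i, c)).2)) ∧
      (∀ z p, (∀ κ, ∀ y ∈ E κ, ∀ i, p.1 ≠ pos i +ᵥ y) → (q (Φ z) : Perm (X × C)) p = p) := by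
  classical
  have hMκ : ∀ κ, MS (E κ) (pc (C := C) pos) := fun κ => hM.mono (Set.subset_iUnion E κ)
  have hsec : ∀ κ, ∃ Φ : alternatingGroup (ι × C) →* T,
      ∀ z, (q (Φ z) : Perm (X × C)) = tw (hMκ κ) (z : Perm (ι × C)) :=
    fun κ => exists_sec q hq hK hC (hE κ) (θ κ) (hθ κ) pos (hMκ κ)
  choose Φ hΦ using hsec
  -- a point of one tower is not in another tower
  have hnot : ∀ κ κ' : K, κ ≠ κ' → ∀ y ∈ E κ, ∀ i c (z : Perm (ι × C)),
      tw (hMκ κ') z (pos i +ᵥ y, c) = (pos i +ᵥ y, c) := by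
    intro κ κ' hκ y hy i c z
    apply tw_apply_of_notMem
    rintro y' hy' ⟨j, c'⟩ h
    have h1 : pos i +ᵥ y = pos j +ᵥ y' := congrArg Prod.fst h
    have h2 : c = c' := congrArg Prod.snd h
    by_cases hij : i = j
    · subst hij
      have := (vadd_left_cancel_iff _).1 h1
      subst this
      exact Set.disjoint_left.1 (hdisj κ κ' hκ) hy hy'
    · exact hM (i, c) (j, c) (fun h => hij (congrArg Prod.fst h)) y (Set.mem_iUnion.2 ⟨κ, hy⟩)
        y' (Set.mem_iUnion.2 ⟨κ', hy'⟩) rfl h1
  have hcommG : ∀ κ κ' : K, κ ≠ κ' → ∀ z z', Commute (q (Φ κ z)) (q (Φ κ' z')) := by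
    intro κ κ' hκ z z'
    apply Subtype.ext
    rw [Subgroup.coe_mul, Subgroup.coe_mul, hΦ, hΦ]
    apply Equiv.ext
    intro p
    rw [Perm.mul_apply, Perm.mul_apply]
    by_cases hp : ∃ y ∈ E κ, ∃ i, p.1 = pos i +ᵥ y
    · obtain ⟨y, hy, i, hpi⟩ := hp
      obtain ⟨p1, c⟩ := p
      change p1 = _ at hpi
      subst hpi
      rw [hnot κ κ' hκ y hy, tw_pc (hMκ κ) z hy i c]
      exact (hnot κ κ' hκ y hy _ _ _).symm
    · push Not at hp
      have e1 : ∀ z : Perm (ι × C), tw (hMκ κ) z p = p := fun z => by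
        apply tw_apply_of_notMem
        intro y hy i h
        exact hp y hy i.1 (congrArg Prod.fst h)
      by_cases hp' : ∃ y ∈ E κ', ∃ i, p.1 = pos i +ᵥ y
      · obtain ⟨y, hy, i, hpi⟩ := hp'
        obtain ⟨p1, c⟩ := p
        change p1 = _ at hpi
        subst hpi
        rw [hnot κ' κ hκ.symm y hy, tw_pc (hMκ κ') z' hy i c]
        exact hnot κ' κ hκ.symm y hy _ _ _
      · push Not at hp'
        have e2 : ∀ z : Perm (ι × C), tw (hMκ κ') z p = p := fun z => by
          apply tw_apply_of_notMem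
          intro y hy i h
          exact hp' y hy i.1 (congrArg Prod.fst h)
        rw [e1, e2, e1]
  have hcomm : Pairwise fun κ κ' => ∀ z z', Commute (Φ κ z) (Φ κ' z') := by
    intro κ κ' hκ z z'
    by_cases hne : Nonempty ι
    · have h5 : 5 ≤ Nat.card (ι × C) := by
        rw [Nat.card_eq_fintype_card, Fintype.card_prod]
        have : 0 < Fintype.card ι := Fintype.card_pos
        nlinarith
      exact commute_of hK (commutator_alternatingGroup_eq_top h5) (Φ κ) (Φ κ')
        (fun z z' => hcommG κ κ' hκ z z') z z'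
    · have hz : z = 1 := by
        apply Subtype.ext
        apply Equiv.ext
        intro x
        exact absurd ⟨x.1⟩ hne
      rw [hz, map_one]
      exact Commute.one_left _
  refine ⟨MonoidHom.noncommPiCoprod Φ hcomm, ?_, ?_⟩
  · intro z κ y hy i c
    have e' : (q (MonoidHom.noncommPiCoprod Φ hcomm z) : Perm (X × C)) =
        Finset.univ.noncommProd (fun κ => (q (Φ κ (z κ)) : Perm (X × C)))
          (fun i _ j _ h => ((hcomm h _ _).map q).map (Gp V letter C).subtype) :=
      Finset.map_noncommProd Finset.univ (fun κ => Φ κ (z κ)) (fun i _ j _ h => hcomm h _ _)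
        ((Gp V letter C).subtype.comp q)
    refine (DFunLike.congr_fun e' (pos i +ᵥ y, c)).trans ?_
    refine (noncommProd_apply univ _ _ (mem_univ κ) _ ?_).trans ?_
    · intro κ' _ hκ'
      change (q (Φ κ' (z κ')) : Perm (X × C)) ((q (Φ κ (z κ)) : Perm (X × C)) (pos i +ᵥ y, c)) =
        (q (Φ κ (z κ)) : Perm (X × C)) (pos i +ᵥ y, c)
      rw [hΦ, hΦ, tw_pc (hMκ κ) _ hy i c]
      exact hnot κ κ' hκ'.symm y hy _ _ _
    · change (q (Φ κ (z κ)) : Perm (X × C)) (pos i +ᵥ y, c) = _
      rw [hΦ, tw_pc (hMκ κ) _ hy i c]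
  · intro z p hp
    have e' : (q (MonoidHom.noncommPiCoprod Φ hcomm z) : Perm (X × C)) =
        Finset.univ.noncommProd (fun κ => (q (Φ κ (z κ)) : Perm (X × C)))
          (fun i _ j _ h => ((hcomm h _ _).map q).map (Gp V letter C).subtype) :=
      Finset.map_noncommProd Finset.univ (fun κ => Φ κ (z κ)) (fun i _ j _ h => hcomm h _ _)
        ((Gp V letter C).subtype.comp q)
    refine (DFunLike.congr_fun e' p).trans ?_
    apply noncommProd_fix
    intro κ _
    change (q (Φ κ (z κ)) : Perm (X × C)) p = p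
    rw [hΦ]
    apply tw_apply_of_notMem
    intro y hy i h
    exact hp κ y hy i.1 (congrArg Prod.fst h)

end Crest.Agent.R189.SecW
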