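import Crest.Agent.R189.Star

/-!
Row 189, module M1 (task 1383), part 2: facts about the list of allowed crossings (by `decide`).
-/

set_option autoImplicit false

namespace Crest.Agent.R189

theorem Tau.fst_ne_l : ∀ t : Tau, t.fst ≠ .l := by decide
theorem Tau.snd_ne_f : ∀ t : Tau, t.snd ≠ .f := by decide
theorem Tau.snd_eq_l : ∀ t : Tau, t.snd = .l → t = .t2l := by decide
theorem Tau.fst_eq_f : ∀ t : Tau, t.fst = .f → t = .f0 := by decide
theorem Tau.active_iff (t : Tau) : t.active = true ↔ t = .t01 ∨ t = .t11 ∨ t = .t12 := by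
  revert t; decide
theorem Tau.active_cls (t : Tau) (h : t.active = true) : ∃ c : Cls, t = c.tau ∧ t.cls = some c := by
  revert h; revert t; decide
theorem Cls.cls_tau : ∀ c : Cls, c.tau.cls = some c := by decide

/-- sign before the crossing for R-type and reset crossings -/
def rb : Cls → Rel
  | .alpha => .p | .mu => .p | .beta => .z
/-- sign after the crossing for R-type and reset crossings -/
def rf : Cls → Rel
  | .alpha => .z | .mu => .m | .beta => .m
/-- memory after an active wire for reset crossings -/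
def uf : Cls → Mem
  | .alpha => .A | .mu => .A | .beta => .B

namespace Core

/-- the four kinds of crossings -/
def Blank (c : Core) : Prop := c.ts.active = false ∧ c.b = none ∧ c.b' = none ∧ c.u = c.u'
instance (c : Core) : Decidable c.Blank := by unfold Blank; infer_instance

def RT (c : Core) (k : Cls) : Prop :=
  c.ts = k.tau ∧ c.b = some (.l, rb k) ∧ c.b' = some (.f, rf k) ∧ c.u = c.u'
instance (c : Core) (k : Cls) : Decidable (c.RT k) := by unfold RT; infer_instance

def IR (c : Core) (k : Cls) : Prop :=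
  c.t.reset = true ∧ c.ts = k.tau ∧ c.b = some (c.t.fst, rb k) ∧ c.b' = some (c.t.snd, rf k) ∧
    c.u = .A ∧ c.u' = uf k
instance (c : Core) (k : Cls) : Decidable (c.IR k) := by unfold IR; infer_instance

def IM (c : Core) (k : Cls) (m : Rel × Rel × Mem × Mem) : Prop :=
  c.t.reset = false ∧ c.ts = k.tau ∧ c.b = some (c.t.fst, m.1) ∧ c.b' = some (c.t.snd, m.2.1) ∧
    c.u = m.2.2.1 ∧ c.u' = m.2.2.2 ∧ VAL k c.t.fst m.1 = true ∧ VAL k c.t.snd m.2.1 = true ∧
    ¬(c.t = .f0 ∧ k = .beta ∧ m.2.2.1 = .x) ∧ ¬(c.t = .t2l ∧ k = .alpha ∧ m.2.2.2 = .x)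
instance (c : Core) (k : Cls) (m : Rel × Rel × Mem × Mem) : Decidable (c.IM k m) := by
  unfold IM; infer_instance

theorem mem_kinds : ∀ c ∈ coreList, c.Blank ∨ (∃ k, c.RT k) ∨ (∃ k, c.IR k) ∨
    (∃ k, ∃ m ∈ moves, c.IM k m) := by
  decide +kernel

theorem valid : ∀ c ∈ coreList, validSt c.ts c.b = true ∧ validSt c.ts c.b' = true ∧
    validU c.t c.u = true ∧ validU c.t c.u' = true := by
  decide +kernel

theorem det_b' : ∀ c ∈ coreList, ∀ c' ∈ coreList, c.t = c'.t → c.u = c'.u → c.u' = c'.u' →
    c.ts = c'.ts → c.b = c'.b → c.b' = c'.b' := by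
  decide +kernel

/-- auxiliary predicate -/
def DetU (c c' : Core) : Prop :=
  (c.t = c'.t ∧ c.u = c'.u ∧ c.ts = c'.ts ∧ c.b = c'.b ∧ c.b' = c'.b') → c.u' = c'.u'
instance (c c' : Core) : Decidable (DetU c c') := by unfold DetU; infer_instance

theorem det_u' : ∀ c ∈ coreList, ∀ c' ∈ coreList, DetU c c' := by
  decide +kernel

end Core

set_option linter.unusedVariables false in
/-- generates the equation lemmas of the definitions of this file (needed by the joint check) -/
theorem starCore_touch : True := by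
  have := @rb.eq_1
  have := @rb.eq_2
  have := @rb.eq_3
  have := @rb.eq_def
  have := @rf.eq_1
  have := @rf.eq_2
  have := @rf.eq_3
  have := @rf.eq_def
  have := @uf.eq_1
  have := @uf.eq_2
  have := @uf.eq_3
  have := @uf.eq_def
  have := @Core.Blank.eq_1
  have := @Core.Blank.eq_def
  have := @Core.RT.eq_1
  have := @Core.RT.eq_def
  have := @Core.IR.eq_1
  have := @Core.IR.eq_def
  have := @Core.IM.eq_1
  have := @Core.IM.eq_def
  have := @Core.DetU.eq_1
  have := @Core.DetU.eq_def
  trivial

end Crest.Agent.R189
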