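import Crest.Agent.R189.AmenRep
import Crest.Agent.R189.GlueT
import Crest.Agent.R189.StripMain

/-!
# Row 189: bridge from the concrete group `Gp` to the abstract strip theorem (helper765)

`e : (ℤ × ℤ) ≃+ (ℤ × ℤ)` gives the coordinates: `(u, r) ↦ e (u, r)` (`u` along the infinite line);
`hs l t` is the corner star of the infinite line with label `l`, crossing line of type `t`.
-/

set_option autoImplicit false
set_option linter.unusedSectionVars false

namespace Crest.Agent.R189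

open Equiv Strip

section Bridge

variable {A C Θ Λ : Type} [Fintype C] [DecidableEq C] (letter : X → A)

/-- the copies `rep (hs t)`, `t : Θ`, side by side, in the coordinates `e` -/
def sideBySide (e : (ℤ × ℤ) ≃+ (ℤ × ℤ)) (σ : Θ → Perm ((ℤ × ℤ) × C)) : Perm (Om Θ C) where
  toFun p :=
    ((e.symm (σ p.2.2.1 (e (p.1, p.2.1), p.2.2.2)).1).1,
      (e.symm (σ p.2.2.1 (e (p.1, p.2.1), p.2.2.2)).1).2, p.2.2.1,
      (σ p.2.2.1 (e (p.1, p.2.1), p.2.2.2)).2)
  invFun p :=
    ((e.symm ((σ p.2.2.1).symm (e (p.1, p.2.1), p.2.2.2)).1).1,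
      (e.symm ((σ p.2.2.1).symm (e (p.1, p.2.1), p.2.2.2)).1).2, p.2.2.1,
      ((σ p.2.2.1).symm (e (p.1, p.2.1), p.2.2.2)).2)
  left_inv p := by
    obtain ⟨u, r, t, c⟩ := p
    simp
  right_inv p := by
    obtain ⟨u, r, t, c⟩ := p
    simp

theorem sideBySide_apply (e : (ℤ × ℤ) ≃+ (ℤ × ℤ)) (σ : Θ → Perm ((ℤ × ℤ) × C)) (u r : ℤ) (t : Θ)
    (c : C) : sideBySide e σ (u, r, t, c) =
      ((e.symm (σ t (e (u, r), c)).1).1, (e.symm (σ t (e (u, r), c)).1).2, t, (σ t (e (u, r), c)).2) :=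
  rfl

theorem sideBySide_inj (e : (ℤ × ℤ) ≃+ (ℤ × ℤ)) {σ σ' : Θ → Perm ((ℤ × ℤ) × C)}
    (h : sideBySide e σ = sideBySide e σ') : σ = σ' := by
  funext t
  refine Equiv.ext fun q => ?_
  obtain ⟨p, c⟩ := q
  have h1 := congrArg (fun k : Perm (Om Θ C) => k ((e.symm p).1, (e.symm p).2, t, c)) h
  simp only [sideBySide_apply, Prod.mk.eta, AddEquiv.apply_symm_apply, Prod.mk.injEq] at h1
  obtain ⟨h2, h3, -, h4⟩ := h1
  refine Prod.ext ?_ h4
  exact e.symm.injective (Prod.ext h2 h3)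

/-- `sideBySide` as a homomorphism -/
def sbsHom {G : Type} [Group G] (e : (ℤ × ℤ) ≃+ (ℤ × ℤ)) (ρ : Θ → G →* Perm ((ℤ × ℤ) × C)) :
    G →* Perm (Om Θ C) where
  toFun g := sideBySide e (fun t => ρ t g)
  map_one' := by
    refine Equiv.ext fun p => ?_
    obtain ⟨u, r, t, c⟩ := p
    rw [sideBySide_apply]
    simp
  map_mul' g h := by
    refine Equiv.ext fun p => ?_
    obtain ⟨u, r, t, c⟩ := p
    rw [Perm.mul_apply, sideBySide_apply, sideBySide_apply, sideBySide_apply]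
    simp

theorem sbsHom_apply {G : Type} [Group G] (e : (ℤ × ℤ) ≃+ (ℤ × ℤ))
    (ρ : Θ → G →* Perm ((ℤ × ℤ) × C)) (g : G) :
    sbsHom e ρ g = sideBySide e (fun t => ρ t g) := rfl

/-- small generators of `Gp` -/
def smallGens : Set (Gp (ℤ × ℤ) letter C) :=
  {g | ∃ lam : C → ℤ × ℤ, (∀ c, |(lam c).1| ≤ 1 ∧ |(lam c).2| ≤ 1) ∧
      (g : Perm (X × C)) = H lam} ∪
    {g | ∃ s : Perm C, (g : Perm (X × C)) = ev Set.univ s} ∪
    {g | ∃ (a : A) (s : Perm C), (g : Perm (X × C)) = ev {x | letter x = a} s}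

theorem abs_dl_uv_le (i : Bool) (a b c : C) :
    |(dl (uv i) a b c).1| ≤ 1 ∧ |(dl (uv i) a b c).2| ≤ 1 := by
  have h : ∀ (P Q : Prop) [Decidable P] [Decidable Q] (x y : ℤ × ℤ), x = uv i → y = uv i →
      |((if P then x else 0) - (if Q then y else 0)).1| ≤ 1 ∧
        |((if P then x else 0) - (if Q then y else 0)).2| ≤ 1 := by
    rintro P Q _ _ x y rfl rfl
    cases i <;> split_ifs <;> simp [uv]
  unfold dl
  rw [Pi.sub_apply, Pi.single_apply, Pi.single_apply]
  exact h _ _ _ _ rfl rfl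

theorem closure_smallGens [Nonempty C] :
    Subgroup.closure (smallGens letter : Set (Gp (ℤ × ℤ) letter C)) = ⊤ := by
  set K : Subgroup (Gp (ℤ × ℤ) letter C) := Subgroup.closure (smallGens letter) with hK
  have hle : Gp (ℤ × ℤ) letter C ≤ K.map (Gp (ℤ × ℤ) letter C).subtype := by
    conv_lhs => rw [Gp]
    rw [Subgroup.closure_le]
    rintro g ((⟨lam, hlam, rfl⟩ | ⟨s, hs, rfl⟩) | ⟨a, s, hs, rfl⟩)
    · apply H_mem_of_dl _ hlam
      intro i a b
      exact ⟨⟨H (dl (uv i) a b), H_mem_Gp (dl_sum _ _ _)⟩,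
        Subgroup.subset_closure (Or.inl (Or.inl ⟨_, abs_dl_uv_le i a b, rfl⟩)), rfl⟩
    · exact ⟨⟨ev Set.univ s, ev_univ_mem_Gp hs⟩,
        Subgroup.subset_closure (Or.inl (Or.inr ⟨s, rfl⟩)), rfl⟩
    · exact ⟨⟨ev {x | letter x = a} s, ev_letter_mem_Gp a hs⟩,
        Subgroup.subset_closure (Or.inr ⟨a, s, rfl⟩), rfl⟩
  rw [eq_top_iff]
  intro g _
  obtain ⟨g', hg', hgg⟩ := hle g.2
  have : g' = g := Subtype.ext hgg
  rwa [← this]

variable [Finite A]

/-- the small generators are generators of the strip system -/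
theorem isGen_smallGens (S : StripSys Θ A Λ) (e : (ℤ × ℤ) ≃+ (ℤ × ℤ))
    (he : ∀ v : ℤ × ℤ, |v.1| ≤ 1 → |v.2| ≤ 1 → |(e.symm v).1| ≤ 1 ∧ |(e.symm v).2| ≤ 1)
    (hs : Λ → Θ → Star) (hlett : ∀ l u r t, S.lett l u r t = letter ⟨e (u, r), hs l t⟩)
    {g : Gp (ℤ × ℤ) letter C} (hg : g ∈ (smallGens letter : Set (Gp (ℤ × ℤ) letter C))) :
    IsGen S (fun l => sbsHom e (fun t => rep letter (hs l t))) g := by
  classical
  rcases hg with (⟨lam, hlam, h⟩ | ⟨s, h⟩) | ⟨a, s, h⟩
  · left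
    refine ⟨fun c => e.symm (lam c), fun c => he _ (hlam c).1 (hlam c).2, fun l => ?_⟩
    refine Equiv.ext fun p => ?_
    obtain ⟨u, r, t, c⟩ := p
    rw [sbsHom_apply, sideBySide_apply, rep_apply, h, transl_apply]
    simp only [H_apply, X.vadd_p, map_add, AddEquiv.symm_apply_apply, Prod.fst_add, Prod.snd_add]
    rw [add_comm u, add_comm r]
  · right
    refine ⟨fun _ => s, fun l => ?_⟩
    refine Equiv.ext fun p => ?_
    obtain ⟨u, r, t, c⟩ := p
    rw [sbsHom_apply, sideBySide_apply, rep_apply, h, recol_apply, ev_univ_apply]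
    simp
  · right
    refine ⟨fun b => if b = a then s else 1, fun l => ?_⟩
    refine Equiv.ext fun p => ?_
    obtain ⟨u, r, t, c⟩ := p
    rw [sbsHom_apply, sideBySide_apply, rep_apply, h, recol_apply, hlett]
    by_cases hx : letter ⟨e (u, r), hs l t⟩ = a
    · rw [ev_apply_mem (show (⟨e (u, r), hs l t⟩ : X) ∈ {x | letter x = a} from hx), if_pos hx]
      simp
    · rw [ev_apply_notMem (show (⟨e (u, r), hs l t⟩ : X) ∉ {x | letter x = a} from hx), if_neg hx]
      simp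

/-- **Bridge**: the strip theorem in the form of the fields `row`, `col` of `AmenData`. -/
theorem strip_bridge [Finite Θ] [Nonempty C] (S : StripSys Θ A Λ) (e : (ℤ × ℤ) ≃+ (ℤ × ℤ))
    (he : ∀ v : ℤ × ℤ, |v.1| ≤ 1 → |v.2| ≤ 1 → |(e.symm v).1| ≤ 1 ∧ |(e.symm v).2| ≤ 1)
    (hs : Λ → Θ → Star) (hlett : ∀ l u r t, S.lett l u r t = letter ⟨e (u, r), hs l t⟩)
    (l l' : Λ) (K : Subgroup (Gp (ℤ × ℤ) letter C))
    (hK : Amen ↥(K ⊓ eqFam (fun t => rep (C := C) letter (hs l t))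
      (fun t => rep (C := C) letter (hs l' t)))) :
    Amen ↥K := by
  refine S.strip_amen_pair (fun l => sbsHom e (fun t => rep (C := C) letter (hs l t)))
    (closure_smallGens letter)
    (fun g hg => isGen_smallGens letter S e he hs hlett hg) l l' K ?_
  have e1 : (sbsHom e (fun t => rep (C := C) letter (hs l t))).eqLocus
      (sbsHom e (fun t => rep (C := C) letter (hs l' t))) =
      eqFam (fun t => rep (C := C) letter (hs l t)) (fun t => rep (C := C) letter (hs l' t)) := by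
    ext g
    rw [mem_eqFam]
    constructor
    · intro h t
      have h' : sbsHom e (fun t => rep (C := C) letter (hs l t)) g =
        sbsHom e (fun t => rep (C := C) letter (hs l' t)) g := h
      rw [sbsHom_apply, sbsHom_apply] at h'
      exact congrFun (sideBySide_inj e h') t
    · intro h
      have h' : sbsHom e (fun t => rep (C := C) letter (hs l t)) g =
        sbsHom e (fun t => rep (C := C) letter (hs l' t)) g := by
        rw [sbsHom_apply, sbsHom_apply]
        congr 1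
        funext t
        exact h t
      exact h'
  rw [e1]
  exact hK

/-- rows: `u = x`, `r = y` -/
theorem strip_row [Finite Θ] [Nonempty C] (S : StripSys Θ A Λ)
    (hs : Λ → Θ → Star) (hlett : ∀ l u r t, S.lett l u r t = letter ⟨(u, r), hs l t⟩)
    (l l' : Λ) (K : Subgroup (Gp (ℤ × ℤ) letter C))
    (hK : Amen ↥(K ⊓ eqFam (fun t => rep (C := C) letter (hs l t))
      (fun t => rep (C := C) letter (hs l' t)))) :
    Amen ↥K :=
  strip_bridge letter S (AddEquiv.refl _) (fun _ h1 h2 => ⟨h1, h2⟩) hs hlett l l' K hK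

/-- columns: `u = y`, `r = x` -/
theorem strip_col [Finite Θ] [Nonempty C] (S : StripSys Θ A Λ)
    (vs : Λ → Θ → Star) (hlett : ∀ l u r t, S.lett l u r t = letter ⟨(r, u), vs l t⟩)
    (l l' : Λ) (K : Subgroup (Gp (ℤ × ℤ) letter C))
    (hK : Amen ↥(K ⊓ eqFam (fun t => rep (C := C) letter (vs l t))
      (fun t => rep (C := C) letter (vs l' t)))) :
    Amen ↥K :=
  strip_bridge letter S (AddEquiv.prodComm) (fun _ h1 h2 => ⟨h2, h1⟩) vs hlett l l' K hK

end Bridge

end Crest.Agent.R189
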