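import Crest.Agent.R189.XGeo
import Crest.Agent.R189.AmenMain

/-!
Row 189 (S0289), helper523.  (FD) of helper267: the pattern of radius `M` at `p` depends only on
`p` modulo `(w, h)` up to the choice of the corner star.

`xh a m = ∏_{i<m} 3(a+2i)`.
-/

set_option autoImplicit false

namespace Crest.Agent.R189.FD

open Crest.Agent.R189

/-- the letters (digit and star) at two positions agree -/
structure Same (a : ℕ) (s : Star) (x y : ℤ) (s' : Star) (x' y' : ℤ) : Prop where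
  d : dg (3 * a) y = dg (3 * a) y'
  r : rstar a s x y = rstar a s' x' y'

theorem Same.of_parts {a : ℕ} {s : Star} {x y : ℤ} {s' : Star} {x' y' : ℤ}
    (d : dg (3 * a) y = dg (3 * a) y') (h0 : dom a s x y = dom a s' x' y')
    (h1 : V a s x (y - 1) = V a s' x' (y' - 1)) (h2 : V a s x y = V a s' x' y')
    (h3 : Hb a s x y = Hb a s' x' y') (h4 : Hf a s x y = Hf a s' x' y') :
    Same a s x y s' x' y' :=
  ⟨d, by simp only [rstar, h0, h1, h2, h3, h4]⟩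

/-- `≡` passes to smaller moduli -/
theorem cdvd {a i j : ℕ} (h : i ≤ j) {x : ℤ} (hx : ((xh a j : ℕ) : ℤ) ∣ x) :
    ((xh a i : ℕ) : ℤ) ∣ x := dvd_trans (by exact_mod_cast xh_dvd h) hx

theorem dg_of_xh {a j : ℕ} (hj : 1 ≤ j) {y y' : ℤ} (h : ((xh a j : ℕ) : ℤ) ∣ y - y') :
    dg (3 * a) y = dg (3 * a) y' := by
  obtain ⟨j, rfl⟩ : ∃ i, j = i + 1 := ⟨j - 1, by omega⟩
  exact dg_congr (Dvd.intro _ (xh_succ a j).symm) h

/-- generic position: neither a column of `xh (a+1) i ℤ` nor a row of `xh a j ℤ` -/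
theorem same_low {a : ℕ} (ha : 1 ≤ a) {i j : ℕ} (hij : i ≤ j) (hji : j ≤ i + 1) (s s' : Star)
    {x x' y y' : ℤ} (hx : ¬ ((xh (a + 1) i : ℕ) : ℤ) ∣ x) (hy : ¬ ((xh a j : ℕ) : ℤ) ∣ y)
    (hxx : ((xh (a + 1) j : ℕ) : ℤ) ∣ x - x') (hyy : ((xh a (i + 1) : ℕ) : ℤ) ∣ y - y') :
    Same a s x y s' x' y' := by
  have hyj := cdvd hji hyy
  have hyy' : ((xh a (i + 1) : ℕ) : ℤ) ∣ (y - 1) - (y' - 1) := by
    rwa [sub_sub_sub_cancel_right]
  exact Same.of_parts (dg_of_xh (by omega) hyy) (dom_congr ha j s s' (Or.inl hy) hyj hxx)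
    (V_congr ha i s s' hx (cdvd hij hxx) hyy') (V_congr ha i s s' hx (cdvd hij hxx) hyy)
    (Hb_congr ha j s s' hy hyj hxx) (Hf_congr ha j s s' hy hyj hxx)

/-- on a column `x` of high order, away from rows of high order -/
theorem same_col {a : ℕ} (ha : 1 ≤ a) {j : ℕ} (s s' : Star)
    {x x' y y' : ℤ} (hy : ¬ ((xh a j : ℕ) : ℤ) ∣ y)
    (hxx : ((xh (a + 1) j : ℕ) : ℤ) ∣ x - x') (hyy : ((xh a j : ℕ) : ℤ) ∣ y - y')
    (h1 : V a s x (y - 1) = V a s' x' (y' - 1)) (h2 : V a s x y = V a s' x' y') :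
    Same a s x y s' x' y' := by
  have hj : 1 ≤ j := by
    rcases Nat.eq_zero_or_pos j with rfl | h
    · exact absurd (by simp) hy
    · exact h
  exact Same.of_parts (dg_of_xh hj hyy) (dom_congr ha j s s' (Or.inl hy) hyy hxx) h1 h2
    (Hb_congr ha j s s' hy hyy hxx) (Hf_congr ha j s s' hy hyy hxx)

/-- on a row `y` of high order, away from columns of high order -/
theorem same_row {a : ℕ} (ha : 1 ≤ a) {i : ℕ} (s s' : Star)
    {x x' y y' : ℤ} (hx : ¬ ((xh (a + 1) i : ℕ) : ℤ) ∣ x)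
    (hxx : ((xh (a + 1) i : ℕ) : ℤ) ∣ x - x') (hyy : ((xh a (i + 1) : ℕ) : ℤ) ∣ y - y')
    (h3 : Hb a s x y = Hb a s' x' y') (h4 : Hf a s x y = Hf a s' x' y') :
    Same a s x y s' x' y' := by
  have hyy' : ((xh a (i + 1) : ℕ) : ℤ) ∣ (y - 1) - (y' - 1) := by
    rwa [sub_sub_sub_cancel_right]
  exact Same.of_parts (dg_of_xh (by omega) hyy)
    (dom_congr ha i s s' (Or.inr hx) (cdvd (by omega) hyy) hxx)
    (V_congr ha i s s' hx hxx hyy') (V_congr ha i s s' hx hxx hyy) h3 h4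

theorem Hf_inflate {a : ℕ} (ha : 1 ≤ a) (s : Star) (m : ℕ) (x y : ℤ) :
    Hf a s x ((xh a (m + 1) : ℕ) * y) = V (a + 1 + 2 * m) s.flip y (x / (xh (a + 1) m : ℕ)) := by
  have h1 : ((xh a (m + 1) : ℕ) : ℤ) * y = ((3 * a : ℕ) : ℤ) * ((xh (a + 1 + 1) m : ℕ) * y) := by
    rw [xh_succ]; push_cast; ring
  rw [h1, Hf_mul ha, V_inflate (by omega)]

theorem Hb_inflate {a : ℕ} (ha : 1 ≤ a) (s : Star) (m : ℕ) (x y : ℤ) :
    Hb a s x ((xh a (m + 1) : ℕ) * y)
      = V (a + 1 + 2 * m) s.flip y ((x - 1) / (xh (a + 1) m : ℕ)) := by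
  have h1 : ((xh a (m + 1) : ℕ) : ℤ) * y = ((3 * a : ℕ) : ℤ) * ((xh (a + 1 + 1) m : ℕ) * y) := by
    rw [xh_succ]; push_cast; ring
  rw [h1, Hb_mul ha, V_inflate (by omega)]

theorem Hf_at_zero (a : ℕ) (s : Star) (x : ℤ) :
    Hf a s x 0 = if 0 ≤ x then s.Qf else s.Qb := by
  have h0 : dg (3 * a) 0 = 0 := by simp [dg]
  rw [Hf, if_pos h0, Int.zero_ediv, V_zero]; simp

theorem Hb_at_zero (a : ℕ) (s : Star) (x : ℤ) :
    Hb a s x 0 = if 0 ≤ x - 1 then s.Qf else s.Qb := by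
  have h0 : dg (3 * a) 0 = 0 := by simp [dg]
  rw [Hb, if_pos h0, Int.zero_ediv, V_zero]; simp

/-! ### arithmetic of blocks -/

theorem div_eq_of_block {H t y : ℤ} (h1 : H * t ≤ y) (h2 : y < H * (t + 1)) :
    y / H = t := by
  have hH : 0 < H := by nlinarith
  rw [Int.ediv_eq_iff_of_pos hH]
  constructor <;> nlinarith

theorem block {H : ℤ} (hH : 0 < H) {M p y : ℤ} (hno : ∀ z, |z - p| ≤ M → ¬ H ∣ z)
    (hy : |y - p| ≤ M) : y / H = p / H ∧ (y - 1) / H = p / H := by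
  have h1 : H * (p / H) ≤ p := Int.mul_ediv_self_le hH.ne'
  have h2 : p < H * (p / H + 1) := by
    have := Int.lt_ediv_add_one_mul_self p hH
    linarith [mul_comm H (p / H + 1)]
  have hy1 := abs_le.1 hy
  have h3 : H * (p / H) < y := by
    by_contra h
    push Not at h
    exact hno (H * (p / H)) (abs_le.2 ⟨by linarith, by linarith⟩) (Dvd.intro _ rfl)
  have h4 : y < H * (p / H + 1) := by
    by_contra h
    push Not at h
    exact hno (H * (p / H + 1)) (abs_le.2 ⟨by linarith, by linarith⟩) (Dvd.intro _ rfl)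
  exact ⟨div_eq_of_block h3.le h4, div_eq_of_block (by linarith) (by linarith)⟩

/-- a box without multiples of `H` lies on one side of every multiple -/
theorem side {H : ℤ} {M p z : ℤ} (hz : H ∣ z) (hno : ∀ y, |y - p| ≤ M → ¬ H ∣ y) :
    z < p - M ∨ p + M < z := by
  by_contra h
  push Not at h
  exact hno z (abs_le.2 ⟨by linarith [h.1], by linarith [h.2]⟩) hz

/-- two different positions in a small box: not both divisible -/
theorem ndvd {H : ℤ} {z y : ℤ} (hz : H ∣ z) (h : |y - z| < H) (hne : y ≠ z) : ¬ H ∣ y := by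
  intro hy
  have h1 : H ∣ y - z := dvd_sub hy hz
  have h2 : H ∣ |y - z| := (dvd_abs _ _).2 h1
  have h3 : 0 < |y - z| := abs_pos.2 (sub_ne_zero.2 hne)
  exact absurd (Int.le_of_dvd h3 h2) (not_le.2 h)

/-! ### boxes -/

/-- the patterns in two boxes agree -/
def Box (a M : ℕ) (s : Star) (p1 p2 : ℤ) (s' : Star) (q1 q2 : ℤ) : Prop :=
  ∀ v1 v2 : ℤ, |v1| ≤ M → |v2| ≤ M → Same a s (p1 + v1) (p2 + v2) s' (q1 + v1) (q2 + v2)

section cases

variable {a : ℕ} (ha : 2 ≤ a) (st : Star → ℤ → ℤ → Star)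
  (hst : ∀ s x y, (st s x y).1 = rstar a s x y) {M m : ℕ}
  (s : Star) (p1 p2 : ℤ)

include ha

/-- no column of high order, no row of high order in the box -/
theorem caseA1 (hx : ∀ z, |z - p1| ≤ M → ¬ ((xh (a + 1) (m + 2) : ℕ) : ℤ) ∣ z)
    (hy : ∀ z, |z - p2| ≤ M → ¬ ((xh a (m + 2) : ℕ) : ℤ) ∣ z)
    {x0 y0 : ℤ} (hx0 : ((xh (a + 1) (m + 2) : ℕ) : ℤ) ∣ x0)
    (hy0 : ((xh a (m + 3) : ℕ) : ℤ) ∣ y0) (s' : Star) :
    Box a M s p1 p2 s' (p1 - x0) (p2 - y0) := by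
  intro v1 v2 hv1 hv2
  apply same_low (by omega) (i := m + 2) (j := m + 2) le_rfl (by omega)
  · exact hx _ (by simpa using hv1)
  · exact hy _ (by simpa using hv2)
  · have : p1 + v1 - (p1 - x0 + v1) = x0 := by ring
    rw [this]; exact hx0
  · have : p2 + v2 - (p2 - y0 + v2) = y0 := by ring
    rw [this]; exact hy0

include hst

/-- one column of high order, no row of high order -/
theorem caseA2 (hM : 2 * (M : ℤ) < ((xh (a + 1) (m + 2) : ℕ) : ℤ))
    (hy : ∀ z, |z - p2| ≤ M → ¬ ((xh a (m + 2) : ℕ) : ℤ) ∣ z)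
    {xc y0 : ℤ} (hxc : ((xh (a + 1) (m + 2) : ℕ) : ℤ) ∣ xc) (hxc' : |xc - p1| ≤ M)
    (hy0 : ((xh a (m + 3) : ℕ) : ℤ) ∣ y0) :
    ∃ s', Box a M s p1 p2 s' (p1 - xc) (p2 - y0) := by
  have hH : (0 : ℤ) < ((xh a (m + 2) : ℕ) : ℤ) := by exact_mod_cast xh_pos (by omega) _
  set H : ℤ := ((xh a (m + 2) : ℕ) : ℤ) with hHdef
  set t : ℤ := p2 / H with ht
  obtain ⟨x1, rfl⟩ := hxc
  -- the label of the column
  have hV : ∀ y, V a s (((xh (a + 1) (m + 2) : ℕ) : ℤ) * x1) y = V (a + 2 * (m + 2)) s x1 (y / H) :=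
    fun y => V_inflate (by omega) s (m + 2) x1 y
  have hy0' : H ∣ y0 := cdvd (by omega) hy0
  -- the good star
  obtain ⟨s', hs'⟩ : ∃ s' : Star, ∀ v2 : ℤ, |v2| ≤ M →
      V a s' 0 (p2 - y0 + v2) = V (a + 2 * (m + 2)) s x1 t ∧
      V a s' 0 (p2 - y0 + v2 - 1) = V (a + 2 * (m + 2)) s x1 t := by
    rcases side (H := H) (M := M) (p := p2) hy0' hy with h | h
    · refine ⟨st s (((xh (a + 1) (m + 2) : ℕ) : ℤ) * x1) (H * t), fun v2 hv2 => ?_⟩
      have hv := abs_le.1 hv2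
      have hPf : (st s (((xh (a + 1) (m + 2) : ℕ) : ℤ) * x1) (H * t)).Pf
          = V (a + 2 * (m + 2)) s x1 t := by
        have h1 := congrArg RStar.Pf (hst s (((xh (a + 1) (m + 2) : ℕ) : ℤ) * x1) (H * t))
        have h2 : (rstar a s (((xh (a + 1) (m + 2) : ℕ) : ℤ) * x1) (H * t)).Pf
            = V a s (((xh (a + 1) (m + 2) : ℕ) : ℤ) * x1) (H * t) := rfl
        rw [h2, hV, Int.mul_ediv_cancel_left _ hH.ne'] at h1
        exact h1
      rw [V_zero, V_zero, if_pos (by linarith), if_pos (by linarith [Int.add_one_le_iff.2 h])]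
      exact ⟨hPf, hPf⟩
    · refine ⟨st s (((xh (a + 1) (m + 2) : ℕ) : ℤ) * x1) (H * (t + 1)), fun v2 hv2 => ?_⟩
      have hv := abs_le.1 hv2
      have hPb : (st s (((xh (a + 1) (m + 2) : ℕ) : ℤ) * x1) (H * (t + 1))).Pb
          = V (a + 2 * (m + 2)) s x1 t := by
        have h1 := congrArg RStar.Pb (hst s (((xh (a + 1) (m + 2) : ℕ) : ℤ) * x1) (H * (t + 1)))
        have h2 : (rstar a s (((xh (a + 1) (m + 2) : ℕ) : ℤ) * x1) (H * (t + 1))).Pb
            = V a s (((xh (a + 1) (m + 2) : ℕ) : ℤ) * x1) (H * (t + 1) - 1) := rfl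
        have h3 : (H * (t + 1) - 1) / H = t := div_eq_of_block (by linarith) (by linarith)
        rw [h2, hV, h3] at h1
        exact h1
      rw [V_zero, V_zero, if_neg (by linarith), if_neg (by linarith)]
      exact ⟨hPb, hPb⟩
  refine ⟨s', fun v1 v2 hv1 hv2 => ?_⟩
  have hyv : ¬ H ∣ p2 + v2 := hy _ (by simpa using hv2)
  have e2 : p2 + v2 - (p2 - y0 + v2) = y0 := by ring
  by_cases hx : p1 + v1 = ((xh (a + 1) (m + 2) : ℕ) : ℤ) * x1
  · have hx' : p1 - ((xh (a + 1) (m + 2) : ℕ) : ℤ) * x1 + v1 = 0 := by linarith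
    rw [hx, hx']
    obtain ⟨b1, b2⟩ := block hH (M := M) (p := p2) hy (y := p2 + v2) (by simpa using hv2)
    apply same_col (by omega) (j := m + 2) s s' hyv
    · rw [sub_zero]; exact Dvd.intro _ rfl
    · rw [e2]; exact hy0'
    · rw [hV, b2]; exact (hs' v2 hv2).2.symm
    · rw [hV, b1]; exact (hs' v2 hv2).1.symm
  · apply same_low (by omega) (i := m + 2) (j := m + 2) le_rfl (by omega) s s' _ hyv
    · have : p1 + v1 - (p1 - ((xh (a + 1) (m + 2) : ℕ) : ℤ) * x1 + v1)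
          = ((xh (a + 1) (m + 2) : ℕ) : ℤ) * x1 := by ring
      rw [this]; exact Dvd.intro _ rfl
    · rw [e2]; exact hy0
    · apply ndvd (Dvd.intro x1 rfl) _ hx
      have h1 := abs_le.1 hxc'
      have h2 := abs_le.1 hv1
      exact abs_lt.2 ⟨by linarith, by linarith⟩

/-- one row of high order, no column of (almost as) high order -/
theorem caseB2 (hM : 2 * (M : ℤ) < ((xh a (m + 2) : ℕ) : ℤ))
    (hx : ∀ z, |z - p1| ≤ M → ¬ ((xh (a + 1) (m + 1) : ℕ) : ℤ) ∣ z)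
    {x0 yc : ℤ} (hyc : ((xh a (m + 2) : ℕ) : ℤ) ∣ yc) (hyc' : |yc - p2| ≤ M)
    (hx0 : ((xh (a + 1) (m + 2) : ℕ) : ℤ) ∣ x0) :
    ∃ s', Box a M s p1 p2 s' (p1 - x0) (p2 - yc) := by
  have hW : (0 : ℤ) < ((xh (a + 1) (m + 1) : ℕ) : ℤ) := by exact_mod_cast xh_pos (by omega) _
  set W : ℤ := ((xh (a + 1) (m + 1) : ℕ) : ℤ) with hWdef
  set t : ℤ := p1 / W with ht
  obtain ⟨y1, rfl⟩ := hyc
  have hF : ∀ x, Hf a s x (((xh a (m + 2) : ℕ) : ℤ) * y1)
      = V (a + 1 + 2 * (m + 1)) s.flip y1 (x / W) :=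
    fun x => Hf_inflate (by omega) s (m + 1) x y1
  have hB : ∀ x, Hb a s x (((xh a (m + 2) : ℕ) : ℤ) * y1)
      = V (a + 1 + 2 * (m + 1)) s.flip y1 ((x - 1) / W) :=
    fun x => Hb_inflate (by omega) s (m + 1) x y1
  have hx0' : W ∣ x0 := cdvd (by omega) hx0
  obtain ⟨s', hs'⟩ : ∃ s' : Star, ∀ v1 : ℤ, |v1| ≤ M →
      Hf a s' (p1 - x0 + v1) 0 = V (a + 1 + 2 * (m + 1)) s.flip y1 t ∧
      Hb a s' (p1 - x0 + v1) 0 = V (a + 1 + 2 * (m + 1)) s.flip y1 t := by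
    rcases side (H := W) (M := M) (p := p1) hx0' hx with h | h
    · refine ⟨st s (W * t) (((xh a (m + 2) : ℕ) : ℤ) * y1), fun v1 hv1 => ?_⟩
      have hv := abs_le.1 hv1
      have hQf : (st s (W * t) (((xh a (m + 2) : ℕ) : ℤ) * y1)).Qf
          = V (a + 1 + 2 * (m + 1)) s.flip y1 t := by
        have h1 := congrArg RStar.Qf (hst s (W * t) (((xh a (m + 2) : ℕ) : ℤ) * y1))
        have h2 : (rstar a s (W * t) (((xh a (m + 2) : ℕ) : ℤ) * y1)).Qf
            = Hf a s (W * t) (((xh a (m + 2) : ℕ) : ℤ) * y1) := rfl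
        rw [h2, hF, Int.mul_ediv_cancel_left _ hW.ne'] at h1
        exact h1
      rw [Hf_at_zero, Hb_at_zero, if_pos (by linarith),
        if_pos (by linarith [Int.add_one_le_iff.2 h])]
      exact ⟨hQf, hQf⟩
    · refine ⟨st s (W * (t + 1)) (((xh a (m + 2) : ℕ) : ℤ) * y1), fun v1 hv1 => ?_⟩
      have hv := abs_le.1 hv1
      have hQb : (st s (W * (t + 1)) (((xh a (m + 2) : ℕ) : ℤ) * y1)).Qb
          = V (a + 1 + 2 * (m + 1)) s.flip y1 t := by
        have h1 := congrArg RStar.Qb (hst s (W * (t + 1)) (((xh a (m + 2) : ℕ) : ℤ) * y1))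
        have h2 : (rstar a s (W * (t + 1)) (((xh a (m + 2) : ℕ) : ℤ) * y1)).Qb
            = Hb a s (W * (t + 1)) (((xh a (m + 2) : ℕ) : ℤ) * y1) := rfl
        have h3 : (W * (t + 1) - 1) / W = t := div_eq_of_block (by linarith) (by linarith)
        rw [h2, hB, h3] at h1
        exact h1
      rw [Hf_at_zero, Hb_at_zero, if_neg (by linarith), if_neg (by linarith)]
      exact ⟨hQb, hQb⟩
  refine ⟨s', fun v1 v2 hv1 hv2 => ?_⟩
  have hxv : ¬ W ∣ p1 + v1 := hx _ (by simpa using hv1)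
  have e1 : p1 + v1 - (p1 - x0 + v1) = x0 := by ring
  by_cases hy : p2 + v2 = ((xh a (m + 2) : ℕ) : ℤ) * y1
  · have hy' : p2 - ((xh a (m + 2) : ℕ) : ℤ) * y1 + v2 = 0 := by linarith
    rw [hy, hy']
    obtain ⟨b1, b2⟩ := block hW (M := M) (p := p1) hx (y := p1 + v1) (by simpa using hv1)
    apply same_row (by omega) (i := m + 1) s s' hxv
    · rw [e1]; exact hx0'
    · rw [sub_zero]; exact Dvd.intro _ rfl
    · rw [hB, b2]; exact (hs' v1 hv1).2.symm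
    · rw [hF, b1]; exact (hs' v1 hv1).1.symm
  · apply same_low (by omega) (i := m + 1) (j := m + 2) (by omega) (by omega) s s' hxv
    · apply ndvd (Dvd.intro y1 rfl) _ hy
      have h1 := abs_le.1 hyc'
      have h2 := abs_le.1 hv2
      exact abs_lt.2 ⟨by linarith, by linarith⟩
    · rw [e1]; exact hx0
    · have : p2 + v2 - (p2 - ((xh a (m + 2) : ℕ) : ℤ) * y1 + v2)
          = ((xh a (m + 2) : ℕ) : ℤ) * y1 := by ring
      rw [this]; exact Dvd.intro _ rfl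

/-- a crossing of a column and a row of high order -/
theorem caseB1 (hM : 2 * (M : ℤ) < ((xh (a + 1) m : ℕ) : ℤ))
    (hM' : 2 * (M : ℤ) < ((xh a (m + 1) : ℕ) : ℤ))
    {xc yc : ℤ} (hxc : ((xh (a + 1) (m + 1) : ℕ) : ℤ) ∣ xc) (hxc' : |xc - p1| ≤ M)
    (hyc : ((xh a (m + 2) : ℕ) : ℤ) ∣ yc) (hyc' : |yc - p2| ≤ M) :
    ∃ s', Box a M s p1 p2 s' (p1 - xc) (p2 - yc) := by
  have hW : (0 : ℤ) < ((xh (a + 1) (m + 1) : ℕ) : ℤ) := by exact_mod_cast xh_pos (by omega) _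
  have hH : (0 : ℤ) < ((xh a (m + 1) : ℕ) : ℤ) := by exact_mod_cast xh_pos (by omega) _
  have hWle : ((xh (a + 1) m : ℕ) : ℤ) ≤ ((xh (a + 1) (m + 1) : ℕ) : ℤ) := by
    exact_mod_cast Nat.le_of_dvd (xh_pos (by omega) _) (xh_dvd_succ _ _)
  set W : ℤ := ((xh (a + 1) (m + 1) : ℕ) : ℤ) with hWdef
  set H : ℤ := ((xh a (m + 1) : ℕ) : ℤ) with hHdef
  have hycH : H ∣ yc := cdvd (by omega) hyc
  refine ⟨st s xc yc, fun v1 v2 hv1 hv2 => ?_⟩
  have hx1 := abs_le.1 hxc'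
  have hy1 := abs_le.1 hyc'
  have hv1' := abs_le.1 hv1
  have hv2' := abs_le.1 hv2
  -- displacements from the centre
  obtain ⟨dx, hdx⟩ : ∃ dx, p1 + v1 = xc + dx := ⟨p1 + v1 - xc, by ring⟩
  obtain ⟨dy, hdy⟩ : ∃ dy, p2 + v2 = yc + dy := ⟨p2 + v2 - yc, by ring⟩
  have e1 : p1 - xc + v1 = dx := by linarith
  have e2 : p2 - yc + v2 = dy := by linarith
  rw [hdx, hdy, e1, e2]
  have hdx1 : -(2 * (M : ℤ)) ≤ dx := by linarith
  have hdx2 : dx ≤ 2 * (M : ℤ) := by linarith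
  have hdy1 : -(2 * (M : ℤ)) ≤ dy := by linarith
  have hdy2 : dy ≤ 2 * (M : ℤ) := by linarith
  have f1 : xc + dx - dx = xc := by ring
  have f2 : yc + dy - dy = yc := by ring
  have hPf : (st s xc yc).Pf = V a s xc yc := congrArg RStar.Pf (hst s xc yc)
  have hPb : (st s xc yc).Pb = V a s xc (yc - 1) := congrArg RStar.Pb (hst s xc yc)
  have hQf : (st s xc yc).Qf = Hf a s xc yc := congrArg RStar.Qf (hst s xc yc)
  have hQb : (st s xc yc).Qb = Hb a s xc yc := congrArg RStar.Qb (hst s xc yc)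
  obtain ⟨x1, rfl⟩ := hxc
  have hV : ∀ y, V a s (W * x1) y = V (a + 2 * (m + 1)) s x1 (y / H) :=
    fun y => V_inflate (by omega) s (m + 1) x1 y
  obtain ⟨y1, hy1e⟩ := hyc
  have hF : ∀ x, Hf a s x yc = V (a + 1 + 2 * (m + 1)) s.flip y1 (x / W) := by
    intro x; rw [hy1e]; exact Hf_inflate (by omega) s (m + 1) x y1
  have hB : ∀ x, Hb a s x yc = V (a + 1 + 2 * (m + 1)) s.flip y1 ((x - 1) / W) := by
    intro x; rw [hy1e]; exact Hb_inflate (by omega) s (m + 1) x y1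
  obtain ⟨y2, hy2e⟩ := hycH
  have nx : dx ≠ 0 → ¬ ((xh (a + 1) m : ℕ) : ℤ) ∣ W * x1 + dx := by
    intro h0
    apply ndvd (z := W * x1) (cdvd (i := m) (j := m + 1) (by omega) (Dvd.intro _ rfl))
    · rw [add_sub_cancel_left]; exact abs_lt.2 ⟨by linarith, by linarith⟩
    · simpa using h0
  have ny : dy ≠ 0 → ¬ H ∣ yc + dy := by
    intro h0
    apply ndvd (z := yc) (by rw [hy2e]; exact Dvd.intro _ rfl)
    · rw [add_sub_cancel_left]; exact abs_lt.2 ⟨by linarith, by linarith⟩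
    · simpa using h0
  have Hpos : ∀ z, 0 ≤ z → z < H → (yc + z) / H = y2 := fun z h1 h2 =>
    div_eq_of_block (by rw [hy2e]; linarith) (by rw [hy2e]; linarith)
  have Hneg : ∀ z, z < 0 → -H ≤ z → (yc + z) / H = y2 - 1 := fun z h1 h2 =>
    div_eq_of_block (by rw [hy2e]; linarith) (by rw [hy2e]; linarith)
  have Wpos : ∀ z, 0 ≤ z → z < W → (W * x1 + z) / W = x1 := fun z h1 h2 =>
    div_eq_of_block (by linarith) (by linarith)
  have Wneg : ∀ z, z < 0 → -W ≤ z → (W * x1 + z) / W = x1 - 1 := fun z h1 h2 =>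
    div_eq_of_block (by linarith) (by linarith)
  -- labels of the central column
  have cV : ∀ z, -H ≤ z → z < H → V a s (W * x1) (yc + z) = V a (st s (W * x1) yc) 0 z := by
    intro z h1 h2
    rw [V_zero]
    by_cases hz : 0 ≤ z
    · rw [if_pos hz, hPf, hV, hV, Hpos z hz h2]
      have := Hpos 0 le_rfl hH
      rw [add_zero] at this; rw [this]
    · rw [if_neg hz, hPb, hV, hV, Hneg z (not_le.1 hz) h1]
      have := Hneg (-1) (by norm_num) (by linarith [Int.add_one_le_iff.2 hH])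
      rw [← sub_eq_add_neg] at this; rw [this]
  -- labels of the central row
  have cF : ∀ z, -W ≤ z → z < W →
      V (a + 1 + 2 * (m + 1)) s.flip y1 ((W * x1 + z) / W)
        = if 0 ≤ z then (st s (W * x1) yc).Qf else (st s (W * x1) yc).Qb := by
    intro z h1 h2
    by_cases hz : 0 ≤ z
    · rw [if_pos hz, hQf, hF, Wpos z hz h2]
      have := Wpos 0 le_rfl hW
      rw [add_zero] at this; rw [this]
    · rw [if_neg hz, hQb, hB, Wneg z (not_le.1 hz) h1]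
      have := Wneg (-1) (by norm_num) (by linarith [Int.add_one_le_iff.2 hW])
      rw [← sub_eq_add_neg] at this; rw [this]
  by_cases h0x : dx = 0
  · subst h0x
    by_cases h0y : dy = 0
    · subst h0y
      rw [add_zero, add_zero]
      refine ⟨?_, ?_⟩
      · apply dg_of_xh (j := m + 1) (by omega)
        rw [sub_zero, hy2e]; exact Dvd.intro _ rfl
      · rw [rstar_zero, hst]
    · rw [add_zero]
      apply same_col (by omega) (j := m + 1) s _ (ny h0y)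
      · rw [sub_zero]; exact Dvd.intro _ rfl
      · rw [f2, hy2e]; exact Dvd.intro _ rfl
      · have := cV (dy - 1) (by linarith [Int.add_one_le_iff.2 hM']) (by linarith)
        rw [← add_sub_assoc] at this
        exact this
      · exact cV dy (by linarith) (by linarith)
  · by_cases h0y : dy = 0
    · subst h0y
      rw [add_zero]
      apply same_row (by omega) (i := m) s _ (nx h0x)
      · rw [f1]; exact cdvd (i := m) (j := m + 1) (by omega) (Dvd.intro _ rfl)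
      · rw [sub_zero, hy2e]; exact Dvd.intro _ rfl
      · rw [hB, Hb_at_zero]
        have := cF (dx - 1) (by linarith [Int.add_one_le_iff.2 hM]) (by linarith)
        rw [← add_sub_assoc] at this
        exact this
      · rw [hF, Hf_at_zero]
        exact cF dx (by linarith) (by linarith)
    · apply same_low (by omega) (i := m) (j := m + 1) (by omega) (by omega) s _ (nx h0x) (ny h0y)
      · rw [f1]; exact Dvd.intro _ rfl
      · rw [f2, hy2e]; exact Dvd.intro _ rfl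

/-- (FD) of helper267. -/
theorem fd_box (M : ℕ) : ∃ w h : ℤ, 0 < w ∧ 0 < h ∧ ∀ (s : Star) (p1 p2 i j : ℤ),
    ∃ (s1 s2 : Star) (q1 q2 : ℤ), Box a M s p1 p2 s1 q1 q2 ∧
      Box a M s (p1 + w * i) (p2 + h * j) s2 q1 q2 := by
  set m : ℕ := 2 * M + 1 with hm
  have b1 : 2 * (M : ℤ) < ((xh (a + 1) m : ℕ) : ℤ) := by
    have := lt_xh (a := a + 1) (by omega) m
    have : 2 * M < xh (a + 1) m := by omega
    exact_mod_cast this
  have b2 : 2 * (M : ℤ) < ((xh a (m + 1) : ℕ) : ℤ) := by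
    have := lt_xh (a := a) (by omega) (m + 1)
    have : 2 * M < xh a (m + 1) := by omega
    exact_mod_cast this
  have b3 : 2 * (M : ℤ) < ((xh (a + 1) (m + 2) : ℕ) : ℤ) := by
    have := lt_xh (a := a + 1) (by omega) (m + 2)
    have : 2 * M < xh (a + 1) (m + 2) := by omega
    exact_mod_cast this
  have b4 : 2 * (M : ℤ) < ((xh a (m + 2) : ℕ) : ℤ) := by
    have := lt_xh (a := a) (by omega) (m + 2)
    have : 2 * M < xh a (m + 2) := by omega
    exact_mod_cast this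
  have hw0 : (0 : ℤ) < ((xh (a + 1) (m + 2) : ℕ) : ℤ) := by exact_mod_cast xh_pos (by omega) _
  have hh0 : (0 : ℤ) < ((xh a (m + 3) : ℕ) : ℤ) := by exact_mod_cast xh_pos (by omega) _
  refine ⟨((xh (a + 1) (m + 2) : ℕ) : ℤ), ((xh a (m + 3) : ℕ) : ℤ), hw0, hh0, ?_⟩
  intro s p1 p2 i j
  set w : ℤ := ((xh (a + 1) (m + 2) : ℕ) : ℤ) with hwdef
  set h : ℤ := ((xh a (m + 3) : ℕ) : ℤ) with hhdef
  have dw2 : w ∣ w * i := Dvd.intro _ rfl
  have dw1 : ((xh (a + 1) (m + 1) : ℕ) : ℤ) ∣ w * i := cdvd (by omega) dw2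
  have dh3 : h ∣ h * j := Dvd.intro _ rfl
  have dh2 : ((xh a (m + 2) : ℕ) : ℤ) ∣ h * j := cdvd (by omega) dh3
  -- shifting the absence of multiples
  have shift : ∀ (K : ℤ) (p c : ℤ), K ∣ c → (∀ z, |z - p| ≤ M → ¬ K ∣ z) →
      ∀ z, |z - (p + c)| ≤ M → ¬ K ∣ z := by
    intro K p c hc hno z hz hK
    apply hno (z - c) (by rwa [sub_sub, add_comm c p]) (dvd_sub hK hc)
  by_cases hy : ∃ yc, ((xh a (m + 2) : ℕ) : ℤ) ∣ yc ∧ |yc - p2| ≤ M
  · obtain ⟨yc, hyc, hyc'⟩ := hy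
    have hyc2 : ((xh a (m + 2) : ℕ) : ℤ) ∣ yc + h * j := dvd_add hyc dh2
    have hyc2' : |yc + h * j - (p2 + h * j)| ≤ M := by rwa [add_sub_add_right_eq_sub]
    by_cases hx : ∃ xc, ((xh (a + 1) (m + 1) : ℕ) : ℤ) ∣ xc ∧ |xc - p1| ≤ M
    · obtain ⟨xc, hxc, hxc'⟩ := hx
      obtain ⟨s1, h1⟩ := caseB1 ha st hst s p1 p2 b1 b2 hxc hxc' hyc hyc'
      obtain ⟨s2, h2⟩ := caseB1 ha st hst s (p1 + w * i) (p2 + h * j) b1 b2
        (xc := xc + w * i) (yc := yc + h * j) (dvd_add hxc dw1)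
        (by rwa [add_sub_add_right_eq_sub]) hyc2 hyc2'
      refine ⟨s1, s2, p1 - xc, p2 - yc, h1, ?_⟩
      rwa [add_sub_add_right_eq_sub, add_sub_add_right_eq_sub] at h2
    · push Not at hx
      have hx' : ∀ z, |z - p1| ≤ M → ¬ ((xh (a + 1) (m + 1) : ℕ) : ℤ) ∣ z :=
        fun z hz hK => absurd hz (not_le.2 (hx z hK))
      obtain ⟨s1, h1⟩ := caseB2 ha st hst s p1 p2 b4 hx' hyc hyc' (x0 := 0) (dvd_zero _)
      obtain ⟨s2, h2⟩ := caseB2 ha st hst s (p1 + w * i) (p2 + h * j) b4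
        (shift _ _ _ dw1 hx') hyc2 hyc2' (x0 := w * i) dw2
      refine ⟨s1, s2, p1, p2 - yc, ?_, ?_⟩
      · rwa [sub_zero] at h1
      · rwa [add_sub_cancel_right, add_sub_add_right_eq_sub] at h2
  · push Not at hy
    have hy' : ∀ z, |z - p2| ≤ M → ¬ ((xh a (m + 2) : ℕ) : ℤ) ∣ z :=
      fun z hz hK => absurd hz (not_le.2 (hy z hK))
    by_cases hx : ∃ xc, w ∣ xc ∧ |xc - p1| ≤ M
    · obtain ⟨xc, hxc, hxc'⟩ := hx
      obtain ⟨s1, h1⟩ := caseA2 ha st hst s p1 p2 b3 hy' hxc hxc' (y0 := 0) (dvd_zero _)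
      obtain ⟨s2, h2⟩ := caseA2 ha st hst s (p1 + w * i) (p2 + h * j) b3
        (shift _ _ _ dh2 hy') (xc := xc + w * i) (dvd_add hxc dw2)
        (by rwa [add_sub_add_right_eq_sub]) (y0 := h * j) dh3
      refine ⟨s1, s2, p1 - xc, p2, ?_, ?_⟩
      · rwa [sub_zero] at h1
      · rwa [add_sub_cancel_right, add_sub_add_right_eq_sub] at h2
    · push Not at hx
      have hx' : ∀ z, |z - p1| ≤ M → ¬ w ∣ z :=
        fun z hz hK => absurd hz (not_le.2 (hx z hK))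
      have h1 := caseA1 ha (M := M) (m := m) s p1 p2 hx' hy' (x0 := 0) (dvd_zero _)
        (y0 := 0) (dvd_zero _) s
      have h2 := caseA1 ha (M := M) (m := m) s (p1 + w * i) (p2 + h * j) (shift _ _ _ dw2 hx')
        (shift _ _ _ dh2 hy') (x0 := w * i) dw2 (y0 := h * j) dh3 s
      refine ⟨s, s, p1, p2, ?_, ?_⟩
      · rwa [sub_zero, sub_zero] at h1
      · rwa [add_sub_cancel_right, add_sub_cancel_right] at h2

/-- (FD) in the form of `AmenData.FD`. -/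
theorem fd_pat {A : Type*} (L : Star → ℤ × ℤ → A)
    (hL : ∀ (s s' : Star) (q q' : ℤ × ℤ), dg (3 * a) q.2 = dg (3 * a) q'.2 →
      rstar a s q.1 q.2 = rstar a s' q'.1 q'.2 → L s q = L s' q') (M : ℕ) :
    ∃ w h : ℤ, 0 < w ∧ 0 < h ∧ ∀ (s : Star) (p : ℤ × ℤ) (i j : ℤ), ∃ (s1 s2 : Star) (q : ℤ × ℤ),
      PatEq L M s p s1 q ∧ PatEq L M s (p + (w * i, h * j)) s2 q := by
  obtain ⟨w, h, hw, hh, H⟩ := fd_box ha st hst M
  refine ⟨w, h, hw, hh, fun s p i j => ?_⟩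
  obtain ⟨s1, s2, q1, q2, h1, h2⟩ := H s p.1 p.2 i j
  refine ⟨s1, s2, (q1, q2), fun v hv1 hv2 => ?_, fun v hv1 hv2 => ?_⟩
  · have := h1 v.1 v.2 hv1 hv2
    exact hL _ _ _ _ this.d this.r
  · have := h2 v.1 v.2 hv1 hv2
    exact hL _ _ _ _ this.d this.r

end cases

end Crest.Agent.R189.FD
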