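import Crest.Agent.R189.Tdef

/-!
# Row 189 (S0289): the coloured group structure of a model of `T` (blueprint E0)   (helper396)

`TModel.colGrp m hC : ColGrp C (ℤ × ℤ) G` for every model `m : TModel M C G` with `30 ≤ |C|`;
in particular for `T` itself, for `T / Z(T)` and for the concrete group.
-/

set_option autoImplicit false
set_option linter.unusedSectionVars false

namespace Crest.Agent.R189

open Equiv Equiv.Perm Multiplicative
open scoped IsMulCommutative

/-- An even permutation is a product of 3-cycles inside its support. -/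
theorem mem_closure_threeCycles_support {C : Type} [Fintype C] [DecidableEq C] (s : Perm C)
    (hs : s ∈ alternatingGroup C) (A : Finset C) (hA : s.support ⊆ A) :
    s ∈ Subgroup.closure {t : Perm C | t.IsThreeCycle ∧ t.support ⊆ A} := by
  let p : C → Prop := fun c => c ∈ A
  have : DecidablePred p := fun c => inferInstanceAs (Decidable (c ∈ A))
  have h1 : ∀ x, p (s x) ↔ p x := by
    intro x
    by_cases hx : x ∈ s.support
    · have : s x ∈ s.support := Perm.apply_mem_support.2 hx
      exact ⟨fun _ => hA hx, fun _ => hA this⟩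
    · rw [Perm.notMem_support] at hx
      rw [hx]
  have h2 : ∀ x, s x ≠ x → p x := fun x hx => hA (Perm.mem_support.2 hx)
  have h3 : s.subtypePerm h1 ∈ alternatingGroup {x // p x} := by
    rw [Perm.mem_alternatingGroup]
    convert (Perm.sign_subtypePerm s h1 h2).trans (Perm.mem_alternatingGroup.1 hs)
  rw [← Perm.closure_three_cycles_eq_alternating] at h3
  have h4 : Perm.ofSubtype (s.subtypePerm h1) = s :=
    Perm.ofSubtype_subtypePerm h1 h2
  rw [← h4]
  have h5 : ∀ t ∈ Subgroup.closure {t : Perm {x // p x} | t.IsThreeCycle},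
      Perm.ofSubtype t ∈ Subgroup.closure {t : Perm C | t.IsThreeCycle ∧ t.support ⊆ A} := by
    intro t ht
    induction ht using Subgroup.closure_induction with
    | mem t ht =>
      apply Subgroup.subset_closure
      refine ⟨?_, ?_⟩
      · show (Perm.ofSubtype t).cycleType = {3}
        rw [Perm.cycleType_ofSubtype]
        exact ht
      · intro x hx
        by_contra hxA
        exact Perm.mem_support.1 hx (Perm.ofSubtype_apply_of_not_mem t hxA)
    | one => simp
    | mul a b _ _ ha hb => rw [map_mul]; exact Subgroup.mul_mem _ ha hb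
    | inv a _ ha => rw [map_inv]; exact Subgroup.inv_mem _ ha
  exact h5 _ h3

namespace TModel

variable {A : Type} [Fintype A] {C : Type} [Fintype C] [DecidableEq C] {M : MatchData A}
  {G : Type} [Group G] (m : TModel M C G)

/-- the commutative subgroup generated by the `h i a b` -/
def K : Subgroup G := Subgroup.closure {g | ∃ i a b, g = m.h i a b}

instance instCommK : IsMulCommutative m.K :=
  Subgroup.isMulCommutative_closure (by
    rintro _ ⟨i, a, b, rfl⟩ _ ⟨j, c, d, rfl⟩
    exact m.h_comm i j a b c d)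

/-- `h i a b` in `K` -/
def hK (i : Bool) (a b : C) : m.K := ⟨m.h i a b, Subgroup.subset_closure ⟨i, a, b, rfl⟩⟩

theorem hK_mul (i : Bool) (a b c : C) : m.hK i a b * m.hK i b c = m.hK i a c :=
  Subtype.ext (m.h_mul i a b c)

/-- `v ↦ h^v` in `K` -/
def pK (a b : C) : Multiplicative (ℤ × ℤ) →* m.K where
  toFun v := m.hK false a b ^ v.toAdd.1 * m.hK true a b ^ v.toAdd.2
  map_one' := by simp
  map_mul' v w := by
    simp only [toAdd_mul, Prod.fst_add, Prod.snd_add, zpow_add]
    rw [mul_mul_mul_comm]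

theorem pK_coe (a b : C) (v : ℤ × ℤ) : (m.pK a b (ofAdd v) : G) = hpow m.h v a b := by
  simp [pK, hpow, hK]

theorem pK_mul (a b c : C) (v : Multiplicative (ℤ × ℤ)) :
    m.pK a b v * m.pK b c v = m.pK a c v := by
  simp only [pK, MonoidHom.coe_mk, OneHom.coe_mk]
  rw [mul_mul_mul_comm, ← mul_zpow, ← mul_zpow, hK_mul, hK_mul]

theorem pK_self (a : C) (v : Multiplicative (ℤ × ℤ)) : m.pK a a v = 1 := by
  have := m.pK_mul a a a v
  rwa [mul_eq_left] at this

/-- `H(l)` based at the colour `c0`, in `K` -/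
def HK (c0 : C) (l : C → ℤ × ℤ) : m.K := ∏ c, m.pK c c0 (ofAdd (l c))

theorem HK_add (c0 : C) (l l' : C → ℤ × ℤ) : m.HK c0 (l + l') = m.HK c0 l * m.HK c0 l' := by
  simp [HK, Finset.prod_mul_distrib]

theorem HK_base (c0 c1 : C) (l : C → ℤ × ℤ) (hl : ∑ c, l c = 0) : m.HK c0 l = m.HK c1 l := by
  have h1 : ∀ c, m.pK c c0 (ofAdd (l c)) = m.pK c c1 (ofAdd (l c)) * m.pK c1 c0 (ofAdd (l c)) :=
    fun c => (m.pK_mul _ _ _ _).symm
  unfold HK
  simp only [h1]
  rw [Finset.prod_mul_distrib, ← map_prod, ← ofAdd_sum, hl]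
  simp

/-- conjugation by `one s` on `K` -/
def conjK (s : alternatingGroup C) : m.K →* m.K where
  toFun x := ⟨m.one s * x * (m.one s)⁻¹, by
    have h : m.K ≤ m.K.comap (MulAut.conj (m.one s)).toMonoidHom := by
      unfold K
      rw [Subgroup.closure_le]
      rintro _ ⟨i, a, b, rfl⟩
      apply Subgroup.subset_closure
      exact ⟨i, _, _, m.one_h s i a b⟩
    exact h x.2⟩
  map_one' := by simp
  map_mul' x y := by
    apply Subtype.ext
    simp

theorem conjK_hK (s : alternatingGroup C) (i : Bool) (a b : C) :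
    m.conjK s (m.hK i a b) = m.hK i ((s : Perm C) a) ((s : Perm C) b) :=
  Subtype.ext (m.one_h s i a b)

theorem conjK_pK (s : alternatingGroup C) (a b : C) (v : Multiplicative (ℤ × ℤ)) :
    m.conjK s (m.pK a b v) = m.pK ((s : Perm C) a) ((s : Perm C) b) v := by
  simp only [pK, MonoidHom.coe_mk, OneHom.coe_mk, map_mul, map_zpow, conjK_hK]

theorem conjK_HK (s : alternatingGroup C) (c0 : C) (l : C → ℤ × ℤ) :
    m.conjK s (m.HK c0 l) = m.HK ((s : Perm C) c0) (fun c => l ((s : Perm C)⁻¹ c)) := by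
  unfold HK
  rw [map_prod]
  simp only [conjK_pK]
  rw [← Equiv.prod_comp (s : Perm C) (fun c => m.pK c ((s : Perm C) c0)
    (ofAdd (l ((s : Perm C)⁻¹ c))))]
  simp

/-- the colour subgroups `T[S]` -/
def sub (S : Finset C) : Subgroup G :=
  Subgroup.closure ({g | ∃ s : alternatingGroup C, (s : Perm C).support ⊆ S ∧ g = m.one s} ∪
    {g | ∃ i a b, a ∈ S ∧ b ∈ S ∧ g = m.h i a b} ∪
    {g | ∃ x, ∃ s : alternatingGroup C, (s : Perm C).support ⊆ S ∧ g = m.e x s})

theorem one_mem_sub {s : alternatingGroup C} {S : Finset C} (h : (s : Perm C).support ⊆ S) :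
    m.one s ∈ m.sub S := Subgroup.subset_closure (Or.inl (Or.inl ⟨s, h, rfl⟩))

theorem h_mem_sub {i : Bool} {a b : C} {S : Finset C} (ha : a ∈ S) (hb : b ∈ S) :
    m.h i a b ∈ m.sub S := Subgroup.subset_closure (Or.inl (Or.inr ⟨i, a, b, ha, hb, rfl⟩))

theorem e_mem_sub {x : A} {s : alternatingGroup C} {S : Finset C}
    (h : (s : Perm C).support ⊆ S) : m.e x s ∈ m.sub S :=
  Subgroup.subset_closure (Or.inr ⟨x, s, h, rfl⟩)

theorem sub_mono {S S' : Finset C} (h : S ⊆ S') : m.sub S ≤ m.sub S' := by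
  unfold sub
  rw [Subgroup.closure_le]
  rintro _ ((⟨s, hs, rfl⟩ | ⟨i, a, b, ha, hb, rfl⟩) | ⟨x, s, hs, rfl⟩)
  · exact m.one_mem_sub (hs.trans h)
  · exact m.h_mem_sub (h ha) (h hb)
  · exact m.e_mem_sub (hs.trans h)

theorem conj_eq_of_disjoint {s t : alternatingGroup C}
    (h : Disjoint (s : Perm C).support (t : Perm C).support) : s * t * s⁻¹ = t := by
  have h1 : (s : Perm C) * (t : Perm C) = (t : Perm C) * (s : Perm C) :=
    (Perm.disjoint_iff_disjoint_support.2 h).commute
  have h2 : s * t = t * s := Subtype.ext h1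
  rw [h2, mul_assoc, mul_inv_cancel, mul_one]

theorem apply_eq_of_disjoint {s : Perm C} {S : Finset C} (h : Disjoint s.support S) {a : C}
    (ha : a ∈ S) : s a = a := by
  by_contra hne
  exact Finset.disjoint_left.1 h (Perm.mem_support.2 hne) ha

theorem one_comm_of_disjoint (s : alternatingGroup C) {S : Finset C}
    (h : Disjoint (s : Perm C).support S) : ∀ y ∈ m.sub S, m.one s * y = y * m.one s := by
  intro y hy
  induction hy using Subgroup.closure_induction with
  | mem y hy =>
    rcases hy with (⟨t, ht, rfl⟩ | ⟨i, a, b, ha, hb, rfl⟩) | ⟨x, t, ht, rfl⟩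
    · have h1 : s * t * s⁻¹ = t := conj_eq_of_disjoint (h.mono_right ht)
      rw [← map_mul, ← map_mul, mul_inv_eq_iff_eq_mul.1 h1]
    · have h1 := m.one_h s i a b
      rw [apply_eq_of_disjoint h ha, apply_eq_of_disjoint h hb, mul_inv_eq_iff_eq_mul] at h1
      exact h1
    · have h1 : s * t * s⁻¹ = t := conj_eq_of_disjoint (h.mono_right ht)
      have h2 := m.one_e s x t
      rw [h1, mul_inv_eq_iff_eq_mul] at h2
      exact h2
  | one => simp
  | mul a b _ _ ha hb => rw [← mul_assoc, ha, mul_assoc, hb, mul_assoc]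
  | inv a _ ha =>
    rw [eq_inv_mul_iff_mul_eq, ← mul_assoc, ← ha, mul_assoc, mul_inv_cancel, mul_one]

theorem h_comm_of_disjoint (i : Bool) (a b : C) {S : Finset C} (ha : a ∉ S) (hb : b ∉ S) :
    ∀ y ∈ m.sub S, m.h i a b * y = y * m.h i a b := by
  intro y hy
  induction hy using Subgroup.closure_induction with
  | mem y hy =>
    rcases hy with (⟨t, ht, rfl⟩ | ⟨j, c, d, hc, hd, rfl⟩) | ⟨x, t, ht, rfl⟩
    · have ha' : (t : Perm C) a = a := Perm.notMem_support.1 (fun h => ha (ht h))
      have hb' : (t : Perm C) b = b := Perm.notMem_support.1 (fun h => hb (ht h))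
      have h1 := m.one_h t i a b
      rw [ha', hb', mul_inv_eq_iff_eq_mul] at h1
      exact h1.symm
    · exact m.h_comm _ _ _ _ _ _
    · have ha' : (t : Perm C) a = a := Perm.notMem_support.1 (fun h => ha (ht h))
      have hb' : (t : Perm C) b = b := Perm.notMem_support.1 (fun h => hb (ht h))
      exact m.h_e i a b x t ha' hb'
  | one => simp
  | mul a b _ _ ha hb => rw [← mul_assoc, ha, mul_assoc, hb, mul_assoc]
  | inv a _ ha =>
    rw [eq_inv_mul_iff_mul_eq, ← mul_assoc, ← ha, mul_assoc, mul_inv_cancel, mul_one]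

theorem e_comm_of_disjoint (x : A) (s : alternatingGroup C) {S : Finset C}
    (h : Disjoint (s : Perm C).support S) : ∀ y ∈ m.sub S, m.e x s * y = y * m.e x s := by
  intro y hy
  induction hy using Subgroup.closure_induction with
  | mem y hy =>
    rcases hy with (⟨t, ht, rfl⟩ | ⟨i, a, b, ha, hb, rfl⟩) | ⟨x', t, ht, rfl⟩
    · have h1 : t * s * t⁻¹ = s := conj_eq_of_disjoint (h.symm.mono_left ht)
      have h2 := m.one_e t x s
      rw [h1, mul_inv_eq_iff_eq_mul] at h2
      exact h2.symm
    · exact (m.h_e i a b x s (apply_eq_of_disjoint h ha) (apply_eq_of_disjoint h hb)).symm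
    · by_cases hx : x = x'
      · subst hx
        have h1 : s * t * s⁻¹ = t := conj_eq_of_disjoint (h.mono_right ht)
        rw [← map_mul, ← map_mul, mul_inv_eq_iff_eq_mul.1 h1]
      · exact m.e_comm x x' hx s t
  | one => simp
  | mul a b _ _ ha hb => rw [← mul_assoc, ha, mul_assoc, hb, mul_assoc]
  | inv a _ ha =>
    rw [eq_inv_mul_iff_mul_eq, ← mul_assoc, ← ha, mul_assoc, mul_inv_cancel, mul_one]

theorem sub_comm {S S' : Finset C} (h : Disjoint S S') :
    ∀ x ∈ m.sub S, ∀ y ∈ m.sub S', x * y = y * x := by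
  intro x hx y hy
  induction hx using Subgroup.closure_induction with
  | mem x hx =>
    rcases hx with (⟨t, ht, rfl⟩ | ⟨i, a, b, ha, hb, rfl⟩) | ⟨x', t, ht, rfl⟩
    · exact m.one_comm_of_disjoint t (h.mono_left ht) y hy
    · exact m.h_comm_of_disjoint i a b (Finset.disjoint_left.1 h ha)
        (Finset.disjoint_left.1 h hb) y hy
    · exact m.e_comm_of_disjoint x' t (h.mono_left ht) y hy
  | one => simp
  | mul a b _ _ ha hb => rw [mul_assoc, hb, ← mul_assoc, ha, mul_assoc]
  | inv a _ ha =>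
    rw [inv_mul_eq_iff_eq_mul, ← mul_assoc, ha, mul_assoc, mul_inv_cancel, mul_one]

theorem one_sub (s : alternatingGroup C) (S : Finset C) (x : G) (hx : x ∈ m.sub S) :
    m.one s * x * (m.one s)⁻¹ ∈ m.sub (S.image (s : Perm C)) := by
  have h : m.sub S ≤ (m.sub (S.image (s : Perm C))).comap (MulAut.conj (m.one s)).toMonoidHom := by
    conv_lhs => unfold sub
    rw [Subgroup.closure_le]
    have hsupp : ∀ t : alternatingGroup C, (t : Perm C).support ⊆ S →
        ((s * t * s⁻¹ : alternatingGroup C) : Perm C).support ⊆ S.image (s : Perm C) := by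
      intro t ht
      have h1 : ((s * t * s⁻¹ : alternatingGroup C) : Perm C) =
        (s : Perm C) * (t : Perm C) * (s : Perm C)⁻¹ := rfl
      rw [h1, Perm.support_conj]
      intro c hc
      rw [Finset.mem_map] at hc
      obtain ⟨d, hd, rfl⟩ := hc
      exact Finset.mem_image.2 ⟨d, ht hd, rfl⟩
    rintro _ ((⟨t, ht, rfl⟩ | ⟨i, a, b, ha, hb, rfl⟩) | ⟨x, t, ht, rfl⟩)
    · show m.one s * m.one t * (m.one s)⁻¹ ∈ m.sub (S.image (s : Perm C))
      rw [← map_inv, ← map_mul, ← map_mul]
      exact m.one_mem_sub (hsupp t ht)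
    · show m.one s * m.h i a b * (m.one s)⁻¹ ∈ m.sub (S.image (s : Perm C))
      rw [m.one_h]
      exact m.h_mem_sub (Finset.mem_image_of_mem _ ha) (Finset.mem_image_of_mem _ hb)
    · show m.one s * m.e x t * (m.one s)⁻¹ ∈ m.sub (S.image (s : Perm C))
      rw [m.one_e]
      exact m.e_mem_sub (hsupp t ht)
  exact h hx

theorem sub_gen (S : Finset C) :
    m.sub S ≤ Subgroup.closure {x : G | ∃ B : Finset C, B ⊆ S ∧ B.card ≤ 3 ∧ x ∈ m.sub B} := by
  set Q := Subgroup.closure {x : G | ∃ B : Finset C, B ⊆ S ∧ B.card ≤ 3 ∧ x ∈ m.sub B} with hQ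
  have key : ∀ (f : alternatingGroup C →* G), (∀ (t : alternatingGroup C) (B : Finset C),
      (t : Perm C).support ⊆ B → f t ∈ m.sub B) →
      ∀ s : alternatingGroup C, (s : Perm C).support ⊆ S → f s ∈ Q := by
    intro f hf s hs
    have h1 := mem_closure_threeCycles_support (s : Perm C) s.2 S hs
    have h2 : Subgroup.closure {t : Perm C | t.IsThreeCycle ∧ t.support ⊆ S} ≤
        (Q.comap f).map (alternatingGroup C).subtype := by
      rw [Subgroup.closure_le]
      rintro t ⟨ht, hts⟩
      refine ⟨⟨t, ht.mem_alternatingGroup⟩, ?_, rfl⟩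
      apply Subgroup.subset_closure
      exact ⟨t.support, hts, by rw [ht.card_support], hf _ _ (Finset.Subset.refl _)⟩
    obtain ⟨s', hs', hss'⟩ := h2 h1
    have : s' = s := Subtype.ext hss'
    rw [← this]
    exact hs'
  conv_lhs => unfold sub
  rw [Subgroup.closure_le]
  rintro _ ((⟨t, ht, rfl⟩ | ⟨i, a, b, ha, hb, rfl⟩) | ⟨x, t, ht, rfl⟩)
  · exact key m.one (fun t B h => m.one_mem_sub h) t ht
  · apply Subgroup.subset_closure
    refine ⟨{a, b}, ?_, (Finset.card_le_two).trans (by norm_num), m.h_mem_sub (by simp) (by simp)⟩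
    intro c hc
    simp only [Finset.mem_insert, Finset.mem_singleton] at hc
    rcases hc with rfl | rfl
    · exact ha
    · exact hb
  · exact key (m.e x) (fun t B h => m.e_mem_sub h) t ht

theorem sub_univ : m.sub Finset.univ = ⊤ := by
  rw [← top_le_iff, ← m.gen, Subgroup.closure_le]
  rintro _ ((⟨s, rfl⟩ | ⟨i, a, b, rfl⟩) | ⟨x, s, rfl⟩)
  · exact m.one_mem_sub (Finset.subset_univ _)
  · exact m.h_mem_sub (Finset.mem_univ _) (Finset.mem_univ _)
  · exact m.e_mem_sub (Finset.subset_univ _)

theorem HK_mem_sub (c0 : C) (l : C → ℤ × ℤ) (S : Finset C) (hc0 : c0 ∈ S)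
    (hl : ∀ c, c ∉ S → l c = 0) : (m.HK c0 l : G) ∈ m.sub S := by
  have h : m.HK c0 l ∈ (m.sub S).comap m.K.subtype := by
    apply Subgroup.prod_mem
    intro c _
    by_cases hc : c ∈ S
    · show ((m.pK c c0 (ofAdd (l c)) : m.K) : G) ∈ m.sub S
      rw [pK_coe]
      exact Subgroup.mul_mem _ (Subgroup.zpow_mem _ (m.h_mem_sub hc hc0) _)
        (Subgroup.zpow_mem _ (m.h_mem_sub hc hc0) _)
    · rw [hl c hc]
      simp
  exact h

theorem nonempty_of_card (hC : 30 ≤ Fintype.card C) : Nonempty C :=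
  Fintype.card_pos_iff.1 (by omega)

/-- the coloured group structure of a model -/
noncomputable def colGrp (hC : 30 ≤ Fintype.card C) : ColGrp C (ℤ × ℤ) G where
  one := m.one
  H l := (m.HK (Classical.choice (nonempty_of_card hC)) l : G)
  sub := m.sub
  card_C := hC
  H_add l l' _ _ := by rw [m.HK_add]; rfl
  one_H s l hl := by
    have h := congrArg (Subtype.val) (m.conjK_HK s (Classical.choice (nonempty_of_card hC)) l)
    have h2 : ∑ c, l ((s : Perm C)⁻¹ c) = 0 := by
      rw [Equiv.sum_comp ((s : Perm C)⁻¹) l]; exact hl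
    rw [m.HK_base _ (Classical.choice (nonempty_of_card hC)) _ h2] at h
    exact h
  sub_mono _ _ h := m.sub_mono h
  sub_comm _ _ h := m.sub_comm h
  one_mem s S h := m.one_mem_sub h
  H_mem l S hl hS := by
    by_cases hne : S.Nonempty
    · obtain ⟨c1, hc1⟩ := hne
      rw [m.HK_base _ c1 l hl]
      exact m.HK_mem_sub c1 l S hc1 hS
    · rw [Finset.not_nonempty_iff_eq_empty] at hne
      subst hne
      have : l = 0 := funext fun c => hS c (by simp)
      subst this
      simp [HK]
  one_sub := m.one_sub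
  sub_gen := m.sub_gen
  sub_univ := m.sub_univ

/-- `H(l)` for `l` of sum `0` may be computed with any base colour -/
theorem colGrp_H (hC : 30 ≤ Fintype.card C) (c1 : C) (l : C → ℤ × ℤ) (hl : ∑ c, l c = 0) :
    (m.colGrp hC).H l = m.HK c1 l := by
  show ((m.HK _ l : m.K) : G) = _
  rw [m.HK_base _ c1 l hl]

theorem lprod_coe {ι : Type} (E : Finset ι) (f : ι → m.K) :
    lprod E (fun x => (f x : G)) = ((∏ x ∈ E, f x : m.K) : G) := by
  have h1 : lprod E (fun x => (f x : G)) = m.K.subtype (lprod E f) :=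
    (map_lprod m.K.subtype E f).symm
  rw [h1, lprod_eq_noncommProd E f (fun a _ b _ _ => mul_comm _ _), Finset.noncommProd_eq_prod]
  rfl

/-- the word `hword` is `H` of the function `v` on `S`, `-|S| v` at `d` -/
theorem hword_eq (c1 : C) (v : ℤ × ℤ) (S : Finset C) (d : C) (hd : d ∉ S) :
    hword m.h v S d =
      m.HK c1 (fun c => (if c ∈ S then v else 0) - (if c = d then (S.card • v) else 0)) := by
  classical
  have hsum : ∑ c, ((if c ∈ S then v else 0) - (if c = d then (S.card • v) else 0)) = 0 := by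
    simp [Finset.sum_sub_distrib, Finset.sum_ite_mem]
  rw [m.HK_base c1 d _ hsum]
  unfold hword HK
  have h1 : ∀ c, hpow m.h v c d = (m.pK c d (ofAdd v) : G) := fun c => (m.pK_coe c d v).symm
  simp only [h1]
  rw [m.lprod_coe]
  congr 1
  rw [← Finset.prod_subset (Finset.subset_univ S)]
  · apply Finset.prod_congr rfl
    intro c hc
    have : c ≠ d := fun h => hd (h ▸ hc)
    simp [hc, this]
  · intro c _ hc
    by_cases hcd : c = d
    · subst hcd
      rw [pK_self]
    · simp [hc, hcd]

/-- the letter events -/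
def letterEv (hC : 30 ≤ Fintype.card C) (x : A) : Ev (m.colGrp hC) where
  hom := m.e x
  mem _ _ h _ := m.e_mem_sub h
  equivar s t := m.one_e t x s

/-- the homomorphism `s ↦ ∏_{x ∈ E} e_x(s)` -/
noncomputable def setHom (E : Finset A) : alternatingGroup C →* G where
  toFun s := lprod E (fun x => m.e x s)
  map_one' := by
    have : lprod E (fun x => m.e x 1) = lprod E (fun _ => (1 : G)) :=
      lprod_congr (fun x _ => by simp)
    rw [this]
    simp [lprod]
  map_mul' s t := by
    have hc : ∀ s, (E : Set A).Pairwise (Function.onFun Commute (fun x => m.e x s)) :=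
      fun s a _ b _ hab => m.e_comm a b hab s s
    rw [lprod_eq_noncommProd E _ (hc s), lprod_eq_noncommProd E _ (hc t),
      lprod_eq_noncommProd E _ (hc (s * t))]
    rw [← Finset.noncommProd_mul_distrib _ _ (hc s) (hc t)
      (fun a _ b _ hab => m.e_comm a b hab t s)]
    apply Finset.noncommProd_congr rfl
    intro x _
    simp

/-- the event `∑_{x ∈ E} e_x` -/
noncomputable def setEv (hC : 30 ≤ Fintype.card C) (E : Finset A) : Ev (m.colGrp hC) where
  hom := m.setHom E
  mem _ _ h _ := lprod_mem (fun _ _ => m.e_mem_sub h)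
  equivar s t := by
    show m.one t * lprod E (fun x => m.e x s) * (m.one t)⁻¹ = lprod E (fun x => m.e x (t * s * t⁻¹))
    rw [lprod_conj]
    exact lprod_congr (fun x _ => m.one_e t x s)

end TModel

end Crest.Agent.R189
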