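import Crest.Agent.R189.TowerHom

/-!
Row 189, tower homomorphisms (helper769): how the generators of `T` conjugate the 3-cycles of a tower.

`tv e p q r : T` (`p q r : V × C`) is the value of the tower of the event `e` on the 3-cycle
`p → q → r → p` (computed through fresh colours).  For positions in a set `W` with pairwise orthogonal
translates `v.e`, `v ∈ W` (`OrthOn e W`):

* `epsW_acyc`   : `tv` is the value of the tower homomorphism of every finite window;
* `tv_conj_H`   : `H l * tv e p q r * (H l)⁻¹ = tv e (sh l p) (sh l q) (sh l r)`;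
* `tv_conj_ev`  : `f z * tv e p q r * (f z)⁻¹ = tv e (rc A z p) (rc A z q) (rc A z r)` if `v.e ≤ f`
  for `v ∈ A` and `v.e ⊥ f` for `v ∉ A`;
* `tv_commute`  : towers which are orthogonal at equal colours commute.
-/

set_option autoImplicit false
set_option linter.unusedSectionVars false

open Equiv Equiv.Perm Finset

namespace Crest.Agent.R189.Tower

variable {C : Type} [Fintype C] [DecidableEq C] {V : Type} [AddCommGroup V] {T : Type} [Group T]
variable {S : ColGrp C V T}

/-! ### a permutation identity -/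

section perm

variable {ι : Type} [Fintype ι] [DecidableEq ι]

theorem acyc_conj_fresh {p q r : ι × C} (hpq : p ≠ q) (hpr : p ≠ r) (hqr : q ≠ r)
    {d d' : ι × C → C} (fd : Fresh {p, q, r} d d') (i j k : ι) :
    (acyc p (i, d p) (i, d' p) * acyc q (j, d q) (j, d' q) * acyc r (k, d r) (k, d' r))⁻¹ *
      acyc (i, d p) (j, d q) (k, d r) *
      (acyc p (i, d p) (i, d' p) * acyc q (j, d q) (j, d' q) * acyc r (k, d r) (k, d' r)) =
      acyc p q r := by
  have hp : p ∈ ({p, q, r} : Finset (ι × C)) := by simp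
  have hq : q ∈ ({p, q, r} : Finset (ι × C)) := by simp
  have hr : r ∈ ({p, q, r} : Finset (ι × C)) := by simp
  have hne : ∀ {x y : ι × C}, x.2 ≠ y.2 → x ≠ y := fun h h' => h (congrArg Prod.snd h')
  have dpq : d p ≠ d q := fun h' => hpq (fd.injd p hp q hq h')
  have dpr : d p ≠ d r := fun h' => hpr (fd.injd p hp r hr h')
  have dqr : d q ≠ d r := fun h' => hqr (fd.injd q hq r hr h')
  have e1 : acyc p (i, d p) (i, d' p) = acyc p (i, d p) (i, d' p) := rfl
  have p1 : p ≠ (i, d p) := hne (fd.ned p hp p hp).symm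
  have p2 : p ≠ (i, d' p) := hne (fd.ned' p hp p hp).symm
  have p3 : ((i, d p) : ι × C) ≠ (i, d' p) := hne (fd.ne p hp p hp)
  have q1 : q ≠ (j, d q) := hne (fd.ned q hq q hq).symm
  have q2 : q ≠ (j, d' q) := hne (fd.ned' q hq q hq).symm
  have q3 : ((j, d q) : ι × C) ≠ (j, d' q) := hne (fd.ne q hq q hq)
  have r1 : r ≠ (k, d r) := hne (fd.ned r hr r hr).symm
  have r2 : r ≠ (k, d' r) := hne (fd.ned' r hr r hr).symm
  have r3 : ((k, d r) : ι × C) ≠ (k, d' r) := hne (fd.ne r hr r hr)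
  set σ := acyc p (i, d p) (i, d' p) * acyc q (j, d q) (j, d' q) * acyc r (k, d r) (k, d' r) with hσ
  have hσc : (σ : Perm (ι × C)) = AltPres.cyc p (i, d p) (i, d' p) *
      AltPres.cyc q (j, d q) (j, d' q) * AltPres.cyc r (k, d r) (k, d' r) := by
    rw [hσ, Subgroup.coe_mul, Subgroup.coe_mul, coe_acyc p1 p2 p3, coe_acyc q1 q2 q3,
      coe_acyc r1 r2 r3]
  have s1 : (σ : Perm (ι × C)) p = (i, d p) := by
    rw [hσc, Perm.mul_apply, Perm.mul_apply, cyc_apply_of_ne hpr (hne (fd.ned r hr p hp).symm)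
      (hne (fd.ned' r hr p hp).symm), cyc_apply_of_ne hpq (hne (fd.ned q hq p hp).symm)
      (hne (fd.ned' q hq p hp).symm), cyc_apply_fst p1 p3]
  have s2 : (σ : Perm (ι × C)) q = (j, d q) := by
    rw [hσc, Perm.mul_apply, Perm.mul_apply, cyc_apply_of_ne hqr (hne (fd.ned r hr q hq).symm)
      (hne (fd.ned' r hr q hq).symm), cyc_apply_fst q1 q3, cyc_apply_of_ne
      (hne (fd.ned q hq p hp)) (hne dpq.symm) (hne (fd.ne q hq p hp))]
  have s3 : (σ : Perm (ι × C)) r = (k, d r) := by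
    have g1 : ((k, d r) : ι × C) ≠ q := hne (x := (k, d r)) (y := q) (fd.ned r hr q hq)
    have g2 : ((k, d r) : ι × C) ≠ (j, d q) := hne (x := (k, d r)) (y := (j, d q)) dqr.symm
    have g3 : ((k, d r) : ι × C) ≠ (j, d' q) :=
      hne (x := (k, d r)) (y := (j, d' q)) (fd.ne r hr q hq)
    have g4 : ((k, d r) : ι × C) ≠ p := hne (x := (k, d r)) (y := p) (fd.ned r hr p hp)
    have g5 : ((k, d r) : ι × C) ≠ (i, d p) := hne (x := (k, d r)) (y := (i, d p)) dpr.symm
    have g6 : ((k, d r) : ι × C) ≠ (i, d' p) :=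
      hne (x := (k, d r)) (y := (i, d' p)) (fd.ne r hr p hp)
    rw [hσc, Perm.mul_apply, Perm.mul_apply, cyc_apply_fst r1 r3, cyc_apply_of_ne g1 g2 g3,
      cyc_apply_of_ne g4 g5 g6]
  have h := conj_acyc σ hpq hpr hqr
  rw [s1, s2, s3] at h
  rw [← h]; group

end perm

/-! ### conjugation of sectional 3-cycles -/

/-- conjugation of a sectional 3-cycle by `H l` -/
theorem H_conj_M3 (e : Ev S) {l : C → V} (hl : ∑ c, l c = 0) (v₁ v₂ v₃ : V) {a b c : C}
    (hab : a ≠ b) (hac : a ≠ c) (hbc : b ≠ c) :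
    S.H l * M3 e v₁ v₂ v₃ a b c * (S.H l)⁻¹ = M3 e (v₁ + l a) (v₂ + l b) (v₃ + l c) a b c := by
  obtain ⟨m, hm, h⟩ := exists_lam' S {a, b, c}
    (card_le_three.trans_lt (by norm_num)) (pos3 v₁ v₂ v₃ a b)
  have ha : m a = v₁ := by rw [h a (by simp)]; simp [pos3]
  have hb : m b = v₂ := by rw [h b (by simp)]; simp [pos3, hab.symm]
  have hc : m c = v₃ := by rw [h c (by simp)]; simp [pos3, hac.symm, hbc.symm]
  have hlm : ∑ x, (m + l) x = 0 := by simp [Finset.sum_add_distrib, hl, hm]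
  rw [M3_eq e hab hac hbc hm ha hb hc, M3_eq e hab hac hbc hlm (by simp [ha]) (by simp [hb])
    (by simp [hc]), add_comm m l, S.H_add l m hl hm]
  group

/-- `v.e` in terms of `M3` -/
theorem M3_trans {e e' : Ev S} {v : V} (h : Ev.IsTrans v e e') {a b c : C} (hab : a ≠ b)
    (hac : a ≠ c) (hbc : b ≠ c) : M3 e v v v a b c = e'.hom (acyc a b c) := by
  obtain ⟨m, hm, hm'⟩ := exists_lam' S {a, b, c}
    (card_le_three.trans_lt (by norm_num)) (fun _ => v)
  rw [M3_eq e hab hac hbc hm (hm' a (by simp)) (hm' b (by simp)) (hm' c (by simp)),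
    h (acyc a b c) m hm (by rw [support_acyc hab hac hbc]; exact hm')]

/-- `M3 e 0 0 0` is `e`. -/
theorem M3_zero (e : Ev S) {a b c : C} (hab : a ≠ b) (hac : a ≠ c) (hbc : b ≠ c) :
    M3 e (0 : V) 0 0 a b c = e.hom (acyc a b c) := by
  rw [M3_eq e (l := fun _ => (0 : V)) hab hac hbc (by simp) rfl rfl rfl]
  have : S.H (fun _ => (0 : V)) = 1 := H_zero S
  rw [this]; simp

/-- `v.e ≤ f`, on 3-cycles -/
def TLe (e f : Ev S) (v : V) : Prop :=
  ∀ (z : alternatingGroup C) (a b c : C), a ≠ b → a ≠ c → b ≠ c →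
    f.hom z * M3 e v v v a b c * (f.hom z)⁻¹ =
      M3 e v v v ((z : Perm C) a) ((z : Perm C) b) ((z : Perm C) c)

/-- `v.e ⊥ f`, on 3-cycles -/
def TPerp (e f : Ev S) (v : V) : Prop :=
  ∀ (z : alternatingGroup C) (a b c : C), a ≠ b → a ≠ c → b ≠ c →
    Commute (f.hom z) (M3 e v v v a b c)

/-- hom-extension from 3-cycles -/
theorem hom_ind {G : Type*} [Group G] (φ ψ : alternatingGroup C →* G)
    (h : ∀ a b c : C, a ≠ b → a ≠ c → b ≠ c → φ (acyc a b c) = ψ (acyc a b c)) : φ = ψ := by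
  refine AltPres.alt_hom_ext fun z hz => ?_
  obtain ⟨a, b, c, hab, hac, hbc, -, h'⟩ := eq_acyc hz
  rw [h']
  exact h a b c hab hac hbc

/-- induction on `Alt(C)` by 3-cycles -/
theorem alt_ind {P : alternatingGroup C → Prop}
    (h3 : ∀ a b c : C, a ≠ b → a ≠ c → b ≠ c → P (acyc a b c))
    (h1 : P 1) (hmul : ∀ σ τ, P σ → P τ → P (σ * τ)) (hinv : ∀ σ, P σ → P σ⁻¹) (σ) : P σ := by
  have h : σ ∈ Subgroup.closure
      {g : alternatingGroup C | Equiv.Perm.IsThreeCycle (g : Equiv.Perm C)} := by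
    rw [_root_.alternatingGroup.closure_isThreeCycles_eq_top]; trivial
  induction h using Subgroup.closure_induction with
  | mem x hx =>
    obtain ⟨a, b, c, hab, hac, hbc, -, h'⟩ := eq_acyc hx
    rw [show x = acyc a b c from h']
    exact h3 a b c hab hac hbc
  | one => exact h1
  | mul x y _ _ hx hy => exact hmul x y hx hy
  | inv x _ hx => exact hinv x hx

theorem tPerp_iff {e f e' : Ev S} {v : V} (h : Ev.IsTrans v e e') :
    TPerp e f v ↔ Ev.Orth e' f := by
  constructor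
  · intro H σ τ
    refine alt_ind (P := fun σ => e'.hom σ * f.hom τ = f.hom τ * e'.hom σ) ?_ ?_ ?_ ?_ σ
    · intro a b c hab hac hbc
      rw [← M3_trans h hab hac hbc]
      exact (H τ a b c hab hac hbc).eq.symm
    · simp
    · intro x y hx hy
      rw [map_mul, mul_assoc, hy, ← mul_assoc, hx, mul_assoc]
    · intro x hx
      rw [map_inv]
      exact (Commute.inv_left (show Commute (e'.hom x) (f.hom τ) from hx)).eq
  · intro H z a b c hab hac hbc
    rw [M3_trans h hab hac hbc]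
    exact (H _ z).symm

theorem tLe_iff {e f e' : Ev S} {v : V} (h : Ev.IsTrans v e e') : TLe e f v ↔ e' ≤ f := by
  constructor
  · intro H σ τ
    refine alt_ind (P := fun σ => f.hom τ * e'.hom σ * (f.hom τ)⁻¹ = e'.hom (τ * σ * τ⁻¹))
      ?_ ?_ ?_ ?_ σ
    · intro a b c hab hac hbc
      have hi := (τ : Perm C).injective
      rw [← M3_trans h hab hac hbc, H τ a b c hab hac hbc, conj_acyc τ hab hac hbc,
        M3_trans h (hi.ne hab) (hi.ne hac) (hi.ne hbc)]
    · simp
    · intro x y hx hy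
      have : τ * (x * y) * τ⁻¹ = (τ * x * τ⁻¹) * (τ * y * τ⁻¹) := by group
      rw [this, map_mul, map_mul, ← hx, ← hy]; group
    · intro x hx
      have : τ * x⁻¹ * τ⁻¹ = (τ * x * τ⁻¹)⁻¹ := by group
      rw [this, map_inv, map_inv, ← hx]; group
  · intro H z a b c hab hac hbc
    have hi := (z : Perm C).injective
    rw [M3_trans h hab hac hbc, H (acyc a b c) z, conj_acyc z hab hac hbc,
      M3_trans h (hi.ne hab) (hi.ne hac) (hi.ne hbc)]

/-- `TOrth` in terms of translates -/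
theorem tOrth_iff {e f e' f' : Ev S} {v w : V} (h : Ev.IsTrans v e e') (h' : Ev.IsTrans w f f') :
    TOrth e f v w ↔ Ev.Orth e' f' := by
  rw [← tPerp_iff (f := f') h]
  constructor
  · intro H z a b c hab hac hbc
    refine alt_ind (P := fun z => Commute (f'.hom z) (M3 e v v v a b c)) ?_ ?_ ?_ ?_ z
    · intro a' b' c' hab' hac' hbc'
      rw [← M3_trans h' hab' hac' hbc']
      exact (H a b c a' b' c' hab hac hbc hab' hac' hbc').symm
    · simp
    · intro x y hx hy
      rw [map_mul]; exact hx.mul_left hy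
    · intro x hx
      rw [map_inv]; exact hx.inv_left
  · intro H a b c a' b' c' hab hac hbc hab' hac' hbc'
    rw [M3_trans h' hab' hac' hbc']
    exact (H _ a b c hab hac hbc).symm

/-! ### the total value `tv` -/

variable [DecidableEq V]

theorem fresh3V (S : ColGrp C V T) (p q r : V × C) :
    ∃ d d' : V × C → C, Fresh ({p, q, r} : Finset (V × C)) d d' := by
  obtain ⟨d, d', fd, _, _⟩ := exists_fresh S ({p, q, r} : Finset (V × C)) ∅ (by
    have : ({p, q, r} : Finset (V × C)).card ≤ 3 := card_le_three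
    simp only [card_empty]; omega)
  exact ⟨d, d', fd⟩

/-- value of the tower of `e` on the 3-cycle `p → q → r → p` of `V × C` -/
noncomputable def tv (e : Ev S) (p q r : V × C) : T :=
  val e id (fresh3V S p q r).choose (fresh3V S p q r).choose_spec.choose p q r

/-- the translates `v.e`, `v ∈ W`, are pairwise orthogonal -/
def OrthOn (e : Ev S) (W : Set V) : Prop := ∀ v ∈ W, ∀ w ∈ W, v ≠ w → TOrth e e v w

theorem OrthOn.mono {e : Ev S} {W W' : Set V} (h : OrthOn e W) (h' : W' ⊆ W) : OrthOn e W' :=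
  fun v hv w hw => h v (h' hv) w (h' hw)

theorem OrthOn.fam {e : Ev S} {W : Finset V} (h : OrthOn e (W : Set V)) :
    OrthFam e (fun v : {v // v ∈ W} => (v : V)) :=
  fun i j hij => h i.1 i.2 j.1 j.2 fun h' => hij (Subtype.ext h')

/-- the tower homomorphism of a finite window -/
noncomputable def epsW (e : Ev S) (W : Finset V) (h : OrthOn e (W : Set V)) :
    alternatingGroup ({v // v ∈ W} × C) →* T := eps e (fun v => (v : V)) h.fam

/-- restriction of fresh colours to a window -/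
theorem Fresh.window {W : Finset V} {p q r : {v // v ∈ W} × C} {d d' : V × C → C}
    (fd : Fresh {((p.1 : V), p.2), ((q.1 : V), q.2), ((r.1 : V), r.2)} d d') :
    Fresh {p, q, r} (fun x : {v // v ∈ W} × C => d (x.1, x.2)) (fun x => d' (x.1, x.2)) := by
  have hm : ∀ x ∈ ({p, q, r} : Finset ({v // v ∈ W} × C)), (((x.1 : V), x.2) : V × C) ∈
      ({((p.1 : V), p.2), ((q.1 : V), q.2), ((r.1 : V), r.2)} : Finset (V × C)) := by
    intro x hx
    simp only [mem_insert, mem_singleton] at hx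
    rcases hx with rfl | rfl | rfl <;> simp
  refine ⟨fun x hx y hy h => ?_, fun x hx y hy h => ?_, fun x hx y hy => fd.ne _ (hm x hx) _ (hm y hy),
    fun x hx y hy => fd.ned _ (hm x hx) _ (hm y hy), fun x hx y hy => fd.ned' _ (hm x hx) _ (hm y hy)⟩
  · have := fd.injd _ (hm x hx) _ (hm y hy) h
    rw [Prod.ext_iff] at this
    exact Prod.ext (Subtype.ext this.1) this.2
  · have := fd.injd' _ (hm x hx) _ (hm y hy) h
    rw [Prod.ext_iff] at this
    exact Prod.ext (Subtype.ext this.1) this.2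

theorem ne_window {W : Finset V} {p q : {v // v ∈ W} × C} (h : p ≠ q) :
    (((p.1 : V), p.2) : V × C) ≠ ((q.1 : V), q.2) := by
  intro h'
  rw [Prod.ext_iff] at h'
  exact h (Prod.ext (Subtype.ext h'.1) h'.2)

theorem epsW_val {e : Ev S} {W : Finset V} (h : OrthOn e (W : Set V)) {p q r : {v // v ∈ W} × C}
    (hpq : p ≠ q) (hpr : p ≠ r) (hqr : q ≠ r) {d d' : V × C → C}
    (fd : Fresh {((p.1 : V), p.2), ((q.1 : V), q.2), ((r.1 : V), r.2)} d d') :
    epsW e W h (acyc p q r) = val e id d d' ((p.1 : V), p.2) ((q.1 : V), q.2) ((r.1 : V), r.2) := by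
  have h1 := eps_val h.fam hpq hpr hqr (Fresh.window fd)
  rw [epsW, h1]
  rfl

/-- **`tv` is the value of the tower homomorphism of any window** -/
theorem epsW_acyc {e : Ev S} {W : Finset V} (h : OrthOn e (W : Set V)) {p q r : {v // v ∈ W} × C}
    (hpq : p ≠ q) (hpr : p ≠ r) (hqr : q ≠ r) :
    epsW e W h (acyc p q r) = tv e ((p.1 : V), p.2) ((q.1 : V), q.2) ((r.1 : V), r.2) :=
  epsW_val h hpq hpr hqr (fresh3V S _ _ _).choose_spec.choose_spec

/-- value of `tv` with arbitrary fresh colours -/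
theorem tv_eq {e : Ev S} {W : Set V} (hW : OrthOn e W) {p q r : V × C} (hpq : p ≠ q)
    (hpr : p ≠ r) (hqr : q ≠ r) (hp : p.1 ∈ W) (hq : q.1 ∈ W) (hr : r.1 ∈ W) {d d' : V × C → C}
    (fd : Fresh {p, q, r} d d') : tv e p q r = val e id d d' p q r := by
  set W' : Finset V := {p.1, q.1, r.1} with hW'
  have h : OrthOn e (W' : Set V) := hW.mono fun x hx => by
    simp only [hW', coe_insert, coe_singleton, Set.mem_insert_iff, Set.mem_singleton_iff] at hx
    rcases hx with rfl | rfl | rfl <;> assumption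
  have h1 := epsW_acyc h (p := (⟨p.1, by simp [hW']⟩, p.2)) (q := (⟨q.1, by simp [hW']⟩, q.2))
    (r := (⟨r.1, by simp [hW']⟩, r.2)) (fun h' => hpq (by simpa [Prod.ext_iff] using h'))
    (fun h' => hpr (by simpa [Prod.ext_iff] using h')) (fun h' => hqr (by simpa [Prod.ext_iff] using h'))
  have h2 := epsW_val h (p := (⟨p.1, by simp [hW']⟩, p.2)) (q := (⟨q.1, by simp [hW']⟩, q.2))
    (r := (⟨r.1, by simp [hW']⟩, r.2)) (fun h' => hpq (by simpa [Prod.ext_iff] using h'))
    (fun h' => hpr (by simpa [Prod.ext_iff] using h')) (fun h' => hqr (by simpa [Prod.ext_iff] using h'))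
    (d := d) (d' := d') fd
  exact h1.symm.trans h2

/-- value on sectional 3-cycles -/
theorem tv_section (e : Ev S) {p q r : V × C} (hpq : p.2 ≠ q.2) (hpr : p.2 ≠ r.2)
    (hqr : q.2 ≠ r.2) : tv e p q r = M3 e p.1 q.1 r.1 p.2 q.2 r.2 := by
  set W' : Finset V := {p.1, q.1, r.1} with hW'
  have fd := (fresh3V S p q r).choose_spec.choose_spec
  have h := val_section (e := e) (pos := fun v : {v // v ∈ W'} => (v : V))
    (p := (⟨p.1, by simp [hW']⟩, p.2)) (q := (⟨q.1, by simp [hW']⟩, q.2))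
    (r := (⟨r.1, by simp [hW']⟩, r.2)) hpq hpr hqr (Fresh.window (W := W') (p := (⟨p.1, by simp [hW']⟩, p.2))
      (q := (⟨q.1, by simp [hW']⟩, q.2)) (r := (⟨r.1, by simp [hW']⟩, r.2)) fd)
  exact h

/-- explicit value on sectional 3-cycles -/
theorem tv_section' (e : Ev S) {p q r : V × C} (hpq : p.2 ≠ q.2) (hpr : p.2 ≠ r.2)
    (hqr : q.2 ≠ r.2) {l : C → V} (hl : ∑ c, l c = 0) (hp : l p.2 = p.1) (hq : l q.2 = q.1)
    (hr : l r.2 = r.1) :
    tv e p q r = S.H l * e.hom (acyc p.2 q.2 r.2) * (S.H l)⁻¹ := by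
  rw [tv_section e hpq hpr hqr, M3_eq e hpq hpr hqr hl hp hq hr]

/-- vertical 3-cycles -/
theorem tv_vert {e e' : Ev S} {v : V} (h : Ev.IsTrans v e e') {a b c : C} (hab : a ≠ b)
    (hac : a ≠ c) (hbc : b ≠ c) : tv e (v, a) (v, b) (v, c) = e'.hom (acyc a b c) := by
  rw [tv_section e hab hac hbc, M3_trans h hab hac hbc]

/-! ### conjugation by `H l` -/

/-- the action of `H l` on positions -/
def sh (l : C → V) (p : V × C) : V × C := (p.1 + l p.2, p.2)

theorem sh_injective (l : C → V) : Function.Injective (sh l) := by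
  rintro ⟨v, c⟩ ⟨w, c'⟩ h
  simp only [sh, Prod.mk.injEq] at h
  obtain ⟨h1, rfl⟩ := h
  exact Prod.ext (add_right_cancel h1) rfl

theorem sh_neg_sh (l : C → V) (p : V × C) : sh (-l) (sh l p) = p := by
  simp [sh]

theorem sh_sh_neg (l : C → V) (p : V × C) : sh l (sh (-l) p) = p := by
  simp [sh]

/-- **conjugation by `H l`** -/
theorem tv_conj_H {e : Ev S} {W : Set V} (hW : OrthOn e W) {l : C → V} (hl : ∑ c, l c = 0)
    (F : Finset C) (hF : F.card ≤ 21) (hlF : ∀ c, c ∉ F → l c = 0)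
    {p q r : V × C} (hpq : p ≠ q) (hpr : p ≠ r) (hqr : q ≠ r)
    (hp : p.1 ∈ W) (hq : q.1 ∈ W) (hr : r.1 ∈ W)
    (hp' : (sh l p).1 ∈ W) (hq' : (sh l q).1 ∈ W) (hr' : (sh l r).1 ∈ W) :
    S.H l * tv e p q r * (S.H l)⁻¹ = tv e (sh l p) (sh l q) (sh l r) := by
  obtain ⟨d, d', fd, hd, hd'⟩ := exists_fresh S ({p, q, r} : Finset (V × C)) F (by
    have : ({p, q, r} : Finset (V × C)).card ≤ 3 := card_le_three
    omega)
  have mp : p ∈ ({p, q, r} : Finset (V × C)) := by simp
  have mq : q ∈ ({p, q, r} : Finset (V × C)) := by simp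
  have mr : r ∈ ({p, q, r} : Finset (V × C)) := by simp
  -- the window
  set W' : Finset V := {p.1, q.1, r.1, (sh l p).1, (sh l q).1, (sh l r).1} with hW'
  have h : OrthOn e (W' : Set V) := hW.mono fun x hx => by
    simp only [hW', coe_insert, coe_singleton, Set.mem_insert_iff, Set.mem_singleton_iff] at hx
    rcases hx with rfl | rfl | rfl | rfl | rfl | rfl <;> assumption
  have m1 : p.1 ∈ W' := by simp [hW']
  have m2 : q.1 ∈ W' := by simp [hW']
  have m3 : r.1 ∈ W' := by simp [hW']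
  have m4 : (sh l p).1 ∈ W' := by simp [hW']
  have m5 : (sh l q).1 ∈ W' := by simp [hW']
  have m6 : (sh l r).1 ∈ W' := by simp [hW']
  -- the colours for the shifted points
  set P : {v // v ∈ W'} × C := (⟨(sh l p).1, m4⟩, p.2) with hP
  set Q : {v // v ∈ W'} × C := (⟨(sh l q).1, m5⟩, q.2) with hQ
  set R : {v // v ∈ W'} × C := (⟨(sh l r).1, m6⟩, r.2) with hR
  have hPQ : P ≠ Q := fun h' => hpq (sh_injective l (by
    simp only [hP, hQ, Prod.mk.injEq, Subtype.mk.injEq] at h'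
    exact Prod.ext h'.1 h'.2))
  have hPR : P ≠ R := fun h' => hpr (sh_injective l (by
    simp only [hP, hR, Prod.mk.injEq, Subtype.mk.injEq] at h'
    exact Prod.ext h'.1 h'.2))
  have hQR : Q ≠ R := fun h' => hqr (sh_injective l (by
    simp only [hQ, hR, Prod.mk.injEq, Subtype.mk.injEq] at h'
    exact Prod.ext h'.1 h'.2))
  set D : {v // v ∈ W'} × C → C := fun x => d (sh (-l) ((x.1 : V), x.2)) with hD
  set D' : {v // v ∈ W'} × C → C := fun x => d' (sh (-l) ((x.1 : V), x.2)) with hD'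
  have e1 : sh (-l) (((P.1 : V), P.2) : V × C) = p := sh_neg_sh l p
  have e2 : sh (-l) (((Q.1 : V), Q.2) : V × C) = q := sh_neg_sh l q
  have e3 : sh (-l) (((R.1 : V), R.2) : V × C) = r := sh_neg_sh l r
  have hmem : ∀ x ∈ ({P, Q, R} : Finset ({v // v ∈ W'} × C)),
      sh (-l) (((x.1 : V), x.2) : V × C) ∈ ({p, q, r} : Finset (V × C)) := by
    intro x hx
    simp only [mem_insert, mem_singleton] at hx
    rcases hx with rfl | rfl | rfl
    · rw [e1]; exact mp
    · rw [e2]; exact mq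
    · rw [e3]; exact mr
  have hinj : ∀ x y : {v // v ∈ W'} × C, sh (-l) (((x.1 : V), x.2) : V × C) =
      sh (-l) (((y.1 : V), y.2) : V × C) → x = y := by
    intro x y hxy
    have := sh_injective (-l) hxy
    rw [Prod.ext_iff] at this
    exact Prod.ext (Subtype.ext this.1) this.2
  have fD : Fresh {P, Q, R} D D' :=
    ⟨fun x hx y hy hxy => hinj x y (fd.injd _ (hmem x hx) _ (hmem y hy) hxy),
     fun x hx y hy hxy => hinj x y (fd.injd' _ (hmem x hx) _ (hmem y hy) hxy),
     fun x hx y hy => fd.ne _ (hmem x hx) _ (hmem y hy),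
     fun x hx y hy => fd.ned _ (hmem x hx) _ (hmem y hy),
     fun x hx y hy => fd.ned' _ (hmem x hx) _ (hmem y hy)⟩
  have DP : D P = d p := congrArg d e1
  have DQ : D Q = d q := congrArg d e2
  have DR : D R = d r := congrArg d e3
  have DP' : D' P = d' p := congrArg d' e1
  have DQ' : D' Q = d' q := congrArg d' e2
  have DR' : D' R = d' r := congrArg d' e3
  -- the permutation identity, mapped to `T`
  have key := congrArg (epsW e W' h)
    (acyc_conj_fresh hPQ hPR hQR fD ⟨p.1, m1⟩ ⟨q.1, m2⟩ ⟨r.1, m3⟩)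
  rw [DP, DQ, DR, DP', DQ', DR'] at key
  simp only [map_mul, map_inv] at key
  have dpq : d p ≠ d q := fun h' => hpq (fd.injd p mp q mq h')
  have dpr : d p ≠ d r := fun h' => hpr (fd.injd p mp r mr h')
  have dqr : d q ≠ d r := fun h' => hqr (fd.injd q mq r mr h')
  have p1 : p.2 ≠ d p := (fd.ned p mp p mp).symm
  have p2 : p.2 ≠ d' p := (fd.ned' p mp p mp).symm
  have p3 : d p ≠ d' p := fd.ne p mp p mp
  have q1 : q.2 ≠ d q := (fd.ned q mq q mq).symm
  have q2 : q.2 ≠ d' q := (fd.ned' q mq q mq).symm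
  have q3 : d q ≠ d' q := fd.ne q mq q mq
  have r1 : r.2 ≠ d r := (fd.ned r mr r mr).symm
  have r2 : r.2 ≠ d' r := (fd.ned' r mr r mr).symm
  have r3 : d r ≠ d' r := fd.ne r mr r mr
  have kP : epsW e W' h (acyc P (⟨p.1, m1⟩, d p) (⟨p.1, m1⟩, d' p)) =
      S.H l * mv e p.1 p.2 (d p) (d' p) * (S.H l)⁻¹ := by
    rw [epsW, eps_M3 h.fam p1 p2 p3, mv, H_conj_M3 e hl _ _ _ p1 p2 p3, hlF _ (hd p mp),
      hlF _ (hd' p mp), add_zero]
    rfl
  have kQ : epsW e W' h (acyc Q (⟨q.1, m2⟩, d q) (⟨q.1, m2⟩, d' q)) =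
      S.H l * mv e q.1 q.2 (d q) (d' q) * (S.H l)⁻¹ := by
    rw [epsW, eps_M3 h.fam q1 q2 q3, mv, H_conj_M3 e hl _ _ _ q1 q2 q3, hlF _ (hd q mq),
      hlF _ (hd' q mq), add_zero]
    rfl
  have kR : epsW e W' h (acyc R (⟨r.1, m3⟩, d r) (⟨r.1, m3⟩, d' r)) =
      S.H l * mv e r.1 r.2 (d r) (d' r) * (S.H l)⁻¹ := by
    rw [epsW, eps_M3 h.fam r1 r2 r3, mv, H_conj_M3 e hl _ _ _ r1 r2 r3, hlF _ (hd r mr),
      hlF _ (hd' r mr), add_zero]
    rfl
  have kB : epsW e W' h (acyc (⟨p.1, m1⟩, d p) (⟨q.1, m2⟩, d q) (⟨r.1, m3⟩, d r)) =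
      S.H l * M3 e p.1 q.1 r.1 (d p) (d q) (d r) * (S.H l)⁻¹ := by
    rw [epsW, eps_M3 h.fam dpq dpr dqr, H_conj_M3 e hl _ _ _ dpq dpr dqr, hlF _ (hd p mp),
      hlF _ (hd q mq), hlF _ (hd r mr)]
    simp only [add_zero]
  rw [kP, kQ, kR, kB, epsW_acyc h hPQ hPR hQR] at key
  rw [tv_eq hW hpq hpr hqr hp hq hr fd]
  change _ = tv e ((P.1 : V), P.2) ((Q.1 : V), Q.2) ((R.1 : V), R.2)
  rw [← key]
  unfold val mv3
  simp only [id]
  group

/-! ### conjugation by an event value -/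

/-- the action of `f(z)` on positions, `A` = the positions `v` with `v.e ≤ f` -/
def rc (A : Set V) [DecidablePred (· ∈ A)] (z : Perm C) (p : V × C) : V × C :=
  if p.1 ∈ A then (p.1, z p.2) else p

theorem rc_fst (A : Set V) [DecidablePred (· ∈ A)] (z : Perm C) (p : V × C) :
    (rc A z p).1 = p.1 := by
  unfold rc; split_ifs <;> rfl

theorem rc_injective (A : Set V) [DecidablePred (· ∈ A)] (z : Perm C) :
    Function.Injective (rc A z) := by
  intro p q h
  have h1 : p.1 = q.1 := by rw [← rc_fst A z p, h, rc_fst]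
  unfold rc at h
  by_cases hp : p.1 ∈ A
  · rw [if_pos hp, if_pos (h1 ▸ hp)] at h
    exact Prod.ext h1 (z.injective (congrArg Prod.snd h))
  · rw [if_neg hp, if_neg (h1 ▸ hp)] at h
    exact h

theorem rc_inv_rc (A : Set V) [DecidablePred (· ∈ A)] (z : Perm C) (p : V × C) :
    rc A z⁻¹ (rc A z p) = p := by
  by_cases hp : p.1 ∈ A
  · simp [rc, hp]
  · simp [rc, hp]

/-- the mover of a point, conjugated by `f(z)` -/
theorem mv_conj_ev {e f : Ev S} (A : Set V) [DecidablePred (· ∈ A)] {p : V × C}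
    (hA : p.1 ∈ A → TLe e f p.1) (hA' : p.1 ∉ A → TPerp e f p.1) (z : alternatingGroup C)
    {d d' : C} (h1 : p.2 ≠ d) (h2 : p.2 ≠ d') (h3 : d ≠ d') (hd : (z : Perm C) d = d)
    (hd' : (z : Perm C) d' = d') :
    f.hom z * mv e p.1 p.2 d d' * (f.hom z)⁻¹ =
      mv e (rc A (z : Perm C) p).1 (rc A (z : Perm C) p).2 d d' := by
  by_cases hp : p.1 ∈ A
  · have := hA hp z p.2 d d' h1 h2 h3
    rw [hd, hd'] at this
    simp only [rc, if_pos hp]
    exact this
  · have := hA' hp z p.2 d d' h1 h2 h3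
    simp only [rc, if_neg hp]
    rw [mv, this.eq]; group

/-- **conjugation by `f(z)`** -/
theorem tv_conj_ev {e f : Ev S} {W : Set V} (hW : OrthOn e W) (A : Set V) [DecidablePred (· ∈ A)]
    (hA : ∀ v ∈ W, v ∈ A → TLe e f v) (hA' : ∀ v ∈ W, v ∉ A → TPerp e f v)
    (z : alternatingGroup C) (hz : (z : Perm C).support.card ≤ 21)
    {p q r : V × C} (hpq : p ≠ q) (hpr : p ≠ r) (hqr : q ≠ r)
    (hp : p.1 ∈ W) (hq : q.1 ∈ W) (hr : r.1 ∈ W) :
    f.hom z * tv e p q r * (f.hom z)⁻¹ = tv e (rc A z p) (rc A z q) (rc A z r) := by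
  obtain ⟨d, d', fd, hd, hd'⟩ := exists_fresh S ({p, q, r} : Finset (V × C))
    (z : Perm C).support (by
      have : ({p, q, r} : Finset (V × C)).card ≤ 3 := card_le_three
      omega)
  have mp : p ∈ ({p, q, r} : Finset (V × C)) := by simp
  have mq : q ∈ ({p, q, r} : Finset (V × C)) := by simp
  have mr : r ∈ ({p, q, r} : Finset (V × C)) := by simp
  have hzd : ∀ x ∈ ({p, q, r} : Finset (V × C)), (z : Perm C) (d x) = d x :=
    fun x hx => notMem_support.1 (hd x hx)
  have hzd' : ∀ x ∈ ({p, q, r} : Finset (V × C)), (z : Perm C) (d' x) = d' x :=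
    fun x hx => notMem_support.1 (hd' x hx)
  -- fresh colours for the images
  have hmem : ∀ x ∈ ({rc A z p, rc A z q, rc A z r} : Finset (V × C)),
      ∃ y ∈ ({p, q, r} : Finset (V × C)), x = rc A z y := by
    intro x hx
    simp only [mem_insert, mem_singleton] at hx
    rcases hx with rfl | rfl | rfl
    · exact ⟨p, mp, rfl⟩
    · exact ⟨q, mq, rfl⟩
    · exact ⟨r, mr, rfl⟩
  have hcol : ∀ (y : V × C) (c : C), (z : Perm C) c = c → c ≠ y.2 → c ≠ (rc A z y).2 := by
    intro y c hc hcy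
    unfold rc
    split_ifs with h
    · intro h'
      apply hcy
      apply (z : Perm C).injective
      rw [hc]; exact h'
    · exact hcy
  have fD : Fresh {rc A z p, rc A z q, rc A z r} (fun x => d (rc A (z : Perm C)⁻¹ x))
      (fun x => d' (rc A (z : Perm C)⁻¹ x)) := by
    refine ⟨fun x₀ hx₀ y₀ hy₀ h => ?_, fun x₀ hx₀ y₀ hy₀ h => ?_, fun x₀ hx₀ y₀ hy₀ => ?_,
      fun x₀ hx₀ y₀ hy₀ => ?_, fun x₀ hx₀ y₀ hy₀ => ?_⟩ <;>
    obtain ⟨x, hx, rfl⟩ := hmem x₀ hx₀ <;> obtain ⟨y, hy, rfl⟩ := hmem y₀ hy₀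
    · simp only [rc_inv_rc] at h
      rw [fd.injd x hx y hy h]
    · simp only [rc_inv_rc] at h
      rw [fd.injd' x hx y hy h]
    · simp only [rc_inv_rc]
      exact fd.ne x hx y hy
    · simp only [rc_inv_rc]
      exact hcol _ _ (hzd x hx) (fd.ned x hx y hy)
    · simp only [rc_inv_rc]
      exact hcol _ _ (hzd' x hx) (fd.ned' x hx y hy)
  rw [tv_eq hW hpq hpr hqr hp hq hr fd, tv_eq hW ((rc_injective A _).ne hpq)
    ((rc_injective A _).ne hpr) ((rc_injective A _).ne hqr) (by rw [rc_fst]; exact hp)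
    (by rw [rc_fst]; exact hq) (by rw [rc_fst]; exact hr) fD]
  have dpq : d p ≠ d q := fun h' => hpq (fd.injd p mp q mq h')
  have dpr : d p ≠ d r := fun h' => hpr (fd.injd p mp r mr h')
  have dqr : d q ≠ d r := fun h' => hqr (fd.injd q mq r mr h')
  have kp := mv_conj_ev A (hA p.1 hp) (hA' p.1 hp) z (fd.ned p mp p mp).symm
    (fd.ned' p mp p mp).symm (fd.ne p mp p mp) (hzd p mp) (hzd' p mp)
  have kq := mv_conj_ev A (hA q.1 hq) (hA' q.1 hq) z (fd.ned q mq q mq).symm
    (fd.ned' q mq q mq).symm (fd.ne q mq q mq) (hzd q mq) (hzd' q mq)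
  have kr := mv_conj_ev A (hA r.1 hr) (hA' r.1 hr) z (fd.ned r mr r mr).symm
    (fd.ned' r mr r mr).symm (fd.ne r mr r mr) (hzd r mr) (hzd' r mr)
  have kB : Commute (f.hom z) (M3 e p.1 q.1 r.1 (d p) (d q) (d r)) := by
    refine (hom_loc f z).comm (M3_loc e p.1 q.1 r.1 dpq dpr dqr) ?_ ?_ (by norm_num) (by omega) ?_
    · rw [Finset.disjoint_left]
      intro x hx hx'
      simp only [mem_insert, mem_singleton] at hx'
      rcases hx' with rfl | rfl | rfl
      · exact hd p mp hx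
      · exact hd q mq hx
      · exact hd r mr hx
    · have : ({d p, d q, d r} : Finset C).card ≤ 3 := card_le_three
      omega
    · have : ({d p, d q, d r} : Finset C).card ≤ 3 := card_le_three
      omega
  unfold val mv3
  simp only [id, rc_inv_rc]
  rw [← kp, ← kq, ← kr, rc_fst, rc_fst, rc_fst]
  have kB' : M3 e p.1 q.1 r.1 (d p) (d q) (d r) =
      f.hom z * M3 e p.1 q.1 r.1 (d p) (d q) (d r) * (f.hom z)⁻¹ := by
    rw [kB.eq]; group
  nth_rewrite 2 [kB']
  group

/-- an event orthogonal to all translates commutes with the tower -/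
theorem tv_comm_ev {e f : Ev S} {W : Set V} (hW : OrthOn e W) (hA : ∀ v ∈ W, TPerp e f v)
    (z : alternatingGroup C) {p q r : V × C} (hpq : p ≠ q) (hpr : p ≠ r) (hqr : q ≠ r)
    (hp : p.1 ∈ W) (hq : q.1 ∈ W) (hr : r.1 ∈ W) : Commute (f.hom z) (tv e p q r) := by
  refine alt_ind (P := fun z => Commute (f.hom z) (tv e p q r)) ?_ ?_ ?_ ?_ z
  · intro a b c hab hac hbc
    have h := tv_conj_ev (f := f) hW ∅ (fun v _ hv => absurd hv (Set.notMem_empty v))
      (fun v hv _ => hA v hv) (acyc a b c) (by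
        rw [support_acyc hab hac hbc]; exact card_le_three.trans (by norm_num)) hpq hpr hqr hp hq hr
    have e1 : ∀ x : V × C, rc (∅ : Set V) ((acyc a b c : alternatingGroup C) : Perm C) x = x :=
      fun x => by simp [rc]
    rw [e1, e1, e1] at h
    exact mul_inv_eq_iff_eq_mul.1 h
  · simp
  · intro x y hx hy
    rw [map_mul]; exact hx.mul_left hy
  · intro x hx
    rw [map_inv]; exact hx.inv_left

/-- **conjugation by the generator `H l * f(z) * (H l)⁻¹`** -/
theorem tv_conj_gen {e f : Ev S} {W : Set V} (hW : OrthOn e W) (A : Set V)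
    [DecidablePred (· ∈ A)] (hA : ∀ v ∈ W, v ∈ A → TLe e f v) (hA' : ∀ v ∈ W, v ∉ A → TPerp e f v)
    {l : C → V} (hl : ∑ c, l c = 0) (F : Finset C) (hF : F.card ≤ 21) (hlF : ∀ c, c ∉ F → l c = 0)
    (z : alternatingGroup C) (hz : (z : Perm C).support.card ≤ 21)
    {p q r : V × C} (hpq : p ≠ q) (hpr : p ≠ r) (hqr : q ≠ r)
    (hp : p.1 ∈ W) (hq : q.1 ∈ W) (hr : r.1 ∈ W)
    (hp1 : (sh (-l) p).1 ∈ W) (hq1 : (sh (-l) q).1 ∈ W) (hr1 : (sh (-l) r).1 ∈ W)
    (hp2 : (sh l (rc A z (sh (-l) p))).1 ∈ W) (hq2 : (sh l (rc A z (sh (-l) q))).1 ∈ W)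
    (hr2 : (sh l (rc A z (sh (-l) r))).1 ∈ W) :
    (S.H l * f.hom z * (S.H l)⁻¹) * tv e p q r * (S.H l * f.hom z * (S.H l)⁻¹)⁻¹ =
      tv e (sh l (rc A z (sh (-l) p))) (sh l (rc A z (sh (-l) q))) (sh l (rc A z (sh (-l) r))) := by
  have hl' : ∑ c, (-l) c = 0 := by simp [hl]
  have h1 := tv_conj_H hW hl' F hF (fun c hc => by simp [hlF c hc]) hpq hpr hqr hp hq hr hp1 hq1 hr1
  have h2 := tv_conj_ev hW A hA hA' z hz ((sh_injective _).ne hpq) ((sh_injective _).ne hpr)
    ((sh_injective _).ne hqr) hp1 hq1 hr1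
  have h3 := tv_conj_H hW hl F hF hlF (p := rc A z (sh (-l) p)) (q := rc A z (sh (-l) q))
    (r := rc A z (sh (-l) r))
    ((rc_injective A _).ne ((sh_injective _).ne hpq)) ((rc_injective A _).ne ((sh_injective _).ne hpr))
    ((rc_injective A _).ne ((sh_injective _).ne hqr)) (by rw [rc_fst]; exact hp1)
    (by rw [rc_fst]; exact hq1) (by rw [rc_fst]; exact hr1) hp2 hq2 hr2
  rw [← h3, ← h2, ← h1, H_neg S hl]
  group

/-! ### commutation of towers -/

theorem comm_three {G : Type*} [Group G] {a₁ a₂ a₃ b x : G} (h1 : Commute a₁ x)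
    (h2 : Commute a₂ x) (h3 : Commute a₃ x) (hb : Commute b x) :
    Commute ((a₁ * a₂ * a₃)⁻¹ * b * (a₁ * a₂ * a₃)) x := by
  have h : Commute (a₁ * a₂ * a₃) x := (h1.mul_left h2).mul_left h3
  exact (h.inv_left.mul_left hb).mul_left h

/-- **towers which are orthogonal at equal colours commute** -/
theorem tv_commute {e f : Ev S} {W W' : Set V} (hW : OrthOn e W) (hW' : OrthOn f W')
    {p q r p' q' r' : V × C} (hpq : p ≠ q) (hpr : p ≠ r) (hqr : q ≠ r)
    (hpq' : p' ≠ q') (hpr' : p' ≠ r') (hqr' : q' ≠ r')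
    (hp : p.1 ∈ W) (hq : q.1 ∈ W) (hr : r.1 ∈ W) (hp' : p'.1 ∈ W') (hq' : q'.1 ∈ W')
    (hr' : r'.1 ∈ W')
    (h : ∀ x ∈ ({p, q, r} : Finset (V × C)), ∀ y ∈ ({p', q', r'} : Finset (V × C)), x.2 = y.2 →
      TOrth e f x.1 y.1) :
    Commute (tv e p q r) (tv f p' q' r') := by
  have c3 : ({p, q, r} : Finset (V × C)).card ≤ 3 := card_le_three
  have c3' : ({p', q', r'} : Finset (V × C)).card ≤ 3 := card_le_three
  obtain ⟨d, d', fd, hd, hd'⟩ := exists_fresh S ({p, q, r} : Finset (V × C))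
    (({p', q', r'} : Finset (V × C)).image Prod.snd) (by
      have := (card_image_le (s := ({p', q', r'} : Finset (V × C))) (f := Prod.snd)).trans c3'
      omega)
  obtain ⟨x, x', fx, hx, hx'⟩ := exists_fresh S ({p', q', r'} : Finset (V × C))
    ((({p, q, r} : Finset (V × C)).image Prod.snd) ∪ (({p, q, r} : Finset (V × C)).image d ∪
      ({p, q, r} : Finset (V × C)).image d')) (by
      have b1 := (card_image_le (s := ({p, q, r} : Finset (V × C))) (f := Prod.snd)).trans c3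
      have b2 := (card_image_le (s := ({p, q, r} : Finset (V × C))) (f := d)).trans c3
      have b3 := (card_image_le (s := ({p, q, r} : Finset (V × C))) (f := d')).trans c3
      have b4 := card_union_le (({p, q, r} : Finset (V × C)).image Prod.snd)
        (({p, q, r} : Finset (V × C)).image d ∪ ({p, q, r} : Finset (V × C)).image d')
      have b5 := card_union_le (({p, q, r} : Finset (V × C)).image d)
        (({p, q, r} : Finset (V × C)).image d')
      omega)
  have mp : p ∈ ({p, q, r} : Finset (V × C)) := by simp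
  have mq : q ∈ ({p, q, r} : Finset (V × C)) := by simp
  have mr : r ∈ ({p, q, r} : Finset (V × C)) := by simp
  have mp' : p' ∈ ({p', q', r'} : Finset (V × C)) := by simp
  have mq' : q' ∈ ({p', q', r'} : Finset (V × C)) := by simp
  have mr' : r' ∈ ({p', q', r'} : Finset (V × C)) := by simp
  -- freshness between the two families
  have f1 : ∀ s ∈ ({p, q, r} : Finset (V × C)), ∀ t ∈ ({p', q', r'} : Finset (V × C)),
      d s ≠ t.2 ∧ d' s ≠ t.2 ∧ x t ≠ s.2 ∧ x' t ≠ s.2 := by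
    intro s hs t ht
    refine ⟨fun h' => hd s hs ?_, fun h' => hd' s hs ?_, fun h' => hx t ht ?_,
      fun h' => hx' t ht ?_⟩
    · rw [h']; exact mem_image_of_mem _ ht
    · rw [h']; exact mem_image_of_mem _ ht
    · rw [h']; exact mem_union_left _ (mem_image_of_mem _ hs)
    · rw [h']; exact mem_union_left _ (mem_image_of_mem _ hs)
  have f2 : ∀ s ∈ ({p, q, r} : Finset (V × C)), ∀ t ∈ ({p', q', r'} : Finset (V × C)),
      x t ≠ d s ∧ x t ≠ d' s ∧ x' t ≠ d s ∧ x' t ≠ d' s := by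
    intro s hs t ht
    refine ⟨fun h' => hx t ht ?_, fun h' => hx t ht ?_, fun h' => hx' t ht ?_,
      fun h' => hx' t ht ?_⟩
    · rw [h']; exact mem_union_right _ (mem_union_left _ (mem_image_of_mem _ hs))
    · rw [h']; exact mem_union_right _ (mem_union_right _ (mem_image_of_mem _ hs))
    · rw [h']; exact mem_union_right _ (mem_union_left _ (mem_image_of_mem _ hs))
    · rw [h']; exact mem_union_right _ (mem_union_right _ (mem_image_of_mem _ hs))
  have dpq : d p ≠ d q := fun h' => hpq (fd.injd p mp q mq h')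
  have dpr : d p ≠ d r := fun h' => hpr (fd.injd p mp r mr h')
  have dqr : d q ≠ d r := fun h' => hqr (fd.injd q mq r mr h')
  have xpq : x p' ≠ x q' := fun h' => hpq' (fx.injd p' mp' q' mq' h')
  have xpr : x p' ≠ x r' := fun h' => hpr' (fx.injd p' mp' r' mr' h')
  have xqr : x q' ≠ x r' := fun h' => hqr' (fx.injd q' mq' r' mr' h')
  -- movers against movers
  have c1 : ∀ s ∈ ({p, q, r} : Finset (V × C)), ∀ t ∈ ({p', q', r'} : Finset (V × C)),
      Commute (mv e s.1 s.2 (d s) (d' s)) (mv f t.1 t.2 (x t) (x' t)) := by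
    intro s hs t ht
    refine mv_comm ?_ (fd.ned s hs s hs).symm (fd.ned' s hs s hs).symm (fd.ne s hs s hs)
      (fx.ned t ht t ht).symm (fx.ned' t ht t ht).symm (fx.ne t ht t ht)
    by_cases hc : s.2 = t.2
    · exact Or.inl (h s hs t ht hc)
    · exact Or.inr ⟨hc, (f2 s hs t ht).1.symm, (f2 s hs t ht).2.2.1.symm,
        (f2 s hs t ht).2.1.symm, (f2 s hs t ht).2.2.2.symm, (f1 s hs t ht).2.2.1.symm,
        (f1 s hs t ht).2.2.2.symm, (f1 s hs t ht).1.symm, (f1 s hs t ht).2.1.symm⟩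
  -- movers against bases
  have c2 : ∀ s ∈ ({p, q, r} : Finset (V × C)),
      Commute (mv e s.1 s.2 (d s) (d' s)) (M3 f p'.1 q'.1 r'.1 (x p') (x q') (x r')) := by
    intro s hs
    refine M3_comm_of_disj e f _ _ _ _ _ _ (fd.ned s hs s hs).symm (fd.ned' s hs s hs).symm
      (fd.ne s hs s hs) xpq xpr xqr ?_
    rw [Finset.disjoint_left]
    intro y hy hy'
    simp only [mem_insert, mem_singleton] at hy hy'
    have g : ∀ t ∈ ({p', q', r'} : Finset (V × C)), y ≠ x t := by
      intro t ht h'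
      rcases hy with rfl | rfl | rfl
      · exact (f1 s hs t ht).2.2.1 h'.symm
      · exact (f2 s hs t ht).1 h'.symm
      · exact (f2 s hs t ht).2.1 h'.symm
    rcases hy' with h' | h' | h'
    · exact g p' mp' h'
    · exact g q' mq' h'
    · exact g r' mr' h'
  have c4 : ∀ t ∈ ({p', q', r'} : Finset (V × C)),
      Commute (M3 e p.1 q.1 r.1 (d p) (d q) (d r)) (mv f t.1 t.2 (x t) (x' t)) := by
    intro t ht
    refine M3_comm_of_disj e f _ _ _ _ _ _ dpq dpr dqr (fx.ned t ht t ht).symm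
      (fx.ned' t ht t ht).symm (fx.ne t ht t ht) ?_
    rw [Finset.disjoint_left]
    intro y hy hy'
    simp only [mem_insert, mem_singleton] at hy hy'
    have g : ∀ s ∈ ({p, q, r} : Finset (V × C)), y ≠ d s := by
      intro s hs h'
      rcases hy' with rfl | rfl | rfl
      · exact (f1 s hs t ht).1 h'.symm
      · exact (f2 s hs t ht).1 h'
      · exact (f2 s hs t ht).2.2.1 h'
    rcases hy with h' | h' | h'
    · exact g p mp h'
    · exact g q mq h'
    · exact g r mr h'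
  have c5 : Commute (M3 e p.1 q.1 r.1 (d p) (d q) (d r))
      (M3 f p'.1 q'.1 r'.1 (x p') (x q') (x r')) := by
    refine M3_comm_of_disj e f _ _ _ _ _ _ dpq dpr dqr xpq xpr xqr ?_
    rw [Finset.disjoint_left]
    intro y hy hy'
    simp only [mem_insert, mem_singleton] at hy hy'
    rcases hy with rfl | rfl | rfl <;> rcases hy' with h' | h' | h'
    · exact (f2 p mp p' mp').1 h'.symm
    · exact (f2 p mp q' mq').1 h'.symm
    · exact (f2 p mp r' mr').1 h'.symm
    · exact (f2 q mq p' mp').1 h'.symm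
    · exact (f2 q mq q' mq').1 h'.symm
    · exact (f2 q mq r' mr').1 h'.symm
    · exact (f2 r mr p' mp').1 h'.symm
    · exact (f2 r mr q' mq').1 h'.symm
    · exact (f2 r mr r' mr').1 h'.symm
  rw [tv_eq hW hpq hpr hqr hp hq hr fd, tv_eq hW' hpq' hpr' hqr' hp' hq' hr' fx]
  unfold val mv3
  simp only [id]
  have k : ∀ y : T, (∀ s ∈ ({p, q, r} : Finset (V × C)), Commute (mv e s.1 s.2 (d s) (d' s)) y) →
      Commute (M3 e p.1 q.1 r.1 (d p) (d q) (d r)) y →
      Commute ((mv e p.1 p.2 (d p) (d' p) * mv e q.1 q.2 (d q) (d' q) *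
        mv e r.1 r.2 (d r) (d' r))⁻¹ * M3 e p.1 q.1 r.1 (d p) (d q) (d r) *
        (mv e p.1 p.2 (d p) (d' p) * mv e q.1 q.2 (d q) (d' q) *
        mv e r.1 r.2 (d r) (d' r))) y :=
    fun y h1 h2 => comm_three (h1 p mp) (h1 q mq) (h1 r mr) h2
  refine (comm_three ?_ ?_ ?_ ?_).symm
  · exact (k _ (fun s hs => c1 s hs p' mp') (c4 p' mp')).symm
  · exact (k _ (fun s hs => c1 s hs q' mq') (c4 q' mq')).symm
  · exact (k _ (fun s hs => c1 s hs r' mr') (c4 r' mr')).symm
  · exact (k _ c2 c5).symm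

end Crest.Agent.R189.Tower
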