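import Crest.Agent.R189.TowerMap

/-!
Row 189, tower lemma (helper840), part 2: the tower homomorphism
`eps : alternatingGroup (ι × C) →* T` of an event `e` with pairwise orthogonal translates
`(pos i).e`, `i : ι`.
-/

set_option autoImplicit false
set_option linter.unusedSectionVars false

open Equiv Equiv.Perm Finset
open scoped Function

namespace Crest.Agent.R189.Tower

variable {C : Type} [Fintype C] [DecidableEq C] {V : Type} [AddCommGroup V] {T : Type} [Group T]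
variable {S : ColGrp C V T}

/-- `v.e ⊥ w.f`, expressed on 3-cycles -/
def TOrth (e f : Ev S) (v w : V) : Prop :=
  ∀ a b c a' b' c' : C, a ≠ b → a ≠ c → b ≠ c → a' ≠ b' → a' ≠ c' → b' ≠ c' →
    Commute (M3 e v v v a b c) (M3 f w w w a' b' c')

theorem TOrth.symm {e f : Ev S} {v w : V} (h : TOrth e f v w) : TOrth f e w v :=
  fun a b c a' b' c' h1 h2 h3 h4 h5 h6 => (h a' b' c' a b c h4 h5 h6 h1 h2 h3).symm

/-- The family of translates `(pos i).e` is pairwise orthogonal. -/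
def OrthFam {ι : Type} (e : Ev S) (pos : ι → V) : Prop :=
  ∀ i j, i ≠ j → TOrth e e (pos i) (pos j)

/-! ### movers -/

/-- the mover of the point `(i,c)` to the colour `d` (with auxiliary colour `d'`) -/
noncomputable def mv (e : Ev S) (v : V) (c d d' : C) : T := M3 e v v v c d d'

/-- `d, d'` are fresh colours for the points of `P`. -/
structure Fresh {ι : Type} (P : Finset (ι × C)) (d d' : ι × C → C) : Prop where
  injd : ∀ p ∈ P, ∀ q ∈ P, d p = d q → p = q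
  injd' : ∀ p ∈ P, ∀ q ∈ P, d' p = d' q → p = q
  ne : ∀ p ∈ P, ∀ q ∈ P, d p ≠ d' q
  ned : ∀ p ∈ P, ∀ q ∈ P, d p ≠ q.2
  ned' : ∀ p ∈ P, ∀ q ∈ P, d' p ≠ q.2

theorem Fresh.mono {ι : Type} {P Q : Finset (ι × C)} {d d' : ι × C → C} (h : Fresh P d d')
    (hQ : Q ⊆ P) : Fresh Q d d' :=
  ⟨fun p hp q hq => h.injd p (hQ hp) q (hQ hq), fun p hp q hq => h.injd' p (hQ hp) q (hQ hq),
    fun p hp q hq => h.ne p (hQ hp) q (hQ hq), fun p hp q hq => h.ned p (hQ hp) q (hQ hq),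
    fun p hp q hq => h.ned' p (hQ hp) q (hQ hq)⟩

theorem exists_inj_avoid {α : Type} (hC : Nonempty C) (P : Finset α) (F : Finset C)
    (h : 2 * P.card + F.card ≤ Fintype.card C) :
    ∃ d d' : α → C, (∀ p ∈ P, ∀ q ∈ P, d p = d q → p = q) ∧
      (∀ p ∈ P, ∀ q ∈ P, d' p = d' q → p = q) ∧ (∀ p ∈ P, ∀ q ∈ P, d p ≠ d' q) ∧
      (∀ p ∈ P, d p ∉ F) ∧ ∀ p ∈ P, d' p ∉ F := by
  classical
  have hF : (Fᶜ : Finset C).card = Fintype.card C - F.card := card_compl F
  obtain ⟨g⟩ : Nonempty ({p // p ∈ P} × Bool ↪ {c // c ∈ Fᶜ}) := by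
    refine Function.Embedding.nonempty_of_card_le ?_
    simp only [Fintype.card_prod, Fintype.card_coe, Fintype.card_bool]
    omega
  obtain ⟨c0⟩ := hC
  refine ⟨fun p => if hp : p ∈ P then (g (⟨p, hp⟩, true)).1 else c0,
    fun p => if hp : p ∈ P then (g (⟨p, hp⟩, false)).1 else c0, ?_, ?_, ?_, ?_, ?_⟩
  · intro p hp q hq h
    simp only [hp, hq, dif_pos] at h
    have := g.injective (Subtype.ext h)
    simpa using this
  · intro p hp q hq h
    simp only [hp, hq, dif_pos] at h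
    have := g.injective (Subtype.ext h)
    simpa using this
  · intro p hp q hq h
    simp only [hp, hq, dif_pos] at h
    have := g.injective (Subtype.ext h)
    simp at this
  · intro p hp
    simp only [hp, dif_pos]
    exact mem_compl.1 (g (⟨p, hp⟩, true)).2
  · intro p hp
    simp only [hp, dif_pos]
    exact mem_compl.1 (g (⟨p, hp⟩, false)).2

theorem nonempty_C (S : ColGrp C V T) : Nonempty C := by
  have := S.card_C
  exact Fintype.card_pos_iff.1 (by omega)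

theorem exists_fresh {ι : Type} (S : ColGrp C V T) (P : Finset (ι × C)) (F : Finset C)
    (h : 3 * P.card + F.card ≤ 30) :
    ∃ d d' : ι × C → C, Fresh P d d' ∧ (∀ p ∈ P, d p ∉ F) ∧ ∀ p ∈ P, d' p ∉ F := by
  classical
  obtain ⟨d, d', h1, h2, h3, h4, h5⟩ := exists_inj_avoid (nonempty_C S) P (F ∪ P.image Prod.snd) (by
    have h6 := card_union_le F (P.image Prod.snd)
    have h7 : (P.image Prod.snd).card ≤ P.card := card_image_le
    have := S.card_C
    omega)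
  refine ⟨d, d', ⟨h1, h2, h3, ?_, ?_⟩, ?_, ?_⟩
  · intro p hp q hq h
    exact h4 p hp (mem_union_right _ (mem_image.2 ⟨q, hq, h.symm⟩))
  · intro p hp q hq h
    exact h5 p hp (mem_union_right _ (mem_image.2 ⟨q, hq, h.symm⟩))
  · exact fun p hp h => h4 p hp (mem_union_left _ h)
  · exact fun p hp h => h5 p hp (mem_union_left _ h)

/-! ### commutation of movers -/

theorem M3_comm_of_disj (e f : Ev S) (v₁ v₂ v₃ w₁ w₂ w₃ : V) {a b c a' b' c' : C}
    (hab : a ≠ b) (hac : a ≠ c) (hbc : b ≠ c) (hab' : a' ≠ b') (hac' : a' ≠ c') (hbc' : b' ≠ c')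
    (h : Disjoint ({a, b, c} : Finset C) {a', b', c'}) :
    Commute (M3 e v₁ v₂ v₃ a b c) (M3 f w₁ w₂ w₃ a' b' c') := by
  have h1 : ({a, b, c} : Finset C).card ≤ 3 := card_le_three
  have h2 : ({a', b', c'} : Finset C).card ≤ 3 := card_le_three
  exact (M3_loc e v₁ v₂ v₃ hab hac hbc).comm (M3_loc f w₁ w₂ w₃ hab' hac' hbc') h (by omega)
    (by norm_num) (by omega) (by omega)

variable {ι : Type} [Fintype ι] [DecidableEq ι]

/-- the product of the three movers -/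
noncomputable def mv3 (e : Ev S) (pos : ι → V) (d d' : ι × C → C) (p q r : ι × C) : T :=
  mv e (pos p.1) p.2 (d p) (d' p) * mv e (pos q.1) q.2 (d q) (d' q) *
    mv e (pos r.1) r.2 (d r) (d' r)

/-- value of the tower homomorphism on the 3-cycle `p → q → r → p`, computed with the fresh
colours `d, d'` -/
noncomputable def val (e : Ev S) (pos : ι → V) (d d' : ι × C → C) (p q r : ι × C) : T :=
  (mv3 e pos d d' p q r)⁻¹ * M3 e (pos p.1) (pos q.1) (pos r.1) (d p) (d q) (d r) *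
    mv3 e pos d d' p q r

/-- movers of different points commute -/
theorem mv_comm {e f : Ev S} {v w : V} {c c' d d' x x' : C}
    (hO : TOrth e f v w ∨ (c ≠ c' ∧ d ≠ x ∧ d ≠ x' ∧ d' ≠ x ∧ d' ≠ x' ∧ c ≠ x ∧ c ≠ x' ∧ c' ≠ d ∧
      c' ≠ d'))
    (h1 : c ≠ d) (h2 : c ≠ d') (h3 : d ≠ d') (h4 : c' ≠ x) (h5 : c' ≠ x') (h6 : x ≠ x') :
    Commute (mv e v c d d') (mv f w c' x x') := by
  rcases hO with hO | ⟨g1, g2, g3, g4, g5, g6, g7, g8, g9⟩
  · exact hO c d d' c' x x' h1 h2 h3 h4 h5 h6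
  · refine M3_comm_of_disj e f v v v w w w h1 h2 h3 h4 h5 h6 ?_
    rw [Finset.disjoint_left]
    intro y hy hy'
    simp only [mem_insert, mem_singleton] at hy hy'
    rcases hy with rfl | rfl | rfl <;> rcases hy' with rfl | rfl | rfl <;>
      first
        | exact g1 rfl | exact g2 rfl | exact g3 rfl | exact g4 rfl | exact g5 rfl
        | exact g6 rfl | exact g7 rfl | exact g8 rfl | exact g9 rfl

/-- movers of the different points `p, q`, with mutually fresh colours, commute -/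
theorem mv_comm' {e : Ev S} {pos : ι → V} (hO : OrthFam e pos) {p q : ι × C} (hpq : p ≠ q)
    {d d' x x' : C} (g2 : d ≠ x) (g3 : d ≠ x') (g4 : d' ≠ x) (g5 : d' ≠ x') (g6 : p.2 ≠ x)
    (g7 : p.2 ≠ x') (g8 : q.2 ≠ d) (g9 : q.2 ≠ d')
    (h1 : p.2 ≠ d) (h2 : p.2 ≠ d') (h3 : d ≠ d') (h4 : q.2 ≠ x) (h5 : q.2 ≠ x') (h6 : x ≠ x') :
    Commute (mv e (pos p.1) p.2 d d') (mv e (pos q.1) q.2 x x') := by
  refine mv_comm ?_ h1 h2 h3 h4 h5 h6
  by_cases h : p.1 = q.1
  · right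
    refine ⟨fun h' => hpq (Prod.ext h h'), g2, g3, g4, g5, g6, g7, g8, g9⟩
  · exact Or.inl (hO _ _ h)

theorem Fresh.comm {e : Ev S} {pos : ι → V} (hO : OrthFam e pos) {P : Finset (ι × C)}
    {d d' : ι × C → C} (h : Fresh P d d') {p q : ι × C} (hp : p ∈ P) (hq : q ∈ P) (hpq : p ≠ q) :
    Commute (mv e (pos p.1) p.2 (d p) (d' p)) (mv e (pos q.1) q.2 (d q) (d' q)) :=
  mv_comm' hO hpq (fun h' => hpq (h.injd p hp q hq h')) (h.ne p hp q hq)
    (h.ne q hq p hp).symm (fun h' => hpq (h.injd' p hp q hq h')) (h.ned q hq p hp).symm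
    (h.ned' q hq p hp).symm (h.ned p hp q hq).symm (h.ned' p hp q hq).symm
    (h.ned p hp p hp).symm (h.ned' p hp p hp).symm (h.ne p hp p hp) (h.ned q hq q hq).symm
    (h.ned' q hq q hq).symm (h.ne q hq q hq)

/-- mutual freshness -/
structure MFresh (P : Finset (ι × C)) (d d' x x' : ι × C → C) : Prop where
  fd : Fresh P d d'
  fx : Fresh P x x'
  h1 : ∀ p ∈ P, ∀ q ∈ P, d p ≠ x q
  h2 : ∀ p ∈ P, ∀ q ∈ P, d p ≠ x' q
  h3 : ∀ p ∈ P, ∀ q ∈ P, d' p ≠ x q
  h4 : ∀ p ∈ P, ∀ q ∈ P, d' p ≠ x' q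

theorem MFresh.comm {e : Ev S} {pos : ι → V} (hO : OrthFam e pos) {P : Finset (ι × C)}
    {d d' x x' : ι × C → C} (h : MFresh P d d' x x') {p q : ι × C} (hp : p ∈ P) (hq : q ∈ P)
    (hpq : p ≠ q) :
    Commute (mv e (pos p.1) p.2 (d p) (d' p)) (mv e (pos q.1) q.2 (x q) (x' q)) :=
  mv_comm' hO hpq (h.h1 p hp q hq) (h.h2 p hp q hq) (h.h3 p hp q hq) (h.h4 p hp q hq)
    (h.fx.ned q hq p hp).symm (h.fx.ned' q hq p hp).symm (h.fd.ned p hp q hq).symm
    (h.fd.ned' p hp q hq).symm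
    (h.fd.ned p hp p hp).symm (h.fd.ned' p hp p hp).symm (h.fd.ne p hp p hp)
    (h.fx.ned q hq q hq).symm (h.fx.ned' q hq q hq).symm (h.fx.ne q hq q hq)

/-- cyclic variants of `M3_step` -/
theorem M3_step2 (e : Ev S) (v₁ v₂ v₃ : V) {a b c x y : C} (hab : a ≠ b) (hac : a ≠ c) (hbc : b ≠ c)
    (hbx : b ≠ x) (hby : b ≠ y) (hxy : x ≠ y) (hax : a ≠ x) (hay : a ≠ y) (hcx : c ≠ x)
    (hcy : c ≠ y) :
    M3 e v₂ v₂ v₂ b x y * M3 e v₁ v₂ v₃ a b c * (M3 e v₂ v₂ v₂ b x y)⁻¹ =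
      M3 e v₁ v₂ v₃ a x c := by
  rw [M3_rot e v₁ v₂ v₃ hab hac hbc, M3_step e v₂ v₃ v₁ hbc hab.symm hac.symm hbx hby hxy hcx hcy
    hax hay, M3_rot e v₁ v₂ v₃ hax hac hcx.symm]

theorem M3_step3 (e : Ev S) (v₁ v₂ v₃ : V) {a b c x y : C} (hab : a ≠ b) (hac : a ≠ c) (hbc : b ≠ c)
    (hcx : c ≠ x) (hcy : c ≠ y) (hxy : x ≠ y) (hax : a ≠ x) (hay : a ≠ y) (hbx : b ≠ x)
    (hby : b ≠ y) :
    M3 e v₃ v₃ v₃ c x y * M3 e v₁ v₂ v₃ a b c * (M3 e v₃ v₃ v₃ c x y)⁻¹ =
      M3 e v₁ v₂ v₃ a b x := by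
  rw [← M3_rot e v₃ v₁ v₂ hac.symm hbc.symm hab, M3_step e v₃ v₁ v₂ hac.symm hbc.symm hab hcx hcy hxy
    hax hay hbx hby, M3_rot e v₃ v₁ v₂ hax.symm hbx.symm hab]

/-- group identity used for the independence of the fresh colours -/
theorem grp_aux {G : Type*} [Group G] {g₁ g₂ g₃ h₁ h₂ h₃ X Y : G} (c12 : Commute g₁ g₂)
    (c13 : Commute g₁ g₃) (c23 : Commute g₂ g₃) (d12 : Commute g₁ h₂) (d13 : Commute g₁ h₃)
    (d23 : Commute g₂ h₃)
    (h : (h₁ * g₁⁻¹) * ((h₂ * g₂⁻¹) * ((h₃ * g₃⁻¹) * X * (h₃ * g₃⁻¹)⁻¹) * (h₂ * g₂⁻¹)⁻¹) *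
      (h₁ * g₁⁻¹)⁻¹ = Y) :
    (g₁ * g₂ * g₃)⁻¹ * X * (g₁ * g₂ * g₃) = (h₁ * h₂ * h₃)⁻¹ * Y * (h₁ * h₂ * h₃) := by
  have e1 : (h₁ * h₂ * h₃) * (g₁ * g₂ * g₃)⁻¹ = (h₁ * g₁⁻¹) * (h₂ * g₂⁻¹) * (h₃ * g₃⁻¹) := by
    have a1 : (g₁ * g₂ * g₃)⁻¹ = g₁⁻¹ * g₂⁻¹ * g₃⁻¹ := by
      have : g₁ * g₂ * g₃ = g₃ * g₂ * g₁ := by
        rw [c12.eq, mul_assoc, c13.eq, ← mul_assoc, c23.eq]
      rw [this]; group
    have a2 : h₂ * h₃ * g₁⁻¹ = g₁⁻¹ * (h₂ * h₃) :=
      ((d12.mul_right d13).inv_left).eq.symm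
    have a3 : h₃ * g₂⁻¹ = g₂⁻¹ * h₃ := (d23.inv_left).eq.symm
    calc (h₁ * h₂ * h₃) * (g₁ * g₂ * g₃)⁻¹ = h₁ * (h₂ * h₃ * g₁⁻¹) * g₂⁻¹ * g₃⁻¹ := by
          rw [a1]; group
      _ = h₁ * g₁⁻¹ * h₂ * (h₃ * g₂⁻¹) * g₃⁻¹ := by rw [a2]; group
      _ = (h₁ * g₁⁻¹) * (h₂ * g₂⁻¹) * (h₃ * g₃⁻¹) := by rw [a3]; group
  have e2 : Y = ((h₁ * h₂ * h₃) * (g₁ * g₂ * g₃)⁻¹) * X * ((h₁ * h₂ * h₃) * (g₁ * g₂ * g₃)⁻¹)⁻¹ := by
    rw [← h, e1]; group
  rw [e2]; group

/-- the value does not depend on the (mutually) fresh colours -/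
theorem val_indep_aux {e : Ev S} {pos : ι → V} (hO : OrthFam e pos) {p q r : ι × C} (hpq : p ≠ q)
    (hpr : p ≠ r) (hqr : q ≠ r) {d d' x x' : ι × C → C} (h : MFresh {p, q, r} d d' x x') :
    val e pos d d' p q r = val e pos x x' p q r := by
  have hp : p ∈ ({p, q, r} : Finset (ι × C)) := by simp
  have hq : q ∈ ({p, q, r} : Finset (ι × C)) := by simp
  have hr : r ∈ ({p, q, r} : Finset (ι × C)) := by simp
  have fd := h.fd
  have fx := h.fx
  refine grp_aux (fd.comm hO hp hq hpq) (fd.comm hO hp hr hpr) (fd.comm hO hq hr hqr)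
    (h.comm hO hp hq hpq) (h.comm hO hp hr hpr) (h.comm hO hq hr hqr) ?_
  have dpq : d p ≠ d q := fun h' => hpq (fd.injd p hp q hq h')
  have dpr : d p ≠ d r := fun h' => hpr (fd.injd p hp r hr h')
  have dqr : d q ≠ d r := fun h' => hqr (fd.injd q hq r hr h')
  have xpq : x p ≠ x q := fun h' => hpq (fx.injd p hp q hq h')
  have xpr : x p ≠ x r := fun h' => hpr (fx.injd p hp r hr h')
  have xqr : x q ≠ x r := fun h' => hqr (fx.injd q hq r hr h')
  -- third point: `d r → r.2 → x r`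
  have s3 : (mv e (pos r.1) r.2 (x r) (x' r) * (mv e (pos r.1) r.2 (d r) (d' r))⁻¹) *
      M3 e (pos p.1) (pos q.1) (pos r.1) (d p) (d q) (d r) *
      (mv e (pos r.1) r.2 (x r) (x' r) * (mv e (pos r.1) r.2 (d r) (d' r))⁻¹)⁻¹ =
      M3 e (pos p.1) (pos q.1) (pos r.1) (d p) (d q) (x r) := by
    have t1 := M3_step3 e (pos p.1) (pos q.1) (pos r.1) (a := d p) (b := d q) (c := r.2)
      (x := d r) (y := d' r) dpq (fd.ned p hp r hr) (fd.ned q hq r hr) (fd.ned r hr r hr).symm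
      (fd.ned' r hr r hr).symm (fd.ne r hr r hr) dpr (fd.ne p hp r hr) dqr (fd.ne q hq r hr)
    have t2 := M3_step3 e (pos p.1) (pos q.1) (pos r.1) (a := d p) (b := d q) (c := r.2)
      (x := x r) (y := x' r) dpq (fd.ned p hp r hr) (fd.ned q hq r hr) (fx.ned r hr r hr).symm
      (fx.ned' r hr r hr).symm (fx.ne r hr r hr) (h.h1 p hp r hr) (h.h2 p hp r hr)
      (h.h1 q hq r hr) (h.h2 q hq r hr)
    rw [← t2, ← t1]; unfold mv; group
  have s2 : (mv e (pos q.1) q.2 (x q) (x' q) * (mv e (pos q.1) q.2 (d q) (d' q))⁻¹) *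
      M3 e (pos p.1) (pos q.1) (pos r.1) (d p) (d q) (x r) *
      (mv e (pos q.1) q.2 (x q) (x' q) * (mv e (pos q.1) q.2 (d q) (d' q))⁻¹)⁻¹ =
      M3 e (pos p.1) (pos q.1) (pos r.1) (d p) (x q) (x r) := by
    have t1 := M3_step2 e (pos p.1) (pos q.1) (pos r.1) (a := d p) (b := q.2) (c := x r)
      (x := d q) (y := d' q) (fd.ned p hp q hq) (h.h1 p hp r hr) (fx.ned r hr q hq).symm
      (fd.ned q hq q hq).symm (fd.ned' q hq q hq).symm (fd.ne q hq q hq) dpq (fd.ne p hp q hq)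
      (h.h1 q hq r hr).symm (h.h3 q hq r hr).symm
    have t2 := M3_step2 e (pos p.1) (pos q.1) (pos r.1) (a := d p) (b := q.2) (c := x r)
      (x := x q) (y := x' q) (fd.ned p hp q hq) (h.h1 p hp r hr) (fx.ned r hr q hq).symm
      (fx.ned q hq q hq).symm (fx.ned' q hq q hq).symm (fx.ne q hq q hq) (h.h1 p hp q hq)
      (h.h2 p hp q hq) xqr.symm (fx.ne r hr q hq)
    rw [← t2, ← t1]; unfold mv; group
  have s1 : (mv e (pos p.1) p.2 (x p) (x' p) * (mv e (pos p.1) p.2 (d p) (d' p))⁻¹) *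
      M3 e (pos p.1) (pos q.1) (pos r.1) (d p) (x q) (x r) *
      (mv e (pos p.1) p.2 (x p) (x' p) * (mv e (pos p.1) p.2 (d p) (d' p))⁻¹)⁻¹ =
      M3 e (pos p.1) (pos q.1) (pos r.1) (x p) (x q) (x r) := by
    have t1 := M3_step e (pos p.1) (pos q.1) (pos r.1) (a := p.2) (b := x q) (c := x r)
      (x := d p) (y := d' p) (fx.ned q hq p hp).symm (fx.ned r hr p hp).symm xqr
      (fd.ned p hp p hp).symm (fd.ned' p hp p hp).symm (fd.ne p hp p hp)
      (h.h1 p hp q hq).symm (h.h3 p hp q hq).symm (h.h1 p hp r hr).symm (h.h3 p hp r hr).symm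
    have t2 := M3_step e (pos p.1) (pos q.1) (pos r.1) (a := p.2) (b := x q) (c := x r)
      (x := x p) (y := x' p) (fx.ned q hq p hp).symm (fx.ned r hr p hp).symm xqr
      (fx.ned p hp p hp).symm (fx.ned' p hp p hp).symm (fx.ne p hp p hp)
      xpq.symm (fx.ne q hq p hp) xpr.symm (fx.ne r hr p hp)
    rw [← t2, ← t1]; unfold mv; group
  rw [s3, s2, s1]

/-- **independence of the fresh colours** -/
theorem val_indep {e : Ev S} {pos : ι → V} (hO : OrthFam e pos) {p q r : ι × C} (hpq : p ≠ q)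
    (hpr : p ≠ r) (hqr : q ≠ r) {d d' x x' : ι × C → C} (fd : Fresh {p, q, r} d d')
    (fx : Fresh {p, q, r} x x') :
    val e pos d d' p q r = val e pos x x' p q r := by
  classical
  set P : Finset (ι × C) := {p, q, r} with hP
  have hc : P.card ≤ 3 := card_le_three
  obtain ⟨y, y', fy, h1, h2⟩ := exists_fresh S P
    (P.image d ∪ P.image d' ∪ (P.image x ∪ P.image x')) (by
      have a1 : (P.image d ∪ P.image d' ∪ (P.image x ∪ P.image x')).card ≤ 4 * P.card := by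
        have b1 := card_union_le (P.image d ∪ P.image d') (P.image x ∪ P.image x')
        have b2 := card_union_le (P.image d) (P.image d')
        have b3 := card_union_le (P.image x) (P.image x')
        have b4 : (P.image d).card ≤ P.card := card_image_le
        have b5 : (P.image d').card ≤ P.card := card_image_le
        have b6 : (P.image x).card ≤ P.card := card_image_le
        have b7 : (P.image x').card ≤ P.card := card_image_le
        omega
      omega)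
  have m1 : MFresh P d d' y y' := by
    refine ⟨fd, fy, fun p hp q hq h => ?_, fun p hp q hq h => ?_, fun p hp q hq h => ?_,
      fun p hp q hq h => ?_⟩
    · exact h1 q hq (by simp only [mem_union, mem_image]; exact Or.inl (Or.inl ⟨p, hp, h⟩))
    · exact h2 q hq (by simp only [mem_union, mem_image]; exact Or.inl (Or.inl ⟨p, hp, h⟩))
    · exact h1 q hq (by simp only [mem_union, mem_image]; exact Or.inl (Or.inr ⟨p, hp, h⟩))
    · exact h2 q hq (by simp only [mem_union, mem_image]; exact Or.inl (Or.inr ⟨p, hp, h⟩))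
  have m2 : MFresh P x x' y y' := by
    refine ⟨fx, fy, fun p hp q hq h => ?_, fun p hp q hq h => ?_, fun p hp q hq h => ?_,
      fun p hp q hq h => ?_⟩
    · exact h1 q hq (by simp only [mem_union, mem_image]; exact Or.inr (Or.inl ⟨p, hp, h⟩))
    · exact h2 q hq (by simp only [mem_union, mem_image]; exact Or.inr (Or.inl ⟨p, hp, h⟩))
    · exact h1 q hq (by simp only [mem_union, mem_image]; exact Or.inr (Or.inr ⟨p, hp, h⟩))
    · exact h2 q hq (by simp only [mem_union, mem_image]; exact Or.inr (Or.inr ⟨p, hp, h⟩))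
  rw [val_indep_aux hO hpq hpr hqr m1, val_indep_aux hO hpq hpr hqr m2]

/-- value on sectional 3-cycles -/
theorem val_section {e : Ev S} {pos : ι → V} {p q r : ι × C} (hpq : p.2 ≠ q.2)
    (hpr : p.2 ≠ r.2) (hqr : q.2 ≠ r.2) {d d' : ι × C → C} (fd : Fresh {p, q, r} d d') :
    val e pos d d' p q r = M3 e (pos p.1) (pos q.1) (pos r.1) p.2 q.2 r.2 := by
  have hp : p ∈ ({p, q, r} : Finset (ι × C)) := by simp
  have hq : q ∈ ({p, q, r} : Finset (ι × C)) := by simp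
  have hr : r ∈ ({p, q, r} : Finset (ι × C)) := by simp
  have hpq' : p ≠ q := fun h => hpq (congrArg Prod.snd h)
  have hpr' : p ≠ r := fun h => hpr (congrArg Prod.snd h)
  have hqr' : q ≠ r := fun h => hqr (congrArg Prod.snd h)
  have dpq : d p ≠ d q := fun h' => hpq' (fd.injd p hp q hq h')
  have dpr : d p ≠ d r := fun h' => hpr' (fd.injd p hp r hr h')
  have dqr : d q ≠ d r := fun h' => hqr' (fd.injd q hq r hr h')
  have t3 := M3_step3 e (pos p.1) (pos q.1) (pos r.1) (a := p.2) (b := q.2) (c := r.2)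
    (x := d r) (y := d' r) hpq hpr hqr (fd.ned r hr r hr).symm (fd.ned' r hr r hr).symm
    (fd.ne r hr r hr) (fd.ned r hr p hp).symm (fd.ned' r hr p hp).symm (fd.ned r hr q hq).symm
    (fd.ned' r hr q hq).symm
  have t2 := M3_step2 e (pos p.1) (pos q.1) (pos r.1) (a := p.2) (b := q.2) (c := d r)
    (x := d q) (y := d' q) hpq (fd.ned r hr p hp).symm (fd.ned r hr q hq).symm
    (fd.ned q hq q hq).symm (fd.ned' q hq q hq).symm (fd.ne q hq q hq) (fd.ned q hq p hp).symm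
    (fd.ned' q hq p hp).symm dqr.symm (fd.ne r hr q hq)
  have t1 := M3_step e (pos p.1) (pos q.1) (pos r.1) (a := p.2) (b := d q) (c := d r)
    (x := d p) (y := d' p) (fd.ned q hq p hp).symm (fd.ned r hr p hp).symm dqr
    (fd.ned p hp p hp).symm (fd.ned' p hp p hp).symm (fd.ne p hp p hp) dpq.symm (fd.ne q hq p hp)
    dpr.symm (fd.ne r hr p hp)
  unfold val mv3 mv
  rw [← t1, ← t2, ← t3]
  group

/-! ### the homomorphism -/

theorem fresh3 (S : ColGrp C V T) (p q r : ι × C) :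
    ∃ d d' : ι × C → C, Fresh ({p, q, r} : Finset (ι × C)) d d' := by
  obtain ⟨d, d', fd, _, _⟩ := exists_fresh S ({p, q, r} : Finset (ι × C)) ∅ (by
    have : ({p, q, r} : Finset (ι × C)).card ≤ 3 := card_le_three
    simp only [card_empty]; omega)
  exact ⟨d, d', fd⟩

/-- canonical value on the 3-cycle `p → q → r → p` -/
noncomputable def cv (e : Ev S) (pos : ι → V) (p q r : ι × C) : T :=
  val e pos (fresh3 S p q r).choose (fresh3 S p q r).choose_spec.choose p q r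

theorem cv_eq {e : Ev S} {pos : ι → V} (hO : OrthFam e pos) {p q r : ι × C} (hpq : p ≠ q)
    (hpr : p ≠ r) (hqr : q ≠ r) {d d' : ι × C → C} (fd : Fresh {p, q, r} d d') :
    cv e pos p q r = val e pos d d' p q r :=
  val_indep hO hpq hpr hqr (fresh3 S p q r).choose_spec.choose_spec fd

theorem noncommProd_conj {α G : Type*} [DecidableEq α] [Group G] {P Q : Finset α} (hQ : Q ⊆ P)
    (f : α → G) (comm : (P : Set α).Pairwise (Commute on f))
    (comm' : (Q : Set α).Pairwise (Commute on f)) (Y : G)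
    (hY : ∀ p ∈ P, p ∉ Q → Commute Y (f p)) :
    (P.noncommProd f comm)⁻¹ * Y * P.noncommProd f comm =
      (Q.noncommProd f comm')⁻¹ * Y * Q.noncommProd f comm' := by
  have h1 : P = (P \ Q) ∪ Q := (sdiff_union_of_subset hQ).symm
  have comm2 : (((P \ Q) ∪ Q : Finset α) : Set α).Pairwise (Commute on f) := by
    rw [← h1]; exact comm
  have h2 : P.noncommProd f comm = ((P \ Q) ∪ Q).noncommProd f comm2 :=
    noncommProd_congr h1 (fun _ _ => rfl) comm
  have h3 := noncommProd_union_of_disjoint (sdiff_disjoint : Disjoint (P \ Q) Q) f comm2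
  have h4 : Commute Y ((P \ Q).noncommProd f
      (comm2.mono (Finset.coe_subset.2 subset_union_left))) :=
    noncommProd_commute _ _ _ _ fun p hp => hY p (mem_sdiff.1 hp).1 (mem_sdiff.1 hp).2
  rw [h2, h3]
  set Z := (P \ Q).noncommProd f (comm2.mono (Finset.coe_subset.2 subset_union_left))
  set X := Q.noncommProd f comm'
  have h5 : Z⁻¹ * Y * Z = Y := by
    rw [mul_assoc, h4.eq, inv_mul_cancel_left]
  calc (Z * X)⁻¹ * Y * (Z * X) = X⁻¹ * (Z⁻¹ * Y * Z) * X := by group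
    _ = X⁻¹ * Y * X := by rw [h5]

/-- the mover of the point `p` -/
noncomputable def mvp (e : Ev S) (pos : ι → V) (d d' : ι × C → C) (p : ι × C) : T :=
  mv e (pos p.1) p.2 (d p) (d' p)

theorem Fresh.pairwise {e : Ev S} {pos : ι → V} (hO : OrthFam e pos) {P : Finset (ι × C)}
    {d d' : ι × C → C} (h : Fresh P d d') :
    (P : Set (ι × C)).Pairwise (Commute on mvp e pos d d') :=
  fun _ hp _ hq hpq => h.comm hO hp hq hpq

theorem noncommProd_three {α G : Type*} [DecidableEq α] [Group G] {p q r : α} (hpq : p ≠ q)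
    (hpr : p ≠ r) (hqr : q ≠ r) (f : α → G)
    (comm : (({p, q, r} : Finset α) : Set α).Pairwise (Commute on f)) :
    ({p, q, r} : Finset α).noncommProd f comm = f p * f q * f r := by
  rw [noncommProd_insert_of_notMem _ _ _ _ (by simp [hpq, hpr]),
    noncommProd_insert_of_notMem _ _ _ _ (by simp [hqr]), noncommProd_singleton, mul_assoc]

/-- the colour embedding of the points of `B` -/
def dEmb (B : Finset (ι × C)) (d : ι × C → C) (h : ∀ p ∈ B, ∀ q ∈ B, d p = d q → p = q) :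
    {x // x ∈ B} ↪ C :=
  ⟨fun x => d x.1, fun x y hxy => Subtype.ext (h x.1 x.2 y.1 y.2 hxy)⟩

/-- the local homomorphism on `altOn B`, `|B| ≤ 5` -/
theorem exists_theta {e : Ev S} {pos : ι → V} (hO : OrthFam e pos) (B : Finset (ι × C))
    (hB : B.card ≤ 5) : ∃ θ : AltPres.altOn B →* T,
      ∀ (p q r : ι × C) (hpq : p ≠ q) (hpr : p ≠ r) (hqr : q ≠ r) (hp : p ∈ B) (hq : q ∈ B)
        (hr : r ∈ B) (h : AltPres.cyc p q r ∈ AltPres.altOn B),
        θ ⟨AltPres.cyc p q r, h⟩ = cv e pos p q r := by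
  classical
  obtain ⟨d, d', fd, _, _⟩ := exists_fresh S B ∅ (by simp; omega)
  -- positions
  obtain ⟨l, hl, hlB⟩ : ∃ l : C → V, ∑ c, l c = 0 ∧ ∀ p ∈ B, l (d p) = pos p.1 := by
    obtain ⟨l, hl, h⟩ := exists_lam' S (B.image d)
      ((card_image_le.trans hB).trans_lt (by norm_num))
      (fun c => if h : ∃ p ∈ B, d p = c then pos h.choose.1 else 0)
    refine ⟨l, hl, fun p hp => ?_⟩
    rw [h (d p) (mem_image_of_mem d hp)]
    have h0 : ∃ q ∈ B, d q = d p := ⟨p, hp, rfl⟩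
    rw [dif_pos h0, fd.injd _ h0.choose_spec.1 p hp h0.choose_spec.2]
  set X := B.noncommProd (mvp e pos d d') (fd.pairwise hO) with hX
  refine ⟨(MulAut.conj (X⁻¹ * S.H l)).toMonoidHom.comp
    (e.hom.comp ((altMap (dEmb B d fd.injd)).comp (restr B))), ?_⟩
  intro p q r hpq hpr hqr hp hq hr h
  have dpq : d p ≠ d q := fun h' => hpq (fd.injd p hp q hq h')
  have dpr : d p ≠ d r := fun h' => hpr (fd.injd p hp r hr h')
  have dqr : d q ≠ d r := fun h' => hqr (fd.injd q hq r hr h')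
  have hsub : ({p, q, r} : Finset (ι × C)) ⊆ B := by
    intro x hx
    simp only [mem_insert, mem_singleton] at hx
    rcases hx with rfl | rfl | rfl <;> assumption
  have fd3 : Fresh {p, q, r} d d' := fd.mono hsub
  rw [cv_eq hO hpq hpr hqr fd3]
  have e1 : altMap (dEmb B d fd.injd) (restr B ⟨AltPres.cyc p q r, h⟩) =
      acyc (d p) (d q) (d r) := by
    rw [restr_acyc B hp hq hr hpq hpr hqr, altMap_acyc _ (by simpa using hpq) (by simpa using hpr)
      (by simpa using hqr)]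
    rfl
  have e2 : S.H l * e.hom (acyc (d p) (d q) (d r)) * (S.H l)⁻¹ =
      M3 e (pos p.1) (pos q.1) (pos r.1) (d p) (d q) (d r) :=
    (M3_eq e dpq dpr dqr hl (hlB p hp) (hlB q hq) (hlB r hr)).symm
  have e3 : ((MulAut.conj (X⁻¹ * S.H l)).toMonoidHom.comp
      (e.hom.comp ((altMap (dEmb B d fd.injd)).comp (restr B)))) ⟨AltPres.cyc p q r, h⟩ =
      X⁻¹ * (S.H l * e.hom (acyc (d p) (d q) (d r)) * (S.H l)⁻¹) * X := by
    rw [MonoidHom.comp_apply, MonoidHom.comp_apply, MonoidHom.comp_apply, e1]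
    change (X⁻¹ * S.H l) * e.hom _ * (X⁻¹ * S.H l)⁻¹ = _
    group
  rw [e3, e2, hX, noncommProd_conj hsub (mvp e pos d d') (fd.pairwise hO) (fd3.pairwise hO),
    noncommProd_three hpq hpr hqr]
  · rfl
  · intro s hs hs'
    simp only [mem_insert, mem_singleton, not_or] at hs'
    obtain ⟨n1, n2, n3⟩ := hs'
    refine M3_comm_of_disj e e _ _ _ _ _ _ dpq dpr dqr (fd.ned s hs s hs).symm
      (fd.ned' s hs s hs).symm (fd.ne s hs s hs) ?_
    rw [Finset.disjoint_left]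
    intro y hy hy'
    simp only [mem_insert, mem_singleton] at hy hy'
    have k1 : ∀ t ∈ B, t ≠ s → d t ≠ s.2 ∧ d t ≠ d s ∧ d t ≠ d' s := fun t ht hts =>
      ⟨fd.ned t ht s hs, fun h' => hts (fd.injd t ht s hs h'), fd.ne t ht s hs⟩
    obtain ⟨a1, a2, a3⟩ := k1 p hp (Ne.symm n1)
    obtain ⟨b1, b2, b3⟩ := k1 q hq (Ne.symm n2)
    obtain ⟨c1, c2, c3⟩ := k1 r hr (Ne.symm n3)
    rcases hy with rfl | rfl | rfl <;> rcases hy' with h' | h' | h' <;> contradiction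

/-- **TOWER LEMMA**, existence. -/
theorem exists_eps {e : Ev S} {pos : ι → V} (hO : OrthFam e pos) :
    ∃ Φ : alternatingGroup (ι × C) →* T, ∀ p q r : ι × C, p ≠ q → p ≠ r → q ≠ r →
      Φ (acyc p q r) = cv e pos p q r := by
  classical
  set φ : Perm (ι × C) → T := fun z =>
    if h : ∃ t : (ι × C) × (ι × C) × (ι × C), t.1 ≠ t.2.1 ∧ t.1 ≠ t.2.2 ∧ t.2.1 ≠ t.2.2 ∧
      z = AltPres.cyc t.1 t.2.1 t.2.2 then
      cv e pos h.choose.1 h.choose.2.1 h.choose.2.2 else 1 with hφ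
  have key : ∀ (B : Finset (ι × C)) (θ : AltPres.altOn B →* T),
      (∀ (p q r : ι × C) (hpq : p ≠ q) (hpr : p ≠ r) (hqr : q ≠ r) (hp : p ∈ B) (hq : q ∈ B)
        (hr : r ∈ B) (h : AltPres.cyc p q r ∈ AltPres.altOn B),
        θ ⟨AltPres.cyc p q r, h⟩ = cv e pos p q r) → AltPres.Agrees φ θ := by
    intro B θ hθ z hz hA
    obtain ⟨a, b, c, hab, hac, hbc, hzc⟩ := exists_cyc hz
    have h0 : ∃ t : (ι × C) × (ι × C) × (ι × C), t.1 ≠ t.2.1 ∧ t.1 ≠ t.2.2 ∧ t.2.1 ≠ t.2.2 ∧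
        z = AltPres.cyc t.1 t.2.1 t.2.2 := ⟨(a, b, c), hab, hac, hbc, hzc⟩
    obtain ⟨g1, g2, g3, g4⟩ := h0.choose_spec
    have e1 : φ z = cv e pos h0.choose.1 h0.choose.2.1 h0.choose.2.2 := dif_pos h0
    have hs : ∀ x ∈ ({h0.choose.1, h0.choose.2.1, h0.choose.2.2} : Finset (ι × C)), x ∈ B := by
      intro x hx
      refine hA ?_
      rw [g4, support_cyc_eq g1 g2 g3]
      exact hx
    rw [e1, ← hθ _ _ _ g1 g2 g3 (hs _ (by simp)) (hs _ (by simp)) (hs _ (by simp))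
      (g4 ▸ AltPres.threeCycle_mem hz hA)]
    congr 1
    exact Subtype.ext g4
  obtain ⟨Φ, hΦ⟩ := AltPres.exists_alt_hom (φ := φ) fun B hB => by
    obtain ⟨θ, hθ⟩ := exists_theta hO B hB
    exact ⟨θ, key B θ hθ⟩
  refine ⟨Φ, fun p q r hpq hpr hqr => ?_⟩
  have hz := AltPres.cyc_isThreeCycle hpq hpr hqr
  have e1 : acyc p q r = ⟨AltPres.cyc p q r, hz.mem_alternatingGroup⟩ :=
    Subtype.ext (coe_acyc hpq hpr hqr)
  rw [e1, hΦ _ hz]
  obtain ⟨θ, hθ⟩ := exists_theta hO {p, q, r} (card_le_three.trans (by norm_num))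
  have hA : (AltPres.cyc p q r).support ⊆ {p, q, r} := AltPres.support_cyc
  rw [← key _ θ hθ _ hz hA]
  exact hθ p q r hpq hpr hqr (by simp) (by simp) (by simp) _

/-- **TOWER LEMMA**: the tower homomorphism. -/
noncomputable def eps (e : Ev S) (pos : ι → V) (hO : OrthFam e pos) :
    alternatingGroup (ι × C) →* T := (exists_eps hO).choose

theorem eps_cv {e : Ev S} {pos : ι → V} (hO : OrthFam e pos) {p q r : ι × C} (hpq : p ≠ q)
    (hpr : p ≠ r) (hqr : q ≠ r) : eps e pos hO (acyc p q r) = cv e pos p q r :=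
  (exists_eps hO).choose_spec p q r hpq hpr hqr

/-- value on an arbitrary 3-cycle, computed with any fresh colours -/
theorem eps_val {e : Ev S} {pos : ι → V} (hO : OrthFam e pos) {p q r : ι × C} (hpq : p ≠ q)
    (hpr : p ≠ r) (hqr : q ≠ r) {d d' : ι × C → C} (fd : Fresh {p, q, r} d d') :
    eps e pos hO (acyc p q r) = val e pos d d' p q r := by
  rw [eps_cv hO hpq hpr hqr, cv_eq hO hpq hpr hqr fd]

/-- value on a sectional 3-cycle -/
theorem eps_M3 {e : Ev S} {pos : ι → V} (hO : OrthFam e pos) {p q r : ι × C} (hpq : p.2 ≠ q.2)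
    (hpr : p.2 ≠ r.2) (hqr : q.2 ≠ r.2) :
    eps e pos hO (acyc p q r) = M3 e (pos p.1) (pos q.1) (pos r.1) p.2 q.2 r.2 := by
  have hpq' : p ≠ q := fun h => hpq (congrArg Prod.snd h)
  have hpr' : p ≠ r := fun h => hpr (congrArg Prod.snd h)
  have hqr' : q ≠ r := fun h => hqr (congrArg Prod.snd h)
  obtain ⟨d, d', fd⟩ := fresh3 S p q r
  rw [eps_val hO hpq' hpr' hqr' fd, val_section hpq hpr hqr fd]

/-- the explicit form of `eps_M3` -/
theorem eps_section3 {e : Ev S} {pos : ι → V} (hO : OrthFam e pos) {i j k : ι} {a b c : C}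
    (hab : a ≠ b) (hac : a ≠ c) (hbc : b ≠ c) {l : C → V} (hl : ∑ x, l x = 0) (ha : l a = pos i)
    (hb : l b = pos j) (hc : l c = pos k) :
    eps e pos hO (acyc (i, a) (j, b) (k, c)) = S.H l * e.hom (acyc a b c) * (S.H l)⁻¹ := by
  rw [eps_M3 hO hab hac hbc, M3_eq e hab hac hbc hl ha hb hc]

end Crest.Agent.R189.Tower
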