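import Mathlib

/-!
# Row 189 (S0289) : universal central extensions

* `hom_trivial`, `hom_ext_central`, `commute_central` : homomorphisms out of a perfect group, modulo a
  central kernel;
* `UCE P`, `π : UCE P →* P` : the universal central extension of a perfect group;
* `lift q hs hq e : UCE P →* T` : the unique lift of `e : P →* Q` along a central surjection `q : T →* Q`;
* `pow_card_eq_one` : for `P` finite `u ^ (Nat.card P) = 1` for all `u : UCE P`;
* `lift_mul`, `lift_conj`, `lift_comp`, `lift_conj_rel`, `commute_lift` : behaviour of the lifts;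
* `exists_genuine` : if the lift of `e` is trivial on `ker π` then `e` itself lifts.
-/

set_option autoImplicit false
set_option linter.unusedSectionVars false

open Subgroup Group
open scoped commutatorElement

namespace Crest.Agent.R189.UCE

/-! ### Homomorphisms out of perfect groups -/

section perfect

variable {P T Q : Type*} [Group P] [Group T] [Group Q]

/-- A homomorphism out of a perfect group whose values commute is trivial. -/
theorem hom_trivial [IsPerfect P] (f : P →* T) (hf : ∀ x y, f x * f y = f y * f x) (x : P) :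
    f x = 1 := by
  have h1 : x ∈ commutator P := IsPerfect.mem_commutator
  rw [commutator_eq_closure] at h1
  induction h1 using Subgroup.closure_induction with
  | mem y hy =>
    obtain ⟨a, b, rfl⟩ := hy
    rw [map_commutatorElement, commutatorElement_eq_one_iff_mul_comm]
    exact hf a b
  | one => exact map_one f
  | mul a b _ _ ha hb => rw [map_mul, ha, hb, one_mul]
  | inv a _ ha => rw [map_inv, ha, inv_one]

/-- Two homomorphisms out of a perfect group which agree modulo a central kernel are equal. -/
theorem hom_ext_central [IsPerfect P] {q : T →* Q} (hq : q.ker ≤ center T) {f g : P →* T}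
    (h : ∀ x, q (f x) = q (g x)) : f = g := by
  have hz : ∀ x, f x * (g x)⁻¹ ∈ center T := fun x => hq (by
    rw [MonoidHom.mem_ker, map_mul, map_inv, h, mul_inv_cancel])
  let ζ : P →* T :=
    { toFun := fun x => f x * (g x)⁻¹
      map_one' := by simp
      map_mul' := fun x y => by
        have h1 := (mem_center_iff.1 (hz y)) (g x)⁻¹
        rw [map_mul, map_mul, mul_inv_rev]
        calc f x * f y * ((g y)⁻¹ * (g x)⁻¹) = f x * ((f y * (g y)⁻¹) * (g x)⁻¹) := by group
          _ = f x * ((g x)⁻¹ * (f y * (g y)⁻¹)) := by rw [h1]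
          _ = f x * (g x)⁻¹ * (f y * (g y)⁻¹) := by group }
  ext x
  have h1 := hom_trivial ζ (fun x y => (mem_center_iff.1 (hz y)) _) x
  exact mul_inv_eq_one.1 h1

/-- Commutation can be checked modulo a central kernel. -/
theorem commute_central [IsPerfect P] {q : T →* Q} (hq : q.ker ≤ center T) (f : P →* T) (t : T)
    (h : ∀ x, Commute (q (f x)) (q t)) (x : P) : Commute (f x) t := by
  have h1 : (MulAut.conj t).toMonoidHom.comp f = f := by
    refine hom_ext_central hq fun x => ?_
    simp only [MonoidHom.comp_apply, MulEquiv.coe_toMonoidHom, MulAut.conj_apply, map_mul, map_inv]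
    rw [← (h x).eq, mul_inv_cancel_right]
  have h2 := congrArg (fun k : P →* T => k x) h1
  simp only [MonoidHom.comp_apply, MulEquiv.coe_toMonoidHom, MulAut.conj_apply] at h2
  rw [Commute, SemiconjBy]
  conv_lhs => rw [← h2]
  group

end perfect

/-! ### The universal central extension -/

section uce

variable (P : Type*) [Group P]

/-- the canonical map from the free group -/
def rel : FreeGroup P →* P := FreeGroup.lift id

/-- `[F, R]` -/
def KK : Subgroup (FreeGroup P) := ⁅(⊤ : Subgroup (FreeGroup P)), (rel P).ker⁆

instance : (KK P).Normal := by unfold KK; infer_instance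

/-- `F / [F, R]` -/
abbrev Ext := FreeGroup P ⧸ KK P

theorem rel_surjective : Function.Surjective (rel P) := fun x =>
  ⟨FreeGroup.of x, by simp [rel]⟩

theorem KK_le : KK P ≤ (rel P).ker := commutator_le_right _ _

/-- `F / [F, R] → P` -/
def qE : Ext P →* P := QuotientGroup.lift (KK P) (rel P) (KK_le P)

theorem qE_mk (x : FreeGroup P) : qE P (QuotientGroup.mk x) = rel P x := rfl

theorem qE_surjective : Function.Surjective (qE P) := fun x => by
  obtain ⟨y, hy⟩ := rel_surjective P x
  exact ⟨QuotientGroup.mk y, hy⟩

theorem ker_qE_le : (qE P).ker ≤ center (Ext P) := by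
  intro x hx
  obtain ⟨x, rfl⟩ := QuotientGroup.mk_surjective x
  rw [MonoidHom.mem_ker, qE_mk] at hx
  rw [mem_center_iff]
  intro y
  obtain ⟨y, rfl⟩ := QuotientGroup.mk_surjective y
  rw [← QuotientGroup.mk_mul, ← QuotientGroup.mk_mul, QuotientGroup.eq]
  have h1 : ⁅(x⁻¹ : FreeGroup P), y⁻¹⁆⁻¹ ∈ KK P := by
    rw [commutatorElement_inv]
    exact commutator_mem_commutator (mem_top _) (inv_mem hx)
  have h2 : (y * x)⁻¹ * (x * y) = ⁅(x⁻¹ : FreeGroup P), y⁻¹⁆ := by
    rw [commutatorElement_def]; group
  rw [h2]
  exact (inv_mem_iff).1 h1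

/-- The universal central extension of a perfect group. -/
def UCE : Type _ := commutator (Ext P)

instance : Group (UCE P) := inferInstanceAs (Group (commutator (Ext P)))

/-- the inclusion in `F / [F, R]` -/
def inc : UCE P →* Ext P := (commutator (Ext P)).subtype

/-- the covering map -/
def π : UCE P →* P := (qE P).comp (inc P)

theorem ker_π_le : (π P).ker ≤ center (UCE P) := by
  intro x hx
  rw [mem_center_iff]
  intro y
  have h1 : inc P x ∈ center (Ext P) := ker_qE_le P hx
  exact Subtype.ext (mem_center_iff.1 h1 (inc P y))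

theorem π_surjective [IsPerfect P] : Function.Surjective (π P) := by
  have h1 : (commutator (Ext P)).map (qE P) = ⊤ := by
    rw [commutator_def, map_commutator, ← MonoidHom.range_eq_map,
      MonoidHom.range_eq_top_of_surjective _ (qE_surjective P), ← commutator_def,
      IsPerfect.commutator_eq_top]
  intro x
  have h2 : x ∈ (commutator (Ext P)).map (qE P) := by rw [h1]; exact mem_top _
  obtain ⟨y, hy, hyx⟩ := h2
  exact ⟨⟨y, hy⟩, hyx⟩

instance [IsPerfect P] : IsPerfect (UCE P) := by
  change IsPerfect (commutator (Ext P))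
  rw [Subgroup.isPerfect_iff]
  refine le_antisymm (commutator_le_right _ _) ?_
  have key : ∀ x : Ext P, ∃ u ∈ commutator (Ext P), ∃ z ∈ center (Ext P), x = u * z := by
    intro x
    obtain ⟨u, hu⟩ := π_surjective P (qE P x)
    refine ⟨inc P u, u.2, (inc P u)⁻¹ * x, ker_qE_le P ?_, by group⟩
    rw [MonoidHom.mem_ker, map_mul, map_inv]
    have h1 : qE P (inc P u) = qE P x := hu
    rw [h1, inv_mul_cancel]
  conv_lhs => rw [commutator_def]
  rw [commutator_le]
  intro x _ y _
  obtain ⟨u, hu, z, hz, rfl⟩ := key x
  obtain ⟨v, hv, w, hw, rfl⟩ := key y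
  have e1 : ⁅u * z, v * w⁆ = ⁅u, v⁆ := by
    rw [commutatorElement_def, commutatorElement_def, mul_inv_rev, mul_inv_rev]
    have c1 := mem_center_iff.1 hz
    have c2 := mem_center_iff.1 hw
    calc u * z * (v * w) * (z⁻¹ * u⁻¹) * (w⁻¹ * v⁻¹)
        = u * (z * v) * w * z⁻¹ * u⁻¹ * w⁻¹ * v⁻¹ := by group
      _ = u * (v * z) * w * z⁻¹ * u⁻¹ * w⁻¹ * v⁻¹ := by rw [c1 v]
      _ = u * v * (z * w) * z⁻¹ * u⁻¹ * w⁻¹ * v⁻¹ := by group
      _ = u * v * (w * z) * z⁻¹ * u⁻¹ * w⁻¹ * v⁻¹ := by rw [c1 w]
      _ = u * v * (w * u⁻¹) * w⁻¹ * v⁻¹ := by group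
      _ = u * v * (u⁻¹ * w) * w⁻¹ * v⁻¹ := by rw [c2 u⁻¹]
      _ = u * v * u⁻¹ * v⁻¹ := by group
  rw [e1]
  exact commutator_mem_commutator hu hv

/-- The exponent of the universal central extension of a finite perfect group divides its order. -/
theorem pow_card_eq_one [IsPerfect P] [Finite P] (u : UCE P) : u ^ Nat.card P = 1 := by
  have h1 : (π P).ker.index = Nat.card P := by
    rw [index_ker, MonoidHom.range_eq_top_of_surjective _ (π_surjective P), card_top]
  have h2 : (center (UCE P)).index ∣ Nat.card P := by
    rw [← h1]; exact index_dvd_of_le (ker_π_le P)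
  have h3 : (center (UCE P)).index ≠ 0 := fun h => by
    rw [h, zero_dvd_iff] at h2
    exact Nat.card_pos.ne' h2
  have : FiniteIndex (center (UCE P)) := ⟨h3⟩
  obtain ⟨k, hk⟩ := h2
  have h4 := hom_trivial ((center (UCE P)).subtype.comp (MonoidHom.transferCenterPow (UCE P)))
    (fun x y => by
      simp only [MonoidHom.comp_apply]
      exact mem_center_iff.1 (MonoidHom.transferCenterPow (UCE P) y).2 _) u
  simp only [MonoidHom.comp_apply, coe_subtype, MonoidHom.transferCenterPow_apply] at h4
  rw [hk, pow_mul, h4, one_pow]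

end uce

/-! ### Lifts -/

section lift

variable {P T Q : Type*} [Group P] [Group T] [Group Q] {q : T →* Q}

/-- auxiliary: a lift to the free group -/
noncomputable def liftF (hs : Function.Surjective q) (e : P →* Q) : FreeGroup P →* T :=
  FreeGroup.lift fun x => Function.surjInv hs (e x)

theorem q_liftF (hs : Function.Surjective q) (e : P →* Q) (x : FreeGroup P) :
    q (liftF hs e x) = e (rel P x) := by
  have h : q.comp (liftF hs e) = e.comp (rel P) := by
    ext x
    simp [liftF, rel, Function.surjInv_eq]
  exact congrArg (fun k : FreeGroup P →* Q => k x) h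

theorem KK_le_ker_liftF (hs : Function.Surjective q) (hq : q.ker ≤ center T) (e : P →* Q) :
    KK P ≤ (liftF hs e).ker := by
  unfold KK
  rw [commutator_le]
  intro y _ r hr
  rw [MonoidHom.mem_ker, map_commutatorElement, commutatorElement_eq_one_iff_mul_comm]
  have h1 : liftF hs e r ∈ center T := hq (by
    rw [MonoidHom.mem_ker, q_liftF, MonoidHom.mem_ker.1 hr, map_one])
  exact mem_center_iff.1 h1 _

/-- The lift of `e : P →* Q` to the universal central extension, along a central surjection. -/
noncomputable def lift (hs : Function.Surjective q) (hq : q.ker ≤ center T) (e : P →* Q) :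
    UCE P →* T :=
  (QuotientGroup.lift (KK P) (liftF hs e) (KK_le_ker_liftF hs hq e)).comp (inc P)

theorem q_lift (hs : Function.Surjective q) (hq : q.ker ≤ center T) (e : P →* Q) (u : UCE P) :
    q (lift hs hq e u) = e (π P u) := by
  obtain ⟨x, hx⟩ := QuotientGroup.mk_surjective (inc P u)
  unfold lift π
  rw [MonoidHom.comp_apply, MonoidHom.comp_apply, ← hx, qE_mk]
  exact q_liftF hs e x

variable [IsPerfect P]

/-- uniqueness of the lift -/
theorem lift_unique (hs : Function.Surjective q) (hq : q.ker ≤ center T) (e : P →* Q)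
    {f : UCE P →* T} (hf : ∀ u, q (f u) = e (π P u)) : f = lift hs hq e :=
  hom_ext_central hq fun u => (hf u).trans (q_lift hs hq e u).symm

/-- functoriality -/
noncomputable def map {P' : Type*} [Group P'] (α : P' →* P) : UCE P' →* UCE P :=
  lift (π_surjective P) (ker_π_le P) α

theorem π_map {P' : Type*} [Group P'] (α : P' →* P) (u : UCE P') :
    π P (map α u) = α (π P' u) := q_lift _ _ α u

theorem lift_comp (hs : Function.Surjective q) (hq : q.ker ≤ center T) (e : P →* Q)
    {P' : Type*} [Group P'] [IsPerfect P'] (α : P' →* P) :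
    lift hs hq (e.comp α) = (lift hs hq e).comp (map α) := by
  refine hom_ext_central hq fun u => ?_
  rw [q_lift, MonoidHom.comp_apply, MonoidHom.comp_apply, q_lift, π_map]

/-- lifts of conjugates -/
theorem lift_conj (hs : Function.Surjective q) (hq : q.ker ≤ center T) {e e' : P →* Q} (t : T)
    (he : ∀ x, e' x = q t * e x * (q t)⁻¹) (u : UCE P) :
    lift hs hq e' u = t * lift hs hq e u * t⁻¹ := by
  have h : lift hs hq e' = (MulAut.conj t).toMonoidHom.comp (lift hs hq e) := by
    refine hom_ext_central hq fun u => ?_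
    rw [q_lift, he]
    simp only [MonoidHom.comp_apply, MulEquiv.coe_toMonoidHom, MulAut.conj_apply, map_mul, map_inv,
      q_lift]
  rw [h]; rfl

/-- lifts of commuting homomorphisms commute -/
theorem commute_lift (hs : Function.Surjective q) (hq : q.ker ≤ center T) (e : P →* Q)
    {P' : Type*} [Group P'] (e' : P' →* Q)
    (h : ∀ x y, Commute (e x) (e' y)) (u : UCE P) (u' : UCE P') :
    Commute (lift hs hq e u) (lift hs hq e' u') :=
  commute_central hq (lift hs hq e) _ (fun x => by rw [q_lift, q_lift]; exact h _ _) u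

/-- a lift commutes with any element with which it commutes modulo the kernel -/
theorem commute_lift_left (hs : Function.Surjective q) (hq : q.ker ≤ center T) (e : P →* Q) (t : T)
    (h : ∀ x, Commute (e x) (q t)) (u : UCE P) : Commute (lift hs hq e u) t :=
  commute_central hq (lift hs hq e) _ (fun x => by rw [q_lift]; exact h _) u

/-- additivity -/
theorem lift_mul (hs : Function.Surjective q) (hq : q.ker ≤ center T) {e e₁ e₂ : P →* Q}
    (hc : ∀ x y, Commute (e₁ x) (e₂ y)) (he : ∀ x, e x = e₁ x * e₂ x) (u : UCE P) :
    lift hs hq e u = lift hs hq e₁ u * lift hs hq e₂ u := by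
  have hcl := commute_lift hs hq e₁ e₂ hc
  let f : UCE P →* T :=
    { toFun := fun u => lift hs hq e₁ u * lift hs hq e₂ u
      map_one' := by simp
      map_mul' := fun u v => by
        rw [map_mul, map_mul]
        have := (hcl v u).eq
        calc lift hs hq e₁ u * lift hs hq e₁ v * (lift hs hq e₂ u * lift hs hq e₂ v)
            = lift hs hq e₁ u * (lift hs hq e₁ v * lift hs hq e₂ u) * lift hs hq e₂ v := by group
          _ = lift hs hq e₁ u * (lift hs hq e₂ u * lift hs hq e₁ v) * lift hs hq e₂ v := by
              rw [this]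
          _ = _ := by group }
  have h : lift hs hq e = f := hom_ext_central hq fun u => by
    change q (lift hs hq e u) = q (lift hs hq e₁ u * lift hs hq e₂ u)
    rw [map_mul, q_lift, q_lift, q_lift, he]
  rw [h]; rfl

/-- finite products -/
theorem lift_prod (hs : Function.Surjective q) (hq : q.ker ≤ center T) {ι : Type*}
    (l : List ι) {e : P →* Q} {E : ι → P →* Q}
    (hc : ∀ i j, i ≠ j → ∀ x y, Commute (E i x) (E j y)) (hl : l.Nodup)
    (he : ∀ x, e x = (l.map fun i => E i x).prod) (u : UCE P) :
    lift hs hq e u = (l.map fun i => lift hs hq (E i) u).prod := by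
  induction l generalizing e with
  | nil =>
    have h : lift hs hq e = 1 := hom_ext_central hq fun u => by
      rw [q_lift, he]; simp
    rw [h]; rfl
  | cons i l ih =>
    have hnd := List.nodup_cons.1 hl
    -- the product of the tail is a homomorphism
    have hcomm : ∀ (x y : P) (l' : List ι), i ∉ l' →
        Commute (E i x) ((l'.map fun j => E j y).prod) := by
      intro x y l' hi
      refine Commute.list_prod_right _ _ fun z hz => ?_
      obtain ⟨j, hj, rfl⟩ := List.mem_map.1 hz
      exact hc i j (fun h => hi (h ▸ hj)) x y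
    let e₂ : P →* Q :=
      { toFun := fun x => (E i x)⁻¹ * e x
        map_one' := by simp
        map_mul' := fun x y => by
          have h1 : ∀ z, (E i z)⁻¹ * e z = (l.map fun j => E j z).prod := fun z => by
            rw [he, List.map_cons, List.prod_cons, inv_mul_cancel_left]
          have h2 : e (x * y) = e x * e y := map_mul e x y
          have h3 : Commute (E i y)⁻¹ ((l.map fun j => E j x).prod) :=
            (hcomm y x l hnd.1).inv_left
          rw [h2, map_mul, mul_inv_rev]
          calc (E i y)⁻¹ * (E i x)⁻¹ * (e x * e y)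
              = (E i y)⁻¹ * ((E i x)⁻¹ * e x) * e y := by group
            _ = (E i y)⁻¹ * (l.map fun j => E j x).prod * e y := by rw [h1]
            _ = (l.map fun j => E j x).prod * (E i y)⁻¹ * e y := by rw [h3.eq]
            _ = ((E i x)⁻¹ * e x) * ((E i y)⁻¹ * e y) := by rw [h1 x]; group }
    have he₂ : ∀ x, e₂ x = (l.map fun j => E j x).prod := fun x => by
      change (E i x)⁻¹ * e x = _
      rw [he, List.map_cons, List.prod_cons, inv_mul_cancel_left]
    rw [List.map_cons, List.prod_cons, ← ih hnd.2 he₂]
    refine lift_mul hs hq (fun x y => ?_) (fun x => ?_) u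
    · rw [he₂]; exact hcomm x y l hnd.1
    · change e x = E i x * ((E i x)⁻¹ * e x)
      group

/-- order relation: `f t * e s * (f t)⁻¹ = e (t s t⁻¹)` lifts -/
theorem lift_conj_rel (hs : Function.Surjective q) (hq : q.ker ≤ center T) {e f : P →* Q}
    (h : ∀ s t, f t * e s * (f t)⁻¹ = e (t * s * t⁻¹)) (u v : UCE P) :
    lift hs hq f v * lift hs hq e u * (lift hs hq f v)⁻¹ = lift hs hq e (v * u * v⁻¹) := by
  have h1 : (MulAut.conj (lift hs hq f v)).toMonoidHom.comp (lift hs hq e) =
      (lift hs hq e).comp (MulAut.conj v).toMonoidHom := by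
    refine hom_ext_central hq fun u => ?_
    simp only [MonoidHom.comp_apply, MulEquiv.coe_toMonoidHom, MulAut.conj_apply, map_mul, map_inv,
      q_lift]
    rw [h, map_mul, map_mul, map_inv]
  exact congrArg (fun k : UCE P →* T => k u) h1

/-- the values of a lift on `ker π` are central -/
theorem lift_mem_ker (hs : Function.Surjective q) (hq : q.ker ≤ center T) (e : P →* Q) {m : UCE P}
    (hm : m ∈ (π P).ker) : lift hs hq e m ∈ q.ker := by
  rw [MonoidHom.mem_ker, q_lift, MonoidHom.mem_ker.1 hm, map_one]

/-- invariance of the values on `ker π` under conjugation of `e` -/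
theorem lift_conj_ker (hs : Function.Surjective q) (hq : q.ker ≤ center T) {e e' : P →* Q} (t : T)
    (he : ∀ x, e' x = q t * e x * (q t)⁻¹) {m : UCE P} (hm : m ∈ (π P).ker) :
    lift hs hq e' m = lift hs hq e m := by
  rw [lift_conj hs hq t he m]
  have := mem_center_iff.1 (hq (lift_mem_ker hs hq e hm)) t
  rw [this, mul_inv_cancel_right]

/-- A homomorphism whose lift is trivial on `ker π` lifts to `T`. -/
theorem exists_genuine (hs : Function.Surjective q) (hq : q.ker ≤ center T) (e : P →* Q)
    (h : ∀ m ∈ (π P).ker, lift hs hq e m = 1) :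
    ∃ f : P →* T, (∀ x, q (f x) = e x) ∧ ∀ u, f (π P u) = lift hs hq e u := by
  have hk : (π P).ker ≤ (lift hs hq e).ker := fun m hm => h m hm
  let f : P →* T := (π P).liftOfSurjective (π_surjective P) ⟨lift hs hq e, hk⟩
  have hf : ∀ u, f (π P u) = lift hs hq e u := fun u =>
    MonoidHom.liftOfRightInverse_comp_apply _ _ _ _ u
  refine ⟨f, fun x => ?_, hf⟩
  obtain ⟨u, rfl⟩ := π_surjective P x
  rw [hf, q_lift]

/-- uniqueness of genuine lifts -/
theorem genuine_unique (hq : q.ker ≤ center T) {f g : P →* T} (h : ∀ x, q (f x) = q (g x)) :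
    f = g := hom_ext_central hq h

/-- a genuine lift gives back the lift on `UCE P`, in particular it is trivial on `ker π` -/
theorem lift_of_genuine (hs : Function.Surjective q) (hq : q.ker ≤ center T) {e : P →* Q}
    {f : P →* T} (hf : ∀ x, q (f x) = e x) (u : UCE P) : lift hs hq e u = f (π P u) := by
  have h : lift hs hq e = f.comp (π P) := hom_ext_central hq fun u => by
    rw [q_lift, MonoidHom.comp_apply, hf]
  rw [h]; rfl

end lift

end Crest.Agent.R189.UCE
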