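import Crest.Agent.R189.XOcc
import Crest.Agent.R189.Let
import Crest.Agent.R189.SetAct

/-!
Row 189 (S0289), helper787.  The hierarchy (namespace `XH`) of the explicit system `X` in the Boolean algebra
`Set X` with the action of `Multiplicative (ℤ × ℤ)` by translation.

`xD a k` the points on the lattice of level `k`, `xP a k x`, `xQ a k x` the indices of the `P` and
`Q` line of level `k`, `xc a k j`, `xSt a k s` the digit and star events of level `k`.
-/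

set_option autoImplicit false

namespace Crest.Agent.R189.XH

open Romp

/-! ### action on subsets (instance of `SetAct.lean`) -/

theorem mem_ofAdd_smul {V Y : Type*} [AddCommGroup V] [AddAction V Y] {v : V} {A : Set Y} {x : Y} :
    x ∈ Multiplicative.ofAdd v • A ↔ -v +ᵥ x ∈ A := Iff.rfl

theorem mem_ofAdd_inv_smul {V Y : Type*} [AddCommGroup V] [AddAction V Y] {v : V} {A : Set Y}
    {x : Y} : x ∈ (Multiplicative.ofAdd v)⁻¹ • A ↔ v +ᵥ x ∈ A := by
  rw [← ofAdd_neg, mem_ofAdd_smul, neg_neg]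

theorem mem_ofAdd_pow_smul {V Y : Type*} [AddCommGroup V] [AddAction V Y] {v : V} {n : ℕ}
    {A : Set Y} {x : Y} : x ∈ Multiplicative.ofAdd v ^ n • A ↔ -(n • v) +ᵥ x ∈ A := by
  rw [← ofAdd_nsmul, mem_ofAdd_smul]

/-! ### coordinates of level `k` -/

/-- points on the lattice of level `k` -/
def xD (a k : ℕ) : Set X := {x | (ww a k : ℤ) ∣ x.p.1 ∧ (hh a k : ℤ) ∣ x.p.2}

/-- index of the `P` line of level `k` -/
def xP (a k : ℕ) (x : X) : ℤ := if Even k then x.p.1 / (ww a k : ℤ) else x.p.2 / (hh a k : ℤ)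

/-- index of the `Q` line of level `k` -/
def xQ (a k : ℕ) (x : X) : ℤ := if Even k then x.p.2 / (hh a k : ℤ) else x.p.1 / (ww a k : ℤ)

/-- corner star in the coordinates of level `k` -/
def xs (k : ℕ) (x : X) : Star := if Even k then x.s else x.s.flip

/-- the raw star of level `k` -/
def xr (a k : ℕ) (x : X) : RStar := rstar (a + k) (xs k x) (xP a k x) (xQ a k x)

/-- digit events of level `k` -/
def xc (a k : ℕ) (j : ℕ) : Set X :=
  {x | x ∈ xD a k ∧ dg (3 * (a + k)) (xQ a k x) = j % (3 * (a + k))}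

/-- star events of level `k` -/
def xSt (a k : ℕ) (s : Star) : Set X := {x | x ∈ xD a k ∧ xr a k x = s.1}

theorem mem_xc {a k j : ℕ} {x : X} :
    x ∈ xc a k j ↔ x ∈ xD a k ∧ dg (3 * (a + k)) (xQ a k x) = j % (3 * (a + k)) := Iff.rfl

theorem mem_xSt {a k : ℕ} {s : Star} {x : X} :
    x ∈ xSt a k s ↔ x ∈ xD a k ∧ xr a k x = s.1 := Iff.rfl

@[simp] theorem xD_zero (a : ℕ) : xD a 0 = Set.univ := by
  ext x; simp [xD]

@[simp] theorem xP_zero (a : ℕ) (x : X) : xP a 0 x = x.p.1 := by simp [xP]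
@[simp] theorem xQ_zero (a : ℕ) (x : X) : xQ a 0 x = x.p.2 := by simp [xQ]
@[simp] theorem xs_zero (x : X) : xs 0 x = x.s := by simp [xs]
theorem xr_zero (a : ℕ) (x : X) : xr a 0 x = rstar a x.s x.p.1 x.p.2 := by simp [xr]

theorem xs_succ (k : ℕ) (x : X) : xs (k + 1) x = (xs k x).flip := by
  unfold xs
  by_cases hk : Even k
  · rw [if_neg (by rw [Nat.even_add_one]; exact not_not.2 hk), if_pos hk]
  · rw [if_pos (Nat.even_add_one.2 hk), if_neg hk, Star.flip_flip]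

theorem xQ_succ (a k : ℕ) (x : X) : xQ a (k + 1) x = xP a k x := by
  unfold xQ xP
  by_cases hk : Even k
  · rw [if_neg (by rw [Nat.even_add_one]; exact not_not.2 hk), if_pos hk, ww_succ_even hk]
  · rw [if_pos (Nat.even_add_one.2 hk), if_neg hk, hh_succ_odd hk]

theorem xP_succ {a : ℕ} (k : ℕ) (x : X) :
    xP a (k + 1) x = xQ a k x / ((3 * (a + k) : ℕ) : ℤ) := by
  unfold xQ xP
  by_cases hk : Even k
  · rw [if_neg (by rw [Nat.even_add_one]; exact not_not.2 hk), if_pos hk, hh_succ_even hk,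
      Int.ediv_ediv_of_nonneg (by positivity)]
    push_cast [nn]; rw [mul_comm]
  · rw [if_pos (Nat.even_add_one.2 hk), if_neg hk, ww_succ_odd hk,
      Int.ediv_ediv_of_nonneg (by positivity)]
    push_cast [nn]; rw [mul_comm]

theorem dvd_mul_iff_div {n w x : ℤ} (hw : w ≠ 0) (h : w ∣ x) : n * w ∣ x ↔ n ∣ x / w := by
  obtain ⟨y, rfl⟩ := h
  rw [Int.mul_ediv_cancel_left _ hw, mul_comm n w, mul_dvd_mul_iff_left hw]

theorem mem_xD_succ {a : ℕ} (ha : 1 ≤ a) (k : ℕ) (x : X) :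
    x ∈ xD a (k + 1) ↔ x ∈ xD a k ∧ dg (3 * (a + k)) (xQ a k x) = 0 := by
  have hw : (ww a k : ℤ) ≠ 0 := by exact_mod_cast (ww_pos ha k).ne'
  have hh' : (hh a k : ℤ) ≠ 0 := by exact_mod_cast (hh_pos ha k).ne'
  rw [dg_eq_zero (by omega)]
  unfold xD xQ
  simp only [Set.mem_ofPred_eq]
  by_cases hk : Even k
  · rw [if_pos hk, ww_succ_even hk, hh_succ_even hk]
    push_cast [nn]
    constructor
    · rintro ⟨h1, h2⟩
      have h3 : (hh a k : ℤ) ∣ x.p.2 := (Dvd.intro_left _ rfl).trans h2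
      exact ⟨⟨h1, h3⟩, (dvd_mul_iff_div hh' h3).1 h2⟩
    · rintro ⟨⟨h1, h3⟩, h2⟩
      exact ⟨h1, (dvd_mul_iff_div hh' h3).2 h2⟩
  · rw [if_neg hk, ww_succ_odd hk, hh_succ_odd hk]
    push_cast [nn]
    constructor
    · rintro ⟨h2, h1⟩
      have h3 : (ww a k : ℤ) ∣ x.p.1 := (Dvd.intro_left _ rfl).trans h2
      exact ⟨⟨h3, h1⟩, (dvd_mul_iff_div hw h3).1 h2⟩
    · rintro ⟨⟨h3, h1⟩, h2⟩
      exact ⟨(dvd_mul_iff_div hw h3).2 h2, h1⟩

theorem xD_succ {a : ℕ} (ha : 1 ≤ a) (k : ℕ) : xD a (k + 1) = xc a k 0 := by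
  ext x
  rw [mem_xD_succ ha, mem_xc, Nat.zero_mod]

/-- self-similarity of the star events -/
theorem xr_succ {a : ℕ} (ha : 2 ≤ a) {k : ℕ} {x : X} (hx : x ∈ xD a (k + 1)) :
    xr a k x = (xr a (k + 1) x).flip := by
  have h1 := ((mem_xD_succ (by omega) k x).1 hx).2
  rw [dg_eq_zero (by omega)] at h1
  have h2 : xQ a k x = ((3 * (a + k) : ℕ) : ℤ) * xP a (k + 1) x := by
    rw [xP_succ, Int.mul_ediv_cancel' h1]
  rw [xr, xr, h2, rstar_flip (by omega), xs_succ, xQ_succ]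
  rfl

/-! ### translations -/

theorem vadd_q_mem_xD {a k : ℕ} {x : X} (n : ℤ) :
    (n • qq a k) +ᵥ x ∈ xD a k ↔ x ∈ xD a k := by
  unfold xD
  simp only [Set.mem_ofPred_eq, X.vadd_p, Prod.fst_add, Prod.snd_add, Prod.smul_fst, Prod.smul_snd,
    smul_eq_mul]
  by_cases hk : Even k
  · rw [qq_even hk]
    simp only [mul_zero, zero_add]
    rw [(Int.dvd_add_right (Dvd.intro_left n rfl) : (ww a k : ℤ) ∣ n * ww a k + x.p.1 ↔ _)]
  · rw [qq_odd hk]
    simp only [mul_zero, zero_add]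
    rw [(Int.dvd_add_right (Dvd.intro_left n rfl) : (hh a k : ℤ) ∣ n * hh a k + x.p.2 ↔ _)]

theorem vadd_p_mem_xD {a k : ℕ} {x : X} (n : ℤ) :
    (n • pp a k) +ᵥ x ∈ xD a k ↔ x ∈ xD a k := by
  unfold xD
  simp only [Set.mem_ofPred_eq, X.vadd_p, Prod.fst_add, Prod.snd_add, Prod.smul_fst, Prod.smul_snd,
    smul_eq_mul]
  by_cases hk : Even k
  · rw [pp_even hk]
    simp only [mul_zero, zero_add]
    rw [(Int.dvd_add_right (Dvd.intro_left n rfl) : (hh a k : ℤ) ∣ n * hh a k + x.p.2 ↔ _)]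
  · rw [pp_odd hk]
    simp only [mul_zero, zero_add]
    rw [(Int.dvd_add_right (Dvd.intro_left n rfl) : (ww a k : ℤ) ∣ n * ww a k + x.p.1 ↔ _)]

theorem mul_add_div' {w : ℤ} (hw : w ≠ 0) (n x : ℤ) : (n * w + x) / w = n + x / w := by
  rw [mul_comm, Int.mul_add_ediv_left _ _ hw]

theorem xP_vadd_q {a : ℕ} (ha : 1 ≤ a) (k : ℕ) (n : ℤ) (x : X) :
    xP a k ((n • qq a k) +ᵥ x) = n + xP a k x := by
  have hw : (ww a k : ℤ) ≠ 0 := by exact_mod_cast (ww_pos ha k).ne'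
  have hh' : (hh a k : ℤ) ≠ 0 := by exact_mod_cast (hh_pos ha k).ne'
  unfold xP
  by_cases hk : Even k
  · rw [if_pos hk, if_pos hk, qq_even hk]
    simp only [X.vadd_p, Prod.fst_add, Prod.smul_fst, smul_eq_mul]
    rw [mul_add_div' hw]
  · rw [if_neg hk, if_neg hk, qq_odd hk]
    simp only [X.vadd_p, Prod.snd_add, Prod.smul_snd, smul_eq_mul]
    rw [mul_add_div' hh']

theorem xQ_vadd_q {a : ℕ} (k : ℕ) (n : ℤ) (x : X) :
    xQ a k ((n • qq a k) +ᵥ x) = xQ a k x := by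
  unfold xQ
  by_cases hk : Even k
  · rw [if_pos hk, if_pos hk, qq_even hk]
    simp only [X.vadd_p, Prod.snd_add, Prod.smul_snd, smul_eq_mul, mul_zero, zero_add]
  · rw [if_neg hk, if_neg hk, qq_odd hk]
    simp only [X.vadd_p, Prod.fst_add, Prod.smul_fst, smul_eq_mul, mul_zero, zero_add]

theorem xQ_vadd_p {a : ℕ} (ha : 1 ≤ a) (k : ℕ) (n : ℤ) (x : X) :
    xQ a k ((n • pp a k) +ᵥ x) = n + xQ a k x := by
  have hw : (ww a k : ℤ) ≠ 0 := by exact_mod_cast (ww_pos ha k).ne'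
  have hh' : (hh a k : ℤ) ≠ 0 := by exact_mod_cast (hh_pos ha k).ne'
  unfold xQ
  by_cases hk : Even k
  · rw [if_pos hk, if_pos hk, pp_even hk]
    simp only [X.vadd_p, Prod.snd_add, Prod.smul_snd, smul_eq_mul]
    rw [mul_add_div' hh']
  · rw [if_neg hk, if_neg hk, pp_odd hk]
    simp only [X.vadd_p, Prod.fst_add, Prod.smul_fst, smul_eq_mul]
    rw [mul_add_div' hw]

theorem xP_vadd_p {a : ℕ} (k : ℕ) (n : ℤ) (x : X) :
    xP a k ((n • pp a k) +ᵥ x) = xP a k x := by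
  unfold xP
  by_cases hk : Even k
  · rw [if_pos hk, if_pos hk, pp_even hk]
    simp only [X.vadd_p, Prod.fst_add, Prod.smul_fst, smul_eq_mul, mul_zero, zero_add]
  · rw [if_neg hk, if_neg hk, pp_odd hk]
    simp only [X.vadd_p, Prod.snd_add, Prod.smul_snd, smul_eq_mul, mul_zero, zero_add]

@[simp] theorem xs_vadd (k : ℕ) (v : ℤ × ℤ) (x : X) : xs k (v +ᵥ x) = xs k x := rfl

theorem xr_vadd_q {a : ℕ} (ha : 1 ≤ a) (k : ℕ) (n : ℤ) (x : X) :
    xr a k ((n • qq a k) +ᵥ x) = rstar (a + k) (xs k x) (n + xP a k x) (xQ a k x) := by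
  rw [xr, xP_vadd_q ha, xQ_vadd_q, xs_vadd]

theorem xr_vadd_p {a : ℕ} (ha : 1 ≤ a) (k : ℕ) (n : ℤ) (x : X) :
    xr a k ((n • pp a k) +ᵥ x) = rstar (a + k) (xs k x) (xP a k x) (n + xQ a k x) := by
  rw [xr, xP_vadd_p, xQ_vadd_p ha, xs_vadd]

end Crest.Agent.R189.XH
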