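import Crest.Agent.R189.XDef
import Crest.Agent.R189.StarOf

/-!
Row 189 (S0289), helper787.  OCCURRENCE in the explicit configurations, level free:
every star allowed by (X1), (X2) occurs, and only those.
-/

set_option autoImplicit false

namespace Crest.Agent.R189

namespace XOccAux

theorem dg_zero' (n : ℕ) : dg n 0 = 0 := by simp [dg]

theorem dg_neg_one {n : ℕ} (hn : 0 < n) : dg n (-1) = n - 1 := by
  have := dg_mul_sub_one hn 0
  simpa using this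

/-- digit of the predecessor -/
theorem dg_sub_one {a : ℕ} (x : ℤ) : dg (3 * (a + 1)) (x - 1) = prev a (dg (3 * (a + 1)) x) := by
  have hn : 0 < 3 * (a + 1) := by omega
  have h1 := dg_cast hn x
  have h2 := dg_cast hn (x - 1)
  have h3 := dg_lt hn x
  have h4 := dg_lt hn (x - 1)
  unfold prev
  split_ifs with h
  · obtain ⟨y, rfl⟩ := (dg_eq_zero hn).1 h
    exact dg_mul_sub_one hn y
  · have h5 : (x - 1) % ((3 * (a + 1) : ℕ) : ℤ) = x % ((3 * (a + 1) : ℕ) : ℤ) - 1 := by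
      have h6 := Int.emod_emod_of_dvd x (dvd_refl ((3 * (a + 1) : ℕ) : ℤ))
      have h7 : x - 1 = (x % ((3 * (a + 1) : ℕ) : ℤ) - 1) + ((3 * (a + 1) : ℕ) : ℤ) * (x / ((3 * (a + 1) : ℕ) : ℤ)) := by
        have := Int.mul_ediv_add_emod x ((3 * (a + 1) : ℕ) : ℤ)
        linarith
      rw [h7, Int.add_mul_emod_self_left]
      apply Int.emod_eq_of_lt <;> omega
    omega

/-- `Hf` at a row with digit `≠ 0` -/
theorem Hf_of_ne {a : ℕ} (s : Star) (x : ℤ) {y : ℤ} (h : dg (3 * a) y ≠ 0) :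
    Hf a s x y = ⟨tauOf a (dg (3 * a) y), state a (dg (3 * a) y) (dg (3 * (a + 1)) x), .A⟩ := by
  rw [Hf, if_neg h]

theorem Hb_of_ne {a : ℕ} (s : Star) (x : ℤ) {y : ℤ} (h : dg (3 * a) y ≠ 0) :
    Hb a s x y = ⟨tauOf a (dg (3 * a) y),
      state a (dg (3 * a) y) (prev a (dg (3 * (a + 1)) x)), .B⟩ := by
  rw [Hb, if_neg h, dg_sub_one]

theorem mul_add_div {n j : ℕ} (hj : j < n) (k : ℤ) : ((n : ℤ) * k + j) / (n : ℤ) = k := by
  have hn : (0 : ℤ) < n := by omega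
  rw [Int.mul_add_ediv_left _ _ hn.ne', Int.ediv_eq_zero_of_lt (by positivity) (by exact_mod_cast hj)]
  ring

theorem dg_mul_add {n j : ℕ} (hj : j < n) (k : ℤ) : dg n ((n : ℤ) * k + j) = j := by
  rw [dg_add_mul', dg_natCast hj]

end XOccAux

open XOccAux

/-- the label of the `P` line between the rows `j` and `j+1` of the cell `k` -/
theorem V_lamAt {a : ℕ} (ha : 1 ≤ a) (s : Star) (x k : ℤ) {j : ℕ} (hj : j < 3 * a) :
    V a s x (((3 * a : ℕ) : ℤ) * k + j) =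
      lamAt a j (dg (3 * (a + 1)) x) (V a s x (((3 * a : ℕ) : ℤ) * k)) := by
  have hp : ((3 * a : ℕ) : ℤ) ≠ 0 := by
    have : 0 < 3 * a := by omega
    exact_mod_cast this.ne'
  by_cases hx : dg (3 * (a + 1)) x = 0
  · rw [hx, lamAt_zero]
    obtain ⟨x, rfl⟩ := (dg_eq_zero (by omega)).1 hx
    rw [V_mul ha, V_mul ha, mul_add_div hj, Int.mul_ediv_cancel_left _ hp]
  · rw [lamAt_of_ne hx, V_of_ne _ _ hx, V_of_ne _ _ hx, dg_mul_add hj, mul_add_div hj,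
      Int.mul_ediv_cancel_left _ hp]

/-- the star at row `j ≠ 0` is the allowed one -/
theorem rstar_eq_rstarOf {a : ℕ} (ha : 1 ≤ a) (s : Star) (x k : ℤ) {j : ℕ} (hj0 : 0 < j)
    (hj : j < 3 * a) :
    rstar a s x (((3 * a : ℕ) : ℤ) * k + j) =
      rstarOf a j (dg (3 * (a + 1)) x) (V a s x (((3 * a : ℕ) : ℤ) * k)) := by
  have hd : dg (3 * a) (((3 * a : ℕ) : ℤ) * k + j) ≠ 0 := by
    rw [dg_mul_add hj]; omega
  unfold rstar rstarOf
  rw [dom_of_ne _ _ hd, V_lamAt ha s x k hj, Hf_of_ne _ _ hd, Hb_of_ne _ _ hd, dg_mul_add hj]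
  have h1 : (((3 * a : ℕ) : ℤ) * k + j) - 1 = ((3 * a : ℕ) : ℤ) * k + ((j - 1 : ℕ) : ℤ) := by
    omega
  rw [h1, V_lamAt ha s x k (by omega)]

/-- occurrence of the admissible labels above row `0` -/
theorem exists_V_eq {a : ℕ} (ha : 1 ≤ a) {j' : ℕ} (hj' : j' < 3 * (a + 1)) {L0 : Label}
    (h : AdmL a j' L0) : ∃ (s : Star) (x k : ℤ), dg (3 * (a + 1)) x = j' ∧
      V a s x (((3 * a : ℕ) : ℤ) * k) = L0 := by
  have hp : ((3 * a : ℕ) : ℤ) ≠ 0 := by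
    have : 0 < 3 * a := by omega
    exact_mod_cast this.ne'
  by_cases h0 : j' = 0
  · subst h0
    rw [AdmL_zero] at h
    refine ⟨quietStar L0 h, 0, 0, dg_zero' _, ?_⟩
    rw [mul_zero, V_zero, if_pos le_rfl, quietStar_Pf]
  · rw [AdmL_of_ne h0] at h
    obtain ⟨j'', hj'', rfl⟩ := h
    have hx : dg (3 * (a + 1)) (j' : ℤ) = j' := dg_natCast hj'
    refine ⟨quietStar ⟨.f0, none, .A⟩ (by decide), (j' : ℤ), (j'' : ℤ), hx, ?_⟩
    rw [V_of_ne _ _ (by rw [hx]; exact h0), hx, dg_mul (by omega), Int.mul_ediv_cancel_left _ hp,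
      dg_natCast hj'', umem_zero ha]

/-- OCCURRENCE: every allowed star occurs -/
theorem exists_rstar_eq {a : ℕ} (ha : 1 ≤ a) {j j' : ℕ} (hj0 : 0 < j) (hj : j < 3 * a)
    (hj' : j' < 3 * (a + 1)) {L0 : Label} (h : AdmL a j' L0) :
    ∃ (s : Star) (x y : ℤ), dg (3 * a) y = j ∧ dg (3 * (a + 1)) x = j' ∧
      rstar a s x y = rstarOf a j j' L0 := by
  obtain ⟨s, x, k, h1, h2⟩ := exists_V_eq ha hj' h
  refine ⟨s, x, ((3 * a : ℕ) : ℤ) * k + j, dg_mul_add hj k, h1, ?_⟩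
  rw [rstar_eq_rstarOf ha s x k hj0 hj, h1, h2]

/-- OCCURRENCE at row `0`: every star occurs (at the corner) -/
theorem rstar_corner (a : ℕ) (s : Star) : dg (3 * a) (0 : ℤ) = 0 ∧ rstar a s 0 0 = s.1 :=
  ⟨dg_zero' _, rstar_zero a s⟩

end Crest.Agent.R189
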