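import Crest.Agent.R189.XOK
import Crest.Agent.R189.XSep
import Crest.Agent.R189.SysFD

/-!
Row 189 (S0289), helper523.  `Sep` and (FD) for the concrete letter map.
-/

set_option autoImplicit false

namespace Crest.Agent.R189

/-- the concrete system is separated -/
theorem sep_letter : Sep (ℤ × ℤ) letter :=
  sep_of_letter letter (fun _ _ h => (letter_eq_iff.1 h).1) (fun _ _ h => (letter_eq_iff.1 h).2)

/-- (FD) for the concrete letter map, in the form of `AmenData.FD` -/
theorem fd_letter (M : ℕ) :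
    ∃ w h : ℤ, 0 < w ∧ 0 < h ∧ ∀ (s : Star) (p : ℤ × ℤ) (i j : ℤ), ∃ (s1 s2 : Star) (q : ℤ × ℤ),
      PatEq (fun s q => letter ⟨q, s⟩) M s p s1 q ∧
        PatEq (fun s q => letter ⟨q, s⟩) M s (p + (w * i, h * j)) s2 q :=
  FD.fd_pat (a := 3) (by norm_num) (star 3) (fun s x y => star_val (by norm_num) s x y)
    (fun s q => letter ⟨q, s⟩)
    (fun s s' q q' h1 h2 => letter_eq_iff.2 ⟨h1, h2⟩) M

end Crest.Agent.R189
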